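import Mathlib
import Crest.Prelude.Def_CoulombProblem
import Crest.Agent.Lib.PT.Typed
import Crest.Agent.Lib.PT.ArithRat

/-!
# Row 338 (S0529): frozen top level interface (helper451)

Part I : `PartIStmt`   QMA → antiferromagnetic Heisenberg.
Part II: `PartIIStmt`  Heisenberg → electrons in the field of unit nuclei.
See the blueprint notes 10649, 10715, 10787, 10788, 10817, 10867, 10868.
-/

set_option autoImplicit false

noncomputable section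

open MeasureTheory Crest.Quantum.QMA Crest.MathPhysics.CoulombProblem
open Crest.MathPhysics.ElectronicCoulomb
open Crest.Agent.Lib.PT
open scoped ComplexConjugate

namespace Crest.Agent.R338

/-! ## The Heisenberg problem -/

/-- real part of the overlap of `ψ` with its image under the swap of the spins `i`, `j` -/
def swapExp {n : ℕ} (i j : Fin n) (ψ : (Fin n → Bool) → ℂ) : ℝ :=
  ∑ σ : Fin n → Bool, (conj (ψ σ) * ψ (σ ∘ Equiv.swap i j)).re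

/-- squared norm of a spin state -/
def nrmSq {n : ℕ} (ψ : (Fin n → Bool) → ℂ) : ℝ := ∑ σ : Fin n → Bool, ‖ψ σ‖ ^ 2

/-- the Heisenberg form `∑_{i<j} J_ij ⟨S_i·S_j⟩`, `S_i·S_j = SWAP/2 - 1/4` -/
def heis {n : ℕ} (J : Fin n → Fin n → ℝ) (ψ : (Fin n → Bool) → ℂ) : ℝ :=
  ∑ i, ∑ j, if i < j then J i j * ((1 / 2) * swapExp i j ψ - (1 / 4) * nrmSq ψ) else 0

/-- A coded Heisenberg instance: `((n, q), (J row major, e))`, `n`, `q` in unary. -/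
abbrev HInst := (Un × Un) × (List ℚ × ℚ)

namespace HInst
/-- number of spins -/
def n (h : HInst) : ℕ := h.1.1.val
/-- inverse promise gap -/
def q (h : HInst) : ℕ := h.1.2.val
/-- coupling -/
def J (h : HInst) (i j : ℕ) : ℚ := h.2.1.getD (i * h.n + j) 0
/-- threshold -/
def e (h : HInst) : ℚ := h.2.2
/-- real couplings on `Fin n` -/
def Jr (h : HInst) (i j : Fin h.n) : ℝ := (h.J i j : ℝ)
/-- validity -/
def Valid (h : HInst) : Prop := 2 ≤ h.n ∧ 1 ≤ h.q ∧ ∀ i j, 0 ≤ h.J i j ∧ h.J i j ≤ 1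
/-- YES instance -/
def Yes (h : HInst) : Prop := ∃ ψ : (Fin h.n → Bool) → ℂ, nrmSq ψ = 1 ∧ heis h.Jr ψ ≤ (h.e : ℝ)
/-- NO instance -/
def No (h : HInst) : Prop := ∀ ψ : (Fin h.n → Bool) → ℂ, nrmSq ψ = 1 →
  (h.e : ℝ) + 1 / (h.q : ℝ) ≤ heis h.Jr ψ
end HInst

/-- PART I -/
def PartIStmt : Prop := ∀ P : Promise, InQMA P → ∃ g : Bits → HInst, PTF g ∧
  (∀ x, (g x).Valid) ∧ (∀ x : Bits, x.val ∈ P.yes → (g x).Yes) ∧ (∀ x : Bits, x.val ∈ P.no → (g x).No)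

/-- PART II -/
def PartIIStmt : Prop := ∃ F : HInst → Bits, PTF F ∧
  (∀ h : HInst, h.Valid → h.Yes → (F h).val ∈ groundEnergyProblem.yes) ∧
  (∀ h : HInst, h.Valid → h.No → (F h).val ∈ groundEnergyProblem.no)

/-! ## Part II: Hermite orbitals and Coulomb integrals -/

open Polynomial in
/-- polynomial part of the normalized Hermite functions -/
def hpoly : ℕ → Polynomial ℝ
  | 0 => C (Real.pi ^ (-(1 / 4) : ℝ))
  | 1 => C (√2) * X * C (Real.pi ^ (-(1 / 4) : ℝ))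
  | (n + 2) => C (√(2 / ((n : ℝ) + 2))) * X * hpoly (n + 1) -
      C (√(((n : ℝ) + 1) / ((n : ℝ) + 2))) * hpoly n

/-- normalized Hermite functions -/
def hf (n : ℕ) (s : ℝ) : ℝ := (hpoly n).eval s * Real.exp (-s ^ 2 / 2)

/-- multi-index of an oscillator orbital -/
abbrev Idx := Fin 3 → ℕ

/-- oscillator orbital -/
def orb (m : Idx) (x : Pos3) : ℝ := ∏ c, hf (m c) (x c)

/-- Coulomb integral of two densities -/
def coul (f g : Pos3 → ℝ) : ℝ := ∫ x, ∫ y, f x * g y / ‖x - y‖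

/-- two-electron integral `∬ φ_a φ_b (x) φ_c φ_d (y) / |x-y|` -/
def W4 (a b c d : Idx) : ℝ := coul (fun x => orb a x * orb b x) (fun y => orb c y * orb d y)

/-- one-electron integral -/
def w1 (w : Pos3 → ℝ) (a b : Idx) : ℝ := ∫ x, w x * (orb a x * orb b x)

/-- core orbitals: shells `< n0` -/
def core (n0 : ℕ) : Finset Idx :=
  (Fintype.piFinset fun _ : Fin 3 => Finset.range n0).filter fun m => ∑ c, m c < n0

/-- the shell `n0` -/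
def shell (n0 : ℕ) : Finset Idx :=
  (Fintype.piFinset fun _ : Fin 3 => Finset.range (n0 + 1)).filter fun m => ∑ c, m c = n0

/-- core Fock operator -/
def fock (n0 : ℕ) (a b : Idx) : ℝ := ∑ c ∈ core n0, (2 * W4 a b c c - W4 a c c b)

/-- frozen core energy (order `lambda`) -/
def Ecc (n0 : ℕ) (w : Pos3 → ℝ) : ℝ :=
  2 * ∑ c ∈ core n0, w1 w c c + ∑ c ∈ core n0, ∑ c' ∈ core n0, (2 * W4 c c c' c' - W4 c c' c c')

/-- number of electrons -/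
def numEl (n0 Nv : ℕ) : ℕ := 2 * (core n0).card + Nv

/-- unperturbed energy -/
def EN (n0 Nv : ℕ) : ℝ := 2 * ∑ c ∈ core n0, (((∑ i, c i : ℕ) : ℝ) + 3 / 2) + Nv * ((n0 : ℝ) + 3 / 2)

/-! ## antisymmetric tensors -/

section tensors
variable {V : Type} [Fintype V] [DecidableEq V] {k : ℕ}

/-- antisymmetric tensors -/
def AntiSym (D : (Fin k → V) → ℂ) : Prop :=
  ∀ (σ : Equiv.Perm (Fin k)) (v : Fin k → V), D (v ∘ σ) = ((Equiv.Perm.sign σ : ℤ) : ℂ) * D v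

/-- squared norm -/
def tnSq (D : (Fin k → V) → ℂ) : ℝ := ∑ v, ‖D v‖ ^ 2

/-- one-body form -/
def form1 (h : V → V → ℝ) (D : (Fin k → V) → ℂ) : ℝ :=
  ∑ i, ∑ v : Fin k → V, ∑ b, h (v i) b * (conj (D v) * D (Function.update v i b)).re

/-- two-body form -/
def form2 (W : V → V → V → V → ℝ) (D : (Fin k → V) → ℂ) : ℝ :=
  ∑ i, ∑ j, if i < j then ∑ v : Fin k → V, ∑ b, ∑ d, W (v i) b (v j) d *
    (conj (D v) * D (Function.update (Function.update v i b) j d)).re else 0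

end tensors

/-- valence spin orbitals -/
abbrev Val (n0 : ℕ) := Fin 2 × {m : Idx // m ∈ shell n0}

/-- the valence (shell) form: one-body `w + F`, two-body Coulomb, spin diagonal -/
def shellForm (n0 : ℕ) (w : Pos3 → ℝ) {k : ℕ} (D : (Fin k → Val n0) → ℂ) : ℝ :=
  form1 (fun p p' : Val n0 => if p.1 = p'.1 then w1 w p.2.1 p'.2.1 + fock n0 p.2.1 p'.2.1 else 0) D +
  form2 (fun p p' r r' : Val n0 => if p.1 = p'.1 ∧ r.1 = r'.1 then W4 p.2.1 p'.2.1 r.2.1 r'.2.1 else 0) D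

/-! ## Theorem AB: continuum reduction (blueprint part 2 and B.1, B.2 of part 3) -/

/-- hypotheses on the nuclear potential `-lam ∑ 1/|x - nuc α|`, cf. (N0)-(N3) of blueprint part 2 -/
structure NucOK (n0 : ℕ) (lam C0 R eps1 eps2 kF Wb : ℝ) {K : ℕ} (nuc : Fin K → Pos3)
    (w : Pos3 → ℝ) : Prop where
  lam_pos : 0 < lam
  kF_nonneg : 0 ≤ kF
  w_cont : Continuous w
  w_bdd : ∀ x, |w x| ≤ Wb
  C0_nonneg : 0 ≤ C0
  C0_le : C0 ≤ R ^ 8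
  decomp : ∃ (Vs : Pos3 → ℝ) (F : Pos3 → Pos3), Continuous Vs ∧ (∀ x, Vs x ≤ 0) ∧
    (∃ b, ∀ x, -b ≤ Vs x) ∧ Measurable F ∧ (∀ x, ‖F x‖ ≤ kF) ∧
    (∀ f : Pos3 → ℝ, ContDiff ℝ 1 f → (∃ B, ∀ x, |f x| ≤ B) → Integrable f →
      Integrable (fun x => fderiv ℝ f x) →
      ∫ x, ((-lam * ∑ α, 1 / ‖x - nuc α‖) - Vs x) * f x = - ∫ x, fderiv ℝ f x (F x)) ∧
    (∀ x : Pos3, (∀ c, |x c| ≤ 2 * R) → |Vs x + C0 - ‖x‖ ^ 2 / 2 - lam * w x| ≤ eps2) ∧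
    (∀ x : Pos3, (∃ c, R ≤ |x c|) → R ^ 2 / 4 ≤ Vs x + C0) ∧
    (∀ a b : Idx, ∑ c, a c ≤ n0 → ∑ c, b c ≤ n0 →
      |∫ x, ((-lam * ∑ α, 1 / ‖x - nuc α‖) - Vs x) * (orb a x * orb b x)| ≤ eps1)

/-- Theorem AB -/
def ThmABStmt : Prop := ∃ C : ℕ, ∀ (n0 Nv : ℕ), 1 ≤ n0 → 1 ≤ Nv → Nv ≤ (n0 + 1) * (n0 + 2) →
  ∀ (lam C0 R eps1 eps2 kF Wb : ℝ) (K : ℕ) (nuc : Fin K → Pos3) (w : Pos3 → ℝ),
  NucOK n0 lam C0 R eps1 eps2 kF Wb nuc w →
  ((n0 : ℝ) + 2 + Wb) ^ C * (lam + kF) ≤ 1 → ((n0 : ℝ) + 2 + Wb) ^ C ≤ R → 0 ≤ eps1 → 0 ≤ eps2 → eps2 ≤ 1 →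
  let Err := ((n0 : ℝ) + 2 + Wb) ^ C * (lam ^ 2 + kF ^ 2 + eps1 + eps2 + 1 / R ^ 2)
  let Eref := EN n0 Nv - numEl n0 Nv * C0 + lam * Ecc n0 w
  let Wp : Config (numEl n0 Nv) → ℝ := fun x => lam * unitNucleiPotential nuc x
  (∀ β : ℝ, (∃ D : (Fin Nv → Val n0) → ℂ, AntiSym D ∧ tnSq D = 1 ∧ shellForm n0 w D ≤ β) →
    InfEnergyLE Wp (Eref + lam * β + Err)) ∧
  (∀ β : ℝ, (∀ D : (Fin Nv → Val n0) → ℂ, AntiSym D → β * tnSq D ≤ shellForm n0 w D) →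
    InfEnergyGE Wp (Eref + lam * β - Err))

/-! ## Sites and potentials (blueprint part 3, B.3) -/

/-- `Y` -/
def Yn (n : ℕ) : ℕ := 16 * n ^ 3 + 16 * n ^ 2
/-- Sidon numbers -/
def nu (n i : ℕ) : ℕ := Yn n + 4 * n ^ 2 * i + i ^ 2
/-- first quantum number of site `i` (`K0 = k^3`) -/
def mi (n k i : ℕ) : ℕ := 2 * (k ^ 3 * nu n i) ^ 2
/-- the shell -/
def n0' (n k : ℕ) : ℕ := 16 * (k ^ 3) ^ 2 * (Yn n) ^ 2
/-- the site orbital index -/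
def site (n k i : ℕ) : Idx := ![mi n k i, n0' n k - mi n k i, 0]

/-- Laguerre polynomials (values) -/
def lag (m : ℕ) (y : ℝ) : ℝ := ∑ j ∈ Finset.range (m + 1), (-1) ^ j * (m.choose j : ℝ) * y ^ j / (j.factorial : ℝ)

/-- dual functions: `∫ D_m h_k² = δ_mk` -/
def Dm (m : ℕ) (x : ℝ) : ℝ := ∫ q in Set.Ioi (0 : ℝ), q * Real.exp (-q ^ 2 / 4) * lag m (q ^ 2 / 2) * Real.cos (q * x)

/-- hopping potentials -/
def vhop (n k i j : ℕ) (x : Pos3) : ℝ :=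
  Real.exp (-2 * (x 0) ^ 2) * (hf (mi n k i) (x 0) * hf (mi n k j) (x 0)) *
  (Real.exp (-2 * (x 1) ^ 2) *
    (hf (n0' n k - mi n k i) (x 1) * hf (n0' n k - mi n k j) (x 1)))

/-- the designer potential -/
def wpot (n k : ℕ) (Lam : ℝ) (A : ℕ → ℕ → ℝ) (a : ℕ → ℝ) (x : Pos3) : ℝ :=
  -Lam * Dm 0 (x 2) - ∑ i ∈ Finset.range n, (Lam - a i) * Dm (mi n k i) (x 0) +
  ∑ i ∈ Finset.range n, ∑ j ∈ Finset.range n, if i < j then A i j * vhop n k i j x else 0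

/-- classical integrals `V_ij`, `V_ii = U_i` -/
def Vc (n k i j : ℕ) : ℝ := W4 (site n k i) (site n k i) (site n k j) (site n k j)
/-- charge transfer energies -/
def Dlt (n k i j : ℕ) : ℝ := (Vc n k i i + Vc n k j j) / 2 - Vc n k i j
/-- offsets -/
def muS (n k i : ℕ) : ℝ := -(Vc n k i i) / 2 - ∑ j ∈ (Finset.range n).erase i, Vc n k i j

/-- hopping matrix element -/
def Mhop (n k i j k' l' : ℕ) : ℝ := w1 (vhop n k i j) (site n k k') (site n k l')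

/-- calibration: the one-body matrix `fock + w_hop + diag a` on the sites equals the target up to `ec`;
the target is `t_ij = (1/2) √(j0 J_ij Δ_ij)` off the diagonal, `muS` on it. -/
def Calib (n k : ℕ) (j0 : ℝ) (J : ℕ → ℕ → ℝ) (A : ℕ → ℕ → ℝ) (a : ℕ → ℝ) (ec : ℝ) : Prop :=
  (∀ i < n, ∀ j < n, i < j → |fock (n0' n k) (site n k i) (site n k j) +
     (∑ i' ∈ Finset.range n, ∑ j' ∈ Finset.range n, if i' < j' then A i' j' * Mhop n k i' j' i j else 0) -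
     (1 / 2) * √(j0 * J i j * Dlt n k i j)| ≤ ec) ∧
  (∀ i < n, |fock (n0' n k) (site n k i) (site n k i) +
     (∑ i' ∈ Finset.range n, ∑ j' ∈ Finset.range n, if i' < j' then A i' j' * Mhop n k i' j' i i else 0) +
     a i - muS n k i| ≤ ec)

/-- constant of the shell problem -/
def constH (n k : ℕ) (Lam j0 : ℝ) (J : ℕ → ℕ → ℝ) : ℝ :=
  -2 * Lam * n - (∑ i ∈ Finset.range n, Vc n k i i) / 2 -
  (∑ i ∈ Finset.range n, ∑ j ∈ Finset.range n, if i < j then Vc n k i j else 0) -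
  j0 / 4 * (∑ i ∈ Finset.range n, ∑ j ∈ Finset.range n, if i < j then J i j else 0)

/-- Theorem BH: shell form versus Heisenberg form (blueprint part 3 B.3-B.8 with part 5) -/
def ThmBHStmt : Prop := ∃ C : ℕ, 1 ≤ C ∧ ∀ (n q k : ℕ), 2 ≤ n → 1 ≤ q → (C * n * q) ^ (2 * C) ≤ k →
  ∀ (Lam Amax : ℝ) (J : ℕ → ℕ → ℝ) (A : ℕ → ℕ → ℝ) (a : ℕ → ℝ),
  let j0 : ℝ := 1 / (((n : ℝ) * q) ^ C * (k : ℝ) ^ 4)
  (∀ i j, 0 ≤ J i j ∧ J i j ≤ 1) → (∀ i j, |A i j| ≤ Amax) → (∀ i, |a i| ≤ Amax) → 1 ≤ Amax →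
  ((n0' n k : ℝ) + Amax) ^ C ≤ Lam →
  Calib n k j0 J A a (j0 / (((n : ℝ) * q) ^ C)) →
  (∀ ψ : (Fin n → Bool) → ℂ, nrmSq ψ = 1 → ∃ D : (Fin n → Val (n0' n k)) → ℂ, AntiSym D ∧ tnSq D = 1 ∧
    shellForm (n0' n k) (wpot n k Lam A a) D ≤
      constH n k Lam j0 J + j0 * heis (fun i j => J i j) ψ + j0 / (16 * q)) ∧
  (∀ e : ℝ, (∀ ψ : (Fin n → Bool) → ℂ, e * nrmSq ψ ≤ heis (fun i j => J i j) ψ) →
    ∀ D : (Fin n → Val (n0' n k)) → ℂ, AntiSym D →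
      (constH n k Lam j0 J + j0 * e - j0 / (16 * q)) * tnSq D ≤
        shellForm (n0' n k) (wpot n k Lam A a) D)

end Crest.Agent.R338

end
private theorem rz_173a5c9a3f : type_of% @_root_.Crest.Agent.R338.hpoly.eq_def := @_root_.Crest.Agent.R338.hpoly.eq_def -- L74
private theorem rz_684fb1babb : type_of% @_root_.Crest.Agent.R338.hpoly.eq_1 := @_root_.Crest.Agent.R338.hpoly.eq_1 -- L74
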