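import Mathlib
import Crest.Agent.R338.Iface

-- ▼ part R338/SX1
section

/-!
Row 338 (S0529), node SX: superexchange.  `n` fermions with spin on `n` sites, as antisymmetric
coefficient functions on configurations `Fin n → Fin n × Bool`.

This file: configurations, hopping operators `K a b`, adjoints, norm bounds, antisymmetry.
-/

set_option autoImplicit false
set_option maxSynthPendingDepth 3

open scoped ComplexConjugate BigOperators
open Function

namespace Crest.Agent.R338.SX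

/-- configurations: electron `k` sits at site `(f k).1` with spin `(f k).2` -/
abbrev Cfg (n : ℕ) := Fin n → Fin n × Bool

/-- coefficient space -/
abbrev X (n : ℕ) := EuclideanSpace ℂ (Cfg n)

variable {n : ℕ}

/-- move electron `k` to site `b`, keeping its spin -/
def mv (f : Cfg n) (k : Fin n) (b : Fin n) : Cfg n := update f k (b, (f k).2)

@[simp] theorem mv_same (f : Cfg n) (k b : Fin n) : mv f k b k = (b, (f k).2) := by simp [mv]

theorem mv_ne (f : Cfg n) {k l : Fin n} (b : Fin n) (h : l ≠ k) : mv f k b l = f l := by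
  simp [mv, h]

theorem mv_mv_same (f : Cfg n) (k a b : Fin n) : mv (mv f k a) k b = mv f k b := by
  funext l
  by_cases h : l = k
  · subst h; simp
  · rw [mv_ne _ _ h, mv_ne _ _ h, mv_ne _ _ h]

theorem mv_self (f : Cfg n) (k : Fin n) : mv f k (f k).1 = f := by
  funext l
  by_cases h : l = k
  · subst h; simp
  · rw [mv_ne _ _ h]

theorem mv_comp (f : Cfg n) (σ : Equiv.Perm (Fin n)) (k b : Fin n) :
    mv (f ∘ σ) k b = mv f (σ k) b ∘ σ := by
  funext l
  by_cases h : l = k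
  · subst h; simp
  · have h' : σ l ≠ σ k := fun e => h (σ.injective e)
    rw [mv_ne _ _ h, comp_apply, comp_apply, mv_ne _ _ h']

/-- the one-electron part of the hopping operator -/
def Kk (a b k : Fin n) : X n →ₗ[ℂ] X n where
  toFun c := WithLp.toLp 2 (fun f => if (f k).1 = a then c (mv f k b) else 0)
  map_add' x y := by
    ext f
    by_cases h : (f k).1 = a <;> simp [h]
  map_smul' r x := by
    ext f
    by_cases h : (f k).1 = a <;> simp [h]

theorem Kk_apply (a b k : Fin n) (c : X n) (f : Cfg n) :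
    Kk a b k c f = if (f k).1 = a then c (mv f k b) else 0 := rfl

/-- hopping from `b` to `a` : `(K a b c) f = ∑_k [site k = a] c (move k to b)` -/
def K (a b : Fin n) : X n →ₗ[ℂ] X n := ∑ k, Kk a b k

theorem K_apply (a b : Fin n) (c : X n) (f : Cfg n) :
    K a b c f = ∑ k, if (f k).1 = a then c (mv f k b) else 0 := by
  simp [K, Kk_apply]

/-- the involution-type reindexing: configurations with electron `k` at `a` correspond to those
with electron `k` at `b` -/
theorem sum_mv {M : Type*} [AddCommMonoid M] (a b k : Fin n) (F : Cfg n → Cfg n → M) :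
    (∑ f : Cfg n, if (f k).1 = a then F f (mv f k b) else 0) =
      ∑ g : Cfg n, if (g k).1 = b then F (mv g k a) g else 0 := by
  rw [← Finset.sum_filter, ← Finset.sum_filter]
  refine Finset.sum_bij' (fun f _ => mv f k b) (fun g _ => mv g k a) ?_ ?_ ?_ ?_ ?_
  · intro f hf; simp
  · intro g hg; simp
  · intro f hf
    simp only [Finset.mem_filter, Finset.mem_univ, true_and] at hf
    rw [mv_mv_same, ← hf, mv_self]
  · intro g hg
    simp only [Finset.mem_filter, Finset.mem_univ, true_and] at hg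
    rw [mv_mv_same, ← hg, mv_self]
  · intro f hf
    simp only [Finset.mem_filter, Finset.mem_univ, true_and] at hf
    rw [mv_mv_same, ← hf, mv_self]

theorem inner_def (c d : X n) : inner ℂ c d = ∑ f, conj (c f) * d f := by
  rw [PiLp.inner_apply]
  refine Finset.sum_congr rfl fun f _ => ?_
  rw [RCLike.inner_apply, mul_comm]

theorem Kk_adj (a b k : Fin n) (c d : X n) :
    inner ℂ (Kk a b k c) d = inner ℂ c (Kk b a k d) := by
  rw [inner_def, inner_def]
  have h1 : ∀ f, conj (Kk a b k c f) * d f =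
      if (f k).1 = a then conj (c (mv f k b)) * d f else 0 := by
    intro f
    rw [Kk_apply]
    by_cases h : (f k).1 = a <;> simp [h]
  have h2 : ∀ f, conj (c f) * Kk b a k d f =
      if (f k).1 = b then conj (c f) * d (mv f k a) else 0 := by
    intro f
    rw [Kk_apply]
    by_cases h : (f k).1 = b <;> simp [h]
  simp_rw [h1, h2]
  exact sum_mv a b k (fun f g => conj (c g) * d f)

theorem K_adj (a b : Fin n) (c d : X n) :
    inner ℂ (K a b c) d = inner ℂ c (K b a d) := by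
  simp only [K, LinearMap.sum_apply, sum_inner, inner_sum]
  exact Finset.sum_congr rfl fun k _ => Kk_adj a b k c d

theorem norm_sq_def (c : X n) : ‖c‖ ^ 2 = ∑ f, ‖c f‖ ^ 2 := by
  rw [EuclideanSpace.norm_sq_eq]

theorem Kk_norm (a b k : Fin n) (c : X n) : ‖Kk a b k c‖ ≤ ‖c‖ := by
  rw [← sq_le_sq₀ (norm_nonneg _) (norm_nonneg _), norm_sq_def, norm_sq_def]
  have h1 : ∀ f, ‖Kk a b k c f‖ ^ 2 = if (f k).1 = a then ‖c (mv f k b)‖ ^ 2 else 0 := by
    intro f
    rw [Kk_apply]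
    by_cases h : (f k).1 = a <;> simp [h]
  simp_rw [h1]
  rw [sum_mv a b k (fun f g => ‖c g‖ ^ 2)]
  refine Finset.sum_le_sum fun g _ => ?_
  split_ifs
  · exact le_rfl
  · positivity

theorem K_norm (a b : Fin n) (c : X n) : ‖K a b c‖ ≤ n * ‖c‖ := by
  rw [K, LinearMap.sum_apply]
  refine (norm_sum_le _ _).trans ?_
  refine (Finset.sum_le_sum fun k _ => Kk_norm a b k c).trans ?_
  simp

/-- the hopping operator -/
def hop (t : Fin n → Fin n → ℝ) : X n →ₗ[ℂ] X n := ∑ a, ∑ b, ((t a b : ℝ) : ℂ) • K a b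

theorem hop_apply (t : Fin n → Fin n → ℝ) (c : X n) :
    hop t c = ∑ a, ∑ b, ((t a b : ℝ) : ℂ) • K a b c := by
  simp [hop, LinearMap.sum_apply]

theorem hop_sum (t : Fin n → Fin n → ℝ) (c : X n) (f : Cfg n) :
    hop t c f = ∑ k, ∑ j, ((t (f k).1 j : ℝ) : ℂ) * c (mv f k j) := by
  rw [hop_apply]
  simp only [PiLp.smul_apply, WithLp.ofLp_sum, Finset.sum_apply, smul_eq_mul, K_apply]
  have h1 : ∀ a, (∑ b, ((t a b : ℝ) : ℂ) * ∑ k, if (f k).1 = a then c (mv f k b) else 0) =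
      ∑ k, if (f k).1 = a then ∑ b, ((t a b : ℝ) : ℂ) * c (mv f k b) else 0 := by
    intro a
    simp_rw [Finset.mul_sum]
    rw [Finset.sum_comm]
    refine Finset.sum_congr rfl fun k _ => ?_
    split_ifs
    · rfl
    · simp
  simp_rw [h1]
  rw [Finset.sum_comm]
  refine Finset.sum_congr rfl fun k _ => ?_
  rw [Finset.sum_ite_eq]
  simp

theorem hop_symm {t : Fin n → Fin n → ℝ} (ht : ∀ a b, t a b = t b a) : (hop t).IsSymmetric := by
  intro c d
  simp only [hop_apply, sum_inner, inner_sum, inner_smul_left, inner_smul_right, K_adj,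
    Complex.conj_ofReal]
  rw [Finset.sum_comm]
  refine Finset.sum_congr rfl fun a _ => Finset.sum_congr rfl fun b _ => ?_
  rw [ht b a]

theorem hop_norm (t : Fin n → Fin n → ℝ) (c : X n) :
    ‖hop t c‖ ≤ (n * ∑ a, ∑ b, |t a b|) * ‖c‖ := by
  rw [hop_apply]
  refine (norm_sum_le _ _).trans ?_
  rw [Finset.mul_sum, Finset.sum_mul]
  refine Finset.sum_le_sum fun a _ => ?_
  refine (norm_sum_le _ _).trans ?_
  rw [Finset.mul_sum, Finset.sum_mul]
  refine Finset.sum_le_sum fun b _ => ?_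
  rw [norm_smul, Complex.norm_real, Real.norm_eq_abs]
  calc |t a b| * ‖K a b c‖ ≤ |t a b| * (n * ‖c‖) := by gcongr; exact K_norm a b c
    _ = (n * |t a b|) * ‖c‖ := by ring

/-- antisymmetric coefficient functions -/
def antiS (n : ℕ) : Submodule ℂ (X n) where
  carrier := {c | ∀ (σ : Equiv.Perm (Fin n)) (f : Cfg n),
    c (f ∘ σ) = ((Equiv.Perm.sign σ : ℤ) : ℂ) * c f}
  add_mem' := by
    intro x y hx hy σ f
    have h1 := hx σ f
    have h2 := hy σ f
    simp only [PiLp.add_apply, h1, h2]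
    ring
  zero_mem' := by intro σ f; simp
  smul_mem' := by
    intro r x hx σ f
    have h1 := hx σ f
    simp only [PiLp.smul_apply, h1, smul_eq_mul]
    ring


theorem K_anti (a b : Fin n) {c : X n} (hc : c ∈ antiS n) : K a b c ∈ antiS n := by
  intro σ f
  rw [K_apply, K_apply, Finset.mul_sum]
  have h1 : ∀ k, (if ((f ∘ σ) k).1 = a then c (mv (f ∘ σ) k b) else 0) =
      (fun l => ((Equiv.Perm.sign σ : ℤ) : ℂ) * if (f l).1 = a then c (mv f l b) else 0) (σ k) := by
    intro k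
    rw [mv_comp]
    simp only [comp_apply]
    split_ifs
    · exact hc σ _
    · simp
  simp_rw [h1]
  exact Equiv.sum_comp σ (fun l => ((Equiv.Perm.sign σ : ℤ) : ℂ) *
    if (f l).1 = a then c (mv f l b) else 0)


end Crest.Agent.R338.SX
end

-- ▼ part R338/SX2
section

/-!
Row 338 (S0529), node SX: superexchange, part 2.  One-electron-per-site configurations,
occupation numbers, the isometry from spin vectors, second order term.
-/

set_option autoImplicit false
set_option maxSynthPendingDepth 3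

open scoped ComplexConjugate BigOperators
open Function

namespace Crest.Agent.R338.SX

variable {n : ℕ}

/-- one electron per site -/
def B (f : Cfg n) : Prop := Bijective fun k => (f k).1

theorem B_iff_inj (f : Cfg n) : B f ↔ Injective fun k => (f k).1 :=
  (Finite.injective_iff_bijective).symm

theorem B_comp {f : Cfg n} (σ : Equiv.Perm (Fin n)) : B (f ∘ σ) ↔ B f := by
  constructor
  · intro h
    have : (fun k => (f k).1) = (fun k => ((f ∘ σ) k).1) ∘ σ.symm := by
      funext k; simp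
    show Bijective _
    rw [this]
    exact h.comp σ.symm.bijective
  · intro h
    exact h.comp σ.bijective

/-- occupation number -/
def occ (f : Cfg n) (i : Fin n) : ℤ := ∑ k, if (f k).1 = i then 1 else 0

theorem occ_sum (f : Cfg n) : ∑ i, (occ f i - 1) = 0 := by
  simp only [occ, Finset.sum_sub_distrib]
  rw [Finset.sum_comm]
  simp

theorem occ_comp (f : Cfg n) (σ : Equiv.Perm (Fin n)) (i : Fin n) : occ (f ∘ σ) i = occ f i := by
  simp only [occ, comp_apply]
  exact Equiv.sum_comp σ (fun k => if (f k).1 = i then (1 : ℤ) else 0)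

theorem occ_B {f : Cfg n} (h : B f) (i : Fin n) : occ f i = 1 := by
  have h1 : occ f i = ∑ k, if k = i then (1 : ℤ) else 0 :=
    h.sum_comp (fun k => if k = i then (1 : ℤ) else 0)
  rw [h1]; simp

theorem B_of_occ {f : Cfg n} (h : ∀ i, occ f i = 1) : B f := by
  rw [B_iff_inj]
  intro k l hkl
  by_contra hne
  have h1 := h (f k).1
  have h2 : (2 : ℤ) ≤ occ f (f k).1 := by
    have : ∑ x ∈ ({k, l} : Finset (Fin n)), (if (f x).1 = (f k).1 then (1 : ℤ) else 0) ≤
        occ f (f k).1 := by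
      refine Finset.sum_le_univ_sum_of_nonneg fun x => ?_
      split_ifs <;> norm_num
    rw [Finset.sum_pair hne] at this
    simp only [if_true] at this
    have h3 : (f l).1 = (f k).1 := hkl.symm
    rw [h3] at this
    simpa using this
  omega

/-- occupation numbers after moving an electron -/
theorem occ_mv (f : Cfg n) (k a i : Fin n) :
    occ (mv f k a) i = occ f i + (if a = i then 1 else 0) - (if (f k).1 = i then 1 else 0) := by
  have h1 : ∀ g : Cfg n, occ g i = (if (g k).1 = i then 1 else 0) +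
      ∑ l ∈ Finset.univ.erase k, if (g l).1 = i then (1 : ℤ) else 0 := by
    intro g
    exact (Finset.add_sum_erase _ _ (Finset.mem_univ k)).symm
  rw [h1 (mv f k a), h1 f]
  have h2 : (∑ l ∈ Finset.univ.erase k, if (mv f k a l).1 = i then (1 : ℤ) else 0) =
      ∑ l ∈ Finset.univ.erase k, if (f l).1 = i then (1 : ℤ) else 0 := by
    refine Finset.sum_congr rfl fun l hl => ?_
    rw [mv_ne f a (Finset.ne_of_mem_erase hl)]
  rw [h2, mv_same]
  ring

/-- charge energy -/
noncomputable def G (D : Fin n → Fin n → ℝ) (f : Cfg n) : ℝ :=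
  (1 / 2) * ∑ i, ∑ j, D i j * (((occ f i - 1 : ℤ) : ℝ) * ((occ f j - 1 : ℤ) : ℝ))

theorem G_comp (D : Fin n → Fin n → ℝ) (f : Cfg n) (σ : Equiv.Perm (Fin n)) :
    G D (f ∘ σ) = G D f := by
  simp only [G, occ_comp]

theorem G_B (D : Fin n → Fin n → ℝ) {f : Cfg n} (h : B f) : G D f = 0 := by
  simp [G, occ_B h]

/-- charge transfer energy -/
noncomputable def Del (D : Fin n → Fin n → ℝ) (a b : Fin n) : ℝ := (D a a + D b b) / 2 - D a b

theorem Del_symm {D : Fin n → Fin n → ℝ} (hD : ∀ a b, D a b = D b a) (a b : Fin n) :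
    Del D a b = Del D b a := by
  simp only [Del]; rw [hD a b]; ring

/-- the charge energy of the configuration `1 + e_a - e_b` is `Del a b` -/
theorem G_transfer {D : Fin n → Fin n → ℝ} (hD : ∀ a b, D a b = D b a) {f : Cfg n}
    {a b : Fin n} (hf : ∀ i, occ f i - 1 = (if a = i then 1 else 0) - (if b = i then 1 else 0)) :
    G D f = Del D a b := by
  have h1 : ∀ i j, D i j * (((occ f i - 1 : ℤ) : ℝ) * ((occ f j - 1 : ℤ) : ℝ)) =
      (if a = i then (if a = j then D i j else 0) else 0) -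
      (if a = i then (if b = j then D i j else 0) else 0) -
      (if b = i then (if a = j then D i j else 0) else 0) +
      (if b = i then (if b = j then D i j else 0) else 0) := by
    intro i j
    rw [hf i, hf j]
    split_ifs <;> push_cast <;> ring
  simp only [G, h1, Finset.sum_add_distrib, Finset.sum_sub_distrib]
  have h2 : ∀ x y : Fin n, (∑ i, ∑ j, if x = i then (if y = j then D i j else 0) else 0) = D x y := by
    intro x y
    rw [Finset.sum_eq_single x]
    · simp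
    · intro b _ hb
      simp [Ne.symm hb]
    · simp
  rw [h2, h2, h2, h2]
  simp only [Del]
  rw [hD b a]
  ring

/-- one electron per site: the space of spin degrees of freedom -/
def PS (n : ℕ) : Submodule ℂ (X n) where
  carrier := {c | c ∈ antiS n ∧ ∀ f, ¬ B f → c f = 0}
  add_mem' := by
    rintro x y ⟨hx, hx'⟩ ⟨hy, hy'⟩
    refine ⟨(antiS n).add_mem hx hy, fun f hf => ?_⟩
    simp [hx' f hf, hy' f hf]
  zero_mem' := ⟨(antiS n).zero_mem, fun f _ => by simp⟩
  smul_mem' := by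
    rintro r x ⟨hx, hx'⟩
    refine ⟨(antiS n).smul_mem r hx, fun f hf => ?_⟩
    simp [hx' f hf]

def QS (n : ℕ) : Submodule ℂ (X n) where
  carrier := {c | c ∈ antiS n ∧ ∀ f, B f → c f = 0}
  add_mem' := by
    rintro x y ⟨hx, hx'⟩ ⟨hy, hy'⟩
    refine ⟨(antiS n).add_mem hx hy, fun f hf => ?_⟩
    simp [hx' f hf, hy' f hf]
  zero_mem' := ⟨(antiS n).zero_mem, fun f _ => by simp⟩
  smul_mem' := by
    rintro r x ⟨hx, hx'⟩
    refine ⟨(antiS n).smul_mem r hx, fun f hf => ?_⟩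
    simp [hx' f hf]

theorem PQ_orth {p q : X n} (hp : p ∈ PS n) (hq : q ∈ QS n) : inner ℂ p q = 0 := by
  rw [inner_def]
  refine Finset.sum_eq_zero fun f _ => ?_
  by_cases h : B f
  · rw [hq.2 f h, mul_zero]
  · rw [hp.2 f h]; simp

/-- splitting an antisymmetric vector -/
theorem exists_split {c : X n} (hc : c ∈ antiS n) :
    ∃ p ∈ PS n, ∃ q ∈ QS n, c = p + q := by
  classical
  refine ⟨WithLp.toLp 2 (fun f => if B f then c f else 0), ⟨?_, ?_⟩,
    WithLp.toLp 2 (fun f => if B f then 0 else c f), ⟨?_, ?_⟩, ?_⟩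
  · intro σ f
    by_cases h : B f
    · have h' : B (f ∘ σ) := (B_comp σ).2 h
      simp [h, h', hc σ f]
    · have h' : ¬ B (f ∘ σ) := fun h2 => h ((B_comp σ).1 h2)
      simp [h, h']
  · intro f hf; simp [hf]
  · intro σ f
    by_cases h : B f
    · have h' : B (f ∘ σ) := (B_comp σ).2 h
      simp [h, h']
    · have h' : ¬ B (f ∘ σ) := fun h2 => h ((B_comp σ).1 h2)
      simp [h, h', hc σ f]
  · intro f hf; simp [hf]
  · ext f
    by_cases h : B f <;> simp [h]

/-- support of `K a b p` : occupation numbers `1 + e_a - e_b` -/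
theorem K_supp {a b : Fin n} {p : X n} (hp : p ∈ PS n) {f : Cfg n}
    (h : K a b p f ≠ 0) :
    ∀ i, occ f i - 1 = (if a = i then 1 else 0) - (if b = i then 1 else 0) := by
  rw [K_apply] at h
  obtain ⟨k, -, hk⟩ := Finset.exists_ne_zero_of_sum_ne_zero h
  have h1 : (f k).1 = a := by
    by_contra h1; simp [h1] at hk
  rw [if_pos h1] at hk
  have h2 : B (mv f k b) := by
    by_contra h2; exact hk (hp.2 _ h2)
  intro i
  have h3 := occ_mv f k b i
  rw [occ_B h2, h1] at h3
  omega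

theorem K_mem_Q {a b : Fin n} (hab : a ≠ b) {p : X n} (hp : p ∈ PS n) : K a b p ∈ QS n := by
  refine ⟨K_anti a b hp.1, fun f hf => ?_⟩
  by_contra h
  have h1 := K_supp hp h a
  rw [occ_B hf] at h1
  simp [hab.symm] at h1

/-- orthogonality of different transfers -/
theorem K_orth {a b a' b' : Fin n} (hab : a ≠ b) (hab' : a' ≠ b') (hne : (a, b) ≠ (a', b'))
    {p : X n} (hp : p ∈ PS n) : inner ℂ (K a b p) (K a' b' p) = 0 := by
  rw [inner_def]
  refine Finset.sum_eq_zero fun f _ => ?_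
  by_cases h1 : K a b p f = 0
  · rw [h1]; simp
  by_cases h2 : K a' b' p f = 0
  · rw [h2]; simp
  exfalso
  have e1 := K_supp hp h1
  have e2 := K_supp hp h2
  apply hne
  have ea : a = a' := by
    have := e1 a
    rw [e2 a] at this
    by_contra hne'
    simp only [if_true, if_neg hab.symm, if_neg (Ne.symm hne')] at this
    split_ifs at this <;> omega
  have eb : b = b' := by
    have := e1 b
    rw [e2 b] at this
    by_contra hne'
    simp only [if_true, if_neg hab, if_neg (Ne.symm hne')] at this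
    split_ifs at this <;> omega
  rw [ea, eb]

/-- diagonal operator -/
noncomputable def diag (g : Cfg n → ℝ) : X n →ₗ[ℂ] X n where
  toFun c := WithLp.toLp 2 (fun f => ((g f : ℝ) : ℂ) * c f)
  map_add' x y := by ext f; simp [mul_add]
  map_smul' r x := by ext f; simp [mul_left_comm]

theorem diag_apply (g : Cfg n → ℝ) (c : X n) (f : Cfg n) :
    diag g c f = ((g f : ℝ) : ℂ) * c f := rfl

theorem diag_symm (g : Cfg n → ℝ) : (diag g).IsSymmetric := by
  intro c d
  rw [inner_def, inner_def]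
  refine Finset.sum_congr rfl fun f _ => ?_
  rw [diag_apply, diag_apply, map_mul, Complex.conj_ofReal]
  ring

theorem diag_inner (g : Cfg n → ℝ) (c : X n) :
    RCLike.re (inner ℂ c (diag g c)) = ∑ f, g f * ‖c f‖ ^ 2 := by
  rw [inner_def, map_sum]
  refine Finset.sum_congr rfl fun f _ => ?_
  rw [diag_apply]
  have : conj (c f) * (((g f : ℝ) : ℂ) * c f) = (((g f) * ‖c f‖ ^ 2 : ℝ) : ℂ) := by
    rw [mul_left_comm, Complex.conj_mul']
    push_cast; ring
  rw [this]
  exact Complex.ofReal_re _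

theorem diag_K {D : Fin n → Fin n → ℝ} (hD : ∀ a b, D a b = D b a) {a b : Fin n} {p : X n}
    (hp : p ∈ PS n) : diag (G D) (K a b p) = ((Del D a b : ℝ) : ℂ) • K a b p := by
  ext f
  rw [diag_apply, PiLp.smul_apply, smul_eq_mul]
  by_cases h : K a b p f = 0
  · rw [h]; simp
  · rw [G_transfer hD (K_supp hp h)]

end Crest.Agent.R338.SX
end

-- ▼ part R338/SX3
section

/-!
Row 338 (S0529), node SX: superexchange, part 3.  The isometry `Phi` from spin vectors onto `PS`
and the second order term.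
-/

set_option autoImplicit false
set_option maxSynthPendingDepth 3

open scoped ComplexConjugate BigOperators
open Function

namespace Crest.Agent.R338.SX

variable {n : ℕ}

/-- spin vectors -/
abbrev Sp (n : ℕ) := (Fin n → Bool) → ℂ

/-- configuration of electrons: electron `k` at site `π k` with spin `s (π k)` -/
def cfg (π : Equiv.Perm (Fin n)) (s : Fin n → Bool) : Cfg n := fun k => (π k, s (π k))

theorem B_cfg (π : Equiv.Perm (Fin n)) (s : Fin n → Bool) : B (cfg π s) := π.bijective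

theorem exists_cfg {f : Cfg n} (h : B f) : ∃ π s, f = cfg π s := by
  refine ⟨Equiv.ofBijective _ h, fun i => (f ((Equiv.ofBijective _ h).symm i)).2, ?_⟩
  funext k
  refine Prod.ext rfl ?_
  simp only [cfg, Equiv.symm_apply_apply]

theorem cfg_inj {π π' : Equiv.Perm (Fin n)} {s s' : Fin n → Bool} (h : cfg π s = cfg π' s') :
    π = π' ∧ s = s' := by
  have h1 : π = π' := by
    ext k
    have := congrArg Prod.fst (congrFun h k)
    exact congrArg _ this
  subst h1
  refine ⟨rfl, ?_⟩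
  funext i
  have := congrArg Prod.snd (congrFun h (π.symm i))
  simpa [cfg] using this

theorem cfg_comp (π τ : Equiv.Perm (Fin n)) (s : Fin n → Bool) :
    cfg π s ∘ τ = cfg (π * τ) s := by
  funext k; rfl

/-- sums over one-per-site configurations -/
theorem sum_B {M : Type*} [AddCommMonoid M] (F : Cfg n → M) (hF : ∀ f, ¬ B f → F f = 0) :
    ∑ f, F f = ∑ π : Equiv.Perm (Fin n), ∑ s : Fin n → Bool, F (cfg π s) := by
  classical
  rw [← Finset.sum_product']
  have hinj : Injective (fun x : Equiv.Perm (Fin n) × (Fin n → Bool) => cfg x.1 x.2) := by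
    rintro ⟨π, s⟩ ⟨π', s'⟩ h
    obtain ⟨h1, h2⟩ := cfg_inj h
    exact Prod.ext h1 h2
  have h1 : ∑ x ∈ (Finset.univ : Finset (Equiv.Perm (Fin n))) ×ˢ
      (Finset.univ : Finset (Fin n → Bool)), F (cfg x.1 x.2) =
      ∑ f ∈ (Finset.univ.image (fun x : Equiv.Perm (Fin n) × (Fin n → Bool) => cfg x.1 x.2)), F f := by
    rw [Finset.sum_image (fun x _ y _ h => hinj h)]
    rfl
  rw [h1]
  symm
  refine Finset.sum_subset (Finset.subset_univ _) fun f _ hf => hF f fun hB => hf ?_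
  obtain ⟨π, s, rfl⟩ := exists_cfg hB
  exact Finset.mem_image.2 ⟨(π, s), Finset.mem_univ _, rfl⟩

/-- the spin vector of `c` -/
def spin (c : X n) : Sp n := fun s => c (cfg 1 s)

theorem PS_cfg {p : X n} (hp : p ∈ PS n) (π : Equiv.Perm (Fin n)) (s : Fin n → Bool) :
    p (cfg π s) = ((Equiv.Perm.sign π : ℤ) : ℂ) * spin p s := by
  have := hp.1 π (cfg 1 s)
  rw [cfg_comp, one_mul] at this
  exact this

open Classical in
/-- the vector in `PS` with given spin vector -/
noncomputable def Phi (χ : Sp n) : X n := WithLp.toLp 2 (fun f =>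
  if h : B f then ((Equiv.Perm.sign (Equiv.ofBijective _ h) : ℤ) : ℂ) *
    χ (fun i => (f ((Equiv.ofBijective _ h).symm i)).2) else 0)

theorem Phi_cfg (χ : Sp n) (π : Equiv.Perm (Fin n)) (s : Fin n → Bool) :
    Phi χ (cfg π s) = ((Equiv.Perm.sign π : ℤ) : ℂ) * χ s := by
  have h : B (cfg π s) := B_cfg π s
  have e : Equiv.ofBijective (fun k => (cfg π s k).1) h = π := by
    ext k; rfl
  have e2 : (fun i => (cfg π s ((Equiv.ofBijective _ h).symm i)).2) = s := by
    funext i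
    rw [e]
    simp [cfg]
  simp only [Phi]
  rw [dif_pos h]
  simp only [e2]
  rw [e]

theorem Phi_nB (χ : Sp n) {f : Cfg n} (h : ¬ B f) : Phi χ f = 0 := by
  simp only [Phi]
  rw [dif_neg h]

theorem sign_mul_c (π τ : Equiv.Perm (Fin n)) :
    ((Equiv.Perm.sign (π * τ) : ℤ) : ℂ) =
      ((Equiv.Perm.sign τ : ℤ) : ℂ) * ((Equiv.Perm.sign π : ℤ) : ℂ) := by
  rw [Equiv.Perm.sign_mul]; push_cast; ring

theorem sign_sq_c (π : Equiv.Perm (Fin n)) :
    ((Equiv.Perm.sign π : ℤ) : ℂ) * ((Equiv.Perm.sign π : ℤ) : ℂ) = 1 := by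
  rw [← Int.cast_mul, ← Units.val_mul, Int.units_mul_self]; simp

theorem Phi_mem (χ : Sp n) : Phi χ ∈ PS n := by
  refine ⟨fun σ f => ?_, fun f hf => Phi_nB χ hf⟩
  by_cases h : B f
  · obtain ⟨π, s, rfl⟩ := exists_cfg h
    rw [cfg_comp, Phi_cfg, Phi_cfg, sign_mul_c]
    ring
  · have h' : ¬ B (f ∘ σ) := fun h2 => h ((B_comp σ).1 h2)
    rw [Phi_nB χ h, Phi_nB χ h', mul_zero]

theorem spin_Phi (χ : Sp n) : spin (Phi χ) = χ := by
  funext s
  rw [spin, Phi_cfg]; simp


/-- squared norm of a spin vector -/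
noncomputable def nsq (χ : Sp n) : ℝ := ∑ s, ‖χ s‖ ^ 2

/-- `⟨χ, SWAP_{ab} χ⟩` (real part) -/
noncomputable def swapE (a b : Fin n) (χ : Sp n) : ℝ :=
  ∑ s, (conj (χ s) * χ (s ∘ Equiv.swap a b)).re

theorem nsq_nonneg (χ : Sp n) : 0 ≤ nsq χ := Finset.sum_nonneg fun _ _ => by positivity

theorem norm_sq_PS {p : X n} (hp : p ∈ PS n) : ‖p‖ ^ 2 = n.factorial * nsq (spin p) := by
  rw [norm_sq_def, sum_B (fun f => ‖p f‖ ^ 2) (fun f hf => by rw [hp.2 f hf]; simp)]
  have h1 : ∀ π : Equiv.Perm (Fin n), ∑ s, ‖p (cfg π s)‖ ^ 2 = nsq (spin p) := by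
    intro π
    refine Finset.sum_congr rfl fun s _ => ?_
    rw [PS_cfg hp, norm_mul]
    have : ‖((Equiv.Perm.sign π : ℤ) : ℂ)‖ = 1 := by
      rcases Int.units_eq_one_or (Equiv.Perm.sign π) with h | h <;> simp [h]
    rw [this, one_mul]
  simp_rw [h1]
  simp [Fintype.card_perm]

/-- The exchanged configuration. -/
theorem mv_mv_swap (π : Equiv.Perm (Fin n)) (s : Fin n → Bool) {a b : Fin n} (hab : a ≠ b) :
    mv (mv (cfg π s) (π.symm b) a) (π.symm a) b =
      cfg (Equiv.swap a b * π) (s ∘ Equiv.swap a b) := by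
  funext k
  by_cases h1 : k = π.symm a
  · subst h1
    rw [mv_same, mv_ne _ _ (fun e => hab (π.symm.injective e))]
    simp [cfg, Equiv.Perm.mul_apply]
  · rw [mv_ne _ _ h1]
    by_cases h2 : k = π.symm b
    · subst h2
      rw [mv_same]
      simp [cfg, Equiv.Perm.mul_apply]
    · rw [mv_ne _ _ h2]
      have h3 : π k ≠ a := fun e => h1 (by rw [← e]; simp)
      have h4 : π k ≠ b := fun e => h2 (by rw [← e]; simp)
      have h5 : Equiv.swap a b (π k) = π k := Equiv.swap_apply_of_ne_of_ne h3 h4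
      simp [cfg, Equiv.Perm.mul_apply, h5]

/-- `K_{ba} K_{ab}` on one-per-site configurations -/
theorem KK_cfg {a b : Fin n} (hab : a ≠ b) {p : X n} (hp : p ∈ PS n) (π : Equiv.Perm (Fin n))
    (s : Fin n → Bool) :
    K b a (K a b p) (cfg π s) = ((Equiv.Perm.sign π : ℤ) : ℂ) *
      (spin p s - spin p (s ∘ Equiv.swap a b)) := by
  rw [K_apply, Finset.sum_eq_single (π.symm b)]
  · have hb : (cfg π s (π.symm b)).1 = b := by simp [cfg]
    rw [if_pos hb, K_apply]
    have hne : π.symm a ≠ π.symm b := fun e => hab (π.symm.injective e)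
    have h1 : ∀ k, k ≠ π.symm a → k ≠ π.symm b →
        (mv (cfg π s) (π.symm b) a k).1 ≠ a := by
      intro k hk1 hk2
      rw [mv_ne _ _ hk2]
      intro e
      apply hk1
      have : π k = a := e
      rw [← this]; simp
    rw [← Finset.sum_subset (Finset.subset_univ {π.symm a, π.symm b}) (fun k _ hk => by
      simp only [Finset.mem_insert, Finset.mem_singleton, not_or] at hk
      rw [if_neg (h1 k hk.1 hk.2)])]
    rw [Finset.sum_pair hne]
    have ea : (mv (cfg π s) (π.symm b) a (π.symm a)).1 = a := by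
      rw [mv_ne _ _ hne]; simp [cfg]
    have eb : (mv (cfg π s) (π.symm b) a (π.symm b)).1 = a := by
      rw [mv_same]
    rw [if_pos ea, if_pos eb, mv_mv_swap π s hab, mv_mv_same]
    have e2 : mv (cfg π s) (π.symm b) b = cfg π s := by
      have h7 := mv_self (cfg π s) (π.symm b)
      rw [hb] at h7
      exact h7
    rw [e2, PS_cfg hp, PS_cfg hp, sign_mul_c, Equiv.Perm.sign_swap hab]
    push_cast
    ring
  · intro k _ hk
    rw [if_neg]
    intro e
    apply hk
    have : π k = b := e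
    rw [← this]; simp
  · intro h; exact absurd (Finset.mem_univ _) h

theorem K_norm_sq {a b : Fin n} (hab : a ≠ b) {p : X n} (hp : p ∈ PS n) :
    RCLike.re (inner ℂ (K a b p) (K a b p)) =
      n.factorial * (nsq (spin p) - swapE a b (spin p)) := by
  rw [K_adj, inner_def, sum_B _ (fun f hf => by rw [hp.2 f hf]; simp)]
  have h1 : ∀ π : Equiv.Perm (Fin n), ∀ s : Fin n → Bool,
      conj (p (cfg π s)) * K b a (K a b p) (cfg π s) =
        conj (spin p s) * (spin p s - spin p (s ∘ Equiv.swap a b)) := by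
    intro π s
    rw [KK_cfg hab hp, PS_cfg hp, map_mul, map_intCast]
    calc ((Equiv.Perm.sign π : ℤ) : ℂ) * conj (spin p s) * (((Equiv.Perm.sign π : ℤ) : ℂ) *
          (spin p s - spin p (s ∘ Equiv.swap a b)))
        = (((Equiv.Perm.sign π : ℤ) : ℂ) * ((Equiv.Perm.sign π : ℤ) : ℂ)) *
          (conj (spin p s) * (spin p s - spin p (s ∘ Equiv.swap a b))) := by ring
      _ = _ := by rw [sign_sq_c, one_mul]
  simp_rw [h1]
  rw [Finset.sum_const, Finset.card_univ, Fintype.card_perm, Fintype.card_fin, nsmul_eq_mul]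
  have h2 : (∑ s, conj (spin p s) * (spin p s - spin p (s ∘ Equiv.swap a b))) =
      ∑ s, ((‖spin p s‖ ^ 2 : ℝ) : ℂ) - ∑ s, conj (spin p s) * spin p (s ∘ Equiv.swap a b) := by
    rw [← Finset.sum_sub_distrib]
    refine Finset.sum_congr rfl fun s _ => ?_
    rw [mul_sub, Complex.conj_mul']
    push_cast; ring
  rw [h2]
  simp only [RCLike.re_to_complex, Complex.mul_re, Complex.natCast_re, Complex.natCast_im,
    zero_mul, sub_zero, Complex.sub_re, Complex.re_sum, Complex.ofReal_re]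
  rw [nsq, swapE]
  simp only [Complex.mul_re]

end Crest.Agent.R338.SX
end

-- ▼ part R338/SchurG
section

/-!
Row 338 (S0529): second and first order Schur (perturbation) lemmas.

`schur_lower`, `schur_upper`: Hermitian form `[[A, V*],[V, D0 + D1]]` on `P ⊕ Q` with
`D0 ≥ g` on `Q`, `|D1| ≤ d`, `‖V‖ ≤ v`, `|A| ≤ a`, and `W = D0⁻¹ V`; effective form
`A - V* D0⁻¹ V` on `P`.
-/

set_option autoImplicit false
set_option linter.unusedSectionVars false
set_option linter.unusedVariables false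

open scoped ComplexConjugate
open RCLike

namespace Crest.Agent.R338.SG

section Two

variable {𝕜 : Type*} [RCLike 𝕜]
variable {P Q : Type*} [NormedAddCommGroup P] [InnerProductSpace 𝕜 P]
  [NormedAddCommGroup Q] [InnerProductSpace 𝕜 Q]

local notation "⟪" x ", " y "⟫" => inner 𝕜 x y

/-- completing the square -/
theorem complete_square {D0 : Q →ₗ[𝕜] Q} (hs : D0.IsSymmetric) {g : ℝ} (hg : 0 ≤ g)
    (hD : ∀ q, g * ‖q‖ ^ 2 ≤ re ⟪q, D0 q⟫) (w q : Q) {t : ℝ} (ht : 0 < t) :
    -(t⁻¹ * re ⟪D0 w, w⟫) ≤ t * re ⟪q, D0 q⟫ + 2 * re ⟪D0 w, q⟫ := by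
  have h0 : 0 ≤ re ⟪(t : 𝕜) • q + w, D0 ((t : 𝕜) • q + w)⟫ :=
    (mul_nonneg hg (sq_nonneg _)).trans (hD _)
  have h1 : re ⟪(t : 𝕜) • q + w, D0 ((t : 𝕜) • q + w)⟫ =
      t * (t * re ⟪q, D0 q⟫ + 2 * re ⟪D0 w, q⟫) + re ⟪D0 w, w⟫ := by
    have e1 : ⟪w, D0 q⟫ = ⟪D0 w, q⟫ := (hs w q).symm
    have e2 : ⟪q, D0 w⟫ = ⟪D0 q, w⟫ := (hs q w).symm
    have e3 : re ⟪D0 q, w⟫ = re ⟪D0 w, q⟫ := by
      rw [hs q w, ← inner_conj_symm, conj_re]
    have e4 : ⟪w, D0 w⟫ = ⟪D0 w, w⟫ := (hs w w).symm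
    rw [map_add, map_smul, inner_add_left, inner_add_right, inner_add_right, inner_smul_left,
      inner_smul_left, inner_smul_right, inner_smul_right, e1, e2, e4, conj_ofReal]
    simp only [map_add, re_ofReal_mul]
    rw [e3]
    ring
  rw [h1] at h0
  have h2 : 0 ≤ t⁻¹ * (t * (t * re ⟪q, D0 q⟫ + 2 * re ⟪D0 w, q⟫) + re ⟪D0 w, w⟫) :=
    mul_nonneg (inv_nonneg.2 ht.le) h0
  have h3 : t⁻¹ * (t * (t * re ⟪q, D0 q⟫ + 2 * re ⟪D0 w, q⟫) + re ⟪D0 w, w⟫) =
      (t * re ⟪q, D0 q⟫ + 2 * re ⟪D0 w, q⟫) + t⁻¹ * re ⟪D0 w, w⟫ := by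
    field_simp
  linarith







/-- **Relative second order Schur lemma (S''), lower bound**: `|D1| ≤ x D0` and
`⟪V p, D0⁻¹ V p⟫ ≤ s ‖p‖²`. -/
theorem schur_rel_lower {D0 : Q →ₗ[𝕜] Q} (hs : D0.IsSymmetric) {g s x m μ : ℝ} (hg : 0 < g)
    (hs0 : 0 ≤ s) (hx : 0 ≤ x)
    (hD : ∀ q, g * ‖q‖ ^ 2 ≤ re ⟪q, D0 q⟫) {A : P → ℝ} {V W : P → Q} {D1 : Q → ℝ}
    (hW : ∀ p, D0 (W p) = V p) (hV : ∀ p, re ⟪V p, W p⟫ ≤ s * ‖p‖ ^ 2)
    (hD1 : ∀ q, |D1 q| ≤ x * re ⟪q, D0 q⟫)
    (hm : |μ| ≤ m) (hc : x + (m + s) / g ≤ 1 / 2)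
    (hμ : ∀ p, μ * ‖p‖ ^ 2 ≤ A p - re ⟪V p, W p⟫) (p : P) (q : Q) :
    (μ - 2 * s * (x + (m + s) / g)) * (‖p‖ ^ 2 + ‖q‖ ^ 2) ≤
      A p + 2 * re ⟪V p, q⟫ + re ⟪q, D0 q⟫ + D1 q := by
  have hm0 : 0 ≤ m := (abs_nonneg _).trans hm
  set y := x + (m + s) / g with hy
  have hy0 : 0 ≤ y := by rw [hy]; positivity
  set err := 2 * s * y with herr
  have herr0 : 0 ≤ err := by rw [herr]; positivity
  have herr1 : err ≤ s := by
    rw [herr]; nlinarith
  set t := 1 - y with ht
  have ht0 : 0 < t := by linarith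
  have b2 : 0 ≤ re ⟪V p, W p⟫ := by
    have : re ⟪V p, W p⟫ = re ⟪W p, D0 (W p)⟫ := by
      rw [hW, ← inner_conj_symm, conj_re]
    rw [this]
    exact (mul_nonneg hg.le (sq_nonneg _)).trans (hD _)
  have hcs := complete_square hs hg.le hD (W p) q ht0
  rw [hW p] at hcs
  have h5 := (abs_le.1 (hD1 q)).1
  have h6 := hD q
  have h7 := hμ p
  have h8 := abs_le.1 hm
  have hd0 : 0 ≤ re ⟪q, D0 q⟫ := (mul_nonneg hg.le (sq_nonneg _)).trans h6
  -- the `Q` block
  have hQ : (μ - err) * ‖q‖ ^ 2 ≤ (y - x) * re ⟪q, D0 q⟫ := by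
    have h9 : μ - err ≤ (y - x) * g := by
      have : (y - x) * g = m + s := by rw [hy]; field_simp; ring
      rw [this]; linarith [h8.2]
    have hyx : 0 ≤ y - x := by
      have : 0 ≤ (m + s) / g := by positivity
      rw [hy]; linarith
    calc (μ - err) * ‖q‖ ^ 2 ≤ ((y - x) * g) * ‖q‖ ^ 2 :=
          mul_le_mul_of_nonneg_right h9 (sq_nonneg _)
      _ = (y - x) * (g * ‖q‖ ^ 2) := by ring
      _ ≤ (y - x) * re ⟪q, D0 q⟫ := mul_le_mul_of_nonneg_left h6 hyx
  -- the `P` block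
  have htinv : t⁻¹ ≤ 1 + 2 * y := by
    rw [inv_le_iff_one_le_mul₀ ht0, ht]
    nlinarith
  have hP : t⁻¹ * re ⟪V p, W p⟫ ≤ re ⟪V p, W p⟫ + err * ‖p‖ ^ 2 := by
    calc t⁻¹ * re ⟪V p, W p⟫ ≤ (1 + 2 * y) * re ⟪V p, W p⟫ :=
          mul_le_mul_of_nonneg_right htinv b2
      _ = re ⟪V p, W p⟫ + 2 * y * re ⟪V p, W p⟫ := by ring
      _ ≤ re ⟪V p, W p⟫ + 2 * y * (s * ‖p‖ ^ 2) := by
          have := hV p
          gcongr
      _ = re ⟪V p, W p⟫ + err * ‖p‖ ^ 2 := by rw [herr]; ring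
  have e1 : t * re ⟪q, D0 q⟫ = re ⟪q, D0 q⟫ - y * re ⟪q, D0 q⟫ := by rw [ht]; ring
  nlinarith


end Two

section One

variable {𝕜 : Type*} [RCLike 𝕜] {X : Type*} [NormedAddCommGroup X] [InnerProductSpace 𝕜 X]

local notation "⟪" x ", " y "⟫" => inner 𝕜 x y

theorem norm_add_sq_orth {p q : X} (h : ⟪p, q⟫ = 0) : ‖p + q‖ ^ 2 = ‖p‖ ^ 2 + ‖q‖ ^ 2 := by
  rw [norm_add_sq (𝕜 := 𝕜), h]; simp

theorem form_add {H : X →ₗ[𝕜] X} (hH : H.IsSymmetric) (p q : X) :
    re ⟪p + q, H (p + q)⟫ = re ⟪p, H p⟫ + 2 * re ⟪H p, q⟫ + re ⟪q, H q⟫ := by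
  have e1 : ⟪p, H q⟫ = ⟪H p, q⟫ := (hH p q).symm
  have e2 : re ⟪q, H p⟫ = re ⟪H p, q⟫ := by rw [← inner_conj_symm, conj_re]
  rw [map_add, inner_add_left, inner_add_right, inner_add_right, e1]
  simp only [map_add]
  rw [e2]
  ring




/-- One-space version of (S''), lower bound. -/
theorem schur_rel_lower_one {P Q : Submodule 𝕜 X} (horth : ∀ p ∈ P, ∀ q ∈ Q, ⟪p, q⟫ = 0)
    {H D0 : X →ₗ[𝕜] X} (hH : H.IsSymmetric) (hs : D0.IsSymmetric) (hDQ : ∀ q ∈ Q, D0 q ∈ Q)
    {g s x m μ : ℝ} (hg : 0 < g) (hs0 : 0 ≤ s) (hx : 0 ≤ x)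
    (hD : ∀ q ∈ Q, g * ‖q‖ ^ 2 ≤ re ⟪q, D0 q⟫) {V W : X → X}
    (hWQ : ∀ p ∈ P, W p ∈ Q)
    (hW : ∀ p ∈ P, D0 (W p) = V p) (hV : ∀ p ∈ P, re ⟪V p, W p⟫ ≤ s * ‖p‖ ^ 2)
    (hVH : ∀ p ∈ P, ∀ q ∈ Q, re ⟪H p, q⟫ = re ⟪V p, q⟫)
    (hD1 : ∀ q ∈ Q, |re ⟪q, H q⟫ - re ⟪q, D0 q⟫| ≤ x * re ⟪q, D0 q⟫)
    (hm : |μ| ≤ m) (hc : x + (m + s) / g ≤ 1 / 2)
    (hμ : ∀ p ∈ P, μ * ‖p‖ ^ 2 ≤ re ⟪p, H p⟫ - re ⟪V p, W p⟫) {p q : X} (hp : p ∈ P)
    (hq : q ∈ Q) :
    (μ - 2 * s * (x + (m + s) / g)) * ‖p + q‖ ^ 2 ≤ re ⟪p + q, H (p + q)⟫ := by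
  let D0' : Q →ₗ[𝕜] Q := D0.restrict hDQ
  have hs' : D0'.IsSymmetric := fun x y => hs x y
  have hVW : ∀ p (hp : p ∈ P),
      re ⟪D0' ⟨W p, hWQ p hp⟩, (⟨W p, hWQ p hp⟩ : Q)⟫ = re ⟪V p, W p⟫ := by
    intro p hp
    rw [← hW p hp]; rfl
  have key := schur_rel_lower (P := P) (Q := Q) hs' hg hs0 hx (fun q => hD q q.2)
    (A := fun p : P => re ⟪(p : X), H p⟫) (V := fun p : P => D0' ⟨W p, hWQ p p.2⟩)
    (W := fun p : P => ⟨W p, hWQ p p.2⟩)
    (D1 := fun q : Q => re ⟪(q : X), H q⟫ - re ⟪(q : X), D0 q⟫)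
    (fun p => rfl) (fun p => by rw [hVW p p.2]; exact hV p p.2)
    (fun q => hD1 q q.2) hm hc (fun p => by rw [hVW p p.2]; exact hμ p p.2) ⟨p, hp⟩ ⟨q, hq⟩
  rw [norm_add_sq_orth (horth p hp q hq), form_add hH]
  have e1 : re ⟪D0' ⟨W p, hWQ p hp⟩, (⟨q, hq⟩ : Q)⟫ = re ⟪H p, q⟫ := by
    rw [hVH p hp q hq, ← hW p hp]; rfl
  have e2 : re ⟪(⟨q, hq⟩ : Q), D0' ⟨q, hq⟩⟫ = re ⟪q, D0 q⟫ := rfl
  simp only [Submodule.coe_norm] at key
  rw [e1, e2] at key
  linarith

/-- One-space version of (S''), upper bound: the trial vector `p - W p`. -/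
theorem schur_rel_upper_one {P Q : Submodule 𝕜 X} (horth : ∀ p ∈ P, ∀ q ∈ Q, ⟪p, q⟫ = 0)
    {H D0 : X →ₗ[𝕜] X} (hH : H.IsSymmetric)
    {g s x m μ : ℝ} (hg : 0 < g) (hs0 : 0 ≤ s) (hx : 0 ≤ x)
    (hD : ∀ q ∈ Q, g * ‖q‖ ^ 2 ≤ re ⟪q, D0 q⟫) {V W : X → X}
    (hWQ : ∀ p ∈ P, W p ∈ Q)
    (hW : ∀ p ∈ P, D0 (W p) = V p) (hV : ∀ p ∈ P, re ⟪V p, W p⟫ ≤ s * ‖p‖ ^ 2)
    (hVH : ∀ p ∈ P, ∀ q ∈ Q, re ⟪H p, q⟫ = re ⟪V p, q⟫)
    (hD1 : ∀ q ∈ Q, |re ⟪q, H q⟫ - re ⟪q, D0 q⟫| ≤ x * re ⟪q, D0 q⟫)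
    (hm : |μ| ≤ m) {p : X} (hp : p ∈ P)
    (hμ : re ⟪p, H p⟫ - re ⟪V p, W p⟫ ≤ μ * ‖p‖ ^ 2) :
    re ⟪p - W p, H (p - W p)⟫ ≤ (μ + 2 * s * (x + (m + s) / g)) * ‖p - W p‖ ^ 2 ∧
      ‖p‖ ≤ ‖p - W p‖ := by
  have hm0 : 0 ≤ m := (abs_nonneg _).trans hm
  have hmem : W p ∈ Q := hWQ p hp
  have horth' : ⟪p, -W p⟫ = 0 := horth p hp _ (Q.neg_mem hmem)
  have hn : ‖p - W p‖ ^ 2 = ‖p‖ ^ 2 + ‖W p‖ ^ 2 := by
    rw [sub_eq_add_neg, norm_add_sq_orth horth', norm_neg]
  constructor
  · have e1 : re ⟪W p, D0 (W p)⟫ = re ⟪V p, W p⟫ := by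
      rw [hW p hp, ← inner_conj_symm, conj_re]
    have h5 := (abs_le.1 (hD1 (W p) hmem)).2
    have h6 := hD (W p) hmem
    rw [e1] at h5 h6
    have h8 := abs_le.1 hm
    have h9 := hV p hp
    have hW2 : ‖W p‖ ^ 2 ≤ s / g * ‖p‖ ^ 2 := by
      rw [div_mul_eq_mul_div, le_div_iff₀ hg]; linarith
    have h10 : -μ * ‖W p‖ ^ 2 ≤ m * (s / g * ‖p‖ ^ 2) := by
      calc -μ * ‖W p‖ ^ 2 ≤ m * ‖W p‖ ^ 2 :=
            mul_le_mul_of_nonneg_right (by linarith [h8.1]) (sq_nonneg _)
        _ ≤ m * (s / g * ‖p‖ ^ 2) := mul_le_mul_of_nonneg_left hW2 hm0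
    have h11 : x * re ⟪V p, W p⟫ ≤ x * (s * ‖p‖ ^ 2) := mul_le_mul_of_nonneg_left h9 hx
    have h12 : 0 ≤ 2 * s * (x + (m + s) / g) * ‖W p‖ ^ 2 := by positivity
    have h13 : m * (s / g * ‖p‖ ^ 2) + x * (s * ‖p‖ ^ 2) ≤
        2 * s * (x + (m + s) / g) * ‖p‖ ^ 2 := by
      have h14 : 0 ≤ s * (x + m / g + 2 * s / g) * ‖p‖ ^ 2 := by positivity
      have h15 : 2 * s * (x + (m + s) / g) * ‖p‖ ^ 2 -
          (m * (s / g * ‖p‖ ^ 2) + x * (s * ‖p‖ ^ 2)) =
          s * (x + m / g + 2 * s / g) * ‖p‖ ^ 2 := by field_simp; ring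
      linarith
    have e0 : re ⟪p - W p, H (p - W p)⟫ =
        re ⟪p, H p⟫ - 2 * re ⟪V p, W p⟫ + re ⟪W p, H (W p)⟫ := by
      have e9 : re ⟪H p, -W p⟫ = -re ⟪V p, W p⟫ := by
        rw [inner_neg_right, map_neg, hVH p hp _ hmem]
      rw [sub_eq_add_neg, form_add hH, map_neg H, inner_neg_neg, e9]
      ring
    rw [e0, hn]
    nlinarith
  · have h1 : ‖p‖ ^ 2 ≤ ‖p - W p‖ ^ 2 := by
      rw [hn]; linarith [sq_nonneg ‖W p‖]
    exact (sq_le_sq₀ (norm_nonneg _) (norm_nonneg _)).1 h1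


end One

end Crest.Agent.R338.SG
end

-- ▼ part R338/SX4
section

/-!
Row 338 (S0529), node SX: superexchange, part 4.  The two-sided theorem:
the Hubbard type form `energy t D` on antisymmetric site tensors has the same lower end as the
Heisenberg form `Heis J`, `J = 4 t² / Δ`, up to an explicit error.
-/

set_option autoImplicit false
set_option maxSynthPendingDepth 3

open scoped ComplexConjugate BigOperators
open Function

namespace Crest.Agent.R338.SX

variable {n : ℕ}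

/-- energy of a site tensor: hopping + charge energy -/
noncomputable def energy (t D : Fin n → Fin n → ℝ) (c : X n) : ℝ :=
  RCLike.re (inner ℂ c (hop t c)) + ∑ f, G D f * ‖c f‖ ^ 2

/-- the Heisenberg form `∑_{i<j} J_ij (⟨χ, SWAP_ij χ⟩/2 - |χ|²/4) = ∑ J_ij ⟨χ, S_i·S_j χ⟩` -/
noncomputable def Heis (J : Fin n → Fin n → ℝ) (χ : Sp n) : ℝ :=
  ∑ i, ∑ j, if i < j then J i j * (swapE i j χ / 2 - nsq χ / 4) else 0

/-- `∑_{i<j} J_ij` -/
def Js (J : Fin n → Fin n → ℝ) : ℝ := ∑ i, ∑ j, if i < j then J i j else 0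

theorem sum_ne_eq_two_lt {F : Fin n → Fin n → ℝ} (hF : ∀ i j, F i j = F j i)
    (h0 : ∀ i, F i i = 0) : ∑ i, ∑ j, F i j = 2 * ∑ i, ∑ j, if i < j then F i j else 0 := by
  have h1 : ∀ i j, F i j = (if i < j then F i j else 0) + (if j < i then F j i else 0) := by
    intro i j
    rcases lt_trichotomy i j with h | h | h
    · rw [if_pos h, if_neg (not_lt_of_gt h), add_zero]
    · subst h; simp [h0]
    · rw [if_neg (not_lt_of_gt h), if_pos h, zero_add, hF]
  calc ∑ i, ∑ j, F i j = ∑ i, ∑ j, ((if i < j then F i j else 0) + (if j < i then F j i else 0)) := by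
        simp_rw [← h1]
    _ = (∑ i, ∑ j, if i < j then F i j else 0) + ∑ i, ∑ j, (if j < i then F j i else 0) := by
        simp_rw [Finset.sum_add_distrib]
    _ = _ := by
        rw [Finset.sum_comm (f := fun i j => if j < i then F j i else 0)]
        ring

theorem swapE_symm (a b : Fin n) (χ : Sp n) : swapE a b χ = swapE b a χ := by
  rw [swapE, swapE, Equiv.swap_comm]

theorem nsq_comp (χ : Sp n) (σ : Equiv.Perm (Fin n)) :
    ∑ s : Fin n → Bool, ‖χ (s ∘ σ)‖ ^ 2 = nsq χ := by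
  have := Equiv.sum_comp (σ.arrowCongr (Equiv.refl Bool)) (fun s => ‖χ s‖ ^ 2)
  have h2 := Equiv.sum_comp (σ.symm.arrowCongr (Equiv.refl Bool)) (fun s => ‖χ s‖ ^ 2)
  rw [nsq, ← h2]
  refine Finset.sum_congr rfl fun s _ => ?_
  rfl

theorem swapE_abs (a b : Fin n) (χ : Sp n) : |swapE a b χ| ≤ nsq χ := by
  have h1 : ∀ s, |(conj (χ s) * χ (s ∘ Equiv.swap a b)).re| ≤
      (‖χ s‖ ^ 2 + ‖χ (s ∘ Equiv.swap a b)‖ ^ 2) / 2 := by
    intro s
    refine (Complex.abs_re_le_norm _).trans ?_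
    rw [norm_mul, Complex.norm_conj]
    nlinarith [sq_nonneg (‖χ s‖ - ‖χ (s ∘ Equiv.swap a b)‖)]
  calc |swapE a b χ| ≤ ∑ s, |(conj (χ s) * χ (s ∘ Equiv.swap a b)).re| :=
        Finset.abs_sum_le_sum_abs _ _
    _ ≤ ∑ s, (‖χ s‖ ^ 2 + ‖χ (s ∘ Equiv.swap a b)‖ ^ 2) / 2 := Finset.sum_le_sum fun s _ => h1 s
    _ = nsq χ := by
        rw [← Finset.sum_div, Finset.sum_add_distrib, nsq_comp]
        rw [← nsq]; ring

/-- the second order term in terms of the Heisenberg form -/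
theorem second_order {J : Fin n → Fin n → ℝ} (hJs : ∀ i j, J i j = J j i)
    (hJ0 : ∀ i, J i i = 0) (χ : Sp n) :
    ∑ a, ∑ b, (J a b / 4) * (nsq χ - swapE a b χ) = Js J / 4 * nsq χ - Heis J χ := by
  rw [sum_ne_eq_two_lt (F := fun a b => (J a b / 4) * (nsq χ - swapE a b χ))]
  · rw [Js, Heis, Finset.mul_sum, Finset.sum_div, Finset.sum_mul, ← Finset.sum_sub_distrib]
    refine Finset.sum_congr rfl fun i _ => ?_
    rw [Finset.mul_sum, Finset.sum_div, Finset.sum_mul, ← Finset.sum_sub_distrib]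
    refine Finset.sum_congr rfl fun j _ => ?_
    split_ifs <;> ring
  · intro i j
    rw [hJs i j, swapE_symm]
  · intro i; simp [hJ0]

theorem Heis_bounds {J : Fin n → Fin n → ℝ} (hJ : ∀ i j, i < j → 0 ≤ J i j) (χ : Sp n) :
    -(3 / 4 * Js J) * nsq χ ≤ Heis J χ ∧ Heis J χ ≤ Js J / 4 * nsq χ := by
  have hn := nsq_nonneg χ
  constructor
  · rw [Js, Heis, Finset.mul_sum, ← Finset.sum_neg_distrib, Finset.sum_mul]
    refine Finset.sum_le_sum fun i _ => ?_
    rw [Finset.mul_sum, ← Finset.sum_neg_distrib, Finset.sum_mul]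
    refine Finset.sum_le_sum fun j _ => ?_
    split_ifs with h
    · have h1 := (abs_le.1 (swapE_abs i j χ)).1
      have h2 := hJ i j h
      nlinarith
    · simp
  · rw [Js, Heis, Finset.sum_div, Finset.sum_mul]
    refine Finset.sum_le_sum fun i _ => ?_
    rw [Finset.sum_div, Finset.sum_mul]
    refine Finset.sum_le_sum fun j _ => ?_
    split_ifs with h
    · have h1 := (abs_le.1 (swapE_abs i j χ)).2
      have h2 := hJ i j h
      nlinarith
    · simp

theorem Js_nonneg {J : Fin n → Fin n → ℝ} (hJ : ∀ i j, i < j → 0 ≤ J i j) : 0 ≤ Js J := by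
  refine Finset.sum_nonneg fun i _ => Finset.sum_nonneg fun j _ => ?_
  split_ifs with h
  · exact hJ i j h
  · exact le_rfl

theorem occ_nonneg (f : Cfg n) (i : Fin n) : 0 ≤ occ f i :=
  Finset.sum_nonneg fun k _ => by split_ifs <;> norm_num

theorem occ_le_two {f : Cfg n} (hf : Injective f) (i : Fin n) : occ f i ≤ 2 := by
  have h1 : occ f i = ((Finset.univ.filter fun k => (f k).1 = i).card : ℤ) := by
    simp [occ]
  rw [h1]
  have h2 : (Finset.univ.filter fun k => (f k).1 = i).card ≤ (Finset.univ : Finset Bool).card := by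
    refine Finset.card_le_card_of_injOn (fun k => (f k).2) (fun k _ => Finset.mem_univ _) ?_
    intro k hk l hl hkl
    simp only [Finset.coe_filter, Finset.mem_univ, true_and, Set.mem_ofPred_eq] at hk hl
    exact hf (Prod.ext (hk.trans hl.symm) hkl)
  have h3 : (Finset.univ : Finset Bool).card = 2 := by simp
  rw [h3] at h2
  exact_mod_cast h2

theorem anti_zero {c : X n} (hc : c ∈ antiS n) {f : Cfg n} (hf : ¬ Injective f) : c f = 0 := by
  simp only [Injective, not_forall] at hf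
  obtain ⟨k, l, hkl, hne⟩ := hf
  have h1 := hc (Equiv.swap k l) f
  have h2 : f ∘ Equiv.swap k l = f := by
    funext m
    simp only [comp_apply]
    by_cases h3 : m = k
    · subst h3; rw [Equiv.swap_apply_left, hkl]
    · by_cases h4 : m = l
      · subst h4; rw [Equiv.swap_apply_right, hkl]
      · rw [Equiv.swap_apply_of_ne_of_ne h3 h4]
  rw [h2, Equiv.Perm.sign_swap hne] at h1
  simp only [Units.val_neg, Units.val_one, Int.cast_neg, Int.cast_one, neg_mul, one_mul] at h1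
  have h5 : (2 : ℂ) * c f = 0 := by linear_combination h1
  simpa using h5

/-- the data of the superexchange theorem -/
structure Data (n : ℕ) where
  /-- hopping amplitudes -/
  t : Fin n → Fin n → ℝ
  /-- charging matrix -/
  D : Fin n → Fin n → ℝ
  /-- exchange couplings -/
  J : Fin n → Fin n → ℝ
  /-- charging gap -/
  g : ℝ
  ht : ∀ a b, t a b = t b a
  ht0 : ∀ a, t a a = 0
  hD : ∀ a b, D a b = D b a
  hg : 0 < g
  hDg : ∀ δ : Fin n → ℤ, (∀ i, |δ i| ≤ 1) → ∑ i, δ i = 0 → δ ≠ 0 →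
    2 * g ≤ ∑ i, ∑ j, D i j * ((δ i : ℝ) * (δ j : ℝ))
  hJ : ∀ a b, J a b * Del D a b = 4 * t a b ^ 2
  hJ0 : ∀ a, J a a = 0

namespace Data

variable (d : Data n)

/-- `∑ |t_ab|` -/
def tau : ℝ := ∑ a, ∑ b, |d.t a b|

theorem tau_nonneg : 0 ≤ d.tau :=
  Finset.sum_nonneg fun _ _ => Finset.sum_nonneg fun _ _ => abs_nonneg _

theorem G_ge {f : Cfg n} (hf : ¬ B f) (hinj : Injective f) : d.g ≤ G d.D f := by
  have h1 := d.hDg (fun i => occ f i - 1) (fun i => by
    have h1 := occ_nonneg f i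
    have h2 := occ_le_two hinj i
    rw [abs_le]; constructor <;> omega) (occ_sum f) (fun h => hf (B_of_occ fun i => by
    have := congrFun h i
    simp only [Pi.zero_apply] at this
    omega))
  rw [G]
  linarith

theorem Del_ge {a b : Fin n} (hab : a ≠ b) : d.g ≤ Del d.D a b := by
  have h1 := d.hDg (fun i => (if a = i then 1 else 0) - (if b = i then 1 else 0)) (fun i => by
    split_ifs <;> simp) (by
    simp [Finset.sum_sub_distrib]) (fun h => by
    have := congrFun h a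
    simp [hab.symm] at this)
  have h2 : (∑ i, ∑ j, d.D i j * (((((if a = i then 1 else 0) - (if b = i then 1 else 0) : ℤ)) : ℝ) *
      ((((if a = j then 1 else 0) - (if b = j then 1 else 0) : ℤ)) : ℝ))) = 2 * Del d.D a b := by
    have h1 : ∀ i j, d.D i j * (((((if a = i then 1 else 0) - (if b = i then 1 else 0) : ℤ)) : ℝ) *
      ((((if a = j then 1 else 0) - (if b = j then 1 else 0) : ℤ)) : ℝ)) =
        (if a = i then (if a = j then d.D i j else 0) else 0) -
        (if a = i then (if b = j then d.D i j else 0) else 0) -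
        (if b = i then (if a = j then d.D i j else 0) else 0) +
        (if b = i then (if b = j then d.D i j else 0) else 0) := by
      intro i j
      split_ifs <;> push_cast <;> ring
    simp only [h1, Finset.sum_add_distrib, Finset.sum_sub_distrib]
    have h2 : ∀ x y : Fin n, (∑ i, ∑ j, if x = i then (if y = j then d.D i j else 0) else 0) =
        d.D x y := by
      intro x y
      rw [Finset.sum_eq_single x]
      · simp
      · intro b _ hb
        simp [Ne.symm hb]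
      · simp
    rw [h2, h2, h2, h2]
    simp only [Del]
    rw [d.hD b a]
    ring
  rw [h2] at h1
  linarith

theorem Del_pos {a b : Fin n} (hab : a ≠ b) : 0 < Del d.D a b := d.hg.trans_le (d.Del_ge hab)

theorem J_symm (a b : Fin n) : d.J a b = d.J b a := by
  by_cases h : a = b
  · subst h; rfl
  · have h1 := d.hJ a b
    have h2 := d.hJ b a
    rw [Del_symm d.hD b a, d.ht b a, ← h1] at h2
    exact (mul_right_cancel₀ (d.Del_pos h).ne' h2).symm

theorem J_nonneg (a b : Fin n) : 0 ≤ d.J a b := by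
  by_cases h : a = b
  · subst h; rw [d.hJ0]
  · have h1 := d.hJ a b
    by_contra hneg
    push Not at hneg
    have := mul_neg_of_neg_of_pos hneg (d.Del_pos h)
    nlinarith [sq_nonneg (d.t a b)]

/-- the Hamiltonian -/
noncomputable def H : X n →ₗ[ℂ] X n := hop d.t + diag (G d.D)

theorem H_symm : d.H.IsSymmetric := by
  intro x y
  rw [H, LinearMap.add_apply, LinearMap.add_apply, inner_add_left, inner_add_right,
    hop_symm d.ht x y, diag_symm (G d.D) x y]

theorem energy_eq (c : X n) : energy d.t d.D c = RCLike.re (inner ℂ c (d.H c)) := by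
  rw [energy, H, LinearMap.add_apply, inner_add_right, map_add, diag_inner]

theorem diag_PS {p : X n} (hp : p ∈ PS n) : diag (G d.D) p = 0 := by
  ext f
  rw [diag_apply]
  by_cases h : B f
  · rw [G_B _ h]; simp
  · rw [hp.2 f h]; simp

theorem diag_QS {q : X n} (hq : q ∈ QS n) : diag (G d.D) q ∈ QS n := by
  refine ⟨fun σ f => ?_, fun f hf => ?_⟩
  · rw [diag_apply, diag_apply, G_comp, hq.1 σ f]; ring
  · rw [diag_apply, hq.2 f hf, mul_zero]

theorem gap_QS {q : X n} (hq : q ∈ QS n) :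
    d.g * ‖q‖ ^ 2 ≤ RCLike.re (inner ℂ q (diag (G d.D) q)) := by
  rw [diag_inner, norm_sq_def, Finset.mul_sum]
  refine Finset.sum_le_sum fun f _ => ?_
  by_cases h : B f
  · rw [hq.2 f h]; simp
  · by_cases hinj : Injective f
    · exact mul_le_mul_of_nonneg_right (d.G_ge h hinj) (by positivity)
    · rw [anti_zero hq.1 hinj]; simp

/-- `V = hopping` on `PS` -/
noncomputable def V (p : X n) : X n := hop d.t p

/-- `W = D0⁻¹ V` -/
noncomputable def W (p : X n) : X n :=
  ∑ a, ∑ b, ((d.t a b / Del d.D a b : ℝ) : ℂ) • K a b p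

theorem V_mem {p : X n} (hp : p ∈ PS n) : d.V p ∈ QS n := by
  rw [V, hop_apply]
  refine Submodule.sum_mem _ fun a _ => Submodule.sum_mem _ fun b _ => ?_
  by_cases h : a = b
  · subst h; rw [d.ht0]; simp
  · exact Submodule.smul_mem _ _ (K_mem_Q h hp)

theorem W_mem {p : X n} (hp : p ∈ PS n) : d.W p ∈ QS n := by
  refine Submodule.sum_mem _ fun a _ => Submodule.sum_mem _ fun b _ => ?_
  by_cases h : a = b
  · subst h; rw [d.ht0]; simp
  · exact Submodule.smul_mem _ _ (K_mem_Q h hp)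

theorem diag_W {p : X n} (hp : p ∈ PS n) : diag (G d.D) (d.W p) = d.V p := by
  rw [W, V, hop_apply, map_sum]
  refine Finset.sum_congr rfl fun a _ => ?_
  rw [map_sum]
  refine Finset.sum_congr rfl fun b _ => ?_
  rw [map_smul]
  by_cases h : a = b
  · subst h; rw [d.ht0]; simp
  · rw [diag_K d.hD hp, smul_smul, ← Complex.ofReal_mul, div_mul_cancel₀ _ (d.Del_pos h).ne']

theorem VW {p : X n} (hp : p ∈ PS n) : RCLike.re (inner ℂ (d.V p) (d.W p)) =
    n.factorial * (Js d.J / 4 * nsq (spin p) - Heis d.J (spin p)) := by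
  rw [← second_order d.J_symm d.hJ0]
  rw [V, W, hop_apply]
  simp only [sum_inner, inner_sum, inner_smul_left, inner_smul_right, Complex.conj_ofReal,
    map_sum]
  rw [Finset.mul_sum]
  refine Finset.sum_congr rfl fun a _ => ?_
  rw [Finset.mul_sum]
  refine Finset.sum_congr rfl fun b _ => ?_
  by_cases h : a = b
  · subst h
    simp [d.ht0, d.hJ0]
  · rw [Finset.sum_eq_single a]
    · rw [Finset.sum_eq_single b]
      · have e1 : RCLike.re (((d.t a b / Del d.D a b : ℝ) : ℂ) * (((d.t a b : ℝ) : ℂ) *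
            inner ℂ (K a b p) (K a b p))) =
            ((d.t a b / Del d.D a b) * d.t a b) * RCLike.re (inner ℂ (K a b p) (K a b p)) := by
          rw [← mul_assoc, ← Complex.ofReal_mul]
          exact Complex.re_ofReal_mul _ _
        rw [e1, K_norm_sq h hp]
        have e2 : (d.t a b / Del d.D a b) * d.t a b = d.J a b / 4 := by
          have h3 := d.hJ a b
          have h4 := (d.Del_pos h).ne'
          field_simp
          nlinarith
        rw [e2]; ring
      · intro b' _ hb'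
        by_cases h5 : a = b'
        · subst h5; simp [d.ht0]
        · have h6 : (a, b') ≠ (a, b) := fun e => hb' (Prod.ext_iff.1 e).2
          rw [K_orth h5 h h6 hp]
          simp
      · intro h5; exact absurd (Finset.mem_univ _) h5
    · intro a' _ ha'
      refine Finset.sum_eq_zero fun b' _ => ?_
      by_cases h5 : a' = b'
      · subst h5; simp [d.ht0]
      · have h6 : (a', b') ≠ (a, b) := fun e => ha' (Prod.ext_iff.1 e).1
        rw [K_orth h5 h h6 hp]
        simp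
    · intro h5; exact absurd (Finset.mem_univ _) h5

/-- relative size of the hopping -/
noncomputable def x : ℝ := n * d.tau / d.g

/-- total error -/
noncomputable def err : ℝ := 2 * Js d.J * (d.x + 2 * Js d.J / d.g)

theorem x_nonneg : 0 ≤ d.x := by
  have := d.tau_nonneg
  have := d.hg
  unfold x; positivity

theorem hop_rel {q : X n} (hq : q ∈ QS n) :
    |RCLike.re (inner ℂ q (d.H q)) - RCLike.re (inner ℂ q (diag (G d.D) q))| ≤
      d.x * RCLike.re (inner ℂ q (diag (G d.D) q)) := by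
  rw [H, LinearMap.add_apply, inner_add_right, map_add, add_sub_cancel_right]
  have h1 : |RCLike.re (inner ℂ q (hop d.t q))| ≤ (n * d.tau) * ‖q‖ ^ 2 := by
    refine (RCLike.abs_re_le_norm _).trans ((norm_inner_le_norm _ _).trans ?_)
    calc ‖q‖ * ‖hop d.t q‖ ≤ ‖q‖ * ((n * d.tau) * ‖q‖) := by
          gcongr; exact hop_norm d.t q
      _ = (n * d.tau) * ‖q‖ ^ 2 := by ring
  have h2 := d.gap_QS hq
  have h3 : (n * d.tau) * ‖q‖ ^ 2 = d.x * (d.g * ‖q‖ ^ 2) := by
    unfold x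
    have := d.hg.ne'
    field_simp
  rw [h3] at h1
  exact h1.trans (mul_le_mul_of_nonneg_left h2 d.x_nonneg)

theorem VH {p q : X n} (hp : p ∈ PS n) :
    RCLike.re (inner ℂ (d.H p) q) = RCLike.re (inner ℂ (d.V p) q) := by
  rw [H, LinearMap.add_apply, d.diag_PS hp, add_zero, V]

theorem PHP {p : X n} (hp : p ∈ PS n) : RCLike.re (inner ℂ p (d.H p)) = 0 := by
  rw [H, LinearMap.add_apply, d.diag_PS hp, add_zero]
  have := PQ_orth hp (d.V_mem hp)
  rw [V] at this
  rw [this]; simp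

theorem VW_le {p : X n} (hp : p ∈ PS n) :
    RCLike.re (inner ℂ (d.V p) (d.W p)) ≤ Js d.J * ‖p‖ ^ 2 := by
  rw [d.VW hp, norm_sq_PS hp]
  have h1 := (Heis_bounds (fun i j _ => d.J_nonneg i j) (spin p)).1
  have h2 : (0 : ℝ) ≤ n.factorial := by positivity
  nlinarith

/-- **Superexchange, lower bound.** -/
theorem lower (hc : d.x + 2 * Js d.J / d.g ≤ 1 / 2) {e : ℝ}
    (he : ∀ χ : Sp n, e * nsq χ ≤ Heis d.J χ) {c : X n} (hcs : c ∈ antiS n) :
    (e - Js d.J / 4 - d.err) * ‖c‖ ^ 2 ≤ energy d.t d.D c := by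
  obtain ⟨p, hp, q, hq, rfl⟩ := exists_split hcs
  have hJ : ∀ i j, i < j → 0 ≤ d.J i j := fun i j _ => d.J_nonneg i j
  have hs0 : 0 ≤ Js d.J := Js_nonneg hJ
  -- replace `e` by a bounded value
  set e' := max (min e (Js d.J / 4)) (-(3 / 4 * Js d.J)) with he'
  have hb1 : e' ≤ Js d.J / 4 := max_le (min_le_right _ _) (by linarith)
  have hb2 : -(3 / 4 * Js d.J) ≤ e' := le_max_right _ _
  have he1 : ∀ χ : Sp n, e' * nsq χ ≤ Heis d.J χ := by
    intro χ
    rcases le_total (min e (Js d.J / 4)) (-(3 / 4 * Js d.J)) with h | h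
    · rw [he', max_eq_right h]; exact (Heis_bounds hJ χ).1
    · rw [he', max_eq_left h]
      exact (mul_le_mul_of_nonneg_right (min_le_left _ _) (nsq_nonneg χ)).trans (he χ)
  have key := SG.schur_rel_lower_one (𝕜 := ℂ) (X := X n) (P := PS n) (Q := QS n)
    (fun p hp q hq => PQ_orth hp hq) d.H_symm (diag_symm (G d.D)) (fun q hq => d.diag_QS hq)
    d.hg hs0 d.x_nonneg (fun q hq => d.gap_QS hq) (V := d.V) (W := d.W)
    (fun p hp => d.W_mem hp) (fun p hp => d.diag_W hp) (fun p hp => d.VW_le hp)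
    (fun p hp q _ => d.VH hp) (fun q hq => d.hop_rel hq) (m := Js d.J)
    (μ := e' - Js d.J / 4) (abs_le.2 ⟨by linarith, by linarith⟩)
    (by have : d.x + (Js d.J + Js d.J) / d.g = d.x + 2 * Js d.J / d.g := by ring
        rw [this]; exact hc)
    (fun p hp => by
      rw [d.PHP hp, d.VW hp, norm_sq_PS hp]
      have h1 := he1 (spin p)
      have h2 : (0 : ℝ) ≤ n.factorial := by positivity
      nlinarith) hp hq
  rw [d.energy_eq]
  have herr : 2 * Js d.J * (d.x + (Js d.J + Js d.J) / d.g) = d.err := by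
    unfold err; ring
  rw [herr] at key
  by_cases hee : e ≤ Js d.J / 4
  · have h3 : e ≤ e' := by
      rw [he', min_eq_left hee]; exact le_max_left _ _
    refine le_trans ?_ key
    exact mul_le_mul_of_nonneg_right (by linarith) (sq_nonneg _)
  · -- then the space of spin vectors would be trivial, impossible
    exfalso
    push Not at hee
    have h1 := he (fun _ => 1)
    have h2 := (Heis_bounds hJ (fun _ => 1)).2
    have h3 : 0 < nsq (fun _ : Fin n → Bool => (1 : ℂ)) := by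
      unfold nsq; simp
    nlinarith

/-- **Superexchange, upper bound.** -/
theorem upper {χ : Sp n} (hχ : 0 < nsq χ) {e : ℝ} (he : Heis d.J χ ≤ e * nsq χ) :
    ∃ c ∈ antiS n, 0 < ‖c‖ ∧ energy d.t d.D c ≤ (e - Js d.J / 4 + d.err) * ‖c‖ ^ 2 := by
  have hJ : ∀ i j, i < j → 0 ≤ d.J i j := fun i j _ => d.J_nonneg i j
  have hs0 : 0 ≤ Js d.J := Js_nonneg hJ
  set e' := Heis d.J χ / nsq χ with he'
  have hee : e' ≤ e := by rw [he', div_le_iff₀ hχ]; exact he
  have hb1 : e' ≤ Js d.J / 4 := by rw [he', div_le_iff₀ hχ]; exact (Heis_bounds hJ χ).2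
  have hb2 : -(3 / 4 * Js d.J) ≤ e' := by
    rw [he', le_div_iff₀ hχ]; exact (Heis_bounds hJ χ).1
  have heq : Heis d.J χ = e' * nsq χ := by rw [he']; field_simp
  have hp := Phi_mem χ
  have key := SG.schur_rel_upper_one (𝕜 := ℂ) (X := X n) (P := PS n) (Q := QS n)
    (fun p hp q hq => PQ_orth hp hq) (D0 := diag (G d.D)) d.H_symm
    d.hg hs0 d.x_nonneg (fun q hq => d.gap_QS hq) (V := d.V) (W := d.W)
    (fun p hp => d.W_mem hp) (fun p hp => d.diag_W hp) (fun p hp => d.VW_le hp)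
    (fun p hp q _ => d.VH hp) (fun q hq => d.hop_rel hq) (m := Js d.J)
    (μ := e' - Js d.J / 4) (abs_le.2 ⟨by linarith, by linarith⟩) hp
    (by
      rw [d.PHP hp, d.VW hp, norm_sq_PS hp, spin_Phi, heq]
      exact le_of_eq (by ring))
  refine ⟨Phi χ - d.W (Phi χ), (antiS n).sub_mem hp.1 (d.W_mem hp).1, ?_, ?_⟩
  · refine lt_of_lt_of_le ?_ key.2
    have h1 : 0 < ‖Phi χ‖ ^ 2 := by
      rw [norm_sq_PS hp, spin_Phi]
      positivity
    rcases (norm_nonneg (Phi χ)).eq_or_lt with h2 | h2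
    · rw [← h2] at h1; norm_num at h1
    · exact h2
  · rw [d.energy_eq]
    refine key.1.trans ?_
    refine mul_le_mul_of_nonneg_right ?_ (sq_nonneg _)
    have herr : 2 * Js d.J * (d.x + (Js d.J + Js d.J) / d.g) = d.err := by
      unfold err; ring
    rw [herr]
    linarith

end Data

end Crest.Agent.R338.SX
end

-- ▼ part R338/SX5
section

/-!
Row 338 (S0529), node SX / B.4: the form of one-body + two-body operators on site tensors is
`const + energy t D` up to the non-classical integrals.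
-/

set_option autoImplicit false
set_option maxSynthPendingDepth 3

open scoped ComplexConjugate BigOperators
open Function

namespace Crest.Agent.R338.SX

variable {n : ℕ}

/-- one-body form on site tensors -/
noncomputable def site1 (h : Fin n → Fin n → ℝ) (c : X n) : ℝ :=
  ∑ f : Cfg n, ∑ k, ∑ j, h (f k).1 j * (conj (c f) * c (mv f k j)).re

/-- two-body form on site tensors -/
noncomputable def site2 (W : Fin n → Fin n → Fin n → Fin n → ℝ) (c : X n) : ℝ :=
  ∑ f : Cfg n, ∑ k, ∑ l, if k < l then ∑ i, ∑ j, W (f k).1 i (f l).1 j *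
    (conj (c f) * c (mv (mv f k i) l j)).re else 0

/-- the full form -/
noncomputable def siteForm (h : Fin n → Fin n → ℝ) (W : Fin n → Fin n → Fin n → Fin n → ℝ)
    (c : X n) : ℝ := site1 h c + site2 W c

theorem site1_eq (h : Fin n → Fin n → ℝ) (c : X n) :
    site1 h c = RCLike.re (inner ℂ c (hop h c)) := by
  rw [inner_def, map_sum, site1]
  refine Finset.sum_congr rfl fun f _ => ?_
  rw [hop_sum, Finset.mul_sum, map_sum]
  refine Finset.sum_congr rfl fun k _ => ?_
  rw [Finset.mul_sum, map_sum]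
  refine Finset.sum_congr rfl fun j _ => ?_
  have : conj (c f) * (((h (f k).1 j : ℝ) : ℂ) * c (mv f k j)) =
      ((h (f k).1 j : ℝ) : ℂ) * (conj (c f) * c (mv f k j)) := by ring
  rw [this]
  exact (Complex.re_ofReal_mul _ _).symm

theorem site1_add (h h' : Fin n → Fin n → ℝ) (c : X n) :
    site1 (fun a b => h a b + h' a b) c = site1 h c + site1 h' c := by
  simp only [site1, add_mul, Finset.sum_add_distrib]

theorem site1_abs (h : Fin n → Fin n → ℝ) (c : X n) :
    |site1 h c| ≤ (n * ∑ a, ∑ b, |h a b|) * ‖c‖ ^ 2 := by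
  rw [site1_eq]
  refine (RCLike.abs_re_le_norm _).trans ((norm_inner_le_norm _ _).trans ?_)
  calc ‖c‖ * ‖hop h c‖ ≤ ‖c‖ * ((n * ∑ a, ∑ b, |h a b|) * ‖c‖) := by
        gcongr; exact hop_norm h c
    _ = _ := by ring

/-- diagonal one-body operators -/
theorem site1_diag (m : Fin n → ℝ) (c : X n) :
    site1 (fun a b => if a = b then m a else 0) c = ∑ f : Cfg n, (∑ k, m (f k).1) * ‖c f‖ ^ 2 := by
  rw [site1]
  refine Finset.sum_congr rfl fun f _ => ?_
  rw [Finset.sum_mul]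
  refine Finset.sum_congr rfl fun k _ => ?_
  rw [Finset.sum_eq_single (f k).1]
  · rw [if_pos rfl, mv_self, Complex.conj_mul']
    norm_cast
  · intro b _ hb
    rw [if_neg (Ne.symm hb), zero_mul]
  · intro h; exact absurd (Finset.mem_univ _) h

/-- the classical part of the two-body form -/
theorem site2_split (W : Fin n → Fin n → Fin n → Fin n → ℝ) (c : X n) :
    site2 W c = (∑ f : Cfg n, (∑ k, ∑ l, if k < l then W (f k).1 (f k).1 (f l).1 (f l).1 else 0) *
        ‖c f‖ ^ 2) +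
      site2 (fun a b a' b' => if a = b ∧ a' = b' then 0 else W a b a' b') c := by
  rw [site2, site2, ← Finset.sum_add_distrib]
  refine Finset.sum_congr rfl fun f _ => ?_
  rw [Finset.sum_mul, ← Finset.sum_add_distrib]
  refine Finset.sum_congr rfl fun k _ => ?_
  rw [Finset.sum_mul, ← Finset.sum_add_distrib]
  refine Finset.sum_congr rfl fun l _ => ?_
  by_cases hkl : k < l
  · simp only [if_pos hkl]
    have h1 : ∀ i j, W (f k).1 i (f l).1 j * (conj (c f) * c (mv (mv f k i) l j)).re =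
        (if (f k).1 = i ∧ (f l).1 = j then W (f k).1 i (f l).1 j *
          (conj (c f) * c (mv (mv f k i) l j)).re else 0) +
        (if (f k).1 = i ∧ (f l).1 = j then 0 else W (f k).1 i (f l).1 j) *
          (conj (c f) * c (mv (mv f k i) l j)).re := by
      intro i j
      split_ifs <;> ring
    rw [Finset.sum_congr rfl fun i _ => Finset.sum_congr rfl fun j _ => h1 i j]
    simp only [Finset.sum_add_distrib]
    congr 1
    rw [Finset.sum_eq_single (f k).1, Finset.sum_eq_single (f l).1]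
    · rw [if_pos ⟨rfl, rfl⟩, mv_self, mv_self, Complex.conj_mul']
      norm_cast
    · intro b _ hb
      rw [if_neg (fun h => hb h.2.symm)]
    · intro h; exact absurd (Finset.mem_univ _) h
    · intro b _ hb
      refine Finset.sum_eq_zero fun b' _ => ?_
      rw [if_neg (fun h => hb h.1.symm)]
    · intro h; exact absurd (Finset.mem_univ _) h
  · simp only [if_neg hkl]; ring

/-- counting: summing over all moves of one electron -/
theorem sum_mv_all (F : Cfg n → ℝ) (k : Fin n) :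
    ∑ f : Cfg n, ∑ i, F (mv f k i) = n * ∑ f, F f := by
  rw [Finset.sum_comm]
  have h1 : ∀ i : Fin n, ∑ f : Cfg n, F (mv f k i) =
      ∑ _a : Fin n, ∑ g : Cfg n, if (g k).1 = i then F g else 0 := by
    intro i
    have h2 : ∀ f : Cfg n, F (mv f k i) = ∑ a : Fin n, if (f k).1 = a then F (mv f k i) else 0 := by
      intro f; simp
    calc ∑ f : Cfg n, F (mv f k i)
        = ∑ f : Cfg n, ∑ a : Fin n, if (f k).1 = a then F (mv f k i) else 0 :=
          Finset.sum_congr rfl fun f _ => h2 f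
      _ = ∑ a : Fin n, ∑ f : Cfg n, if (f k).1 = a then F (mv f k i) else 0 := Finset.sum_comm
      _ = _ := Finset.sum_congr rfl fun a _ => sum_mv a i k (fun _ g => F g)
  have h3 : (∑ i : Fin n, ∑ g : Cfg n, if (g k).1 = i then F g else 0) = ∑ g, F g := by
    rw [Finset.sum_comm]
    refine Finset.sum_congr rfl fun g _ => ?_
    simp
  calc ∑ i : Fin n, ∑ f : Cfg n, F (mv f k i)
      = ∑ i : Fin n, ∑ _a : Fin n, ∑ g : Cfg n, (if (g k).1 = i then F g else 0) :=
        Finset.sum_congr rfl fun i _ => h1 i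
    _ = ∑ _a : Fin n, ∑ i : Fin n, ∑ g : Cfg n, (if (g k).1 = i then F g else 0) :=
        Finset.sum_comm
    _ = n * ∑ f, F f := by rw [h3]; simp

theorem site2_abs {W : Fin n → Fin n → Fin n → Fin n → ℝ} {r : ℝ}
    (hW : ∀ a b a' b', |W a b a' b'| ≤ r) (c : X n) :
    |site2 W c| ≤ n ^ 4 * r * ‖c‖ ^ 2 := by
  have hr0 : n = 0 ∨ 0 ≤ r := by
    rcases Nat.eq_zero_or_pos n with h | h
    · exact Or.inl h
    · exact Or.inr ((abs_nonneg _).trans (hW ⟨0, h⟩ ⟨0, h⟩ ⟨0, h⟩ ⟨0, h⟩))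
  rcases hr0 with h0 | hr
  · subst h0
    simp [site2]
  have key : ∀ k l : Fin n, |∑ f : Cfg n, if k < l then ∑ i, ∑ j, W (f k).1 i (f l).1 j *
      (conj (c f) * c (mv (mv f k i) l j)).re else 0| ≤ n ^ 2 * r * ‖c‖ ^ 2 := by
    intro k l
    by_cases hkl : k < l
    · simp only [if_pos hkl]
      have h1 : ∀ (f : Cfg n) (i j : Fin n), |W (f k).1 i (f l).1 j *
          (conj (c f) * c (mv (mv f k i) l j)).re| ≤
          r * ((‖c f‖ ^ 2 + ‖c (mv (mv f k i) l j)‖ ^ 2) / 2) := by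
        intro f i j
        rw [abs_mul]
        refine mul_le_mul (hW _ _ _ _) ?_ (abs_nonneg _) hr
        refine (Complex.abs_re_le_norm _).trans ?_
        rw [norm_mul, Complex.norm_conj]
        nlinarith [sq_nonneg (‖c f‖ - ‖c (mv (mv f k i) l j)‖)]
      have h2 : |∑ f : Cfg n, ∑ i, ∑ j, W (f k).1 i (f l).1 j *
          (conj (c f) * c (mv (mv f k i) l j)).re| ≤
          ∑ f : Cfg n, ∑ i, ∑ j, r * ((‖c f‖ ^ 2 + ‖c (mv (mv f k i) l j)‖ ^ 2) / 2) := by
        refine (Finset.abs_sum_le_sum_abs _ _).trans (Finset.sum_le_sum fun f _ => ?_)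
        refine (Finset.abs_sum_le_sum_abs _ _).trans (Finset.sum_le_sum fun i _ => ?_)
        exact (Finset.abs_sum_le_sum_abs _ _).trans (Finset.sum_le_sum fun j _ => h1 f i j)
      refine h2.trans (le_of_eq ?_)
      have h3 : ∑ f : Cfg n, ∑ i, ∑ j, ‖c (mv (mv f k i) l j)‖ ^ 2 = n ^ 2 * ‖c‖ ^ 2 := by
        have e1 := sum_mv_all (fun g : Cfg n => ∑ j, ‖c (mv g l j)‖ ^ 2) k
        have e2 := sum_mv_all (fun g : Cfg n => ‖c g‖ ^ 2) l
        calc ∑ f : Cfg n, ∑ i, ∑ j, ‖c (mv (mv f k i) l j)‖ ^ 2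
            = n * ∑ f : Cfg n, ∑ j, ‖c (mv f l j)‖ ^ 2 := e1
          _ = n * (n * ∑ f : Cfg n, ‖c f‖ ^ 2) := by rw [e2]
          _ = n ^ 2 * ‖c‖ ^ 2 := by rw [← norm_sq_def]; ring
      have h4 : ∑ f : Cfg n, ∑ _i : Fin n, ∑ _j : Fin n, ‖c f‖ ^ 2 = n ^ 2 * ‖c‖ ^ 2 := by
        simp only [Finset.sum_const, Finset.card_univ, Fintype.card_fin, nsmul_eq_mul]
        rw [norm_sq_def, ← Finset.mul_sum, ← Finset.mul_sum]
        ring
      calc ∑ f : Cfg n, ∑ i, ∑ j, r * ((‖c f‖ ^ 2 + ‖c (mv (mv f k i) l j)‖ ^ 2) / 2)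
          = r / 2 * (∑ f : Cfg n, ∑ _i : Fin n, ∑ _j : Fin n, ‖c f‖ ^ 2) +
            r / 2 * ∑ f : Cfg n, ∑ i, ∑ j, ‖c (mv (mv f k i) l j)‖ ^ 2 := by
            rw [← mul_add, ← Finset.sum_add_distrib, Finset.mul_sum]
            refine Finset.sum_congr rfl fun f _ => ?_
            rw [← Finset.sum_add_distrib, Finset.mul_sum]
            refine Finset.sum_congr rfl fun i _ => ?_
            rw [← Finset.sum_add_distrib, Finset.mul_sum]
            refine Finset.sum_congr rfl fun j _ => ?_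
            ring
        _ = n ^ 2 * r * ‖c‖ ^ 2 := by rw [h3, h4]; ring
    · simp only [if_neg hkl, Finset.sum_const_zero, abs_zero]
      positivity
  have h5 : site2 W c = ∑ k, ∑ l, ∑ f : Cfg n, if k < l then ∑ i, ∑ j, W (f k).1 i (f l).1 j *
      (conj (c f) * c (mv (mv f k i) l j)).re else 0 := by
    rw [site2, Finset.sum_comm]
    refine Finset.sum_congr rfl fun k _ => ?_
    rw [Finset.sum_comm]
  rw [h5]
  calc |∑ k, ∑ l, ∑ f : Cfg n, if k < l then ∑ i, ∑ j, W (f k).1 i (f l).1 j *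
      (conj (c f) * c (mv (mv f k i) l j)).re else 0|
      ≤ ∑ k : Fin n, ∑ l : Fin n, n ^ 2 * r * ‖c‖ ^ 2 := by
        refine (Finset.abs_sum_le_sum_abs _ _).trans (Finset.sum_le_sum fun k _ => ?_)
        exact (Finset.abs_sum_le_sum_abs _ _).trans (Finset.sum_le_sum fun l _ => key k l)
    _ = n ^ 4 * r * ‖c‖ ^ 2 := by
        simp only [Finset.sum_const, Finset.card_univ, Fintype.card_fin, nsmul_eq_mul]
        ring

/-- sums over electrons in terms of occupation numbers -/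
theorem sum_occ (m : Fin n → ℝ) (f : Cfg n) : ∑ k, m (f k).1 = ∑ i, (occ f i : ℝ) * m i := by
  have h1 : ∀ i, (occ f i : ℝ) * m i = ∑ k, if (f k).1 = i then m i else 0 := by
    intro i
    simp only [occ]
    push_cast
    rw [Finset.sum_mul]
    refine Finset.sum_congr rfl fun k _ => ?_
    split_ifs <;> simp
  simp_rw [h1]
  rw [Finset.sum_comm]
  refine Finset.sum_congr rfl fun k _ => ?_
  simp

/-- the classical energy -/
theorem charge_identity {D : Fin n → Fin n → ℝ} (hD : ∀ a b, D a b = D b a) (f : Cfg n) :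
    (∑ k, (-(D (f k).1 (f k).1) / 2 - ∑ j ∈ Finset.univ.erase (f k).1, D (f k).1 j)) +
      (∑ k, ∑ l, if k < l then D (f k).1 (f l).1 else 0) =
    G D f - (∑ i, D i i) / 2 - ∑ i, ∑ j, if i < j then D i j else 0 := by
  -- pair sum
  have h1 : ∑ k, ∑ l, D (f k).1 (f l).1 =
      2 * (∑ k, ∑ l, if k < l then D (f k).1 (f l).1 else 0) + ∑ k, D (f k).1 (f k).1 := by
    have e := sum_ne_eq_two_lt (F := fun k l : Fin n => if k = l then 0 else D (f k).1 (f l).1)
      (fun i j => by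
        by_cases h : i = j
        · subst h; rfl
        · simp only [if_neg h, if_neg (Ne.symm h)]; exact hD _ _) (fun i => by simp)
    have e2 : ∀ k l : Fin n, (if k < l then (if k = l then 0 else D (f k).1 (f l).1) else 0) =
        if k < l then D (f k).1 (f l).1 else 0 := by
      intro k l
      by_cases h : k < l
      · simp only [if_pos h, if_neg h.ne]
      · simp only [if_neg h]
    simp_rw [e2] at e
    rw [← e, ← Finset.sum_add_distrib]
    refine Finset.sum_congr rfl fun k _ => ?_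
    have e3 : ∀ l, D (f k).1 (f l).1 = (if k = l then 0 else D (f k).1 (f l).1) +
        if k = l then D (f k).1 (f k).1 else 0 := by
      intro l
      by_cases h : k = l
      · subst h; simp
      · simp [h]
    calc ∑ l, D (f k).1 (f l).1 = ∑ l, ((if k = l then 0 else D (f k).1 (f l).1) +
        if k = l then D (f k).1 (f k).1 else 0) := Finset.sum_congr rfl fun l _ => e3 l
      _ = _ := by rw [Finset.sum_add_distrib]; simp
  have h2 : ∑ i, ∑ j, D i j = 2 * (∑ i, ∑ j, if i < j then D i j else 0) + ∑ i, D i i := by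
    have e := sum_ne_eq_two_lt (F := fun k l : Fin n => if k = l then 0 else D k l)
      (fun i j => by
        by_cases h : i = j
        · subst h; rfl
        · simp only [if_neg h, if_neg (Ne.symm h)]; exact hD _ _) (fun i => by simp)
    have e2 : ∀ k l : Fin n, (if k < l then (if k = l then 0 else D k l) else 0) =
        if k < l then D k l else 0 := by
      intro k l
      by_cases h : k < l
      · simp only [if_pos h, if_neg h.ne]
      · simp only [if_neg h]
    simp_rw [e2] at e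
    rw [← e, ← Finset.sum_add_distrib]
    refine Finset.sum_congr rfl fun k _ => ?_
    have e3 : ∀ l, D k l = (if k = l then 0 else D k l) + if k = l then D k k else 0 := by
      intro l
      by_cases h : k = l
      · subst h; simp
      · simp [h]
    calc ∑ l, D k l = ∑ l, ((if k = l then 0 else D k l) +
        if k = l then D k k else 0) := Finset.sum_congr rfl fun l _ => e3 l
      _ = _ := by rw [Finset.sum_add_distrib]; simp
  have h3 : ∀ i, ∑ j ∈ Finset.univ.erase i, D i j = ∑ j, D i j - D i i := by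
    intro i
    rw [← Finset.add_sum_erase _ _ (Finset.mem_univ i)]; ring
  simp_rw [h3]
  -- occupation numbers
  have h4 : ∑ k, ∑ l, D (f k).1 (f l).1 = ∑ i, ∑ j, (occ f i : ℝ) * (occ f j : ℝ) * D i j := by
    rw [sum_occ (fun i => ∑ l, D i (f l).1) f]
    refine Finset.sum_congr rfl fun i _ => ?_
    rw [sum_occ (fun j => D i j) f, Finset.mul_sum]
    refine Finset.sum_congr rfl fun j _ => ?_
    ring
  have h5 : ∑ k, (-(D (f k).1 (f k).1) / 2 - (∑ j, D (f k).1 j - D (f k).1 (f k).1)) =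
      (∑ k, D (f k).1 (f k).1) / 2 - ∑ i, ∑ j, (occ f i : ℝ) * D i j := by
    have e1 := sum_occ (fun i => ∑ j, D i j) f
    have e2 : ∑ i, ∑ j, (occ f i : ℝ) * D i j = ∑ k, ∑ j, D (f k).1 j := by
      rw [e1]
      refine Finset.sum_congr rfl fun i _ => ?_
      rw [Finset.mul_sum]
    rw [e2, Finset.sum_div, ← Finset.sum_sub_distrib]
    refine Finset.sum_congr rfl fun k _ => ?_
    ring
  have h6 : G D f = (1 / 2) * ∑ i, ∑ j, (occ f i : ℝ) * (occ f j : ℝ) * D i j -
      ∑ i, ∑ j, (occ f i : ℝ) * D i j + (1 / 2) * ∑ i, ∑ j, D i j := by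
    have e1 : ∑ i, ∑ j, (occ f j : ℝ) * D i j = ∑ i, ∑ j, (occ f i : ℝ) * D i j := by
      rw [Finset.sum_comm]
      refine Finset.sum_congr rfl fun i _ => Finset.sum_congr rfl fun j _ => ?_
      rw [hD j i]
    have e2 : ∑ i, ∑ j, D i j * (((occ f i - 1 : ℤ) : ℝ) * ((occ f j - 1 : ℤ) : ℝ)) =
        ∑ i, ∑ j, (occ f i : ℝ) * (occ f j : ℝ) * D i j - ∑ i, ∑ j, (occ f i : ℝ) * D i j -
        ∑ i, ∑ j, (occ f j : ℝ) * D i j + ∑ i, ∑ j, D i j := by
      simp only [← Finset.sum_sub_distrib, ← Finset.sum_add_distrib]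
      refine Finset.sum_congr rfl fun i _ => Finset.sum_congr rfl fun j _ => ?_
      push_cast; ring
    rw [G, e2, e1]; ring
  rw [h5, h6]
  linarith

/-- the constant of B.4 (without the selection energy) -/
noncomputable def const0 (D : Fin n → Fin n → ℝ) : ℝ :=
  -((∑ i, D i i) / 2) - ∑ i, ∑ j, if i < j then D i j else 0

/-- offsets -/
noncomputable def mu (D : Fin n → Fin n → ℝ) (i : Fin n) : ℝ :=
  -(D i i) / 2 - ∑ j ∈ Finset.univ.erase i, D i j

/-- **B.4**: one-body matrix `t + diag (mu + s)` and classical two-body form give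
`const + energy t D`; the rest is small. -/
theorem siteForm_approx {t D h : Fin n → Fin n → ℝ} {W : Fin n → Fin n → Fin n → Fin n → ℝ}
    {s ec r : ℝ} (hD : ∀ a b, D a b = D b a) (ht0 : ∀ a, t a a = 0)
    (hDW : ∀ a b, D a b = W a a b b)
    (hh : ∀ a b, a ≠ b → |h a b - t a b| ≤ ec) (hh0 : ∀ a, |h a a - (mu D a + s)| ≤ ec)
    (hr : 0 ≤ r) (hW : ∀ a b a' b', (a ≠ b ∨ a' ≠ b') → |W a b a' b'| ≤ r) (c : X n) :
    |siteForm h W c - ((n * s + const0 D) * ‖c‖ ^ 2 + energy t D c)| ≤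
      (n ^ 3 * ec + n ^ 4 * r) * ‖c‖ ^ 2 := by
  -- decompose the one-body matrix
  have h1 : site1 h c = site1 t c + ∑ f : Cfg n, (∑ k, (mu D (f k).1 + s)) * ‖c f‖ ^ 2 +
      site1 (fun a b => h a b - t a b - if a = b then mu D a + s else 0) c := by
    rw [← site1_diag (fun a => mu D a + s), ← site1_add, ← site1_add]
    congr 1
    funext a b
    ring
  have h2 : |site1 (fun a b => h a b - t a b - if a = b then mu D a + s else 0) c| ≤
      n ^ 3 * ec * ‖c‖ ^ 2 := by
    refine (site1_abs _ c).trans ?_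
    refine mul_le_mul_of_nonneg_right ?_ (sq_nonneg _)
    have : (∑ a : Fin n, ∑ b : Fin n, |h a b - t a b - if a = b then mu D a + s else 0|) ≤
        ∑ a : Fin n, ∑ b : Fin n, ec := by
      refine Finset.sum_le_sum fun a _ => Finset.sum_le_sum fun b _ => ?_
      by_cases hab : a = b
      · subst hab
        rw [if_pos rfl, ht0, sub_zero]; exact hh0 a
      · rw [if_neg hab, sub_zero]; exact hh a b hab
    calc (n : ℝ) * (∑ a : Fin n, ∑ b : Fin n, |h a b - t a b - if a = b then mu D a + s else 0|)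
        ≤ n * ∑ a : Fin n, ∑ b : Fin n, ec := by gcongr
      _ = n ^ 3 * ec := by
          simp only [Finset.sum_const, Finset.card_univ, Fintype.card_fin, nsmul_eq_mul]; ring
  have h3 : |site2 (fun a b a' b' => if a = b ∧ a' = b' then 0 else W a b a' b') c| ≤
      n ^ 4 * r * ‖c‖ ^ 2 := by
    refine site2_abs (fun a b a' b' => ?_) c
    split_ifs with hc
    · rw [abs_zero]; exact hr
    · refine hW a b a' b' ?_
      by_contra hne
      push Not at hne
      exact hc hne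
  have h4 : (∑ f : Cfg n, (∑ k, (mu D (f k).1 + s)) * ‖c f‖ ^ 2) +
      (∑ f : Cfg n, (∑ k, ∑ l, if k < l then W (f k).1 (f k).1 (f l).1 (f l).1 else 0) *
        ‖c f‖ ^ 2) = (n * s + const0 D) * ‖c‖ ^ 2 + ∑ f, G D f * ‖c f‖ ^ 2 := by
    rw [norm_sq_def, Finset.mul_sum, ← Finset.sum_add_distrib, ← Finset.sum_add_distrib]
    refine Finset.sum_congr rfl fun f _ => ?_
    have e := charge_identity hD f
    have e1 : (∑ k, ∑ l, if k < l then W (f k).1 (f k).1 (f l).1 (f l).1 else 0) =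
        ∑ k, ∑ l, if k < l then D (f k).1 (f l).1 else 0 := by
      refine Finset.sum_congr rfl fun k _ => Finset.sum_congr rfl fun l _ => ?_
      rw [hDW]
    have e2 : ∑ k, (mu D (f k).1 + s) = (∑ k, mu D (f k).1) + n * s := by
      rw [Finset.sum_add_distrib]; simp
    rw [e1, e2, ← add_mul, ← add_mul]
    congr 1
    simp only [mu, const0]
    linarith
  have h5 : siteForm h W c - ((n * s + const0 D) * ‖c‖ ^ 2 + energy t D c) =
      site1 (fun a b => h a b - t a b - if a = b then mu D a + s else 0) c +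
      site2 (fun a b a' b' => if a = b ∧ a' = b' then 0 else W a b a' b') c := by
    rw [siteForm, h1, site2_split W c, energy, ← site1_eq]
    linarith
  rw [h5]
  refine (abs_add_le _ _).trans ?_
  linarith

end Crest.Agent.R338.SX
end

-- ▼ part R338/BHDefs

/-!
Row 338 (S0529): frozen inputs of Theorem BH (`ThmBHStmt` of `Iface.lean`), helper370.

* `CoulStmt` : Coulomb estimates for the site orbitals (blueprint part 5), in terms of `n`, `k`.
* `SelStmt`  : selection (blueprint B.3), from the shell to the sites.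
-/

set_option autoImplicit false

noncomputable section

open Crest.MathPhysics.ElectronicCoulomb
open scoped ComplexConjugate

namespace Crest.Agent.R338.BH

/-- symmetry of the Coulomb integrals (Fubini) -/
def W4Symm : Prop := ∀ a b c d : Idx, W4 a b c d = W4 c d a b

/-- Coulomb estimates for the sites (part 5: D.8, D.9, D.10). -/
def CoulStmt : Prop := ∃ C : ℕ, 1 ≤ C ∧ ∀ n k : ℕ, 2 ≤ n → (C * n) ^ C ≤ k →
  (∀ i < n, ∀ j < n, 0 ≤ Vc n k i j ∧ Vc n k i j ≤ (C : ℝ) * (n : ℝ) ^ C / (k : ℝ) ^ 2) ∧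
  (∀ i < n, ∀ j < n, ∀ i' < n, ∀ j' < n, (i ≠ j ∨ i' ≠ j') →
    |W4 (site n k i) (site n k j) (site n k i') (site n k j')| ≤
      (C : ℝ) * (n : ℝ) ^ C / (k : ℝ) ^ 5) ∧
  (∀ δ : Fin n → ℤ, (∀ i, |δ i| ≤ 1) → ∑ i, δ i = 0 → δ ≠ 0 →
    1 / ((C : ℝ) * (n : ℝ) ^ C * (k : ℝ) ^ 3) ≤
      ∑ i : Fin n, ∑ j : Fin n, Vc n k i j * ((δ i : ℝ) * (δ j : ℝ)))

/-- one-body matrix on the sites -/
def hSite (n k : ℕ) (Lam : ℝ) (A : ℕ → ℕ → ℝ) (a : ℕ → ℝ) (i j : Fin n) : ℝ :=
  fock (n0' n k) (site n k i) (site n k j) +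
    (∑ i' ∈ Finset.range n, ∑ j' ∈ Finset.range n,
      if i' < j' then A i' j' * Mhop n k i' j' i j else 0) +
    (if i = j then -2 * Lam + a i else 0)

/-- two-electron integrals of the sites -/
def WSite (n k : ℕ) (i j i' j' : Fin n) : ℝ :=
  W4 (site n k i) (site n k j) (site n k i') (site n k j')

/-- Selection: from the shell to the sites (B.3). -/
def SelStmt : Prop := ∃ C : ℕ, 1 ≤ C ∧ ∀ n k : ℕ, 2 ≤ n → (C * n) ^ C ≤ k →
  ∀ (Lam Amax : ℝ) (A : ℕ → ℕ → ℝ) (a : ℕ → ℝ), (∀ i j, |A i j| ≤ Amax) → (∀ i, |a i| ≤ Amax) →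
  1 ≤ Amax → ((n0' n k : ℝ) + Amax) ^ C ≤ Lam →
  (∀ c ∈ SX.antiS n, ∃ D : (Fin n → Val (n0' n k)) → ℂ, AntiSym D ∧ tnSq D = ‖c‖ ^ 2 ∧
    shellForm (n0' n k) (wpot n k Lam A a) D =
      SX.siteForm (hSite n k Lam A a) (WSite n k) c) ∧
  (∀ β : ℝ, |β + 2 * Lam * n| ≤ 2 →
    (∀ c ∈ SX.antiS n, β * ‖c‖ ^ 2 ≤ SX.siteForm (hSite n k Lam A a) (WSite n k) c) →
    ∀ D : (Fin n → Val (n0' n k)) → ℂ, AntiSym D →
      (β - ((n0' n k : ℝ) + Amax) ^ C / Lam) * tnSq D ≤
        shellForm (n0' n k) (wpot n k Lam A a) D)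

/-- the statement proved from `W4Symm`, `CoulStmt` and `SelStmt` : `ThmBHStmt` with the two corrections
`(C n q)^(2C) ≤ k` and margin `j0/(16 q)` -/
def ThmBH' : Prop := ∃ C : ℕ, 1 ≤ C ∧ ∀ (n q k : ℕ), 2 ≤ n → 1 ≤ q → (C * n * q) ^ (2 * C) ≤ k →
  ∀ (Lam Amax : ℝ) (J : ℕ → ℕ → ℝ) (A : ℕ → ℕ → ℝ) (a : ℕ → ℝ),
  let j0 : ℝ := 1 / (((n : ℝ) * q) ^ C * (k : ℝ) ^ 4)
  (∀ i j, 0 ≤ J i j ∧ J i j ≤ 1) → (∀ i j, |A i j| ≤ Amax) → (∀ i, |a i| ≤ Amax) → 1 ≤ Amax →
  ((n0' n k : ℝ) + Amax) ^ C ≤ Lam →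
  Calib n k j0 J A a (j0 / (((n : ℝ) * q) ^ C)) →
  (∀ ψ : (Fin n → Bool) → ℂ, nrmSq ψ = 1 → ∃ D : (Fin n → Val (n0' n k)) → ℂ, AntiSym D ∧
    tnSq D = 1 ∧
    shellForm (n0' n k) (wpot n k Lam A a) D ≤
      constH n k Lam j0 J + j0 * heis (fun i j => J i j) ψ + j0 / (16 * q)) ∧
  (∀ e : ℝ, (∀ ψ : (Fin n → Bool) → ℂ, e * nrmSq ψ ≤ heis (fun i j => J i j) ψ) →
    ∀ D : (Fin n → Val (n0' n k)) → ℂ, AntiSym D →
      (constH n k Lam j0 J + j0 * e - j0 / (16 * q)) * tnSq D ≤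
        shellForm (n0' n k) (wpot n k Lam A a) D)

end Crest.Agent.R338.BH

end
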