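import Crest.Agent.R338.Iface
import Crest.Agent.R338.HO1b
import Crest.Agent.R338.CE1
import Crest.Agent.R338.TA0

/-!
# Row 338: bridges between the frozen `Iface` definitions and the working definitions (helper426)

`Iface.hf = HO.hf`, `orb = HO.Phi = CE.phi`, `coul = CE.D`, `W4 = CE.W = TA.W4`, `w1 = TA.wI`.
-/

set_option autoImplicit false

open MeasureTheory Polynomial Real
open Crest.MathPhysics.ElectronicCoulomb

noncomputable section

namespace Crest.Agent.R338.Br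

theorem hpoly_eq : ∀ n, hpoly n = HO.hP n
  | 0 => by rw [hpoly, HO.hP_zero]
  | 1 => by
    rw [hpoly, HO.hP_succ, HO.derivative_hP_zero, HO.hP_zero, sub_zero]
    have h2 : (1 / √(2 * (((0 : ℕ) : ℝ) + 1))) * 2 = √2 := by
      have : √(2 * (((0 : ℕ) : ℝ) + 1)) = √2 := by norm_num
      rw [this]
      have h3 : √2 * √2 = 2 := Real.mul_self_sqrt (by norm_num)
      have h4 : √2 ≠ 0 := by positivity
      field_simp
      linarith
    have h5 : (2 : ℝ[X]) = C (2 : ℝ) := (map_ofNat (C : ℝ →+* ℝ[X]) 2).symm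
    rw [h5, ← h2, C_mul]
    ring
  | (n + 2) => by
    rw [hpoly, HO.hP_succ (n + 1), HO.derivative_hP, hpoly_eq (n + 1), hpoly_eq n]
    have h5 : (2 : ℝ[X]) = C (2 : ℝ) := (map_ofNat (C : ℝ →+* ℝ[X]) 2).symm
    have e1 : (((n + 1 : ℕ) : ℝ) + 1) = (n : ℝ) + 2 := by push_cast; ring
    rw [e1, h5]
    have hn : (0 : ℝ) < (n : ℝ) + 2 := by positivity
    have hn1 : (0 : ℝ) < (n : ℝ) + 1 := by positivity
    have c1 : √(2 / ((n : ℝ) + 2)) = (1 / √(2 * ((n : ℝ) + 2))) * 2 := by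
      rw [Real.sqrt_eq_iff_mul_self_eq (by positivity) (by positivity)]
      have h3 : √(2 * ((n : ℝ) + 2)) * √(2 * ((n : ℝ) + 2)) = 2 * ((n : ℝ) + 2) :=
        Real.mul_self_sqrt (by positivity)
      have h4 : √(2 * ((n : ℝ) + 2)) ≠ 0 := by positivity
      field_simp
      nlinarith [h3]
    have c2 : √(((n : ℝ) + 1) / ((n : ℝ) + 2)) =
        (1 / √(2 * ((n : ℝ) + 2))) * √(2 * ((n : ℝ) + 1)) := by
      have e2 : ((n : ℝ) + 1) / ((n : ℝ) + 2) = (2 * ((n : ℝ) + 1)) / (2 * ((n : ℝ) + 2)) := by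
        field_simp
      rw [e2, Real.sqrt_div (by positivity)]
      ring
    rw [c1, c2, C_mul, C_mul]
    ring

theorem hf_eq (n : ℕ) : hf n = HO.hf n := by
  funext s
  unfold hf HO.hf
  rw [hpoly_eq]

theorem orb_eq_Phi (m : Idx) : orb m = (HO.Phi m : Pos3 → ℝ) := by
  funext x
  unfold orb HO.Phi
  simp_rw [hf_eq]


theorem orb_eq_phi (m : Idx) : orb m = (CE.phi m : Pos3 → ℝ) := orb_eq_Phi m

/-- products of Hermite product functions are integrable and bounded -/
theorem nice_phi (a b : Idx) : CE.Nice (fun x => CE.phi a x * CE.phi b x) := by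
  refine ⟨?_, ?_⟩
  · have h := (HO.memLp_Phi (ι := Fin 3) a 2).integrable_mul (HO.memLp_Phi (ι := Fin 3) b 2)
    have h2 := h.re
    refine h2.congr (Filter.Eventually.of_forall fun x => ?_)
    simp only [Pi.mul_apply]
    rw [← Complex.ofReal_mul]
    rfl
  · have hb : ∀ m : Idx, ∃ C : ℝ, ∀ x : Pos3, |CE.phi m x| ≤ C := by
      intro m
      obtain ⟨C, hC⟩ := (HO.PhiS (ι := Fin 3) m).decay 0 0
      refine ⟨C, fun x => ?_⟩
      have := hC.2 x
      simp only [pow_zero, one_mul, norm_iteratedFDeriv_zero, HO.PhiS_apply] at this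
      rw [Complex.norm_real, Real.norm_eq_abs] at this
      exact this
    obtain ⟨Ca, hCa⟩ := hb a
    obtain ⟨Cb, hCb⟩ := hb b
    refine ⟨Ca * Cb, fun x => ?_⟩
    rw [abs_mul]
    exact mul_le_mul (hCa x) (hCb x) (abs_nonneg _) ((abs_nonneg _).trans (hCa x))

theorem coul_eq {f g : Pos3 → ℝ} (hf : Integrable f) (hg : CE.Nice g) : coul f g = CE.D f g := by
  rw [CE.D_eq_iterated hf hg]; rfl

theorem W4_eq (a b c d : Idx) : W4 a b c d = CE.W a b c d := by
  unfold W4 CE.W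
  simp_rw [orb_eq_phi]
  exact coul_eq (nice_phi a b).int (nice_phi c d)

theorem TA_W4_eq (a b c d : Idx) : TA.W4 a b c d = CE.W a b c d := rfl

theorem w1_eq (w : Pos3 → ℝ) (a b : Idx) : w1 w a b = TA.wI w a b := by
  unfold w1 TA.wI
  simp_rw [orb_eq_Phi]

theorem W4_symm (a b c d : Idx) : W4 a b c d = W4 c d a b := by
  rw [W4_eq, W4_eq]; exact CE.W_symm _ _ _ _



end Crest.Agent.R338.Br
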