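import Crest.Agent.R338.Iface
import Crest.Agent.R338.HO1b

/-!
# Row 338 (helper518): the Hermite functions of the interface are those of `HO1a`, `HO1b`
-/

set_option autoImplicit false

open MeasureTheory

noncomputable section

namespace Crest.Agent.R338

theorem hpoly_eval : ∀ (n : ℕ) (x : ℝ), (hpoly n).eval x = (HO.hP n).eval x
  | 0, x => by simp [hpoly, HO.hP]
  | 1, x => by
    have h := HO.x_mul_hP_zero x
    have h1 : √(1 / 2 : ℝ) * √2 = 1 := by
      rw [← Real.sqrt_mul (by norm_num)]; norm_num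
    have h0 : (HO.hP 0).eval x = Real.pi ^ (-(1 / 4) : ℝ) := by simp [HO.hP]
    simp only [hpoly, Polynomial.eval_mul, Polynomial.eval_C, Polynomial.eval_X]
    rw [h0] at h
    calc √2 * x * Real.pi ^ (-(1 / 4) : ℝ) = √2 * (x * Real.pi ^ (-(1 / 4) : ℝ)) := by ring
      _ = √2 * (√(1 / 2) * (HO.hP 1).eval x) := by rw [h]
      _ = (√(1 / 2) * √2) * (HO.hP 1).eval x := by ring
      _ = _ := by rw [h1, one_mul]
  | (n + 2), x => by
    have ih1 := hpoly_eval (n + 1) x
    have ih0 := hpoly_eval n x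
    have h := HO.x_mul_hP n x
    simp only [hpoly, Polynomial.eval_mul, Polynomial.eval_C, Polynomial.eval_X,
      Polynomial.eval_sub]
    rw [ih1, ih0]
    have e1 : √(2 / ((n : ℝ) + 2)) * √(((n : ℝ) + 1 + 1) / 2) = 1 := by
      rw [← Real.sqrt_mul (by positivity)]
      have : 2 / ((n : ℝ) + 2) * (((n : ℝ) + 1 + 1) / 2) = 1 := by
        field_simp; ring
      rw [this, Real.sqrt_one]
    have e2 : √(2 / ((n : ℝ) + 2)) * √(((n : ℝ) + 1) / 2) = √(((n : ℝ) + 1) / ((n : ℝ) + 2)) := by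
      rw [← Real.sqrt_mul (by positivity)]
      congr 1
      field_simp
    calc √(2 / ((n : ℝ) + 2)) * x * (HO.hP (n + 1)).eval x
          - √(((n : ℝ) + 1) / ((n : ℝ) + 2)) * (HO.hP n).eval x
        = √(2 / ((n : ℝ) + 2)) * (x * (HO.hP (n + 1)).eval x)
          - √(((n : ℝ) + 1) / ((n : ℝ) + 2)) * (HO.hP n).eval x := by ring
      _ = (√(2 / ((n : ℝ) + 2)) * √(((n : ℝ) + 1 + 1) / 2)) * (HO.hP (n + 2)).eval x
          + (√(2 / ((n : ℝ) + 2)) * √(((n : ℝ) + 1) / 2)) * (HO.hP n).eval x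
          - √(((n : ℝ) + 1) / ((n : ℝ) + 2)) * (HO.hP n).eval x := by rw [h]; ring
      _ = _ := by rw [e1, e2]; ring

/-- the Hermite functions of the interface are those of `HO1a` -/
theorem hf_eq (n : ℕ) (s : ℝ) : hf n s = HO.hf n s := by
  unfold hf HO.hf
  rw [hpoly_eval]

theorem hf_eq' : hf = HO.hf := by
  funext n s; exact hf_eq n s

/-- the orbitals of the interface are those of `HO1b` -/
theorem orb_eq (m : Idx) (x : Crest.MathPhysics.ElectronicCoulomb.Pos3) : orb m x = HO.Phi m x := by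
  unfold orb HO.Phi
  simp only [hf_eq]


theorem w1_eq (w : Crest.MathPhysics.ElectronicCoulomb.Pos3 → ℝ) (a b : Idx) :
    w1 w a b = ∫ x, w x * (HO.Phi a x * HO.Phi b x) := by
  unfold w1
  simp only [orb_eq]

end Crest.Agent.R338
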