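import Crest.Agent.R338.HO1a
import Mathlib
import Crest.Agent.R338.CE1

-- ▼ part R338/HL1
section

/-!
# Row 338, node HL (helper272), part 1: integer Hermite polynomials, linearisation, Gaussian integrals

`HH n`    the physicists' Hermite polynomial `H_n`
`hf_eq`   `hf m x = π^(-1/4) / √(2^m m!) * H_m(x) e^{-x²/2}`
`HH_mul`  `H_a H_b = ∑_j C(a,j) C(b,j) j! 2^j H_{a+b-2j}`
`gm n z`  `= [n = 2r] (-z)^r (2r-1)!!`
`integral_HH`  `∫ H_n e^{-x²} e^{-b x²} = gm n (2b/(1+b)) √(π/(1+b))`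
`integral_HH_HH` `∫∫ H_n(x) e^{-x²} H_m(y) e^{-y²} e^{-τ(x-y)²} = (-1)^m gm (n+m) (2τ/(1+2τ)) π/√(1+2τ)`
-/

set_option autoImplicit false

open MeasureTheory Polynomial Real Finset

noncomputable section

namespace Crest.Agent.R338.HL

open Crest.Agent.R338.HO

/-- physicists' Hermite polynomials -/
def HH : ℕ → ℝ[X]
  | 0 => 1
  | (m + 1) => 2 * X * HH m - derivative (HH m)

theorem HH_zero : HH 0 = 1 := rfl
theorem HH_succ (m : ℕ) : HH (m + 1) = 2 * X * HH m - derivative (HH m) := rfl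

theorem derivative_HH (m : ℕ) : derivative (HH (m + 1)) = C (2 * ((m : ℝ) + 1)) * HH m := by
  have e1 : derivative (2 * X : ℝ[X]) = C 2 := by
    rw [derivative_mul]
    simp only [derivative_ofNat, zero_mul, derivative_X, mul_one, zero_add]
    rfl
  induction m with
  | zero =>
    rw [HH_succ, HH_zero, derivative_one, sub_zero, mul_one, e1]
    simp
  | succ m ih =>
    rw [HH_succ (m + 1), derivative_sub, derivative_mul, e1, ih, derivative_mul, derivative_C,
      zero_mul, zero_add]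
    have e2 : 2 * X * (C (2 * ((m : ℝ) + 1)) * HH m) - C (2 * ((m : ℝ) + 1)) * derivative (HH m)
        = C (2 * ((m : ℝ) + 1)) * HH (m + 1) := by rw [HH_succ]; ring
    rw [add_sub_assoc, e2, ← add_mul, ← C_add]
    congr 2
    push_cast; ring

/-- creation operator -/
theorem HH_succ_mul (a : ℕ) (g : ℝ[X]) :
    HH (a + 1) * g = (2 * X * (HH a * g) - derivative (HH a * g)) + HH a * derivative g := by
  rw [HH_succ, derivative_mul]; ring

/-- coefficients of the linearisation -/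
def kap (a b j : ℕ) : ℕ := a.choose j * b.choose j * j.factorial * 2 ^ j

theorem kap_zero (a b : ℕ) : kap a b 0 = 1 := by simp [kap]

theorem kap_succ (a b j : ℕ) : kap (a + 1) (b + 1) (j + 1) =
    kap a (b + 1) (j + 1) + 2 * (b + 1) * kap a b j := by
  unfold kap
  have h1 : (b + 1) * b.choose j = (b + 1).choose (j + 1) * (j + 1) := Nat.add_one_mul_choose_eq b j
  rw [Nat.choose_succ_succ a j, Nat.factorial_succ, pow_succ]
  have h2 : 2 * (b + 1) * (a.choose j * b.choose j * j.factorial * 2 ^ j) =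
      2 * (a.choose j * ((b + 1) * b.choose j) * j.factorial * 2 ^ j) := by ring
  rw [h2, h1]
  ring

theorem kap_eq_zero {a b j : ℕ} (h : b < j) : kap a b j = 0 := by
  unfold kap; rw [Nat.choose_eq_zero_of_lt h]; simp

theorem kap_eq_zero' {a b j : ℕ} (h : a < j) : kap a b j = 0 := by
  unfold kap; rw [Nat.choose_eq_zero_of_lt h]; simp

/-- linearisation of products of Hermite polynomials -/
theorem HH_mul (a b : ℕ) : HH a * HH b =
    ∑ j ∈ range (a + 1), C ((kap a b j : ℕ) : ℝ) * HH (a + b - 2 * j) := by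
  induction a generalizing b with
  | zero => simp [HH_zero, kap_zero]
  | succ a ih =>
    rw [HH_succ_mul, ih b]
    -- the creation operator applied to the sum
    have hA : 2 * X * (∑ j ∈ range (a + 1), C ((kap a b j : ℕ) : ℝ) * HH (a + b - 2 * j)) -
        derivative (∑ j ∈ range (a + 1), C ((kap a b j : ℕ) : ℝ) * HH (a + b - 2 * j)) =
        ∑ j ∈ range (a + 1), C ((kap a b j : ℕ) : ℝ) * HH (a + b - 2 * j + 1) := by
      rw [derivative_sum, Finset.mul_sum, ← Finset.sum_sub_distrib]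
      refine Finset.sum_congr rfl fun j _ => ?_
      rw [derivative_mul, derivative_C, HH_succ]; ring
    rw [hA]
    cases b with
    | zero =>
      rw [HH_zero, derivative_one, mul_zero, add_zero]
      rw [Finset.sum_range_succ' _ a, Finset.sum_range_succ' _ (a + 1)]
      rw [Finset.sum_eq_zero, Finset.sum_eq_zero (s := range (a + 1))]
      · simp [kap_zero]
      · intro j _; rw [kap_eq_zero (by omega)]; simp
      · intro j _; rw [kap_eq_zero (by omega)]; simp
    | succ b =>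
      rw [derivative_HH, mul_left_comm, ih b, Finset.mul_sum]
      rw [Finset.sum_range_succ' _ (a + 1), kap_zero]
      have h1 : ∑ j ∈ range (a + 1), C ((kap a (b + 1) j : ℕ) : ℝ) * HH (a + (b + 1) - 2 * j + 1) =
          (∑ j ∈ range (a + 1), C ((kap a (b + 1) (j + 1) : ℕ) : ℝ) * HH (a + b - 2 * j)) +
          HH (a + b + 2) := by
        rw [Finset.sum_range_succ' _ a, kap_zero]
        rw [Finset.sum_range_succ _ a, kap_eq_zero' (show a < a + 1 by omega)]
        simp only [Nat.cast_one, C_1, one_mul, Nat.cast_zero, C_0, zero_mul, add_zero, mul_zero,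
          Nat.sub_zero]
        congr 1
        refine Finset.sum_congr rfl fun j hj => ?_
        rw [Finset.mem_range] at hj
        by_cases hb : b < j
        · rw [kap_eq_zero (by omega)]; simp
        · congr 2
          omega
      rw [h1]
      have h2 : ∀ j ∈ range (a + 1), C ((kap (a + 1) (b + 1) (j + 1) : ℕ) : ℝ) *
          HH (a + 1 + (b + 1) - 2 * (j + 1)) =
          C ((kap a (b + 1) (j + 1) : ℕ) : ℝ) * HH (a + b - 2 * j) +
          C (2 * ((b : ℝ) + 1)) * (C ((kap a b j : ℕ) : ℝ) * HH (a + b - 2 * j)) := by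
        intro j _
        have : a + 1 + (b + 1) - 2 * (j + 1) = a + b - 2 * j := by omega
        rw [this, kap_succ]
        push_cast
        simp only [C_add, C_mul]
        ring
      rw [Finset.sum_congr rfl h2, Finset.sum_add_distrib]
      have : a + 1 + (b + 1) - 2 * 0 = a + b + 2 := by omega
      rw [this]
      simp only [Nat.cast_one, C_1, one_mul]
      ring

/-- normalisation constants -/
def nrm (m : ℕ) : ℝ := π ^ (-(1 / 4) : ℝ) / √(2 ^ m * m.factorial)


theorem hP_eq (m : ℕ) : hP m = C (nrm m) * HH m := by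
  induction m with
  | zero => rw [hP_zero, HH_zero, mul_one]; unfold nrm; simp
  | succ m ih =>
    rw [hP_succ, ih, HH_succ, derivative_mul, derivative_C, zero_mul, zero_add]
    have e : C (nrm (m + 1)) = C (1 / √(2 * ((m : ℝ) + 1))) * C (nrm m) := by
      rw [← C_mul]
      congr 1
      unfold nrm
      have h : (2 : ℝ) ^ (m + 1) * ((m + 1).factorial : ℝ) =
          (2 * ((m : ℝ) + 1)) * (2 ^ m * m.factorial) := by
        rw [Nat.factorial_succ]; push_cast; ring
      rw [h, Real.sqrt_mul (by positivity)]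
      field_simp
    rw [e]
    ring

theorem hf_eq (m : ℕ) (x : ℝ) : hf m x = nrm m * ((HH m).eval x * Real.exp (-(x ^ 2) / 2)) := by
  unfold hf; rw [hP_eq, eval_mul, eval_C]; ring

theorem hf_mul_hf' (a b : ℕ) (x : ℝ) : hf a x * hf b x =
    nrm a * nrm b * ∑ j ∈ range (a + 1), (kap a b j : ℝ) *
      ((HH (a + b - 2 * j)).eval x * Real.exp (-x ^ 2)) := by
  have h := congrArg (Polynomial.eval x) (HH_mul a b)
  rw [eval_mul, eval_finsetSum] at h
  simp only [eval_mul, eval_C] at h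
  have e : Real.exp (-x ^ 2) = Real.exp (-(x ^ 2) / 2) * Real.exp (-(x ^ 2) / 2) := by
    rw [← Real.exp_add]; ring_nf
  rw [hf_eq, hf_eq]
  have : nrm a * ((HH a).eval x * rexp (-x ^ 2 / 2)) * (nrm b * ((HH b).eval x * rexp (-x ^ 2 / 2))) =
      nrm a * nrm b * (((HH a).eval x * (HH b).eval x) * rexp (-x ^ 2)) := by rw [e]; ring
  rw [this, h, Finset.sum_mul]
  congr 1
  refine Finset.sum_congr rfl fun j _ => ?_
  ring

end Crest.Agent.R338.HL
end
end

-- ▼ part R338/HL2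
section

/-!
# Row 338, node HL (helper272), part 2: Gaussian integrals of Hermite polynomials
-/

set_option autoImplicit false

open MeasureTheory Polynomial Real Finset

noncomputable section

namespace Crest.Agent.R338.HL

open Crest.Agent.R338.HO

/-- `(2r-1)!! = ∏_{i<r} (2i+1)` -/
def df (r : ℕ) : ℕ := ∏ i ∈ range r, (2 * i + 1)

theorem df_zero : df 0 = 1 := rfl
theorem df_succ (r : ℕ) : df (r + 1) = df r * (2 * r + 1) := by
  unfold df; rw [Finset.prod_range_succ]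

/-- Gaussian moments: `gm n z = [n = 2r] (-z)^r (2r-1)!!` -/
def gm (n : ℕ) (z : ℝ) : ℝ := if Even n then (-z) ^ (n / 2) * (df (n / 2) : ℝ) else 0

theorem gm_zero (z : ℝ) : gm 0 z = 1 := by simp [gm, df_zero]
theorem gm_one (z : ℝ) : gm 1 z = 0 := by simp [gm]

theorem gm_add_two (n : ℕ) (z : ℝ) : gm (n + 2) z = -z * (n + 1) * gm n z := by
  unfold gm
  by_cases h : Even n
  · obtain ⟨r, rfl⟩ := h
    have h1 : Even (r + r + 2) := ⟨r + 1, by ring⟩
    have h2 : Even (r + r) := ⟨r, rfl⟩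
    rw [if_pos h1, if_pos h2]
    have e1 : (r + r + 2) / 2 = r + 1 := by omega
    have e2 : (r + r) / 2 = r := by omega
    rw [e1, e2, df_succ, pow_succ]
    push_cast; ring
  · have h1 : ¬ Even (n + 2) := by
      intro h2; apply h
      rw [Nat.even_add] at h2
      exact h2.2 (by decide)
    rw [if_neg h, if_neg h1, mul_zero]



/-- integration by parts against a Gaussian -/
theorem integral_derivative_gauss (P : ℝ[X]) {c : ℝ} (hc : 0 < c) :
    ∫ x, (derivative P).eval x * rexp (-c * x ^ 2) = 2 * c * ∫ x, (X * P).eval x * rexp (-c * x ^ 2) := by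
  have hd : ∀ x : ℝ, HasDerivAt (fun x => P.eval x * rexp (-c * x ^ 2))
      ((derivative P).eval x * rexp (-c * x ^ 2) - 2 * c * ((X * P).eval x * rexp (-c * x ^ 2))) x := by
    intro x
    have h1 : HasDerivAt (fun x : ℝ => -c * x ^ 2) (-c * (2 * x)) x := by
      have := (hasDerivAt_pow 2 x).const_mul (-c)
      simpa using this
    have h2 := (Polynomial.hasDerivAt P x).mul h1.exp
    refine h2.congr_deriv ?_
    rw [eval_mul, eval_X]; ring
  have hi1 := integrable_poly_gauss (derivative P) hc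
  have hi2 := (integrable_poly_gauss (X * P) hc).const_mul (2 * c)
  have h := integral_eq_zero_of_hasDerivAt_of_integrable hd (hi1.sub hi2)
    (integrable_poly_gauss P hc)
  rw [integral_sub hi1 hi2, integral_const_mul] at h
  linarith

/-- Gaussian integral of `H_n`, `c = 1 + b` -/
theorem integral_HH (n : ℕ) {c : ℝ} (hc : 0 < c) :
    ∫ x, (HH n).eval x * rexp (-c * x ^ 2) = gm n (2 * (c - 1) / c) * √(π / c) := by
  induction n using Nat.twoStepInduction with
  | zero =>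
    simp only [HH_zero, eval_one, one_mul, gm_zero]
    exact integral_gaussian c
  | one =>
    have h := integral_derivative_gauss (1 : ℝ[X]) hc
    rw [derivative_one] at h
    simp only [eval_zero, zero_mul, integral_zero, mul_one] at h
    have h1 : HH 1 = 2 * X := by rw [HH_succ, HH_zero, derivative_one]; ring
    have h2 : ∫ x, (X : ℝ[X]).eval x * rexp (-c * x ^ 2) = 0 := by
      have hne : 2 * c ≠ 0 := by positivity
      exact (mul_eq_zero.1 h.symm).resolve_left hne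
    rw [gm_one, zero_mul, h1]
    have e : ∀ x : ℝ, (2 * X : ℝ[X]).eval x * rexp (-c * x ^ 2) =
        2 * ((X : ℝ[X]).eval x * rexp (-c * x ^ 2)) := by
      intro x; rw [eval_mul]; simp; ring
    simp only [e]
    rw [integral_const_mul, h2, mul_zero]
  | more n ih0 ih1 =>
    have h := integral_derivative_gauss (HH (n + 1)) hc
    have hx : X * HH (n + 1) = C (1 / 2) * HH (n + 2) + C ((n : ℝ) + 1) * HH n := by
      rw [HH_succ (n + 1), derivative_HH, mul_sub, ← mul_assoc (C (1 / 2)) (C _) (HH n), ← C_mul]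
      have e1 : (1 / 2 : ℝ) * (2 * ((n : ℝ) + 1)) = (n : ℝ) + 1 := by ring
      have e2 : C (1 / 2 : ℝ) * (2 * X * HH (n + 1)) = X * HH (n + 1) := by
        have : (C (1 / 2 : ℝ) * 2 : ℝ[X]) = 1 := by
          rw [show (2 : ℝ[X]) = C 2 from rfl, ← C_mul]; norm_num
        calc C (1 / 2 : ℝ) * (2 * X * HH (n + 1)) = (C (1 / 2 : ℝ) * 2) * (X * HH (n + 1)) := by ring
          _ = _ := by rw [this, one_mul]
      rw [e1, e2]; ring
    rw [hx, derivative_HH] at h
    obtain ⟨N, hN⟩ : ∃ N : ℝ, N = (n : ℝ) + 1 := ⟨_, rfl⟩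
    rw [gm_add_two]
    rw [← hN] at h ⊢
    simp only [eval_mul, eval_add, eval_C, add_mul, mul_assoc] at h
    rw [integral_const_mul, integral_const_mul, integral_add ((integrable_poly_gauss (HH (n + 2)) hc).const_mul _)
      ((integrable_poly_gauss (HH n) hc).const_mul _), integral_const_mul, integral_const_mul] at h
    rw [ih0] at h
    have hs : (c : ℝ) ≠ 0 := hc.ne'
    have h3 : c * ∫ x, (HH (n + 2)).eval x * rexp (-c * x ^ 2) =
        c * (-(2 * (c - 1) / c) * N * gm n (2 * (c - 1) / c) * √(π / c)) := by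
      have : c * (-(2 * (c - 1) / c) * N * gm n (2 * (c - 1) / c) * √(π / c)) =
          -(2 * (c - 1)) * N * (gm n (2 * (c - 1) / c) * √(π / c)) := by
        field_simp
      rw [this]
      linarith
    exact mul_left_cancel₀ hs h3

end Crest.Agent.R338.HL
end
end

-- ▼ part R338/HL3
section

/-!
# Row 338, node HL (helper272), part 3: the 1D Gaussian interaction integral
-/

set_option autoImplicit false

open MeasureTheory Polynomial Real Finset

noncomputable section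

namespace Crest.Agent.R338.HL

open Crest.Agent.R338.HO

/-- `G_n(x) = H_n(x) e^{-x²}` -/
def G (n : ℕ) (x : ℝ) : ℝ := (HH n).eval x * rexp (-x ^ 2)

theorem G_eq (n : ℕ) (x : ℝ) : G n x = (HH n).eval x * rexp (-1 * x ^ 2) := by
  unfold G; rw [neg_one_mul]


theorem integrable_G (n : ℕ) : Integrable (G n) := by
  simp only [funext (G_eq n)]
  exact integrable_poly_gauss _ one_pos

theorem integrable_x_mul_G (n : ℕ) : Integrable (fun x => x * G n x) := by
  have h := integrable_poly_gauss (X * HH n) one_pos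
  refine h.congr (Filter.Eventually.of_forall fun x => ?_)
  simp only [G_eq, eval_mul, eval_X]; ring

theorem hasDerivAt_G (n : ℕ) (x : ℝ) : HasDerivAt (G n) (-G (n + 1) x) x := by
  have h1 : HasDerivAt (fun x : ℝ => -x ^ 2) (-(2 * x)) x := by
    refine HasDerivAt.congr_deriv (f := fun x : ℝ => -x ^ 2) (hasDerivAt_pow 2 x).neg ?_
    norm_num
  have h2 := (Polynomial.hasDerivAt (HH n) x).mul h1.exp
  refine HasDerivAt.congr_deriv (f := G n) h2 ?_
  unfold G
  rw [HH_succ, eval_sub, eval_mul, eval_mul, eval_X, eval_ofNat]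
  ring

/-- the Gaussian kernel -/
def E (τ x y : ℝ) : ℝ := rexp (-τ * (x - y) ^ 2)

theorem E_comm (τ x y : ℝ) : E τ x y = E τ y x := by
  unfold E; congr 2; ring

theorem E_pos (τ x y : ℝ) : 0 < E τ x y := Real.exp_pos _

theorem E_le_one {τ : ℝ} (hτ : 0 ≤ τ) (x y : ℝ) : E τ x y ≤ 1 := by
  unfold E
  rw [Real.exp_le_one_iff]
  nlinarith [sq_nonneg (x - y), mul_nonneg hτ (sq_nonneg (x - y))]

theorem abs_E_le_one {τ : ℝ} (hτ : 0 ≤ τ) (x y : ℝ) : |E τ x y| ≤ 1 := by
  rw [abs_of_pos (E_pos τ x y)]; exact E_le_one hτ x y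

theorem hasDerivAt_E (τ x y : ℝ) : HasDerivAt (fun x => E τ x y) (-(2 * τ * (x - y)) * E τ x y) x := by
  have h1 : HasDerivAt (fun x : ℝ => -τ * (x - y) ^ 2) (-(2 * τ * (x - y))) x := by
    have := (((hasDerivAt_id x).sub_const y).pow 2).const_mul (-τ)
    refine this.congr_deriv ?_
    simp; ring
  refine HasDerivAt.congr_deriv (f := fun x => E τ x y) h1.exp ?_
  unfold E; ring

theorem continuous_E (τ : ℝ) : Continuous (fun p : ℝ × ℝ => E τ p.1 p.2) := by unfold E; fun_prop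

/-- integration by parts in the first variable -/
theorem ibp_G {τ : ℝ} (hτ : 0 ≤ τ) (n : ℕ) (y : ℝ) :
    ∫ x, G (n + 1) x * E τ x y = -∫ x, G n x * (2 * τ * (x - y)) * E τ x y := by
  have hE : ∀ y : ℝ, Continuous (fun x => E τ x y) := fun y => by unfold E; fun_prop
  have hi1 : Integrable (fun x => G (n + 1) x * E τ x y) := by
    refine (integrable_G (n + 1)).mul_bdd (c := 1) (hE y).aestronglyMeasurable
      (Filter.Eventually.of_forall fun x => ?_)
    rw [Real.norm_eq_abs]; exact abs_E_le_one hτ x y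
  have hi2 : Integrable (fun x => G n x * (2 * τ * (x - y)) * E τ x y) := by
    have h0 : Integrable (fun x => G n x * (2 * τ * (x - y))) := by
      have := ((integrable_x_mul_G n).const_mul (2 * τ)).sub
        ((integrable_G n).const_mul (2 * τ * y))
      refine this.congr (Filter.Eventually.of_forall fun x => ?_)
      simp only [Pi.sub_apply]; ring
    refine h0.mul_bdd (c := 1) (hE y).aestronglyMeasurable
      (Filter.Eventually.of_forall fun x => ?_)
    rw [Real.norm_eq_abs]; exact abs_E_le_one hτ x y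
  have hi3 : Integrable (fun x => G n x * E τ x y) := by
    refine (integrable_G n).mul_bdd (c := 1) (hE y).aestronglyMeasurable
      (Filter.Eventually.of_forall fun x => ?_)
    rw [Real.norm_eq_abs]; exact abs_E_le_one hτ x y
  have hd : ∀ x, HasDerivAt (fun x => G n x * E τ x y)
      (-(G (n + 1) x * E τ x y) - G n x * (2 * τ * (x - y)) * E τ x y) x := by
    intro x
    refine ((hasDerivAt_G n x).mul (hasDerivAt_E τ x y)).congr_deriv ?_
    ring
  have h := integral_eq_zero_of_hasDerivAt_of_integrable hd (hi1.neg.sub hi2) hi3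
  have h2 : ∫ x, (-(G (n + 1) x * E τ x y) - G n x * (2 * τ * (x - y)) * E τ x y) =
      -(∫ x, G (n + 1) x * E τ x y) - ∫ x, G n x * (2 * τ * (x - y)) * E τ x y := by
    have hn : Integrable (fun x => -(G (n + 1) x * E τ x y)) := hi1.neg
    rw [integral_sub hn hi2]
    congr 1
    exact integral_neg _
  rw [h2] at h
  linarith

/-- the interaction integral -/
def K (τ : ℝ) (n m : ℕ) : ℝ := ∫ p : ℝ × ℝ, G n p.1 * G m p.2 * E τ p.1 p.2

theorem integrable_K {τ : ℝ} (hτ : 0 ≤ τ) (n m : ℕ) :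
    Integrable (fun p : ℝ × ℝ => G n p.1 * G m p.2 * E τ p.1 p.2) := by
  refine ((integrable_G n).mul_prod (integrable_G m)).mul_bdd (c := 1)
    (continuous_E τ).aestronglyMeasurable (Filter.Eventually.of_forall fun p => ?_)
  rw [Real.norm_eq_abs]; exact abs_E_le_one hτ _ _

theorem integrable_L {τ : ℝ} (hτ : 0 ≤ τ) (n m : ℕ) :
    Integrable (fun p : ℝ × ℝ => G n p.1 * G m p.2 * (2 * τ * (p.1 - p.2)) * E τ p.1 p.2) := by
  have h0 : Integrable (fun p : ℝ × ℝ => G n p.1 * G m p.2 * (2 * τ * (p.1 - p.2))) := by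
    have h1 := ((integrable_x_mul_G n).mul_prod (integrable_G m)).const_mul (2 * τ)
    have h2 := ((integrable_G n).mul_prod (integrable_x_mul_G m)).const_mul (2 * τ)
    refine (h1.sub h2).congr (Filter.Eventually.of_forall fun p => ?_)
    simp only [Pi.sub_apply]; ring
  refine h0.mul_bdd (c := 1)
    (continuous_E τ).aestronglyMeasurable (Filter.Eventually.of_forall fun p => ?_)
  rw [Real.norm_eq_abs]; exact abs_E_le_one hτ _ _

theorem K_succ_left {τ : ℝ} (hτ : 0 ≤ τ) (n m : ℕ) :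
    K τ (n + 1) m = -∫ p : ℝ × ℝ, G n p.1 * G m p.2 * (2 * τ * (p.1 - p.2)) * E τ p.1 p.2 := by
  unfold K
  rw [Measure.volume_eq_prod, integral_prod_symm _ (integrable_K hτ (n + 1) m),
    integral_prod_symm _ (integrable_L hτ n m), ← integral_neg]
  congr 1
  ext y
  have e1 : ∫ x, G (n + 1) x * G m y * E τ x y = G m y * ∫ x, G (n + 1) x * E τ x y := by
    rw [← integral_const_mul]; congr 1; ext x; ring
  have e2 : ∫ x, G n x * G m y * (2 * τ * (x - y)) * E τ x y =
      G m y * ∫ x, G n x * (2 * τ * (x - y)) * E τ x y := by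
    rw [← integral_const_mul]; congr 1; ext x; ring
  simp only [e1, e2, ibp_G hτ]
  ring

theorem K_comm (τ : ℝ) (n m : ℕ) : K τ n m = K τ m n := by
  unfold K
  rw [Measure.volume_eq_prod, ← integral_prod_swap]
  congr 1
  ext p
  simp only [Prod.fst_swap, Prod.snd_swap]
  rw [E_comm]; ring

theorem K_succ_right {τ : ℝ} (hτ : 0 ≤ τ) (n m : ℕ) : K τ n (m + 1) = -K τ (n + 1) m := by
  rw [K_comm, K_succ_left hτ m n, K_succ_left hτ n m, neg_neg]
  rw [Measure.volume_eq_prod, ← integral_prod_swap, ← integral_neg]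
  congr 1
  ext p
  simp only [Prod.fst_swap, Prod.snd_swap]
  rw [E_comm]; ring

theorem K_eq_left {τ : ℝ} (hτ : 0 ≤ τ) (n m : ℕ) : K τ n m = (-1) ^ m * K τ (n + m) 0 := by
  induction m generalizing n with
  | zero => simp
  | succ m ih =>
    rw [K_succ_right hτ, ih (n + 1), pow_succ]
    have : n + 1 + m = n + (m + 1) := by ring
    rw [this]; ring

theorem inner_gauss {τ : ℝ} (hτ : 0 ≤ τ) (x : ℝ) :
    ∫ y, G 0 y * E τ x y = √(π / (1 + τ)) * rexp (-(τ / (1 + τ)) * x ^ 2) := by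
  have hc : 0 < 1 + τ := by linarith
  have e : ∀ y, G 0 y * E τ x y = rexp (-(τ / (1 + τ)) * x ^ 2) *
      rexp (-(1 + τ) * (y - τ * x / (1 + τ)) ^ 2) := by
    intro y
    unfold G E
    rw [HH_zero, eval_one, one_mul, ← Real.exp_add, ← Real.exp_add]
    congr 1
    field_simp
    ring
  simp only [e]
  rw [integral_const_mul, integral_sub_right_eq_self (fun y => rexp (-(1 + τ) * y ^ 2)),
    integral_gaussian]
  ring

theorem K_zero_right {τ : ℝ} (hτ : 0 ≤ τ) (n : ℕ) :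
    K τ n 0 = gm n (2 * τ / (1 + 2 * τ)) * (π / √(1 + 2 * τ)) := by
  have hc : 0 < 1 + τ := by linarith
  have hc2 : 0 < 1 + 2 * τ := by linarith
  unfold K
  rw [Measure.volume_eq_prod, integral_prod _ (integrable_K hτ n 0)]
  have e1 : ∀ x, ∫ y, G n x * G 0 y * E τ x y = √(π / (1 + τ)) *
      ((HH n).eval x * rexp (-((1 + 2 * τ) / (1 + τ)) * x ^ 2)) := by
    intro x
    have : ∫ y, G n x * G 0 y * E τ x y = G n x * ∫ y, G 0 y * E τ x y := by
      rw [← integral_const_mul]; congr 1; ext y; ring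
    rw [this, inner_gauss hτ]
    unfold G
    have h2 : rexp (-((1 + 2 * τ) / (1 + τ)) * x ^ 2) =
        rexp (-x ^ 2) * rexp (-(τ / (1 + τ)) * x ^ 2) := by
      rw [← Real.exp_add]; congr 1; field_simp; ring
    rw [h2]; ring
  simp only [e1]
  rw [integral_const_mul, integral_HH n (by positivity : 0 < (1 + 2 * τ) / (1 + τ))]
  have h3 : 2 * ((1 + 2 * τ) / (1 + τ) - 1) / ((1 + 2 * τ) / (1 + τ)) = 2 * τ / (1 + 2 * τ) := by
    field_simp; ring
  have h4 : √(π / (1 + τ)) * √(π / ((1 + 2 * τ) / (1 + τ))) = π / √(1 + 2 * τ) := by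
    rw [← Real.sqrt_mul (by positivity)]
    have : π / (1 + τ) * (π / ((1 + 2 * τ) / (1 + τ))) = π ^ 2 / (1 + 2 * τ) := by
      field_simp
    rw [this, Real.sqrt_div (by positivity), Real.sqrt_sq Real.pi_pos.le]
  rw [h3, mul_left_comm, h4]

/-- **1D interaction integral** -/
theorem K_eq {τ : ℝ} (hτ : 0 ≤ τ) (n m : ℕ) :
    K τ n m = (-1) ^ m * gm (n + m) (2 * τ / (1 + 2 * τ)) * (π / √(1 + 2 * τ)) := by
  rw [K_eq_left hτ, K_zero_right hτ]; ring

/-- normalisation without the power of `π` -/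
def nr (m : ℕ) : ℝ := 1 / √(2 ^ m * m.factorial)

theorem nrm_eq (m : ℕ) : nrm m = π ^ (-(1 / 4) : ℝ) * nr m := by unfold nrm nr; ring

theorem nrm4 (a b c d : ℕ) : nrm a * nrm b * (nrm c * nrm d) = (nr a * nr b * (nr c * nr d)) / π := by
  simp only [nrm_eq]
  have h : (π ^ (-(1 / 4) : ℝ)) * (π ^ (-(1 / 4) : ℝ)) * ((π ^ (-(1 / 4) : ℝ)) * (π ^ (-(1 / 4) : ℝ))) =
      1 / π := by
    rw [← Real.rpow_add Real.pi_pos, ← Real.rpow_add Real.pi_pos]
    norm_num
    rw [Real.rpow_neg_one]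
  calc _ = ((π ^ (-(1 / 4) : ℝ)) * (π ^ (-(1 / 4) : ℝ)) * ((π ^ (-(1 / 4) : ℝ)) * (π ^ (-(1 / 4) : ℝ)))) *
        (nr a * nr b * (nr c * nr d)) := by ring
    _ = _ := by rw [h]; ring

theorem hf_mul_hf_G (a b : ℕ) (x : ℝ) : hf a x * hf b x =
    nrm a * nrm b * ∑ j ∈ range (a + 1), (kap a b j : ℝ) * G (a + b - 2 * j) x := hf_mul_hf' a b x


/-- the polynomial (in `z = 2τ/(1+2τ)`) of the four-function interaction integral -/
def P4 (a b c d : ℕ) (z : ℝ) : ℝ := ∑ j ∈ range (a + 1), ∑ k ∈ range (c + 1),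
  (kap a b j : ℝ) * (kap c d k : ℝ) * ((-1) ^ (c + d) *
    gm (a + b - 2 * j + (c + d - 2 * k)) z)

/-- **one-dimensional Coulomb factor**:
`∫∫ h_a h_b(x) h_c h_d(y) e^{-τ(x-y)²} = (1+2τ)^{-1/2} nr_a nr_b nr_c nr_d P4(2τ/(1+2τ))` -/
theorem integral_hf4 {τ : ℝ} (hτ : 0 ≤ τ) (a b c d : ℕ) :
    ∫ p : ℝ × ℝ, (hf a p.1 * hf b p.1) * (hf c p.2 * hf d p.2) * E τ p.1 p.2 =
      nr a * nr b * (nr c * nr d) * P4 a b c d (2 * τ / (1 + 2 * τ)) / √(1 + 2 * τ) := by
  have e1 : ∀ p : ℝ × ℝ, (hf a p.1 * hf b p.1) * (hf c p.2 * hf d p.2) * E τ p.1 p.2 =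
      ∑ j ∈ range (a + 1), ∑ k ∈ range (c + 1),
        (nrm a * nrm b * (nrm c * nrm d) * ((kap a b j : ℝ) * (kap c d k : ℝ))) *
          (G (a + b - 2 * j) p.1 * G (c + d - 2 * k) p.2 * E τ p.1 p.2) := by
    intro p
    rw [hf_mul_hf_G, hf_mul_hf_G]
    rw [mul_mul_mul_comm, Finset.sum_mul_sum, mul_assoc, Finset.sum_mul, Finset.mul_sum]
    refine Finset.sum_congr rfl fun j _ => ?_
    rw [Finset.sum_mul, Finset.mul_sum]
    refine Finset.sum_congr rfl fun k _ => ?_
    ring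
  simp only [e1]
  rw [integral_finsetSum _ fun j _ => integrable_finsetSum _ fun k _ =>
    (integrable_K hτ _ _).const_mul _]
  have e2 : ∀ j ∈ range (a + 1), ∫ p : ℝ × ℝ, ∑ k ∈ range (c + 1),
        (nrm a * nrm b * (nrm c * nrm d) * ((kap a b j : ℝ) * (kap c d k : ℝ))) *
          (G (a + b - 2 * j) p.1 * G (c + d - 2 * k) p.2 * E τ p.1 p.2) =
      ∑ k ∈ range (c + 1), (nr a * nr b * (nr c * nr d) / √(1 + 2 * τ)) *
        ((kap a b j : ℝ) * (kap c d k : ℝ) * ((-1) ^ (c + d) *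
          gm (a + b - 2 * j + (c + d - 2 * k)) (2 * τ / (1 + 2 * τ)))) := by
    intro j _
    rw [integral_finsetSum _ fun k _ => (integrable_K hτ _ _).const_mul _]
    refine Finset.sum_congr rfl fun k _ => ?_
    rw [integral_const_mul]
    have h := K_eq hτ (a + b - 2 * j) (c + d - 2 * k)
    unfold K at h
    rw [h, nrm4]
    by_cases hk : kap c d k = 0
    · rw [hk]; simp
    · have hk1 : k ≤ c := by
        by_contra hc; exact hk (kap_eq_zero' (by omega))
      have hk2 : k ≤ d := by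
        by_contra hc; exact hk (kap_eq_zero (by omega))
      have hs : ((-1 : ℝ)) ^ (c + d - 2 * k) = (-1) ^ (c + d) := by
        have : c + d = (c + d - 2 * k) + 2 * k := by omega
        conv_rhs => rw [this, pow_add, pow_mul]
        simp
      rw [hs]
      have hpi : (π : ℝ) ≠ 0 := Real.pi_ne_zero
      field_simp
  rw [Finset.sum_congr rfl e2]
  unfold P4
  rw [Finset.mul_sum, Finset.sum_div]
  refine Finset.sum_congr rfl fun j _ => ?_
  rw [Finset.mul_sum, Finset.sum_div]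
  refine Finset.sum_congr rfl fun k _ => ?_
  ring

end Crest.Agent.R338.HL
end
end

-- ▼ part R338/CF2
section

/-!
# Row 338, module CF2 (helper608): the `τ`-integral of the Coulomb matrix elements

* `integral_zpow` : `∫_0^∞ (1+2τ²)^{-3/2} (2τ²/(1+2τ²))^k dτ = 1/(√2 (2k+1))`
-/

set_option autoImplicit false

open MeasureTheory Real

noncomputable section

namespace Crest.Agent.R338.CF

/-- the variable `z = 2τ²/(1+2τ²)` -/
def zz (t : ℝ) : ℝ := 2 * t ^ 2 / (1 + 2 * t ^ 2)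

theorem zz_nonneg (t : ℝ) : 0 ≤ zz t := by unfold zz; positivity

theorem hasDerivAt_v (t : ℝ) :
    HasDerivAt (fun t : ℝ => t / √(1 + 2 * t ^ 2)) (1 / √(1 + 2 * t ^ 2) ^ 3) t := by
  have hp : 0 < 1 + 2 * t ^ 2 := by positivity
  have hs : 0 < √(1 + 2 * t ^ 2) := Real.sqrt_pos.2 hp
  have h1 : HasDerivAt (fun t : ℝ => 1 + 2 * t ^ 2) (4 * t) t := by
    have := ((hasDerivAt_pow 2 t).const_mul 2).const_add 1
    refine this.congr_deriv ?_
    norm_num
    ring
  have h2 := h1.sqrt hp.ne'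
  have h3 := (hasDerivAt_id t).div h2 hs.ne'
  refine h3.congr_deriv ?_
  have h4 : √(1 + 2 * t ^ 2) ^ 2 = 1 + 2 * t ^ 2 := Real.sq_sqrt hp.le
  simp only [id]
  field_simp
  rw [h4]
  ring

theorem tendsto_v : Filter.Tendsto (fun t : ℝ => t / √(1 + 2 * t ^ 2)) Filter.atTop
    (nhds (1 / √2)) := by
  have h1 : Filter.Tendsto (fun t : ℝ => 1 / √((t ^ 2)⁻¹ + 2)) Filter.atTop (nhds (1 / √(0 + 2))) := by
    have h2 : Filter.Tendsto (fun t : ℝ => (t ^ 2)⁻¹) Filter.atTop (nhds 0) :=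
      tendsto_inv_atTop_zero.comp (Filter.tendsto_pow_atTop (by norm_num))
    have h3 := (h2.add_const 2).sqrt
    exact tendsto_const_nhds.div h3 (by positivity)
  rw [zero_add] at h1
  refine h1.congr' ?_
  filter_upwards [Filter.eventually_gt_atTop 0] with t ht
  have e : 1 + 2 * t ^ 2 = t ^ 2 * ((t ^ 2)⁻¹ + 2) := by field_simp
  rw [e, Real.sqrt_mul (by positivity), Real.sqrt_sq ht.le]
  field_simp

theorem zz_eq (t : ℝ) : zz t = 2 * (t / √(1 + 2 * t ^ 2)) ^ 2 := by
  have hp : 0 < 1 + 2 * t ^ 2 := by positivity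
  rw [zz, div_pow, Real.sq_sqrt hp.le]
  ring

theorem hasDerivAt_vpow (k : ℕ) (t : ℝ) :
    HasDerivAt (fun t : ℝ => 2 ^ k * (t / √(1 + 2 * t ^ 2)) ^ (2 * k + 1) / (2 * k + 1))
      (zz t ^ k / √(1 + 2 * t ^ 2) ^ 3) t := by
  have h := (((hasDerivAt_v t).pow (2 * k + 1)).const_mul (2 ^ k : ℝ)).div_const (2 * (k : ℝ) + 1)
  refine h.congr_deriv ?_
  have h2 : (2 * (k : ℝ) + 1) ≠ 0 := by positivity
  rw [zz_eq, Nat.add_sub_cancel, pow_mul, mul_pow]
  push_cast
  field_simp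

theorem tendsto_vpow (k : ℕ) :
    Filter.Tendsto (fun t : ℝ => 2 ^ k * (t / √(1 + 2 * t ^ 2)) ^ (2 * k + 1) / (2 * k + 1))
      Filter.atTop (nhds (1 / (√2 * (2 * k + 1)))) := by
  have h := ((tendsto_v.pow (2 * k + 1)).const_mul (2 ^ k : ℝ)).div_const (2 * (k : ℝ) + 1)
  have e : 2 ^ k * (1 / √2) ^ (2 * k + 1) / (2 * (k : ℝ) + 1) = 1 / (√2 * (2 * k + 1)) := by
    rw [pow_succ, pow_mul, div_pow, Real.sq_sqrt (by norm_num : (0 : ℝ) ≤ 2)]
    simp only [one_pow, one_div, inv_pow]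
    field_simp
  rwa [e] at h

theorem integrableOn_zpow (k : ℕ) :
    IntegrableOn (fun t : ℝ => zz t ^ k / √(1 + 2 * t ^ 2) ^ 3) (Set.Ioi 0) := by
  refine integrableOn_Ioi_deriv_of_nonneg' (a := 0) (fun t _ => hasDerivAt_vpow k t) ?_ (tendsto_vpow k)
  intro t _
  have := zz_nonneg t
  positivity

/-- `∫_0^∞ (1+2τ²)^{-3/2} (2τ²/(1+2τ²))^k dτ = 1/(√2 (2k+1))` -/
theorem integral_zpow (k : ℕ) :
    ∫ t in Set.Ioi (0 : ℝ), zz t ^ k / √(1 + 2 * t ^ 2) ^ 3 = 1 / (√2 * (2 * k + 1)) := by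
  rw [integral_Ioi_of_hasDerivAt_of_tendsto' (fun t _ => hasDerivAt_vpow k t) (integrableOn_zpow k)
    (tendsto_vpow k)]
  simp

end Crest.Agent.R338.CF
end
end

-- ▼ part R338/CF3

/-!
# Row 338, module CF3 (helper608): closed formula of the Coulomb integrals

* `nice_phi2` : `phi a * phi b` is integrable and bounded
* `Q_phi` : the Gaussian form is a product of three one-dimensional forms
* `W_formula` : closed formula of `W a b c d`
-/

set_option autoImplicit false

open MeasureTheory Polynomial Real Finset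

noncomputable section

namespace Crest.Agent.R338.CF

open Crest.Agent.R338.HO Crest.Agent.R338.CE

/-- polynomial times Gaussian is bounded -/
theorem bdd_pg (P : ℝ[X]) : ∃ C : ℝ, ∀ x : ℝ, |P.eval x * rexp (-(x ^ 2) / 2)| ≤ C := by
  induction P using Polynomial.induction_on' with
  | add p q hp hq =>
    obtain ⟨A, hA⟩ := hp
    obtain ⟨B, hB⟩ := hq
    refine ⟨A + B, fun x => ?_⟩
    rw [eval_add, add_mul]
    exact (abs_add_le _ _).trans (add_le_add (hA x) (hB x))
  | monomial n a =>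
    refine ⟨|a| * (n.factorial * rexp (1 / 2)), fun x => ?_⟩
    rw [eval_monomial, mul_assoc, abs_mul, abs_mul, abs_pow, Real.abs_exp]
    refine mul_le_mul_of_nonneg_left ?_ (abs_nonneg a)
    have h1 := Real.pow_div_factorial_le_exp |x| (abs_nonneg x) n
    rw [div_le_iff₀ (by positivity)] at h1
    have h2 : rexp |x| * rexp (-(x ^ 2) / 2) ≤ rexp (1 / 2) := by
      rw [← Real.exp_add, Real.exp_le_exp]
      nlinarith [sq_nonneg (|x| - 1), sq_abs x]
    calc |x| ^ n * rexp (-(x ^ 2) / 2) ≤ (rexp |x| * n.factorial) * rexp (-(x ^ 2) / 2) :=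
          mul_le_mul_of_nonneg_right h1 (Real.exp_pos _).le
      _ = n.factorial * (rexp |x| * rexp (-(x ^ 2) / 2)) := by ring
      _ ≤ n.factorial * rexp (1 / 2) := mul_le_mul_of_nonneg_left h2 (by positivity)

theorem bdd_hf (m : ℕ) : ∃ C : ℝ, ∀ x : ℝ, |hf m x| ≤ C := bdd_pg (hP m)

theorem bdd_phi (a : Fin 3 → ℕ) : ∃ C : ℝ, ∀ x : P3, |phi a x| ≤ C := by
  choose C hC using fun c => bdd_hf (a c)
  refine ⟨∏ c, C c, fun x => ?_⟩
  unfold phi
  rw [Finset.abs_prod]
  exact Finset.prod_le_prod (fun c _ => abs_nonneg _) (fun c _ => hC c (x c))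


theorem integrable_P3 {f : (Fin 3 → ℝ) → ℝ} (hf : Integrable f) :
    Integrable (fun x : P3 => f (fun c => x c)) := by
  have h := (EuclideanSpace.volume_preserving_symm_measurableEquiv_toLp (Fin 3)).integrable_comp_emb
    (MeasurableEquiv.measurableEmbedding _) (g := f)
  exact h.2 hf

theorem nice_phi2 (a b : Fin 3 → ℕ) : Nice (fun x => phi a x * phi b x) := by
  constructor
  · have h : Integrable (fun y : Fin 3 → ℝ => ∏ c, (hf (a c) (y c) * hf (b c) (y c))) :=
      Integrable.fintype_prod_dep (f := fun c y => hf (a c) y * hf (b c) y)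
        (fun c => integrable_hf_mul_hf (a c) (b c))
    refine (integrable_P3 h).congr (Filter.Eventually.of_forall fun x => ?_)
    simp only [phi, Finset.prod_mul_distrib]
  · obtain ⟨A, hA⟩ := bdd_phi a
    obtain ⟨B, hB⟩ := bdd_phi b
    have hA0 : 0 ≤ A := (abs_nonneg _).trans (hA 0)
    refine ⟨A * B, fun x => ?_⟩
    rw [abs_mul]
    exact mul_le_mul (hA x) (hB x) (abs_nonneg _) hA0

/-- one-dimensional form -/
def q1 (t : ℝ) (a b c d : ℕ) : ℝ :=
  ∫ p : ℝ × ℝ, (hf a p.1 * hf b p.1) * (hf c p.2 * hf d p.2) * HL.E (t ^ 2) p.1 p.2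

/-- integrals over `P3 × P3` of products -/
theorem integral_P3P3 (f : Fin 3 → ℝ × ℝ → ℝ) :
    ∫ z : P3 × P3, ∏ c, f c (z.1 c, z.2 c) = ∏ c, ∫ p : ℝ × ℝ, f c p := by
  have h1 : ∏ c, ∫ p : ℝ × ℝ, f c p = ∫ y : Fin 3 → ℝ × ℝ, ∏ c, f c (y c) :=
    (integral_fintype_prod_volume_eq_prod (fun c => f c)).symm
  have mp := volume_measurePreserving_arrowProdEquivProdArrow ℝ ℝ (Fin 3)
  have h2 : ∫ y : Fin 3 → ℝ × ℝ, ∏ c, f c (y c) =
      ∫ w : (Fin 3 → ℝ) × (Fin 3 → ℝ), ∏ c, f c (w.1 c, w.2 c) := by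
    rw [← mp.integral_comp' (g := fun w : (Fin 3 → ℝ) × (Fin 3 → ℝ) => ∏ c, f c (w.1 c, w.2 c))]
    rfl
  have mp3 := (EuclideanSpace.volume_preserving_symm_measurableEquiv_toLp (Fin 3))
  have h3 : ∫ w : (Fin 3 → ℝ) × (Fin 3 → ℝ), ∏ c, f c (w.1 c, w.2 c) =
      ∫ z : P3 × P3, ∏ c, f c (z.1 c, z.2 c) := by
    have mp4 := mp3.prod mp3
    have := mp4.integral_comp ((MeasurableEquiv.measurableEmbedding _).prodMap
      (MeasurableEquiv.measurableEmbedding _))
      (fun w : (Fin 3 → ℝ) × (Fin 3 → ℝ) => ∏ c, f c (w.1 c, w.2 c))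
    rw [Measure.volume_eq_prod, Measure.volume_eq_prod, ← this]
    rfl
  rw [h1, h2, h3]

theorem Q_phi (t : ℝ) (a b c d : Fin 3 → ℕ) :
    Q t (fun x => phi a x * phi b x) (fun x => phi c x * phi d x) =
      ∏ i, q1 t (a i) (b i) (c i) (d i) := by
  unfold q1
  rw [← integral_P3P3 (fun i p => (hf (a i) p.1 * hf (b i) p.1) * (hf (c i) p.2 * hf (d i) p.2) *
    HL.E (t ^ 2) p.1 p.2)]
  unfold Q
  congr 1
  ext z
  simp only [phi, Finset.prod_mul_distrib, HL.E]
  congr 1
  rw [← Real.exp_sum, EuclideanSpace.norm_sq_eq]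
  congr 1
  rw [Finset.mul_sum, ← Finset.sum_neg_distrib]
  refine Finset.sum_congr rfl fun i _ => ?_
  rw [Real.norm_eq_abs, sq_abs, PiLp.sub_apply]
  ring

/-- coefficients of the one-dimensional factor -/
def w4 (a b c d j k : ℕ) : ℤ :=
  if Even (a + b + (c + d)) then
    (HL.kap a b j : ℤ) * (HL.kap c d k : ℤ) * ((-1) ^ (c + d) *
      ((-1) ^ ((a + b - 2 * j + (c + d - 2 * k)) / 2) * (HL.df ((a + b - 2 * j + (c + d - 2 * k)) / 2) : ℤ)))
  else 0

/-- exponents of the one-dimensional factor -/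
def e4 (a b c d j k : ℕ) : ℕ := (a + b - 2 * j + (c + d - 2 * k)) / 2

theorem P4_eq (a b c d : ℕ) (z : ℝ) : HL.P4 a b c d z =
    ∑ j ∈ range (a + 1), ∑ k ∈ range (c + 1), (w4 a b c d j k : ℝ) * z ^ e4 a b c d j k := by
  unfold HL.P4
  refine Finset.sum_congr rfl fun j _ => Finset.sum_congr rfl fun k _ => ?_
  by_cases hj : HL.kap a b j = 0
  · rw [hj]; unfold w4; split_ifs <;> simp [hj]
  by_cases hk : HL.kap c d k = 0
  · rw [hk]; unfold w4; split_ifs <;> simp [hk]
  have hj1 : j ≤ a := by by_contra hc; exact hj (HL.kap_eq_zero' (by omega))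
  have hj2 : j ≤ b := by by_contra hc; exact hj (HL.kap_eq_zero (by omega))
  have hk1 : k ≤ c := by by_contra hc; exact hk (HL.kap_eq_zero' (by omega))
  have hk2 : k ≤ d := by by_contra hc; exact hk (HL.kap_eq_zero (by omega))
  have hiff : Even (a + b - 2 * j + (c + d - 2 * k)) ↔ Even (a + b + (c + d)) := by
    rw [Nat.even_iff, Nat.even_iff]
    omega
  unfold w4 e4 HL.gm
  by_cases h : Even (a + b + (c + d))
  · rw [if_pos h, if_pos (hiff.2 h)]
    push_cast
    rw [neg_pow z]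
    ring
  · rw [if_neg h, if_neg (fun h' => h (hiff.1 h'))]
    simp

/-- normalisation -/
def nr4 (a b c d : ℕ) : ℝ := HL.nr a * HL.nr b * (HL.nr c * HL.nr d)

theorem q1_eq (t : ℝ) (a b c d : ℕ) : q1 t a b c d =
    nr4 a b c d * HL.P4 a b c d (zz t) / √(1 + 2 * t ^ 2) := by
  unfold q1
  rw [HL.integral_hf4 (sq_nonneg t)]
  rfl

/-- index set of the six-fold sum -/
theorem prod_P4 (a b c d : Fin 3 → ℕ) (z : ℝ) : ∏ i, HL.P4 (a i) (b i) (c i) (d i) z =
    ∑ j0 ∈ range (a 0 + 1), ∑ k0 ∈ range (c 0 + 1), ∑ j1 ∈ range (a 1 + 1), ∑ k1 ∈ range (c 1 + 1),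
      ∑ j2 ∈ range (a 2 + 1), ∑ k2 ∈ range (c 2 + 1),
        ((w4 (a 0) (b 0) (c 0) (d 0) j0 k0 : ℝ) * (w4 (a 1) (b 1) (c 1) (d 1) j1 k1 : ℝ) *
          (w4 (a 2) (b 2) (c 2) (d 2) j2 k2 : ℝ)) *
        z ^ (e4 (a 0) (b 0) (c 0) (d 0) j0 k0 + e4 (a 1) (b 1) (c 1) (d 1) j1 k1 +
          e4 (a 2) (b 2) (c 2) (d 2) j2 k2) := by
  rw [Fin.prod_univ_three]
  simp only [P4_eq]
  rw [Finset.sum_mul, Finset.sum_mul]
  refine Finset.sum_congr rfl fun j0 _ => ?_
  rw [Finset.sum_mul, Finset.sum_mul]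
  refine Finset.sum_congr rfl fun k0 _ => ?_
  rw [Finset.mul_sum (range (a 1 + 1)), Finset.sum_mul]
  refine Finset.sum_congr rfl fun j1 _ => ?_
  rw [Finset.mul_sum (range (c 1 + 1)), Finset.sum_mul]
  refine Finset.sum_congr rfl fun k1 _ => ?_
  rw [Finset.mul_sum]
  refine Finset.sum_congr rfl fun j2 _ => ?_
  rw [Finset.mul_sum]
  refine Finset.sum_congr rfl fun k2 _ => ?_
  rw [pow_add, pow_add]
  ring

/-- **closed formula of the Coulomb integrals** -/
theorem W_formula (a b c d : Fin 3 → ℕ) : CE.W a b c d =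
    √(2 / π) * (∏ i, nr4 (a i) (b i) (c i) (d i)) *
    ∑ j0 ∈ range (a 0 + 1), ∑ k0 ∈ range (c 0 + 1), ∑ j1 ∈ range (a 1 + 1), ∑ k1 ∈ range (c 1 + 1),
      ∑ j2 ∈ range (a 2 + 1), ∑ k2 ∈ range (c 2 + 1),
        ((w4 (a 0) (b 0) (c 0) (d 0) j0 k0 : ℝ) * (w4 (a 1) (b 1) (c 1) (d 1) j1 k1 : ℝ) *
          (w4 (a 2) (b 2) (c 2) (d 2) j2 k2 : ℝ)) /
        (2 * ((e4 (a 0) (b 0) (c 0) (d 0) j0 k0 + e4 (a 1) (b 1) (c 1) (d 1) j1 k1 +
          e4 (a 2) (b 2) (c 2) (d 2) j2 k2 : ℕ) : ℝ) + 1) := by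
  unfold CE.W
  rw [D_eq_heat (nice_phi2 a b).int (nice_phi2 c d)]
  have e1 : ∀ t : ℝ, Q t (fun x => phi a x * phi b x) (fun x => phi c x * phi d x) =
      (∏ i, nr4 (a i) (b i) (c i) (d i)) *
      ∑ j0 ∈ range (a 0 + 1), ∑ k0 ∈ range (c 0 + 1), ∑ j1 ∈ range (a 1 + 1),
        ∑ k1 ∈ range (c 1 + 1), ∑ j2 ∈ range (a 2 + 1), ∑ k2 ∈ range (c 2 + 1),
        ((w4 (a 0) (b 0) (c 0) (d 0) j0 k0 : ℝ) * (w4 (a 1) (b 1) (c 1) (d 1) j1 k1 : ℝ) *
          (w4 (a 2) (b 2) (c 2) (d 2) j2 k2 : ℝ)) *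
        (zz t ^ (e4 (a 0) (b 0) (c 0) (d 0) j0 k0 + e4 (a 1) (b 1) (c 1) (d 1) j1 k1 +
          e4 (a 2) (b 2) (c 2) (d 2) j2 k2) / √(1 + 2 * t ^ 2) ^ 3) := by
    intro t
    have hprod := prod_P4 a b c d (zz t)
    rw [Q_phi]
    simp only [q1_eq]
    rw [Finset.prod_div_distrib, Finset.prod_mul_distrib, hprod]
    simp only [Finset.prod_const, Finset.card_univ, Fintype.card_fin]
    rw [mul_div_assoc]
    congr 1
    simp only [Finset.sum_div, mul_div_assoc]
  simp only [e1]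
  rw [integral_const_mul]
  have hI : ∀ (C : ℝ) (r : ℕ), Integrable (fun t : ℝ => C * (zz t ^ r / √(1 + 2 * t ^ 2) ^ 3))
      (volume.restrict (Set.Ioi 0)) := fun C r => (integrableOn_zpow r).const_mul C
  have e2 : ∫ t in Set.Ioi (0 : ℝ), ∑ j0 ∈ range (a 0 + 1), ∑ k0 ∈ range (c 0 + 1),
        ∑ j1 ∈ range (a 1 + 1), ∑ k1 ∈ range (c 1 + 1), ∑ j2 ∈ range (a 2 + 1),
        ∑ k2 ∈ range (c 2 + 1),
        ((w4 (a 0) (b 0) (c 0) (d 0) j0 k0 : ℝ) * (w4 (a 1) (b 1) (c 1) (d 1) j1 k1 : ℝ) *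
          (w4 (a 2) (b 2) (c 2) (d 2) j2 k2 : ℝ)) *
        (zz t ^ (e4 (a 0) (b 0) (c 0) (d 0) j0 k0 + e4 (a 1) (b 1) (c 1) (d 1) j1 k1 +
          e4 (a 2) (b 2) (c 2) (d 2) j2 k2) / √(1 + 2 * t ^ 2) ^ 3) =
      1 / √2 * ∑ j0 ∈ range (a 0 + 1), ∑ k0 ∈ range (c 0 + 1), ∑ j1 ∈ range (a 1 + 1),
        ∑ k1 ∈ range (c 1 + 1), ∑ j2 ∈ range (a 2 + 1), ∑ k2 ∈ range (c 2 + 1),
        ((w4 (a 0) (b 0) (c 0) (d 0) j0 k0 : ℝ) * (w4 (a 1) (b 1) (c 1) (d 1) j1 k1 : ℝ) *
          (w4 (a 2) (b 2) (c 2) (d 2) j2 k2 : ℝ)) /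
        (2 * ((e4 (a 0) (b 0) (c 0) (d 0) j0 k0 + e4 (a 1) (b 1) (c 1) (d 1) j1 k1 +
          e4 (a 2) (b 2) (c 2) (d 2) j2 k2 : ℕ) : ℝ) + 1) := by
    rw [integral_finsetSum _ fun j0 _ => integrable_finsetSum _ fun k0 _ =>
      integrable_finsetSum _ fun j1 _ => integrable_finsetSum _ fun k1 _ =>
      integrable_finsetSum _ fun j2 _ => integrable_finsetSum _ fun k2 _ => hI _ _, Finset.mul_sum]
    refine Finset.sum_congr rfl fun j0 _ => ?_
    rw [integral_finsetSum _ fun k0 _ =>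
      integrable_finsetSum _ fun j1 _ => integrable_finsetSum _ fun k1 _ =>
      integrable_finsetSum _ fun j2 _ => integrable_finsetSum _ fun k2 _ => hI _ _, Finset.mul_sum]
    refine Finset.sum_congr rfl fun k0 _ => ?_
    rw [integral_finsetSum _ fun j1 _ => integrable_finsetSum _ fun k1 _ =>
      integrable_finsetSum _ fun j2 _ => integrable_finsetSum _ fun k2 _ => hI _ _, Finset.mul_sum]
    refine Finset.sum_congr rfl fun j1 _ => ?_
    rw [integral_finsetSum _ fun k1 _ =>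
      integrable_finsetSum _ fun j2 _ => integrable_finsetSum _ fun k2 _ => hI _ _, Finset.mul_sum]
    refine Finset.sum_congr rfl fun k1 _ => ?_
    rw [integral_finsetSum _ fun j2 _ => integrable_finsetSum _ fun k2 _ => hI _ _, Finset.mul_sum]
    refine Finset.sum_congr rfl fun j2 _ => ?_
    rw [integral_finsetSum _ fun k2 _ => hI _ _, Finset.mul_sum]
    refine Finset.sum_congr rfl fun k2 _ => ?_
    rw [integral_const_mul, integral_zpow]
    field_simp
  rw [e2]
  have e3 : √(2 / π) = 2 / √π * (1 / √2) := by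
    rw [Real.sqrt_div (by norm_num)]
    have h2 : (√2 : ℝ) ≠ 0 := by positivity
    have hp : (√π : ℝ) ≠ 0 := by positivity
    have h22 : √2 * √2 = (2 : ℝ) := Real.mul_self_sqrt (by norm_num)
    field_simp
    nlinarith
  rw [e3]
  ring

end Crest.Agent.R338.CF
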