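import Mathlib
import Crest.Agent.R338.CE1
import Crest.Agent.R338.WKB4
import Crest.Agent.R338.CF3
import Crest.Agent.R338.HO1b

-- ▼ part R338/CE2
section

/-!
Row 338, part 5: Fourier form of the Coulomb form, positivity, Cauchy-Schwarz.
-/

open MeasureTheory Real Set
open scoped FourierTransform ComplexConjugate InnerProductSpace

noncomputable section

namespace Crest.Agent.R338.CE

/-- The Fourier transform of a real function on ℝ³. -/
def fh (f : P3 → ℝ) : P3 → ℂ := 𝓕 (fun x => (f x : ℂ))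

theorem fh_apply (f : P3 → ℝ) (w : P3) :
    fh f w = ∫ v : P3, Complex.exp (↑(-2 * π * ⟪v, w⟫_ℝ) * Complex.I) * (f v : ℂ) := by
  unfold fh
  rw [Real.fourier_eq']
  rfl

theorem conj_fh (f : P3 → ℝ) (w : P3) :
    conj (fh f w) = ∫ v : P3, Complex.exp (↑(2 * π * ⟪v, w⟫_ℝ) * Complex.I) * (f v : ℂ) := by
  rw [fh_apply, ← integral_conj]
  refine integral_congr_ae (Filter.Eventually.of_forall fun v => ?_)
  simp only [map_mul, Complex.conj_ofReal, ← Complex.exp_conj, Complex.conj_I]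
  congr 2
  push_cast
  ring

/-- the Gaussian as a Fourier transform. -/
theorem gauss_eq {τ : ℝ} (hτ : 0 < τ) (u : P3) :
    (Real.exp (-(τ ^ 2 * ‖u‖ ^ 2)) : ℂ) = (((√π / τ) ^ 3 : ℝ) : ℂ) *
      ∫ v : P3, Complex.exp (↑(-2 * π * ⟪v, u⟫_ℝ) * Complex.I) *
        (Real.exp (-((π / τ) ^ 2 * ‖v‖ ^ 2)) : ℂ) := by
  have hb : 0 < (((π / τ) ^ 2 : ℝ) : ℂ).re := by rw [Complex.ofReal_re]; positivity
  have h := fourier_gaussian_innerProductSpace (V := P3) hb u
  rw [Real.fourier_eq'] at h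
  have e1 : (fun v : P3 => Complex.exp (↑(-2 * π * ⟪v, u⟫_ℝ) * Complex.I) •
      Complex.exp (-(((π / τ) ^ 2 : ℝ) : ℂ) * (‖v‖ : ℂ) ^ 2)) =
      fun v : P3 => Complex.exp (↑(-2 * π * ⟪v, u⟫_ℝ) * Complex.I) *
        (Real.exp (-((π / τ) ^ 2 * ‖v‖ ^ 2)) : ℂ) := by
    funext v
    rw [smul_eq_mul]
    congr 1
    push_cast
    congr 1
    ring
  rw [e1] at h
  rw [h]
  have e2 : (π : ℂ) / (((π / τ) ^ 2 : ℝ) : ℂ) = (((τ / √π) ^ 2 : ℝ) : ℂ) := by
    rw [← Complex.ofReal_div]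
    congr 1
    have : √π ^ 2 = π := Real.sq_sqrt pi_pos.le
    rw [div_pow, div_pow, this]
    field_simp
  have e3 : ((((τ / √π) ^ 2 : ℝ) : ℂ)) ^ ((Module.finrank ℝ P3 : ℂ) / 2) =
      (((τ / √π) ^ 3 : ℝ) : ℂ) := by
    rw [finrank_euclideanSpace, Fintype.card_fin]
    have : ((3 : ℕ) : ℂ) / 2 = ((3 / 2 : ℝ) : ℂ) := by push_cast; ring
    rw [this, ← Complex.ofReal_cpow (by positivity)]
    congr 1
    rw [← Real.rpow_natCast, ← Real.rpow_natCast, ← Real.rpow_mul (by positivity)]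
    norm_num
  rw [e2, e3]
  have e4 : Complex.exp (-(π : ℂ) ^ 2 * (‖u‖ : ℂ) ^ 2 / (((π / τ) ^ 2 : ℝ) : ℂ)) =
      (Real.exp (-(τ ^ 2 * ‖u‖ ^ 2)) : ℂ) := by
    rw [Complex.ofReal_exp]
    congr 1
    push_cast
    have h1 : (π : ℂ) ≠ 0 := by exact_mod_cast pi_ne_zero
    have h2 : (τ : ℂ) ≠ 0 := by exact_mod_cast hτ.ne'
    field_simp
  rw [e4, ← mul_assoc, ← Complex.ofReal_mul]
  have h5 : √π ≠ 0 := by positivity
  have : (√π / τ) ^ 3 * (τ / √π) ^ 3 = 1 := by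
    rw [← mul_pow]
    have : √π / τ * (τ / √π) = 1 := by field_simp
    rw [this, one_pow]
  rw [this]
  simp

theorem norm_exp_I (t : ℝ) : ‖Complex.exp (↑t * Complex.I)‖ = 1 := Complex.norm_exp_ofReal_mul_I t

theorem integrable_real_gauss {b : ℝ} (hb : 0 < b) :
    Integrable (fun v : P3 => (Real.exp (-(b ^ 2 * ‖v‖ ^ 2)) : ℂ)) :=
  (integrable_exp_norm hb).ofReal

theorem Q_fourier {f g : P3 → ℝ} (hf : Integrable f) (hg : Integrable g) {τ : ℝ} (hτ : 0 < τ) :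
    (Q τ f g : ℂ) = (((√π / τ) ^ 3 : ℝ) : ℂ) *
      ∫ v : P3, (Real.exp (-((π / τ) ^ 2 * ‖v‖ ^ 2)) : ℂ) * (fh f v * conj (fh g v)) := by
  have hpt : 0 < π / τ := by positivity
  -- the triple integrand
  have hfg : Integrable (fun z : P3 × P3 => (f z.1 : ℂ) * (g z.2 : ℂ)) :=
    hf.ofReal.mul_prod hg.ofReal
  have hK0 : Integrable (fun p : (P3 × P3) × P3 => ((f p.1.1 : ℂ) * (g p.1.2 : ℂ)) *
      (Real.exp (-((π / τ) ^ 2 * ‖p.2‖ ^ 2)) : ℂ))
      ((volume : Measure (P3 × P3)).prod (volume : Measure P3)) :=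
    hfg.mul_prod (integrable_real_gauss hpt)
  have hK : Integrable (fun p : (P3 × P3) × P3 =>
      Complex.exp (↑(-2 * π * ⟪p.2, p.1.1 - p.1.2⟫_ℝ) * Complex.I) *
      (((f p.1.1 : ℂ) * (g p.1.2 : ℂ)) * (Real.exp (-((π / τ) ^ 2 * ‖p.2‖ ^ 2)) : ℂ)))
      ((volume : Measure (P3 × P3)).prod (volume : Measure P3)) := by
    refine hK0.bdd_mul (c := 1) ?_ ?_
    · exact (by fun_prop : Continuous fun p : (P3 × P3) × P3 =>
        Complex.exp (↑(-2 * π * ⟪p.2, p.1.1 - p.1.2⟫_ℝ) * Complex.I)).aestronglyMeasurable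
    · exact Filter.Eventually.of_forall fun p => (norm_exp_I _).le
  have hswap := integral_integral_swap (f := fun (z : P3 × P3) (v : P3) =>
      Complex.exp (↑(-2 * π * ⟪v, z.1 - z.2⟫_ℝ) * Complex.I) *
      (((f z.1 : ℂ) * (g z.2 : ℂ)) * (Real.exp (-((π / τ) ^ 2 * ‖v‖ ^ 2)) : ℂ))) hK
  have hQ : (Q τ f g : ℂ) = ∫ z : P3 × P3, (((√π / τ) ^ 3 : ℝ) : ℂ) * ∫ v : P3,
      Complex.exp (↑(-2 * π * ⟪v, z.1 - z.2⟫_ℝ) * Complex.I) *
      (((f z.1 : ℂ) * (g z.2 : ℂ)) * (Real.exp (-((π / τ) ^ 2 * ‖v‖ ^ 2)) : ℂ)) := by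
    unfold Q
    rw [← integral_complex_ofReal]
    refine integral_congr_ae (Filter.Eventually.of_forall fun z => ?_)
    change ((f z.1 * g z.2 * Real.exp (-(τ ^ 2 * ‖z.1 - z.2‖ ^ 2)) : ℝ) : ℂ) = _
    rw [Complex.ofReal_mul, Complex.ofReal_mul, gauss_eq hτ, mul_left_comm]
    congr 1
    rw [← integral_const_mul]
    refine integral_congr_ae (Filter.Eventually.of_forall fun v => ?_)
    simp only
    ring
  rw [hQ, integral_const_mul, hswap]
  congr 1
  refine integral_congr_ae (Filter.Eventually.of_forall fun v => ?_)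
  simp only
  have e : (fun z : P3 × P3 => Complex.exp (↑(-2 * π * ⟪v, z.1 - z.2⟫_ℝ) * Complex.I) *
      (((f z.1 : ℂ) * (g z.2 : ℂ)) * (Real.exp (-((π / τ) ^ 2 * ‖v‖ ^ 2)) : ℂ))) =
      fun z : P3 × P3 => (Real.exp (-((π / τ) ^ 2 * ‖v‖ ^ 2)) : ℂ) *
        ((Complex.exp (↑(-2 * π * ⟪z.1, v⟫_ℝ) * Complex.I) * (f z.1 : ℂ)) *
        (Complex.exp (↑(2 * π * ⟪z.2, v⟫_ℝ) * Complex.I) * (g z.2 : ℂ))) := by
    funext z
    have : Complex.exp (↑(-2 * π * ⟪v, z.1 - z.2⟫_ℝ) * Complex.I) =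
        Complex.exp (↑(-2 * π * ⟪z.1, v⟫_ℝ) * Complex.I) *
        Complex.exp (↑(2 * π * ⟪z.2, v⟫_ℝ) * Complex.I) := by
      rw [← Complex.exp_add]
      congr 1
      rw [inner_sub_right, real_inner_comm v z.1, real_inner_comm v z.2]
      push_cast
      ring
    rw [this]
    ring
  rw [e, integral_const_mul, Measure.volume_eq_prod,
    integral_prod_mul (fun x : P3 => Complex.exp (↑(-2 * π * ⟪x, v⟫_ℝ) * Complex.I) * (f x : ℂ))
      (fun y : P3 => Complex.exp (↑(2 * π * ⟪y, v⟫_ℝ) * Complex.I) * (g y : ℂ)),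
    ← fh_apply, ← conj_fh]

theorem Q_self_fourier {f : P3 → ℝ} (hf : Integrable f) {τ : ℝ} (hτ : 0 < τ) :
    Q τ f f = (√π / τ) ^ 3 *
      ∫ v : P3, Real.exp (-((π / τ) ^ 2 * ‖v‖ ^ 2)) * ‖fh f v‖ ^ 2 := by
  have h := Q_fourier hf hf hτ
  have e : (fun v : P3 => (Real.exp (-((π / τ) ^ 2 * ‖v‖ ^ 2)) : ℂ) * (fh f v * conj (fh f v))) =
      fun v : P3 => ((Real.exp (-((π / τ) ^ 2 * ‖v‖ ^ 2)) * ‖fh f v‖ ^ 2 : ℝ) : ℂ) := by
    funext v
    rw [Complex.mul_conj, Complex.normSq_eq_norm_sq]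
    push_cast
    rfl
  rw [e, integral_complex_ofReal, ← Complex.ofReal_mul] at h
  exact_mod_cast h

theorem Q_self_nonneg {f : P3 → ℝ} (hf : Integrable f) {τ : ℝ} (hτ : 0 < τ) : 0 ≤ Q τ f f := by
  rw [Q_self_fourier hf hτ]
  have : 0 ≤ ∫ v : P3, Real.exp (-((π / τ) ^ 2 * ‖v‖ ^ 2)) * ‖fh f v‖ ^ 2 :=
    integral_nonneg fun v => by positivity
  positivity

theorem D_self_nonneg {f : P3 → ℝ} (hf : Nice f) : 0 ≤ D f f := by
  rw [D_eq_heat hf.int hf]
  have : 0 ≤ ∫ τ in Ioi (0 : ℝ), Q τ f f :=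
    setIntegral_nonneg measurableSet_Ioi fun τ hτ => Q_self_nonneg hf.int hτ
  positivity

/-- Cauchy-Schwarz for the Coulomb form. -/
theorem D_cauchy_schwarz {f g : P3 → ℝ} (hf : Nice f) (hg : Nice g) :
    (D f g) ^ 2 ≤ D f f * D g g := by
  have h : ∀ t : ℝ, 0 ≤ D g g * (t * t) + 2 * D f g * t + D f f := by
    intro t
    have h1 := D_self_nonneg (hf.add (hg.const_mul t))
    have hgt := hg.const_mul t
    rw [D_add_left hf.int hgt.int (hf.add hgt), D_add_right hf.int hf hgt,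
      D_add_right hgt.int hf hgt, D_const_mul_left, D_const_mul_left, D_const_mul_right,
      D_const_mul_right, D_symm g f] at h1
    linarith
  have := discrim_le_zero h
  unfold discrim at this
  nlinarith


/-- `∫_0^∞ (√π/τ)³ exp(-(π/τ)² r²) dτ · 2/√π = 1/(π r²)`. -/
theorem hasDerivAt_exp_inv (c τ : ℝ) (hτ : τ ≠ 0) :
    HasDerivAt (fun τ : ℝ => Real.exp (-(c / τ ^ 2))) (Real.exp (-(c / τ ^ 2)) * (2 * c / τ ^ 3)) τ := by
  have h1 : HasDerivAt (fun τ : ℝ => -(c / τ ^ 2)) (2 * c / τ ^ 3) τ := by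
    have h := ((hasDerivAt_pow 2 τ).inv (pow_ne_zero 2 hτ)).const_mul (-c)
    refine (h.congr_deriv ?_).congr_of_eventuallyEq ?_
    · field_simp
      norm_num
      ring
    · refine Filter.Eventually.of_forall fun t => ?_
      simp only [Pi.inv_apply]
      ring
  exact h1.exp

end Crest.Agent.R338.CE
end
end

-- ▼ part R338/CE3
section

/-!
Row 338, part 5: `D(f,f) = ∫ |f^|²/(π|w|²)`; the divergence estimate and the duality estimate.
-/

open MeasureTheory Real Set Filter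
open scoped FourierTransform ComplexConjugate InnerProductSpace SchwartzMap Topology LineDeriv ContDiff

noncomputable section

namespace Crest.Agent.R338.CE

theorem continuous_fh {f : P3 → ℝ} (hf : Integrable f) : Continuous (fh f) := by
  have := VectorFourier.fourierIntegral_continuous (L := innerₗ P3) (μ := (volume : Measure P3))
    Real.continuous_fourierChar continuous_inner hf.ofReal (𝕜 := ℝ) (E := ℂ)
  exact this

theorem norm_fh_le (f : P3 → ℝ) (w : P3) : ‖fh f w‖ ≤ ∫ x, |f x| := by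
  rw [fh_apply]
  refine (norm_integral_le_integral_norm _).trans (le_of_eq ?_)
  refine integral_congr_ae (Filter.Eventually.of_forall fun v => ?_)
  simp only [norm_mul, norm_exp_I, one_mul, Complex.norm_real, Real.norm_eq_abs]

/-- `∫_0^∞ τ⁻³ exp(-c/τ²) dτ = 1/(2c)`. -/
theorem integral_tau_inv {c : ℝ} (hc : 0 < c) :
    IntegrableOn (fun τ : ℝ => Real.exp (-(c / τ ^ 2)) * (2 * c / τ ^ 3)) (Ioi 0) ∧
    ∫ τ in Ioi (0 : ℝ), Real.exp (-(c / τ ^ 2)) * (2 * c / τ ^ 3) = 1 := by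
  set G : ℝ → ℝ := Function.update (fun τ : ℝ => Real.exp (-(c / τ ^ 2))) 0 0 with hG
  have hG0 : G 0 = 0 := by simp [hG]
  have hGne : ∀ τ : ℝ, τ ≠ 0 → G τ = Real.exp (-(c / τ ^ 2)) := by
    intro τ h
    simp [hG, Function.update_of_ne h]
  have hcont : ContinuousWithinAt G (Ici 0) 0 := by
    have h1 : Tendsto (fun τ : ℝ => -(c / τ ^ 2)) (𝓝[>] 0) atBot := by
      have h2 : Tendsto (fun τ : ℝ => τ ^ 2) (𝓝[>] 0) (𝓝[>] 0) := by
        rw [tendsto_nhdsWithin_iff]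
        constructor
        · have : Tendsto (fun τ : ℝ => τ ^ 2) (𝓝 0) (𝓝 (0 ^ 2)) := (continuous_pow 2).tendsto 0
          rw [zero_pow two_ne_zero] at this
          exact this.mono_left nhdsWithin_le_nhds
        · filter_upwards [self_mem_nhdsWithin] with τ hτ
          exact pow_pos (mem_Ioi.1 hτ) 2
      have h3 : Tendsto (fun τ : ℝ => c * (τ ^ 2)⁻¹) (𝓝[>] 0) atTop :=
        (tendsto_inv_nhdsGT_zero.comp h2).const_mul_atTop hc
      have h4 := tendsto_neg_atTop_atBot.comp h3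
      refine h4.congr fun τ => ?_
      simp [div_eq_mul_inv]
    have h2 : Tendsto G (𝓝[>] 0) (𝓝 0) := by
      refine (Real.tendsto_exp_atBot.comp h1).congr' ?_
      filter_upwards [self_mem_nhdsWithin] with τ hτ
      simp only [Function.comp]
      rw [hGne τ (ne_of_gt hτ)]
    rw [← continuousWithinAt_Ioi_iff_Ici]
    unfold ContinuousWithinAt
    rw [hG0]
    exact h2
  have hderiv : ∀ τ ∈ Ioi (0 : ℝ), HasDerivAt G
      (Real.exp (-(c / τ ^ 2)) * (2 * c / τ ^ 3)) τ := by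
    intro τ hτ
    refine (hasDerivAt_exp_inv c τ (ne_of_gt hτ)).congr_of_eventuallyEq ?_
    filter_upwards [Ioi_mem_nhds hτ] with t ht
    rw [hGne t (ne_of_gt ht)]
  have hpos : ∀ τ ∈ Ioi (0 : ℝ), 0 ≤ Real.exp (-(c / τ ^ 2)) * (2 * c / τ ^ 3) := by
    intro τ hτ
    have : (0 : ℝ) < τ := hτ
    positivity
  have hlim : Tendsto G atTop (𝓝 1) := by
    have h1 : Tendsto (fun τ : ℝ => -(c / τ ^ 2)) atTop (𝓝 0) := by
      have h2 : Tendsto (fun τ : ℝ => τ ^ 2) atTop atTop := tendsto_pow_atTop two_ne_zero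
      have h3 := h2.const_div_atTop c
      simpa using h3.neg
    have h3 : Tendsto (fun τ : ℝ => Real.exp (-(c / τ ^ 2))) atTop (𝓝 1) := by
      have := (Real.continuous_exp.tendsto 0).comp h1
      simpa [Function.comp_def] using this
    refine h3.congr' ?_
    filter_upwards [eventually_gt_atTop 0] with τ hτ
    rw [hGne τ hτ.ne']
  refine ⟨integrableOn_Ioi_deriv_of_nonneg hcont hderiv hpos hlim, ?_⟩
  rw [integral_Ioi_of_hasDerivAt_of_nonneg hcont hderiv hpos hlim, hG0, sub_zero]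

theorem integral_tau_cube {r : ℝ} (hr : 0 < r) :
    ∫ τ in Ioi (0 : ℝ), (√π / τ) ^ 3 * Real.exp (-((π / τ) ^ 2 * r ^ 2)) =
      √π / 2 * (1 / (π * r ^ 2)) := by
  have hc : 0 < π ^ 2 * r ^ 2 := by positivity
  obtain ⟨-, h⟩ := integral_tau_inv hc
  have e : (fun τ : ℝ => (√π / τ) ^ 3 * Real.exp (-((π / τ) ^ 2 * r ^ 2))) =
      fun τ : ℝ => (√π ^ 3 / (2 * (π ^ 2 * r ^ 2))) *
        (Real.exp (-((π ^ 2 * r ^ 2) / τ ^ 2)) * (2 * (π ^ 2 * r ^ 2) / τ ^ 3)) := by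
    funext τ
    have e1 : (π / τ) ^ 2 * r ^ 2 = (π ^ 2 * r ^ 2) / τ ^ 2 := by ring
    rw [e1]
    have : π ^ 2 * r ^ 2 ≠ 0 := hc.ne'
    field_simp
  rw [e, integral_const_mul, h, mul_one]
  have h3 : √π ^ 3 = √π * π := by
    rw [pow_succ, Real.sq_sqrt pi_pos.le, mul_comm]
  rw [h3]
  field_simp

/-- Integrability over `(0,∞) × P3` of the Fourier integrand. -/
theorem integrable_fourier_heat {f : P3 → ℝ} (hf : Nice f) :
    Integrable (fun p : ℝ × P3 => (√π / p.1) ^ 3 *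
      (Real.exp (-((π / p.1) ^ 2 * ‖p.2‖ ^ 2)) * ‖fh f p.2‖ ^ 2))
      ((volume.restrict (Ioi (0 : ℝ))).prod (volume : Measure P3)) := by
  have hc := continuous_fh hf.int
  have hm : Measurable (fun p : ℝ × P3 => (√π / p.1) ^ 3 *
      (Real.exp (-((π / p.1) ^ 2 * ‖p.2‖ ^ 2)) * ‖fh f p.2‖ ^ 2)) := by
    have := hc.measurable
    fun_prop
  rw [integrable_prod_iff hm.aestronglyMeasurable]
  constructor
  · refine (ae_restrict_iff' measurableSet_Ioi).2 (Eventually.of_forall fun τ hτ => ?_)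
    have hτ0 : (0 : ℝ) < τ := hτ
    have hpt : 0 < π / τ := by positivity
    have hcm : AEStronglyMeasurable (fun v : P3 => ‖fh f v‖ ^ 2) volume :=
      (hc.norm.pow 2).aestronglyMeasurable
    change Integrable (fun y : P3 => (√π / τ) ^ 3 *
      (Real.exp (-((π / τ) ^ 2 * ‖y‖ ^ 2)) * ‖fh f y‖ ^ 2))
    exact ((integrable_exp_norm hpt).mul_bdd (c := (∫ x, |f x|) ^ 2) hcm
      (Eventually.of_forall fun v => by
        rw [Real.norm_eq_abs, abs_of_nonneg (by positivity)]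
        exact pow_le_pow_left₀ (norm_nonneg _) (norm_fh_le f v) 2)).const_mul ((√π / τ) ^ 3)
  · have h := integrableOn_Q hf.int hf
    refine (integrable_congr ?_).2 h
    refine (ae_restrict_iff' measurableSet_Ioi).2 (Eventually.of_forall fun τ hτ => ?_)
    have hτ0 : (0 : ℝ) < τ := hτ
    simp only
    rw [Q_self_fourier hf.int hτ0, ← integral_const_mul]
    refine integral_congr_ae (Eventually.of_forall fun v => ?_)
    simp only
    rw [Real.norm_eq_abs, abs_of_nonneg (by positivity)]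

theorem inner_tau_integral (f : P3 → ℝ) {v : P3} (hv : v ≠ 0) :
    ∫ τ in Ioi (0 : ℝ), (√π / τ) ^ 3 *
      (Real.exp (-((π / τ) ^ 2 * ‖v‖ ^ 2)) * ‖fh f v‖ ^ 2) =
      √π / 2 * (‖fh f v‖ ^ 2 / (π * ‖v‖ ^ 2)) := by
  have hv' : 0 < ‖v‖ := norm_pos_iff.2 hv
  have e : (fun τ : ℝ => (√π / τ) ^ 3 *
      (Real.exp (-((π / τ) ^ 2 * ‖v‖ ^ 2)) * ‖fh f v‖ ^ 2)) =
      fun τ : ℝ => ((√π / τ) ^ 3 * Real.exp (-((π / τ) ^ 2 * ‖v‖ ^ 2))) * ‖fh f v‖ ^ 2 := by
    funext τ; ring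
  rw [e, integral_mul_const, integral_tau_cube hv']
  ring

theorem ae_ne_zero : ∀ᵐ v : P3, v ≠ 0 := by
  rw [ae_iff]
  simp

/-- **Fourier form of the Coulomb form.** -/
theorem D_self_fourier {f : P3 → ℝ} (hf : Nice f) :
    Integrable (fun v : P3 => ‖fh f v‖ ^ 2 / (π * ‖v‖ ^ 2)) ∧
    D f f = ∫ v : P3, ‖fh f v‖ ^ 2 / (π * ‖v‖ ^ 2) := by
  have h := integrable_fourier_heat hf
  have hs : (√π / 2) ≠ 0 := by positivity
  have hI : Integrable (fun v : P3 => √π / 2 * (‖fh f v‖ ^ 2 / (π * ‖v‖ ^ 2))) := by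
    refine (integrable_congr ?_).1 h.integral_prod_right
    filter_upwards [ae_ne_zero] with v hv
    exact inner_tau_integral f hv
  constructor
  · have := hI.const_mul (√π / 2)⁻¹
    refine this.congr (Eventually.of_forall fun v => ?_)
    simp only
    rw [← mul_assoc, inv_mul_cancel₀ hs, one_mul]
  · rw [D_eq_heat hf.int hf]
    have h1 : ∫ τ in Ioi (0 : ℝ), Q τ f f = ∫ τ in Ioi (0 : ℝ), ∫ v : P3, (√π / τ) ^ 3 *
        (Real.exp (-((π / τ) ^ 2 * ‖v‖ ^ 2)) * ‖fh f v‖ ^ 2) := by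
      refine setIntegral_congr_fun measurableSet_Ioi fun τ hτ => ?_
      rw [Q_self_fourier hf.int hτ, integral_const_mul]
    have h2 := integral_integral_swap (f := fun (τ : ℝ) (v : P3) => (√π / τ) ^ 3 *
        (Real.exp (-((π / τ) ^ 2 * ‖v‖ ^ 2)) * ‖fh f v‖ ^ 2)) h
    rw [h1, h2]
    have h3 : ∫ v : P3, ∫ τ in Ioi (0 : ℝ), (√π / τ) ^ 3 *
        (Real.exp (-((π / τ) ^ 2 * ‖v‖ ^ 2)) * ‖fh f v‖ ^ 2) =
        ∫ v : P3, √π / 2 * (‖fh f v‖ ^ 2 / (π * ‖v‖ ^ 2)) := by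
      refine integral_congr_ae ?_
      filter_upwards [ae_ne_zero] with v hv
      exact inner_tau_integral f hv
    rw [h3, integral_const_mul, ← mul_assoc]
    have : 2 / √π * (√π / 2) = 1 := by
      have : √π ≠ 0 := by positivity
      field_simp
    rw [this, one_mul]

/-- the `i`-th basis vector. -/
def eb (i : Fin 3) : P3 := EuclideanSpace.single i (1 : ℝ)

theorem inner_eb (w : P3) (i : Fin 3) : ⟪w, eb i⟫_ℝ = w i := by
  simp [eb, EuclideanSpace.inner_single_right]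

theorem norm_fourier_lineDeriv (η : 𝓢(P3, ℂ)) (i : Fin 3) (w : P3) :
    ‖𝓕 (∂_{eb i} η) w‖ = 2 * π * |w i| * ‖𝓕 η w‖ := by
  rw [SchwartzMap.fourier_lineDerivOp_eq]
  have htg : Function.HasTemperateGrowth (fun x : P3 => inner ℝ x (eb i)) := by fun_prop
  rw [smul_apply, SchwartzMap.smulLeftCLM_apply_apply htg]
  rw [norm_smul, norm_smul, inner_eb]
  simp only [norm_mul, Complex.norm_ofNat, Complex.norm_real, Real.norm_eq_abs, Complex.norm_I,
    mul_one, abs_of_pos pi_pos]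
  ring

theorem integral_deriv_sq (η : 𝓢(P3, ℂ)) (i : Fin 3) :
    ∫ w : P3, (2 * π * |w i| * ‖𝓕 η w‖) ^ 2 = ∫ x, ‖fderiv ℝ η x (eb i)‖ ^ 2 := by
  have h := SchwartzMap.integral_norm_sq_fourier (∂_{eb i} η)
  simp_rw [norm_fourier_lineDeriv] at h
  rw [h]
  rfl

theorem integrable_deriv_sq (η : 𝓢(P3, ℂ)) (i : Fin 3) :
    Integrable (fun w : P3 => (2 * π * |w i| * ‖𝓕 η w‖) ^ 2) := by
  have h := (SchwartzMap.memLp (𝓕 (∂_{eb i} η)) 2 (volume : Measure P3)).integrable_norm_pow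
    (by norm_num)
  refine h.congr (Eventually.of_forall fun w => ?_)
  simp only
  rw [← norm_fourier_lineDeriv]

theorem norm_coord_le (w : P3) (i : Fin 3) : |w i| ≤ ‖w‖ := by
  have := PiLp.norm_apply_le w i
  simpa using this

theorem sum_coord_sq (w : P3) : ∑ i, |w i| ^ 2 = ‖w‖ ^ 2 := by
  rw [EuclideanSpace.norm_sq_eq]
  simp

/-- A real function which is the restriction of a complex Schwartz function is nice. -/
theorem nice_of_schwartz (F : 𝓢(P3, ℂ)) (f : P3 → ℝ) (h : ∀ x, (f x : ℂ) = F x) : Nice f := by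
  constructor
  · have h1 := (F.integrable (μ := (volume : Measure P3))).re
    refine h1.congr (Eventually.of_forall fun x => ?_)
    simp only
    rw [← h x]
    simp
  · refine ⟨SchwartzMap.seminorm ℝ 0 0 F, fun x => ?_⟩
    have h1 := SchwartzMap.norm_le_seminorm ℝ F x
    rw [← h x] at h1
    simpa using h1

theorem fh_of_schwartz (F : 𝓢(P3, ℂ)) (f : P3 → ℝ) (h : ∀ x, (f x : ℂ) = F x) (w : P3) :
    fh f w = 𝓕 F w := by
  have : (fun x => (f x : ℂ)) = F := funext h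
  unfold fh
  rw [this, ← SchwartzMap.fourier_coe]

/-- **Divergence estimate**: `D(∂_i G, ∂_i G) ≤ 4π ‖G‖₂²`. -/
theorem D_deriv_le (G : 𝓢(P3, ℂ)) (i : Fin 3) (f : P3 → ℝ)
    (hf : ∀ x, (f x : ℂ) = fderiv ℝ G x (eb i)) :
    D f f ≤ 4 * π * ∫ x, ‖G x‖ ^ 2 := by
  have hf' : ∀ x, (f x : ℂ) = (∂_{eb i} G) x := fun x => hf x
  have hN : Nice f := nice_of_schwartz _ f hf'
  obtain ⟨hI, hD⟩ := D_self_fourier hN
  rw [hD, ← SchwartzMap.integral_norm_sq_fourier, ← integral_const_mul]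
  have hG : Integrable (fun w : P3 => ‖𝓕 G w‖ ^ 2) := by
    exact (SchwartzMap.memLp (𝓕 G) 2 (volume : Measure P3)).integrable_norm_pow (by norm_num)
  refine integral_mono hI (hG.const_mul _) fun w => ?_
  simp only
  rw [fh_of_schwartz _ f hf', norm_fourier_lineDeriv]
  rcases eq_or_ne w 0 with hw | hw
  · rw [hw]; simp; positivity
  · have h0 : 0 < ‖w‖ := norm_pos_iff.2 hw
    rw [div_le_iff₀ (by positivity)]
    have h1 : |w i| ^ 2 ≤ ‖w‖ ^ 2 := pow_le_pow_left₀ (abs_nonneg _) (norm_coord_le w i) 2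
    have h2 : 0 ≤ 4 * π ^ 2 * ‖𝓕 G w‖ ^ 2 := by positivity
    nlinarith [mul_le_mul_of_nonneg_left h1 h2]

theorem cs_integral {a b : P3 → ℝ} (ha : Integrable (fun x => a x ^ 2))
    (hb : Integrable (fun x => b x ^ 2)) (hab : Integrable (fun x => a x * b x)) :
    (∫ x, a x * b x) ^ 2 ≤ (∫ x, a x ^ 2) * ∫ x, b x ^ 2 := by
  have h : ∀ t : ℝ, 0 ≤ (∫ x, b x ^ 2) * (t * t) + 2 * (∫ x, a x * b x) * t + ∫ x, a x ^ 2 := by
    intro t
    have e : (∫ x, b x ^ 2) * (t * t) + 2 * (∫ x, a x * b x) * t + ∫ x, a x ^ 2 =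
        ∫ x, (a x + t * b x) ^ 2 := by
      have e1 : (fun x => (a x + t * b x) ^ 2) =
          fun x => (t * t) * b x ^ 2 + ((2 * t) * (a x * b x) + a x ^ 2) := by
        funext x; ring
      have hA : Integrable (fun x => (2 * t) * (a x * b x)) := hab.const_mul (2 * t)
      have hA2 : Integrable (fun x => (2 * t) * (a x * b x) + a x ^ 2) := hA.add ha
      have hB : Integrable (fun x => (t * t) * b x ^ 2) := hb.const_mul (t * t)
      rw [e1, integral_add hB hA2, integral_add hA ha, integral_const_mul, integral_const_mul]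
      ring
    rw [e]
    exact integral_nonneg fun x => sq_nonneg _
  have := discrim_le_zero h
  unfold discrim at this
  nlinarith

theorem integral_mul_eq_fourier {ρ : P3 → ℝ} (hρ : Integrable ρ) (η : 𝓢(P3, ℂ)) :
    ∫ x, (ρ x : ℂ) * η x = ∫ w, conj (fh ρ w) * (𝓕 η : 𝓢(P3, ℂ)) w := by
  have h := VectorFourier.integral_sesq_fourierIntegral_eq_neg_flip (innerSL ℂ)
    (L := innerₗ P3) (e := 𝐞) (μ := (volume : Measure P3)) (ν := (volume : Measure P3))
    Real.continuous_fourierChar continuous_inner hρ.ofReal (𝓕 η : 𝓢(P3, ℂ)).integrable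
  have h1 : ∀ x, VectorFourier.fourierIntegral 𝐞 (volume : Measure P3) (-(innerₗ P3).flip)
      (𝓕 η : 𝓢(P3, ℂ)) x = η x := by
    intro x
    have e1 : VectorFourier.fourierIntegral 𝐞 (volume : Measure P3) (-(innerₗ P3).flip)
      (𝓕 η : 𝓢(P3, ℂ)) x = (𝓕⁻ (𝓕 η : 𝓢(P3, ℂ)) : 𝓢(P3, ℂ)) x := by
      rw [SchwartzMap.fourierInv_coe, flip_innerₗ]
      rfl
    rw [e1, FourierTransform.fourierInv_fourier_eq]
  have h2 : ∀ w, VectorFourier.fourierIntegral 𝐞 (volume : Measure P3) (innerₗ P3)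
      (fun x => (ρ x : ℂ)) w = fh ρ w := fun w => rfl
  simp only [innerSL_apply_apply, RCLike.inner_apply] at h
  have e3 : ∫ w, conj (fh ρ w) * (𝓕 η : 𝓢(P3, ℂ)) w =
      ∫ w, (𝓕 η : 𝓢(P3, ℂ)) w * conj (fh ρ w) := by
    simp_rw [mul_comm]
  rw [e3]
  refine Eq.trans ?_ h.symm
  refine integral_congr_ae (Eventually.of_forall fun x => ?_)
  simp only
  rw [h1]
  simp [mul_comm]

/-- **Duality**: `4π (∫ ρ η)² ≤ D(ρ,ρ) ∫ |∇η|²`. -/
theorem D_duality {ρ : P3 → ℝ} (hρ : Nice ρ) (η : 𝓢(P3, ℂ)) (e : P3 → ℝ)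
    (he : ∀ x, (e x : ℂ) = η x) :
    4 * π * (∫ x, ρ x * e x) ^ 2 ≤ D ρ ρ * ∑ i, ∫ x, ‖fderiv ℝ η x (eb i)‖ ^ 2 := by
  obtain ⟨hI, hD⟩ := D_self_fourier hρ
  have h1 : |∫ x, ρ x * e x| ≤ ∫ w, ‖fh ρ w‖ * ‖𝓕 η w‖ := by
    have h2 : ((∫ x, ρ x * e x : ℝ) : ℂ) = ∫ w, conj (fh ρ w) * (𝓕 η : 𝓢(P3, ℂ)) w := by
      rw [← integral_mul_eq_fourier hρ.int, ← integral_complex_ofReal]
      refine integral_congr_ae (Eventually.of_forall fun x => ?_)
      simp only
      rw [← he x]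
      push_cast
      rfl
    have h3 : |∫ x, ρ x * e x| = ‖((∫ x, ρ x * e x : ℝ) : ℂ)‖ := by
      rw [Complex.norm_real, Real.norm_eq_abs]
    rw [h3, h2]
    refine (norm_integral_le_integral_norm _).trans (le_of_eq ?_)
    refine integral_congr_ae (Eventually.of_forall fun w => ?_)
    simp only [norm_mul, RCLike.norm_conj]
  set a : P3 → ℝ := fun w => ‖fh ρ w‖ / (√π * ‖w‖) with ha
  set b : P3 → ℝ := fun w => √π * ‖w‖ * ‖𝓕 η w‖ with hb
  have hsq : √π ^ 2 = π := Real.sq_sqrt pi_pos.le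
  have ha2 : (fun w => a w ^ 2) = fun w => ‖fh ρ w‖ ^ 2 / (π * ‖w‖ ^ 2) := by
    funext w
    simp only [ha]
    rw [div_pow, mul_pow, hsq]
  have hb2 : (fun w => b w ^ 2) =
      fun w => (4 * π)⁻¹ * ∑ i, (2 * π * |w i| * ‖𝓕 η w‖) ^ 2 := by
    funext w
    simp only [hb]
    have : ∀ i, (2 * π * |w i| * ‖𝓕 η w‖) ^ 2 = (4 * π ^ 2 * ‖𝓕 η w‖ ^ 2) * |w i| ^ 2 := by
      intro i; ring
    simp_rw [this]
    rw [← Finset.mul_sum, sum_coord_sq, mul_pow, mul_pow, hsq]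
    field_simp
  have hab : (fun w => ‖fh ρ w‖ * ‖𝓕 η w‖) =ᵐ[volume] fun w => a w * b w := by
    filter_upwards [ae_ne_zero] with w hw
    have h0 : ‖w‖ ≠ 0 := norm_ne_zero_iff.2 hw
    have hs : √π ≠ 0 := by positivity
    simp only [ha, hb]
    field_simp
  have hcm : AEStronglyMeasurable (fun v : P3 => ‖fh ρ v‖) volume :=
    (continuous_fh hρ.int).norm.aestronglyMeasurable
  have hint : Integrable (fun w => ‖fh ρ w‖ * ‖𝓕 η w‖) :=
    (𝓕 η).integrable.norm.bdd_mul (c := ∫ x, |ρ x|) hcm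
      (Eventually.of_forall fun w => by
        rw [Real.norm_eq_abs, abs_of_nonneg (norm_nonneg _)]; exact norm_fh_le ρ w)
  have hAI : Integrable (fun w => a w ^ 2) := by rw [ha2]; exact hI
  have hBI : Integrable (fun w => b w ^ 2) := by
    rw [hb2]
    exact (integrable_finsetSum _ fun i _ => integrable_deriv_sq η i).const_mul _
  have hCS := cs_integral hAI hBI (hint.congr hab)
  rw [← integral_congr_ae hab, ha2, ← hD, hb2, integral_const_mul,
    integral_finsetSum _ fun i _ => integrable_deriv_sq η i] at hCS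
  simp_rw [integral_deriv_sq] at hCS
  have h4 : (∫ x, ρ x * e x) ^ 2 ≤ (∫ w, ‖fh ρ w‖ * ‖𝓕 η w‖) ^ 2 := by
    rw [← sq_abs]
    exact pow_le_pow_left₀ (abs_nonneg _) h1 2
  have h5 := h4.trans hCS
  have h6 := mul_le_mul_of_nonneg_left h5 (by positivity : 0 ≤ 4 * π)
  refine h6.trans (le_of_eq ?_)
  field_simp

/-- Duality for compactly supported smooth test functions. -/
theorem D_duality_compact {ρ : P3 → ℝ} (hρ : Nice ρ) {e : P3 → ℝ} (hc : HasCompactSupport e)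
    (hs : ContDiff ℝ ∞ e) :
    4 * π * (∫ x, ρ x * e x) ^ 2 ≤ D ρ ρ * ∑ i, ∫ x, (fderiv ℝ e x (eb i)) ^ 2 := by
  have hc' : HasCompactSupport (fun x => (e x : ℂ)) := hc.comp_left Complex.ofReal_zero
  have hs' : ContDiff ℝ ∞ (fun x => (e x : ℂ)) := Complex.ofRealCLM.contDiff.comp hs
  have h := D_duality hρ (hc'.toSchwartzMap hs') e (fun x => rfl)
  refine h.trans (le_of_eq ?_)
  congr 1
  refine Finset.sum_congr rfl fun i _ => ?_
  refine integral_congr_ae (Eventually.of_forall fun x => ?_)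
  simp only
  have hd : HasFDerivAt e (fderiv ℝ e x) x :=
    ((hs.differentiable (by simp)) x).hasFDerivAt
  have hd2 : HasFDerivAt (fun x => (e x : ℂ)) (Complex.ofRealCLM.comp (fderiv ℝ e x)) x :=
    Complex.ofRealCLM.hasFDerivAt.comp x hd
  have e1 : fderiv ℝ (hc'.toSchwartzMap hs' : 𝓢(P3, ℂ)) x =
      Complex.ofRealCLM.comp (fderiv ℝ e x) := hd2.fderiv
  rw [e1]
  simp

end Crest.Agent.R338.CE
end
end

-- ▼ part R338/CE4
section

/-!
Row 338, part 5: product functions, the bound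
`D(ρ,ρ) ≤ 4 (∫ f₀² ∫ f₁²)^{1/2}` for product densities, and the classical site integrals.
-/

open MeasureTheory Real Set Filter
open scoped Topology

noncomputable section

namespace Crest.Agent.R338.CE

/-- Product function on ℝ³. -/
def pf (f : Fin 3 → ℝ → ℝ) (x : P3) : ℝ := ∏ c, f c (x c)

theorem integral_pf (f : Fin 3 → ℝ → ℝ) : ∫ x, pf f x = ∏ c, ∫ t, f c t := by
  have e : ∫ x : P3, pf f x = ∫ y : Fin 3 → ℝ, ∏ i, f i (y i) := by
    rw [← (EuclideanSpace.volume_preserving_symm_measurableEquiv_toLp (Fin 3)).integral_comp'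
      (g := fun y : Fin 3 → ℝ => ∏ i, f i (y i))]
    rfl
  rw [e, integral_fintype_prod_volume_eq_prod]

theorem integrable_pf {f : Fin 3 → ℝ → ℝ} (hf : ∀ c, Integrable (f c)) : Integrable (pf f) := by
  have h : Integrable (fun y : Fin 3 → ℝ => ∏ i, f i (y i)) := Integrable.fintype_prod hf
  exact (EuclideanSpace.volume_preserving_symm_measurableEquiv_toLp (Fin 3)).integrable_comp_emb
    (MeasurableEquiv.measurableEmbedding _) |>.2 h

theorem nice_pf {f : Fin 3 → ℝ → ℝ} (hf : ∀ c, Integrable (f c))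
    (hb : ∀ c, ∃ C, ∀ t, |f c t| ≤ C) : Nice (pf f) := by
  refine ⟨integrable_pf hf, ?_⟩
  choose C hC using hb
  refine ⟨∏ c, C c, fun x => ?_⟩
  unfold pf
  rw [Finset.abs_prod]
  exact Finset.prod_le_prod (fun c _ => abs_nonneg _) fun c _ => hC c _

/-- One-dimensional Gaussian form. -/
def q (τ : ℝ) (f g : ℝ → ℝ) : ℝ := ∫ s, ∫ t, f s * g t * Real.exp (-(τ ^ 2 * (s - t) ^ 2))

theorem exp_prod (τ : ℝ) (x y : P3) :
    Real.exp (-(τ ^ 2 * ‖x - y‖ ^ 2)) = ∏ c, Real.exp (-(τ ^ 2 * (x c - y c) ^ 2)) := by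
  rw [← Real.exp_sum]
  congr 1
  rw [EuclideanSpace.norm_sq_eq, Finset.mul_sum, ← Finset.sum_neg_distrib]
  refine Finset.sum_congr rfl fun c _ => ?_
  simp

/-- The Gaussian form of product functions factorises. -/
theorem Q_prod {f g : Fin 3 → ℝ → ℝ} (hf : ∀ c, Integrable (f c)) (hg : ∀ c, Integrable (g c))
    (τ : ℝ) : Q τ (pf f) (pf g) = ∏ c, q τ (f c) (g c) := by
  have hQ := integrable_Q (integrable_pf hf) (integrable_pf hg) τ
  unfold Q
  rw [Measure.volume_eq_prod] at hQ ⊢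
  rw [integral_prod _ hQ]
  have e : ∀ x : P3, ∫ y : P3, pf f x * pf g y * Real.exp (-(τ ^ 2 * ‖x - y‖ ^ 2)) =
      pf (fun c s => ∫ t, f c s * g c t * Real.exp (-(τ ^ 2 * (s - t) ^ 2))) x := by
    intro x
    have e1 : (fun y : P3 => pf f x * pf g y * Real.exp (-(τ ^ 2 * ‖x - y‖ ^ 2))) =
        pf (fun c t => f c (x c) * g c t * Real.exp (-(τ ^ 2 * (x c - t) ^ 2))) := by
      funext y
      unfold pf
      rw [exp_prod, ← Finset.prod_mul_distrib, ← Finset.prod_mul_distrib]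
    rw [e1, integral_pf]
    rfl
  simp only [e]
  rw [integral_pf]
  rfl

theorem integrable_exp_line {τ : ℝ} (hτ : 0 < τ) :
    Integrable (fun t : ℝ => Real.exp (-(τ ^ 2 * t ^ 2))) := by
  have := integrable_exp_neg_mul_sq (b := τ ^ 2) (by positivity)
  refine this.congr (Eventually.of_forall fun t => ?_)
  simp only
  congr 1
  ring

theorem integral_exp_line {τ : ℝ} (hτ : 0 < τ) :
    ∫ t : ℝ, Real.exp (-(τ ^ 2 * t ^ 2)) = √π / τ := by
  have := integral_gaussian (τ ^ 2)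
  rw [Real.sqrt_div' _ (by positivity), Real.sqrt_sq hτ.le] at this
  rw [← this]
  refine integral_congr_ae (Eventually.of_forall fun t => ?_)
  simp only
  congr 1
  ring

theorem integrable_line_gauss {f : ℝ → ℝ} (hf : Integrable f) {τ : ℝ} (hτ : 0 < τ) :
    Integrable (fun z : ℝ × ℝ => f z.1 * Real.exp (-(τ ^ 2 * (z.1 - z.2) ^ 2))) := by
  rw [Measure.volume_eq_prod]
  have hm : AEStronglyMeasurable (fun z : ℝ × ℝ =>
      f z.1 * Real.exp (-(τ ^ 2 * (z.1 - z.2) ^ 2))) ((volume : Measure ℝ).prod volume) := by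
    exact hf.aestronglyMeasurable.comp_fst.mul
      (by fun_prop : Continuous fun z : ℝ × ℝ =>
        Real.exp (-(τ ^ 2 * (z.1 - z.2) ^ 2))).aestronglyMeasurable
  rw [integrable_prod_iff hm]
  constructor
  · refine Filter.Eventually.of_forall fun x => ?_
    exact ((integrable_exp_line hτ).comp_sub_left x).const_mul (f x)
  · have e : ∀ x : ℝ, ∫ y : ℝ, ‖f x * Real.exp (-(τ ^ 2 * (x - y) ^ 2))‖ =
        ‖f x‖ * (√π / τ) := by
      intro x
      simp_rw [norm_mul, Real.norm_eq_abs (Real.exp _), Real.abs_exp]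
      rw [integral_const_mul, ← integral_exp_line hτ]
      congr 1
      exact integral_sub_left_eq_self (fun v : ℝ => Real.exp (-(τ ^ 2 * v ^ 2))) volume x
    simp_rw [e]
    exact hf.norm.mul_const _

theorem integral_line_gauss {f : ℝ → ℝ} (hf : Integrable f) {τ : ℝ} (hτ : 0 < τ) :
    ∫ z : ℝ × ℝ, f z.1 * Real.exp (-(τ ^ 2 * (z.1 - z.2) ^ 2)) = (∫ x, f x) * (√π / τ) := by
  have hi := integrable_line_gauss hf hτ
  rw [Measure.volume_eq_prod] at hi ⊢
  rw [integral_prod _ hi]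
  have e : ∀ x : ℝ, ∫ y : ℝ, f x * Real.exp (-(τ ^ 2 * (x - y) ^ 2)) =
        f x * (√π / τ) := by
      intro x
      rw [integral_const_mul, ← integral_exp_line hτ]
      congr 1
      exact integral_sub_left_eq_self (fun v : ℝ => Real.exp (-(τ ^ 2 * v ^ 2))) volume x
  simp_rw [e]
  rw [integral_mul_const]

theorem exp_le_one_line (τ s : ℝ) : Real.exp (-(τ ^ 2 * s ^ 2)) ≤ 1 := by
  rw [Real.exp_le_one_iff]; nlinarith [mul_nonneg (sq_nonneg τ) (sq_nonneg s)]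

theorem integrable_q {f g : ℝ → ℝ} (hf : Integrable f) (hg : Integrable g) (τ : ℝ) :
    Integrable (fun z : ℝ × ℝ => f z.1 * g z.2 * Real.exp (-(τ ^ 2 * (z.1 - z.2) ^ 2))) := by
  have h := hf.mul_prod hg
  refine Integrable.mono h ?_ (Filter.Eventually.of_forall fun z => ?_)
  · exact h.aestronglyMeasurable.mul
      (by fun_prop : Continuous fun z : ℝ × ℝ =>
        Real.exp (-(τ ^ 2 * (z.1 - z.2) ^ 2))).aestronglyMeasurable
  · rw [norm_mul, Real.norm_eq_abs (Real.exp _), Real.abs_exp]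
    exact mul_le_of_le_one_right (norm_nonneg _) (exp_le_one_line τ _)

theorem q_eq {f g : ℝ → ℝ} (hf : Integrable f) (hg : Integrable g) (τ : ℝ) :
    q τ f g = ∫ z : ℝ × ℝ, f z.1 * g z.2 * Real.exp (-(τ ^ 2 * (z.1 - z.2) ^ 2)) := by
  have h := integrable_q hf hg τ
  rw [Measure.volume_eq_prod] at h ⊢
  rw [integral_prod _ h]
  rfl

theorem abs_q_le {f g : ℝ → ℝ} (hf : Integrable f) (hg : Integrable g) (τ : ℝ) :
    |q τ f g| ≤ (∫ s, |f s|) * ∫ t, |g t| := by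
  rw [q_eq hf hg]
  have : (∫ x, |f x|) * ∫ y, |g y| = ∫ z : ℝ × ℝ, |f z.1| * |g z.2| :=
    (integral_prod_mul (fun x => |f x|) (fun y => |g y|)).symm
  rw [this]
  refine abs_integral_le_integral_abs.trans ?_
  refine integral_mono (integrable_q hf hg τ).abs (hf.abs.mul_prod hg.abs) fun z => ?_
  simp only [abs_mul, Real.abs_exp]
  exact mul_le_of_le_one_right (by positivity) (exp_le_one_line τ _)

theorem abs_q_self_le {f : ℝ → ℝ} (hf : Integrable f) (hf2 : Integrable (fun s => f s ^ 2))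
    {τ : ℝ} (hτ : 0 < τ) : |q τ f f| ≤ √π / τ * ∫ s, f s ^ 2 := by
  rw [q_eq hf hf]
  have h1 := integrable_line_gauss hf2 hτ
  have h2 : Integrable (fun z : ℝ × ℝ => f z.2 ^ 2 * Real.exp (-(τ ^ 2 * (z.1 - z.2) ^ 2))) := by
    have := h1.swap
    refine this.congr (Eventually.of_forall fun z => ?_)
    simp only [Function.comp, Prod.fst_swap, Prod.snd_swap]
    congr 2
    ring
  have h3 : ∫ z : ℝ × ℝ, f z.2 ^ 2 * Real.exp (-(τ ^ 2 * (z.1 - z.2) ^ 2)) =
      (∫ x, f x ^ 2) * (√π / τ) := by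
    rw [← integral_line_gauss hf2 hτ, Measure.volume_eq_prod, ← integral_prod_swap]
    refine integral_congr_ae (Eventually.of_forall fun z => ?_)
    simp only [Prod.fst_swap, Prod.snd_swap]
    congr 2
    ring
  have h4 : √π / τ * ∫ s, f s ^ 2 = ∫ z : ℝ × ℝ, (1 / 2 : ℝ) *
      (f z.1 ^ 2 * Real.exp (-(τ ^ 2 * (z.1 - z.2) ^ 2)) +
       f z.2 ^ 2 * Real.exp (-(τ ^ 2 * (z.1 - z.2) ^ 2))) := by
    rw [integral_const_mul, integral_add h1 h2, integral_line_gauss hf2 hτ, h3]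
    ring
  rw [h4]
  refine abs_integral_le_integral_abs.trans ?_
  refine integral_mono (integrable_q hf hf τ).abs ((h1.add h2).const_mul _) fun z => ?_
  simp only [abs_mul, Real.abs_exp]
  have h5 : |f z.1| * |f z.2| ≤ (1 / 2 : ℝ) * (f z.1 ^ 2 + f z.2 ^ 2) := by
    nlinarith [sq_nonneg (|f z.1| - |f z.2|), sq_abs (f z.1), sq_abs (f z.2)]
  have h6 := mul_le_mul_of_nonneg_right h5 (Real.exp_pos (-(τ ^ 2 * (z.1 - z.2) ^ 2))).le
  nlinarith

/-- Real integral bound used for `U`. -/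
theorem integral_split_le {F : ℝ → ℝ} (hF : IntegrableOn F (Ioi 0)) {T B : ℝ} (hT : 0 < T)
    (h1 : ∀ τ ∈ Ioi (0 : ℝ), F τ ≤ 1) (h2 : ∀ τ ∈ Ioi (0 : ℝ), F τ ≤ B / τ ^ 2) :
    ∫ τ in Ioi (0 : ℝ), F τ ≤ T + B / T := by
  have hu : Ioi (0 : ℝ) = Ioc 0 T ∪ Ioi T := (Ioc_union_Ioi_eq_Ioi hT.le).symm
  have hF' := hF
  rw [hu] at hF'
  have hF1 := hF'.mono_set subset_union_left
  have hF2 := hF'.mono_set subset_union_right
  rw [hu, setIntegral_union (Ioc_disjoint_Ioi le_rfl) measurableSet_Ioi hF1 hF2]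
  have hA : ∫ τ in Ioc (0 : ℝ) T, F τ ≤ T := by
    have : ∫ τ in Ioc (0 : ℝ) T, F τ ≤ ∫ τ in Ioc (0 : ℝ) T, (1 : ℝ) := by
      refine setIntegral_mono_on hF1 (integrable_const _) measurableSet_Ioc fun τ hτ => ?_
      exact h1 τ hτ.1
    refine this.trans (le_of_eq ?_)
    simp [hT.le]
  have hB : ∫ τ in Ioi T, F τ ≤ B / T := by
    have hint : IntegrableOn (fun τ : ℝ => B * τ ^ (-2 : ℝ)) (Ioi T) :=
      (integrableOn_Ioi_rpow_of_lt (by norm_num) hT).const_mul _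
    have : ∫ τ in Ioi T, F τ ≤ ∫ τ in Ioi T, B * τ ^ (-2 : ℝ) := by
      refine setIntegral_mono_on hF2 hint measurableSet_Ioi fun τ hτ => ?_
      have hτ0 : (0 : ℝ) < τ := lt_trans hT hτ
      refine (h2 τ hτ0).trans (le_of_eq ?_)
      rw [Real.rpow_neg hτ0.le]
      norm_num
      rfl
    refine this.trans (le_of_eq ?_)
    rw [integral_const_mul, integral_Ioi_rpow_of_lt (by norm_num) hT]
    norm_num
    rw [Real.rpow_neg_one]
    rfl
  linarith

/-- **Self energy of a product density**: if `f₀, f₁, f₂` have `L¹` norm at most one then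
`D(f₀⊗f₁⊗f₂, same) ≤ 4 (∫ f₀² · ∫ f₁²)^{1/2}`. -/
theorem D_pf_le {f : Fin 3 → ℝ → ℝ} (hf : ∀ c, Integrable (f c))
    (hb : ∀ c, ∃ C, ∀ t, |f c t| ≤ C) (h2 : ∀ c, Integrable (fun s => f c s ^ 2))
    (h1 : ∀ c, ∫ s, |f c s| ≤ 1) {A B : ℝ} (hA : 0 < A) (hB : 0 < B)
    (hA' : ∫ s, f 0 s ^ 2 ≤ A ^ 2) (hB' : ∫ s, f 1 s ^ 2 ≤ B ^ 2) :
    D (pf f) (pf f) ≤ 4 * (A * B) := by
  have hN := nice_pf hf hb
  rw [D_eq_heat hN.int hN]
  have hpi : 0 < √π := by positivity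
  have hq1 : ∀ c, ∀ τ : ℝ, |q τ (f c) (f c)| ≤ 1 := by
    intro c τ
    refine (abs_q_le (hf c) (hf c) τ).trans ?_
    have h0 : 0 ≤ ∫ s, |f c s| := integral_nonneg fun s => abs_nonneg _
    nlinarith [h1 c]
  have hF1 : ∀ τ ∈ Ioi (0 : ℝ), Q τ (pf f) (pf f) ≤ 1 := by
    intro τ _
    rw [Q_prod hf hf]
    refine (le_abs_self _).trans ?_
    rw [Finset.abs_prod]
    exact Finset.prod_le_one (fun c _ => abs_nonneg _) fun c _ => hq1 c τ
  have hF2 : ∀ τ ∈ Ioi (0 : ℝ), Q τ (pf f) (pf f) ≤ (π * (A ^ 2 * B ^ 2)) / τ ^ 2 := by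
    intro τ hτ
    have hτ0 : (0 : ℝ) < τ := hτ
    rw [Q_prod hf hf, Fin.prod_univ_three]
    have a0 := abs_q_self_le (hf 0) (h2 0) hτ0
    have a1 := abs_q_self_le (hf 1) (h2 1) hτ0
    have b0 : |q τ (f 0) (f 0)| ≤ √π / τ * A ^ 2 :=
      a0.trans (mul_le_mul_of_nonneg_left hA' (by positivity))
    have b1 : |q τ (f 1) (f 1)| ≤ √π / τ * B ^ 2 :=
      a1.trans (mul_le_mul_of_nonneg_left hB' (by positivity))
    have b2 := hq1 2 τ
    refine (le_abs_self _).trans ?_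
    rw [abs_mul, abs_mul]
    calc |q τ (f 0) (f 0)| * |q τ (f 1) (f 1)| * |q τ (f 2) (f 2)|
        ≤ (√π / τ * A ^ 2) * (√π / τ * B ^ 2) * 1 := by gcongr
      _ = (√π ^ 2 * (A ^ 2 * B ^ 2)) / τ ^ 2 := by ring
      _ = _ := by rw [Real.sq_sqrt pi_pos.le]
  have hT : 0 < √π * (A * B) := by positivity
  have h := integral_split_le (integrableOn_Q hN.int hN) hT hF1 hF2
  have e : √π * (A * B) + π * (A ^ 2 * B ^ 2) / (√π * (A * B)) = 2 * (√π * (A * B)) := by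
    have hsq : π = √π * √π := (Real.mul_self_sqrt pi_pos.le).symm
    have : π * (A ^ 2 * B ^ 2) / (√π * (A * B)) = √π * (A * B) := by
      rw [div_eq_iff hT.ne']
      nth_rewrite 1 [hsq]
      ring
    rw [this]; ring
  rw [e] at h
  calc 2 / √π * ∫ τ in Ioi (0 : ℝ), Q τ (pf f) (pf f) ≤ 2 / √π * (2 * (√π * (A * B))) :=
        mul_le_mul_of_nonneg_left h (by positivity)
    _ = 4 * (A * B) := by field_simp; ring

end Crest.Agent.R338.CE
end
end

-- ▼ part R338/D9a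
section

/-!
Row 338, D.9 (one-dimensional part): the kernel `|s-t|^{-1/2}` against squared Hermite functions.
`Jr f g = ∫ g(t) ∫ f(s) |s-t|^{-1/2} ds dt ≤ C κ^{-1/3}`.
-/

set_option autoImplicit false

noncomputable section

open Set MeasureTheory Real Filter Topology
open Crest.Agent.R338.HO

namespace Crest.Agent.R338.WKB

/-- the kernel -/
def ker (u : ℝ) : ℝ := |u| ^ (-(1/2) : ℝ)







/-- nonnegative bounded integrable densities -/
structure N1 (f : ℝ → ℝ) (B : ℝ) : Prop where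
  meas : Measurable f
  nn : ∀ x, 0 ≤ f x
  le : ∀ x, f x ≤ B
  int : Integrable f


/-- the potential -/
def KK (f : ℝ → ℝ) (t : ℝ) : ℝ := ∫ s, f s * ker (s - t)
















/-- `∫ h⁴ ≤ 2826 κ^{-2/3}`. -/
theorem integral_hf_four_le (m : ℕ) : ∫ s, hf m s ^ 4 ≤ 2826 * kap m ^ (-(2/3) : ℝ) := by
  have hk := kap_pos m
  have hk1 := one_le_kap m
  set c : ℝ := kap m ^ (-(1/3) : ℝ) with hc
  have hc0 : 0 < c := Real.rpow_pos_of_pos hk _
  have hcc : c * c = kap m ^ (-(2/3) : ℝ) := by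
    rw [hc, ← Real.rpow_add hk]; norm_num
  set a : ℝ := kap m - kap m ^ ((1:ℝ)/3) with ha
  set S : Set ℝ := {s : ℝ | a ≤ |s|} with hS
  have hSm : MeasurableSet S := measurableSet_le measurable_const continuous_abs.measurable
  have hI := integrable_hf_sq m
  have hdom : Integrable (fun s => 18 * (c * c) * hf m s ^ 2 + 18 * c * S.indicator (fun s => hf m s ^ 2) s) :=
    (hI.const_mul _).add ((hI.indicator hSm).const_mul _)
  have hle : ∀ s, hf m s ^ 4 ≤ 18 * (c * c) * hf m s ^ 2 + 18 * c * S.indicator (fun s => hf m s ^ 2) s := by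
    intro s
    have e : hf m s ^ 4 = hf m s ^ 2 * hf m s ^ 2 := by ring
    have hn : 0 ≤ hf m s ^ 2 := sq_nonneg _
    rw [e]
    by_cases hs : s ∈ S
    · rw [indicator_of_mem hs]
      have h1 := mul_le_mul_of_nonneg_right (hf_sq_le_kap m s) hn
      have h2 : 0 ≤ 18 * (c * c) * hf m s ^ 2 := by positivity
      linarith
    · rw [indicator_of_notMem hs]
      have hs' : |s| < a := not_le.mp hs
      have h1 := mul_le_mul_of_nonneg_right (hf_sq_le_bulk_kap m hs'.le) hn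
      rw [hcc]
      linarith
  have hint : Integrable (fun s => hf m s ^ 4) := by
    refine hdom.mono' ((continuous_hf m).pow 4).aestronglyMeasurable (Eventually.of_forall fun s => ?_)
    rw [Real.norm_eq_abs, abs_of_nonneg (by positivity)]
    exact hle s
  have h1 := integral_mono hint hdom hle
  have hedge : ∫ s, S.indicator (fun s => hf m s ^ 2) s ≤ 156 * c := by
    rw [integral_indicator hSm]; exact edge_mass_kap m
  have e1 : ∫ s, (18 * (c * c) * hf m s ^ 2 + 18 * c * S.indicator (fun s => hf m s ^ 2) s)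
      = 18 * (c * c) + 18 * c * ∫ s, S.indicator (fun s => hf m s ^ 2) s := by
    rw [integral_add (hI.const_mul _) ((hI.indicator hSm).const_mul _), integral_const_mul,
      integral_const_mul, integral_hf_sq, mul_one]
  rw [e1] at h1
  rw [← hcc]
  have h2 : 18 * c * ∫ s, S.indicator (fun s => hf m s ^ 2) s ≤ 18 * c * (156 * c) :=
    mul_le_mul_of_nonneg_left hedge (by positivity)
  linarith


end Crest.Agent.R338.WKB

end
end

-- ▼ part R338/CE5

/-!
Row 338, part 5 (D.8, D.9): Coulomb integrals of Hermite product functions: general bounds.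
-/

set_option autoImplicit false

open MeasureTheory Real Set Filter
open scoped Topology SchwartzMap LineDeriv

noncomputable section

namespace Crest.Agent.R338.CE

open HO (hf hP Phi PhiS)
open WKB (hfd kap)

theorem phi_eq_Phi (a : Fin 3 → ℕ) (x : P3) : phi a x = Phi a x := rfl

/-! ### one-dimensional facts -/

theorem integrable_hf_sq (m : ℕ) : Integrable (fun s => hf m s ^ 2) := WKB.integrable_hf_sq m

theorem hfd_sq_expand (m : ℕ) (s : ℝ) : hfd m s ^ 2 =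
    ((m : ℝ) / 2) * (hf (m - 1) s * hf (m - 1) s) -
      (2 * (√((m : ℝ) / 2) * √(((m : ℝ) + 1) / 2))) * (hf (m - 1) s * hf (m + 1) s) +
      (((m : ℝ) + 1) / 2) * (hf (m + 1) s * hf (m + 1) s) := by
  unfold hfd
  have h1 : √((m : ℝ) / 2) ^ 2 = (m : ℝ) / 2 := Real.sq_sqrt (by positivity)
  have h2 : √(((m : ℝ) + 1) / 2) ^ 2 = ((m : ℝ) + 1) / 2 := Real.sq_sqrt (by positivity)
  calc (√((m : ℝ) / 2) * hf (m - 1) s - √(((m : ℝ) + 1) / 2) * hf (m + 1) s) ^ 2 =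
      √((m : ℝ) / 2) ^ 2 * (hf (m - 1) s * hf (m - 1) s) -
      (2 * (√((m : ℝ) / 2) * √(((m : ℝ) + 1) / 2))) * (hf (m - 1) s * hf (m + 1) s) +
      √(((m : ℝ) + 1) / 2) ^ 2 * (hf (m + 1) s * hf (m + 1) s) := by ring
    _ = _ := by rw [h1, h2]

theorem integrable_hfd_sq (m : ℕ) : Integrable (fun s => hfd m s ^ 2) := by
  simp_rw [hfd_sq_expand]
  exact (((HO.integrable_hf_mul_hf _ _).const_mul _).sub
    ((HO.integrable_hf_mul_hf _ _).const_mul _)).add ((HO.integrable_hf_mul_hf _ _).const_mul _)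

theorem integral_hfd_sq (m : ℕ) : ∫ s, hfd m s ^ 2 = (2 * (m : ℝ) + 1) / 2 := by
  have i1 := (HO.integrable_hf_mul_hf (m - 1) (m - 1)).const_mul ((m : ℝ) / 2)
  have i2 := (HO.integrable_hf_mul_hf (m - 1) (m + 1)).const_mul
    (2 * (√((m : ℝ) / 2) * √(((m : ℝ) + 1) / 2)))
  have i3 := (HO.integrable_hf_mul_hf (m + 1) (m + 1)).const_mul (((m : ℝ) + 1) / 2)
  simp_rw [hfd_sq_expand]
  have i12 : Integrable (fun s => ((m : ℝ) / 2) * (hf (m - 1) s * hf (m - 1) s) -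
      (2 * (√((m : ℝ) / 2) * √(((m : ℝ) + 1) / 2))) * (hf (m - 1) s * hf (m + 1) s)) := i1.sub i2
  rw [integral_add i12 i3, integral_sub i1 i2, integral_const_mul, integral_const_mul,
    integral_const_mul, HO.integral_hf_mul_hf, HO.integral_hf_mul_hf, HO.integral_hf_mul_hf,
    if_pos rfl, if_pos rfl]
  have : m - 1 ≠ m + 1 := by omega
  rw [if_neg this]
  ring

/-- Wronskian. -/
def wr (k l : ℕ) (s : ℝ) : ℝ := hf k s * hfd l s - hf l s * hfd k s

theorem hasDerivAt_wr (k l : ℕ) (s : ℝ) :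
    HasDerivAt (wr k l) (2 * ((k : ℝ) - l) * (hf k s * hf l s)) s := by
  have h1 := ((WKB.hsol k).d1 s).mul ((WKB.hsol l).d2 s)
  have h2 := ((WKB.hsol l).d1 s).mul ((WKB.hsol k).d2 s)
  refine (h1.sub h2).congr_deriv ?_
  rw [WKB.kap_sq, WKB.kap_sq]
  ring

theorem wr_sq_le (k l : ℕ) {S : ℝ} (hk : ∀ s, hf k s ^ 2 ≤ S) (hl : ∀ s, hf l s ^ 2 ≤ S) (s : ℝ) :
    wr k l s ^ 2 ≤ 2 * S * (hfd l s ^ 2 + hfd k s ^ 2) := by
  unfold wr
  have h1 : (hf k s * hfd l s) ^ 2 ≤ S * hfd l s ^ 2 := by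
    rw [mul_pow]; exact mul_le_mul_of_nonneg_right (hk s) (sq_nonneg _)
  have h2 : (hf l s * hfd k s) ^ 2 ≤ S * hfd k s ^ 2 := by
    rw [mul_pow]; exact mul_le_mul_of_nonneg_right (hl s) (sq_nonneg _)
  nlinarith [sq_nonneg (hf k s * hfd l s + hf l s * hfd k s)]

theorem continuous_wr (k l : ℕ) : Continuous (wr k l) :=
  continuous_iff_continuousAt.2 fun s => (hasDerivAt_wr k l s).continuousAt

theorem integrable_wr_sq (k l : ℕ) : Integrable (fun s => wr k l s ^ 2) := by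
  obtain ⟨A, hA⟩ := CF.bdd_hf k
  obtain ⟨B, hB⟩ := CF.bdd_hf l
  have hk : ∀ s, hf k s ^ 2 ≤ A ^ 2 + B ^ 2 := fun s => by
    have : |hf k s| ^ 2 ≤ A ^ 2 := pow_le_pow_left₀ (abs_nonneg _) (hA s) 2
    rw [sq_abs] at this
    nlinarith [sq_nonneg B]
  have hl : ∀ s, hf l s ^ 2 ≤ A ^ 2 + B ^ 2 := fun s => by
    have : |hf l s| ^ 2 ≤ B ^ 2 := pow_le_pow_left₀ (abs_nonneg _) (hB s) 2
    rw [sq_abs] at this
    nlinarith [sq_nonneg A]
  refine Integrable.mono' (((integrable_hfd_sq l).add (integrable_hfd_sq k)).const_mul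
    (2 * (A ^ 2 + B ^ 2))) ((continuous_wr k l).pow 2).aestronglyMeasurable
    (Eventually.of_forall fun s => ?_)
  rw [Real.norm_eq_abs, abs_of_nonneg (sq_nonneg _)]
  exact wr_sq_le k l hk hl s

theorem integral_wr_sq_le (k l : ℕ) {S : ℝ} (hk : ∀ s, hf k s ^ 2 ≤ S)
    (hl : ∀ s, hf l s ^ 2 ≤ S) : ∫ s, wr k l s ^ 2 ≤ 2 * S * ((k : ℝ) + l + 1) := by
  have h : ∫ s, wr k l s ^ 2 ≤ ∫ s, 2 * S * (hfd l s ^ 2 + hfd k s ^ 2) :=
    integral_mono (integrable_wr_sq k l)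
      (((integrable_hfd_sq l).add (integrable_hfd_sq k)).const_mul _) (wr_sq_le k l hk hl)
  rw [integral_const_mul, integral_add (integrable_hfd_sq l) (integrable_hfd_sq k),
    integral_hfd_sq, integral_hfd_sq] at h
  refine h.trans (le_of_eq ?_)
  ring

theorem integrable_hf2_sq (k l : ℕ) : Integrable (fun s => (hf k s * hf l s) ^ 2) := by
  obtain ⟨A, hA⟩ := CF.bdd_hf k
  have h := (integrable_hf_sq l).bdd_mul (c := A ^ 2) (f := fun s => hf k s ^ 2)
    ((HO.continuous_hf k).pow 2).aestronglyMeasurable (Eventually.of_forall fun s => by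
      rw [Real.norm_eq_abs, abs_of_nonneg (sq_nonneg _), ← sq_abs]
      exact pow_le_pow_left₀ (abs_nonneg _) (hA s) 2)
  refine h.congr (Eventually.of_forall fun s => ?_)
  simp only
  ring

theorem integral_hf2_sq_le (k l : ℕ) {S : ℝ} (hk : ∀ s, hf k s ^ 2 ≤ S) :
    ∫ s, (hf k s * hf l s) ^ 2 ≤ S := by
  have h : ∫ s, (hf k s * hf l s) ^ 2 ≤ ∫ s, S * hf l s ^ 2 :=
    integral_mono (integrable_hf2_sq k l) ((integrable_hf_sq l).const_mul S) fun s => by
      simp only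
      rw [mul_pow]
      exact mul_le_mul_of_nonneg_right (hk s) (sq_nonneg _)
  rw [integral_const_mul, WKB.integral_hf_sq, mul_one] at h
  exact h

/-! ### the Schwartz function `T a b` -/

/-- `T a b = φ_a ∂₀ φ_b - φ_b ∂₀ φ_a`. -/
def T (a b : Fin 3 → ℕ) : 𝓢(P3, ℂ) :=
  SchwartzMap.smulLeftCLM ℂ (PhiS a) (∂_{eb 0} (PhiS b)) -
    SchwartzMap.smulLeftCLM ℂ (PhiS b) (∂_{eb 0} (PhiS a))

theorem deriv_Phi_form (b : Fin 3 → ℕ) (x : P3) :
    (∂_{eb 0} (PhiS b)) x = ((hfd (b 0) (x 0) * (hf (b 1) (x 1) * hf (b 2) (x 2)) : ℝ) : ℂ) := by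
  have h : (∂_{eb 0} (PhiS b)) x = fderiv ℝ (PhiS b) x (EuclideanSpace.single 0 (1 : ℝ)) := rfl
  rw [h, HO.fderiv_PhiS, HO.Phi_update, HO.Phi_update]
  have e : ∀ g : Fin 3 → ℝ, ∏ i ∈ Finset.univ.erase (0 : Fin 3), g i = g 1 * g 2 := by
    intro g
    have : Finset.univ.erase (0 : Fin 3) = {1, 2} := by decide
    rw [this]
    simp
  rw [e]
  congr 1
  unfold hfd
  ring

theorem phi_three (a : Fin 3 → ℕ) (x : P3) :
    phi a x = hf (a 0) (x 0) * (hf (a 1) (x 1) * hf (a 2) (x 2)) := by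
  unfold phi
  rw [Fin.prod_univ_three]
  ring

/-- one-dimensional factors of `T a b`. -/
def tf (a b : Fin 3 → ℕ) : Fin 3 → ℝ → ℝ :=
  ![wr (a 0) (b 0), fun s => hf (a 1) s * hf (b 1) s, fun s => hf (a 2) s * hf (b 2) s]

theorem T_apply (a b : Fin 3 → ℕ) (x : P3) : T a b x = ((pf (tf a b) x : ℝ) : ℂ) := by
  unfold T
  rw [sub_apply, SchwartzMap.smulLeftCLM_apply_apply (PhiS a).hasTemperateGrowth,
    SchwartzMap.smulLeftCLM_apply_apply (PhiS b).hasTemperateGrowth, deriv_Phi_form,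
    deriv_Phi_form, HO.PhiS_apply, HO.PhiS_apply, ← phi_eq_Phi, ← phi_eq_Phi, phi_three, phi_three]
  unfold pf tf wr
  rw [Fin.prod_univ_three]
  simp only [Matrix.cons_val_zero, Matrix.cons_val_one, Matrix.cons_val, smul_eq_mul]
  push_cast
  ring

theorem T_deriv (a b : Fin 3 → ℕ) (x : P3) :
    fderiv ℝ (T a b) x (eb 0) =
      ((2 * ((a 0 : ℝ) - b 0) * (phi a x * phi b x) : ℝ) : ℂ) := by
  have hd : DifferentiableAt ℝ (T a b) x := (T a b).differentiable x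
  have hline : HasDerivAt (fun t : ℝ => x + t • eb 0) (eb 0) 0 := by
    have := ((hasDerivAt_id (0 : ℝ)).smul_const (eb 0)).const_add x
    simpa using this
  have h1 : HasDerivAt (fun t : ℝ => T a b (x + t • eb 0)) (fderiv ℝ (T a b) x (eb 0)) 0 := by
    have h2 : HasFDerivAt (T a b) (fderiv ℝ (T a b) x) (x + (0 : ℝ) • eb 0) := by
      simpa using hd.hasFDerivAt
    exact h2.comp_hasDerivAt (0 : ℝ) hline
  set P : ℝ := (hf (a 1) (x 1) * hf (b 1) (x 1)) * (hf (a 2) (x 2) * hf (b 2) (x 2)) with hP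
  have e : (fun t : ℝ => T a b (x + t • eb 0)) =
      fun t : ℝ => ((wr (a 0) (b 0) (x 0 + t) * P : ℝ) : ℂ) := by
    funext t
    rw [T_apply]
    congr 1
    unfold pf tf
    rw [Fin.prod_univ_three]
    simp only [Matrix.cons_val_zero, Matrix.cons_val_one, Matrix.cons_val]
    have e0 : (x + t • eb 0) 0 = x 0 + t := by simp [eb]
    have e1 : (x + t • eb 0) 1 = x 1 := by simp [eb]
    have e2 : (x + t • eb 0) 2 = x 2 := by simp [eb]
    rw [e0, e1, e2, hP]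
    ring
  rw [e] at h1
  have h3 : HasDerivAt (fun t : ℝ => wr (a 0) (b 0) (x 0 + t) * P)
      (2 * ((a 0 : ℝ) - b 0) * (hf (a 0) (x 0) * hf (b 0) (x 0)) * P) 0 := by
    have h4 : HasDerivAt (wr (a 0) (b 0)) (2 * ((a 0 : ℝ) - b 0) *
        (hf (a 0) (x 0) * hf (b 0) (x 0))) (x 0 + 0) := by
      simpa using hasDerivAt_wr (a 0) (b 0) (x 0)
    have h5 : HasDerivAt (fun t : ℝ => x 0 + t) 1 0 := by
      simpa using (hasDerivAt_id (0 : ℝ)).const_add (x 0)
    have h6 := (h4.comp (0 : ℝ) h5).mul_const P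
    simpa [Function.comp_def] using h6
  have h7 := h3.ofReal_comp
  have h8 := h1.unique h7
  rw [h8]
  congr 1
  rw [phi_three, phi_three, hP]
  ring

theorem norm_T_sq (a b : Fin 3 → ℕ) (x : P3) :
    ‖T a b x‖ ^ 2 = pf (fun c s => tf a b c s ^ 2) x := by
  rw [T_apply, Complex.norm_real, Real.norm_eq_abs, sq_abs]
  unfold pf
  rw [Finset.prod_pow]

theorem integral_norm_T_sq (a b : Fin 3 → ℕ) :
    ∫ x, ‖T a b x‖ ^ 2 = (∫ s, wr (a 0) (b 0) s ^ 2) * (∫ s, (hf (a 1) s * hf (b 1) s) ^ 2) *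
      ∫ s, (hf (a 2) s * hf (b 2) s) ^ 2 := by
  simp_rw [norm_T_sq]
  rw [integral_pf, Fin.prod_univ_three]
  rfl

theorem nice_phi2 (a b : Fin 3 → ℕ) : Nice (fun x => phi a x * phi b x) := CF.nice_phi2 a b

/-- **(D.8)** non-classical self-integral. -/
theorem W_nonclassical_eq (a b : Fin 3 → ℕ) :
    (2 * ((a 0 : ℝ) - b 0)) ^ 2 * W a b a b ≤ 4 * π *
      ((∫ s, wr (a 0) (b 0) s ^ 2) * (∫ s, (hf (a 1) s * hf (b 1) s) ^ 2) *
      ∫ s, (hf (a 2) s * hf (b 2) s) ^ 2) := by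
  have h := D_deriv_le (T a b) 0 (fun x => 2 * ((a 0 : ℝ) - b 0) * (phi a x * phi b x))
    (fun x => (T_deriv a b x).symm)
  rw [integral_norm_T_sq, D_const_mul_left, D_const_mul_right] at h
  refine le_trans (le_of_eq ?_) h
  unfold W
  ring

/-- **(D.9)** classical self-integral. -/
theorem W_self_le (a : Fin 3 → ℕ) {A B : ℝ} (hA : 0 < A) (hB : 0 < B)
    (hA' : ∫ s, hf (a 0) s ^ 4 ≤ A ^ 2) (hB' : ∫ s, hf (a 1) s ^ 4 ≤ B ^ 2) :
    W a a a a ≤ 4 * (A * B) := by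
  have e : (fun x : P3 => phi a x * phi a x) = pf (fun c s => hf (a c) s ^ 2) := by
    funext x
    unfold phi pf
    rw [← Finset.prod_mul_distrib]
    exact Finset.prod_congr rfl fun c _ => by ring
  unfold W
  rw [e]
  refine D_pf_le (fun c => integrable_hf_sq _) (fun c => ?_) (fun c => ?_) (fun c => ?_) hA hB ?_ ?_
  · obtain ⟨C, hC⟩ := CF.bdd_hf (a c)
    refine ⟨C ^ 2, fun t => ?_⟩
    rw [abs_of_nonneg (sq_nonneg _), ← sq_abs]
    exact pow_le_pow_left₀ (abs_nonneg _) (hC t) 2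
  · refine (integrable_hf2_sq (a c) (a c)).congr (Eventually.of_forall fun s => ?_)
    simp only
    ring
  · have : ∫ s, |hf (a c) s ^ 2| = 1 := by
      rw [← WKB.integral_hf_sq (a c)]
      refine integral_congr_ae (Eventually.of_forall fun s => ?_)
      simp only
      rw [abs_of_nonneg (sq_nonneg _)]
    exact this.le
  · refine le_trans (le_of_eq ?_) hA'
    refine integral_congr_ae (Eventually.of_forall fun s => ?_)
    simp only
    ring
  · refine le_trans (le_of_eq ?_) hB'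
    refine integral_congr_ae (Eventually.of_forall fun s => ?_)
    simp only
    ring

theorem W_self_nonneg (a b : Fin 3 → ℕ) : 0 ≤ W a b a b := D_self_nonneg (nice_phi2 a b)

theorem W_classical_nonneg (a b : Fin 3 → ℕ) : 0 ≤ W a a b b :=
  D_nonneg_of_nonneg (fun _ => mul_self_nonneg _) fun _ => mul_self_nonneg _

theorem W_cauchy_schwarz (a b c d : Fin 3 → ℕ) : W a b c d ^ 2 ≤ W a b a b * W c d c d :=
  D_cauchy_schwarz (nice_phi2 a b) (nice_phi2 c d)

end Crest.Agent.R338.CE
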