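import Crest.Agent.R338.BHDefs
import Crest.Agent.R338.Br
import Crest.Agent.R338.CE6

-- ▼ part R338/BH1
section

/-!
Row 338 (S0529): Theorem BH, part 1: symmetry of the site matrices, the superexchange data built
from the Coulomb integrals, comparison of constants.
-/

set_option autoImplicit false
set_option maxSynthPendingDepth 3

noncomputable section

open Crest.MathPhysics.ElectronicCoulomb
open scoped ComplexConjugate BigOperators

namespace Crest.Agent.R338.BH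

theorem w1_comm (w : Pos3 → ℝ) (a b : Idx) : w1 w a b = w1 w b a := by
  simp only [w1, mul_comm (orb a _) (orb b _)]

theorem W4_comm12 (a b c d : Idx) : W4 a b c d = W4 b a c d := by
  simp only [W4]
  congr 1
  funext x
  ring

theorem W4_comm34 (a b c d : Idx) : W4 a b c d = W4 a b d c := by
  simp only [W4]
  congr 1
  funext x
  ring

theorem fock_symm (h : W4Symm) (n0 : ℕ) (a b : Idx) : fock n0 a b = fock n0 b a := by
  simp only [fock]
  refine Finset.sum_congr rfl fun c _ => ?_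
  rw [W4_comm12 a b c c]
  have : W4 a c c b = W4 b c c a := by
    rw [h b c c a, W4_comm12 c a b c, W4_comm34 a c b c]
  rw [this]

theorem Vc_symm (h : W4Symm) (n k i j : ℕ) : Vc n k i j = Vc n k j i := h _ _ _ _

variable (n k : ℕ) (j0 : ℝ) (J : ℕ → ℕ → ℝ)

/-- charging matrix -/
def Dn (a b : Fin n) : ℝ := Vc n k a b

/-- couplings -/
def Jn (a b : Fin n) : ℝ := if a = b then 0 else j0 * J (min a b : Fin n) (max a b : Fin n)

/-- hopping amplitudes -/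
def tn (a b : Fin n) : ℝ :=
  if a = b then 0 else (1 / 2) * √(Jn n j0 J a b * SX.Del (Dn n k) a b)

theorem Jn_symm (a b : Fin n) : Jn n j0 J a b = Jn n j0 J b a := by
  by_cases h : a = b
  · subst h; rfl
  · rw [Jn, Jn, if_neg h, if_neg (Ne.symm h), min_comm, max_comm]

theorem Jn_lt {a b : Fin n} (h : a < b) : Jn n j0 J a b = j0 * J a b := by
  rw [Jn, if_neg h.ne, min_eq_left h.le, max_eq_right h.le]

theorem Dn_symm (h : W4Symm) (a b : Fin n) : Dn n k a b = Dn n k b a := Vc_symm h _ _ _ _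

theorem tn_symm (h : W4Symm) (a b : Fin n) : tn n k j0 J a b = tn n k j0 J b a := by
  by_cases hab : a = b
  · subst hab; rfl
  · rw [tn, tn, if_neg hab, if_neg (Ne.symm hab), Jn_symm, SX.Del_symm (Dn_symm n k h)]

theorem Del_ge' {D : Fin n → Fin n → ℝ} (hD : ∀ a b, D a b = D b a) {g : ℝ}
    (hDg : ∀ δ : Fin n → ℤ, (∀ i, |δ i| ≤ 1) → ∑ i, δ i = 0 → δ ≠ 0 →
      2 * g ≤ ∑ i, ∑ j, D i j * ((δ i : ℝ) * (δ j : ℝ))) {a b : Fin n} (hab : a ≠ b) :
    g ≤ SX.Del D a b := by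
  have h1 := hDg (fun i => (if a = i then 1 else 0) - (if b = i then 1 else 0)) (fun i => by
    split_ifs <;> simp) (by
    simp [Finset.sum_sub_distrib]) (fun h => by
    have := congrFun h a
    simp [hab.symm] at this)
  have h2 : (∑ i, ∑ j, D i j * (((((if a = i then 1 else 0) - (if b = i then 1 else 0) : ℤ)) : ℝ) *
      ((((if a = j then 1 else 0) - (if b = j then 1 else 0) : ℤ)) : ℝ))) = 2 * SX.Del D a b := by
    have h1 : ∀ i j, D i j * (((((if a = i then 1 else 0) - (if b = i then 1 else 0) : ℤ)) : ℝ) *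
      ((((if a = j then 1 else 0) - (if b = j then 1 else 0) : ℤ)) : ℝ)) =
        (if a = i then (if a = j then D i j else 0) else 0) -
        (if a = i then (if b = j then D i j else 0) else 0) -
        (if b = i then (if a = j then D i j else 0) else 0) +
        (if b = i then (if b = j then D i j else 0) else 0) := by
      intro i j
      split_ifs <;> push_cast <;> ring
    simp only [h1, Finset.sum_add_distrib, Finset.sum_sub_distrib]
    have h2 : ∀ x y : Fin n, (∑ i, ∑ j, if x = i then (if y = j then D i j else 0) else 0) =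
        D x y := by
      intro x y
      rw [Finset.sum_eq_single x]
      · simp
      · intro b _ hb
        simp [Ne.symm hb]
      · simp
    rw [h2, h2, h2, h2]
    simp only [SX.Del]
    rw [hD b a]
    ring
  rw [h2] at h1
  linarith

/-- the superexchange data -/
def data (hs : W4Symm) (hj0 : 0 ≤ j0) (hJ : ∀ i j, 0 ≤ J i j) (g : ℝ) (hg : 0 < g)
    (hDg : ∀ δ : Fin n → ℤ, (∀ i, |δ i| ≤ 1) → ∑ i, δ i = 0 → δ ≠ 0 →
      2 * g ≤ ∑ i, ∑ j, Dn n k i j * ((δ i : ℝ) * (δ j : ℝ))) : SX.Data n where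
  t := tn n k j0 J
  D := Dn n k
  J := Jn n j0 J
  g := g
  ht := tn_symm n k j0 J hs
  ht0 a := by simp [tn]
  hD := Dn_symm n k hs
  hg := hg
  hDg := hDg
  hJ a b := by
    by_cases hab : a = b
    · subst hab; simp [tn, Jn]
    · have h1 : 0 ≤ SX.Del (Dn n k) a b :=
        hg.le.trans (Del_ge' n (Dn_symm n k hs) hDg hab)
      have h2 : 0 ≤ Jn n j0 J a b := by
        rw [Jn, if_neg hab]; exact mul_nonneg hj0 (hJ _ _)
      rw [tn, if_neg hab, mul_pow, Real.sq_sqrt (mul_nonneg h2 h1)]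
      ring
  hJ0 a := by simp [Jn]

/-- the Heisenberg forms agree -/
theorem Heis_eq (χ : (Fin n → Bool) → ℂ) :
    SX.Heis (Jn n j0 J) χ = j0 * heis (fun i j : Fin n => J i j) χ := by
  rw [SX.Heis, heis, Finset.mul_sum]
  refine Finset.sum_congr rfl fun i _ => ?_
  rw [Finset.mul_sum]
  refine Finset.sum_congr rfl fun j _ => ?_
  by_cases h : i < j
  · rw [if_pos h, if_pos h, Jn_lt n j0 J h]
    show j0 * J i j * (swapExp i j χ / 2 - nrmSq χ / 4) = _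
    ring
  · rw [if_neg h, if_neg h, mul_zero]

theorem Js_eq : SX.Js (Jn n j0 J) =
    j0 * ∑ i ∈ Finset.range n, ∑ j ∈ Finset.range n, if i < j then J i j else 0 := by
  rw [SX.Js, Finset.sum_range, Finset.mul_sum]
  refine Finset.sum_congr rfl fun i _ => ?_
  rw [Finset.sum_range, Finset.mul_sum]
  refine Finset.sum_congr rfl fun j _ => ?_
  by_cases h : i < j
  · rw [if_pos h, if_pos (by exact_mod_cast h), Jn_lt n j0 J h]
  · rw [if_neg h, if_neg (by exact_mod_cast h), mul_zero]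

theorem const0_eq : SX.const0 (Dn n k) =
    -((∑ i ∈ Finset.range n, Vc n k i i) / 2) -
      ∑ i ∈ Finset.range n, ∑ j ∈ Finset.range n, if i < j then Vc n k i j else 0 := by
  rw [SX.const0, Finset.sum_range, Finset.sum_range]
  congr 1
  refine Finset.sum_congr rfl fun i _ => ?_
  rw [Finset.sum_range]
  refine Finset.sum_congr rfl fun j _ => ?_
  by_cases h : i < j
  · rw [if_pos h, if_pos (by exact_mod_cast h)]; rfl
  · rw [if_neg h, if_neg (by exact_mod_cast h)]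

theorem mu_eq (i : Fin n) : SX.mu (Dn n k) i = muS n k i := by
  rw [SX.mu, muS]
  have h1 : ∑ j ∈ Finset.univ.erase i, Dn n k i j = (∑ j, Dn n k i j) - Dn n k i i := by
    rw [← Finset.add_sum_erase _ _ (Finset.mem_univ i)]; ring
  have h2 : ∑ j ∈ (Finset.range n).erase (i : ℕ), Vc n k i j =
      (∑ j ∈ Finset.range n, Vc n k i j) - Vc n k i i := by
    rw [← Finset.add_sum_erase _ _ (Finset.mem_range.2 i.2)]; ring
  rw [h1, h2, Finset.sum_range]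
  rfl

theorem constH_eq (Lam : ℝ) : constH n k Lam j0 J =
    n * (-2 * Lam) + SX.const0 (Dn n k) - SX.Js (Jn n j0 J) / 4 := by
  rw [constH, Js_eq, const0_eq]
  ring

theorem hSite_off (hs : W4Symm) {Lam : ℝ} {A : ℕ → ℕ → ℝ} {a : ℕ → ℝ} {ec : ℝ}
    (hC : Calib n k j0 J A a ec) {i j : Fin n} (hij : i ≠ j) :
    |hSite n k Lam A a i j - tn n k j0 J i j| ≤ ec := by
  have key : ∀ i j : Fin n, i < j → |hSite n k Lam A a i j - tn n k j0 J i j| ≤ ec := by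
    intro i j h
    have h1 := hC.1 i i.2 j j.2 h
    rw [hSite, if_neg h.ne, add_zero, tn, if_neg h.ne, Jn_lt n j0 J h]
    exact h1
  rcases lt_or_gt_of_ne hij with h | h
  · exact key i j h
  · have h1 := key j i h
    rw [tn_symm n k j0 J hs i j]
    have h2 : hSite n k Lam A a i j = hSite n k Lam A a j i := by
      rw [hSite, hSite, if_neg hij, if_neg (Ne.symm hij), fock_symm hs]
      congr 2
      refine Finset.sum_congr rfl fun i' _ => Finset.sum_congr rfl fun j' _ => ?_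
      rw [Mhop, Mhop, w1_comm]
    rw [h2]; exact h1

theorem hSite_diag {Lam : ℝ} {A : ℕ → ℕ → ℝ} {a : ℕ → ℝ} {ec : ℝ}
    (hC : Calib n k j0 J A a ec) (i : Fin n) :
    |hSite n k Lam A a i i - (SX.mu (Dn n k) i + (-2 * Lam))| ≤ ec := by
  have h1 := hC.2 i i.2
  rw [hSite, if_pos rfl, mu_eq]
  convert h1 using 2
  ring

end Crest.Agent.R338.BH

end
end

-- ▼ part R338/BH2
section

/-!
Row 338 (S0529): Theorem BH, part 2: two-sided comparison of the site form with the Heisenberg form.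
-/

set_option autoImplicit false
set_option maxSynthPendingDepth 3

noncomputable section

open Crest.MathPhysics.ElectronicCoulomb
open scoped ComplexConjugate BigOperators

namespace Crest.Agent.R338.BH

/-- numerical facts about the parameters; `P = (nq)^{C'}` -/
structure Par (n q k : ℕ) (a1 P : ℝ) : Prop where
  hn : 2 ≤ n
  hq : 1 ≤ q
  ha : 1 ≤ a1
  hP : 256 * (q : ℝ) * (n : ℝ) ^ 5 * a1 ^ 2 ≤ P
  hk : P ^ 4 ≤ (k : ℝ)

namespace Par

variable {n q k : ℕ} {a1 P : ℝ} (h : Par n q k a1 P)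
include h

theorem n2 : (2 : ℝ) ≤ n := by exact_mod_cast h.hn
theorem q1 : (1 : ℝ) ≤ q := by exact_mod_cast h.hq

theorem P256 : 256 ≤ P := by
  have h1 := h.n2; have h2 := h.q1; have h3 := h.ha
  have e1 : (1 : ℝ) ≤ (n : ℝ) ^ 5 := one_le_pow₀ (by linarith)
  have e2 : (1 : ℝ) ≤ a1 ^ 2 := one_le_pow₀ h3
  have e3 : (1 : ℝ) ≤ (q : ℝ) * (n : ℝ) ^ 5 := one_le_mul_of_one_le_of_one_le h2 e1
  have e4 : (1 : ℝ) ≤ (q : ℝ) * (n : ℝ) ^ 5 * a1 ^ 2 := one_le_mul_of_one_le_of_one_le e3 e2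
  have := h.hP
  nlinarith

theorem kP : P ≤ k := by
  have h1 := h.P256
  have h2 : P ^ 1 ≤ P ^ 4 := pow_le_pow_right₀ (by linarith) (by norm_num)
  rw [pow_one] at h2
  exact h2.trans h.hk

theorem kP3 : P ^ 3 ≤ k := by
  have h1 := h.P256
  have h2 : P ^ 3 ≤ P ^ 4 := pow_le_pow_right₀ (by linarith) (by norm_num)
  exact h2.trans h.hk

theorem kpos : (0 : ℝ) < k := by have := h.kP; have := h.P256; linarith

theorem Ppos : 0 < P := by have := h.P256; linarith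

/-- (1) -/
theorem b1 : 2 * (n : ℝ) ^ 5 * a1 ^ 2 / P ≤ 1 / (128 * q) := by
  have hq := h.q1
  rw [div_le_div_iff₀ h.Ppos (by linarith)]
  have := h.hP
  nlinarith

/-- (2) -/
theorem b2 : 8 * (n : ℝ) ^ 4 * a1 / (P ^ 2 * k) ≤ 1 / (128 * q) := by
  have hq := h.q1
  have hk := h.kpos
  have hP := h.Ppos
  have hn := h.n2
  have ha := h.ha
  rw [div_le_div_iff₀ (by positivity) (by positivity)]
  have e1 : (n : ℝ) ^ 4 * a1 ≤ (n : ℝ) ^ 5 * a1 ^ 2 := by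
    have : (n : ℝ) ^ 4 * a1 * 1 ≤ (n : ℝ) ^ 4 * a1 * (n * a1) := by
      refine mul_le_mul_of_nonneg_left ?_ (by positivity)
      nlinarith
    nlinarith
  have e2 : 256 * ((q : ℝ) * ((n : ℝ) ^ 4 * a1)) ≤ P := by
    refine le_trans ?_ h.hP
    have : (q : ℝ) * ((n : ℝ) ^ 4 * a1) ≤ q * ((n : ℝ) ^ 5 * a1 ^ 2) :=
      mul_le_mul_of_nonneg_left e1 (by linarith)
    nlinarith
  have e3 : 1024 * ((q : ℝ) * ((n : ℝ) ^ 4 * a1)) ≤ 4 * P := by linarith
  have e4 : 4 * P ≤ P ^ 2 * k := by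
    have f1 := h.kP
    have f2 := h.P256
    have f3 : 4 ≤ P * k := by nlinarith
    nlinarith
  calc 8 * (n : ℝ) ^ 4 * a1 * (128 * q) = 1024 * ((q : ℝ) * ((n : ℝ) ^ 4 * a1)) := by ring
    _ ≤ 1 * (P ^ 2 * k) := by linarith

/-- (3) -/
theorem b3 : (n : ℝ) ^ 3 / P ^ 2 ≤ 1 / (128 * q) := by
  have hq := h.q1
  have hP := h.Ppos
  have hn := h.n2
  have ha := h.ha
  rw [div_le_div_iff₀ (by positivity) (by positivity)]
  have e1 : (n : ℝ) ^ 3 ≤ (n : ℝ) ^ 5 * a1 ^ 2 := by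
    have f1 : (n : ℝ) ^ 3 ≤ (n : ℝ) ^ 5 := pow_le_pow_right₀ (by linarith) (by norm_num)
    have f2 : (1 : ℝ) ≤ a1 ^ 2 := one_le_pow₀ ha
    calc (n : ℝ) ^ 3 ≤ (n : ℝ) ^ 5 * 1 := by linarith
      _ ≤ (n : ℝ) ^ 5 * a1 ^ 2 := mul_le_mul_of_nonneg_left f2 (by positivity)
  have e2 : 256 * ((q : ℝ) * (n : ℝ) ^ 3) ≤ P := by
    refine le_trans ?_ h.hP
    have : (q : ℝ) * (n : ℝ) ^ 3 ≤ q * ((n : ℝ) ^ 5 * a1 ^ 2) :=
      mul_le_mul_of_nonneg_left e1 (by linarith)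
    nlinarith
  have e3 : P ≤ P ^ 2 := by
    have := h.P256
    nlinarith
  nlinarith

/-- (4) -/
theorem b4 : (n : ℝ) ^ 4 * (a1 / (k : ℝ) ^ 5) ≤ 1 / (P ^ 2 * (k : ℝ) ^ 4) / (128 * q) := by
  have hq := h.q1
  have hk := h.kpos
  have hP := h.Ppos
  have hn := h.n2
  have ha := h.ha
  rw [← mul_div_assoc, div_div, div_le_div_iff₀ (by positivity) (by positivity)]
  have e1 : (n : ℝ) ^ 4 * a1 ≤ (n : ℝ) ^ 5 * a1 ^ 2 := by
    have : (n : ℝ) ^ 4 * a1 * 1 ≤ (n : ℝ) ^ 4 * a1 * (n * a1) := by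
      refine mul_le_mul_of_nonneg_left ?_ (by positivity)
      nlinarith
    nlinarith
  have e2 : 256 * ((q : ℝ) * ((n : ℝ) ^ 4 * a1)) ≤ P := by
    refine le_trans ?_ h.hP
    have : (q : ℝ) * ((n : ℝ) ^ 4 * a1) ≤ q * ((n : ℝ) ^ 5 * a1 ^ 2) :=
      mul_le_mul_of_nonneg_left e1 (by linarith)
    nlinarith
  have e3 : 128 * ((q : ℝ) * ((n : ℝ) ^ 4 * a1)) * P ^ 2 ≤ k := by
    have f1 : 128 * ((q : ℝ) * ((n : ℝ) ^ 4 * a1)) ≤ P := by
      have : (0 : ℝ) ≤ q * ((n : ℝ) ^ 4 * a1) := by positivity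
      linarith
    calc 128 * ((q : ℝ) * ((n : ℝ) ^ 4 * a1)) * P ^ 2 ≤ P * P ^ 2 :=
          mul_le_mul_of_nonneg_right f1 (by positivity)
      _ = P ^ 3 := by ring
      _ ≤ k := h.kP3
  calc (n : ℝ) ^ 4 * a1 * (P ^ 2 * (k : ℝ) ^ 4 * (128 * q))
      = (128 * ((q : ℝ) * ((n : ℝ) ^ 4 * a1)) * P ^ 2) * (k : ℝ) ^ 4 := by ring
    _ ≤ k * (k : ℝ) ^ 4 := mul_le_mul_of_nonneg_right e3 (by positivity)
    _ = 1 * (k : ℝ) ^ 5 := by ring

/-- `j0` is small -/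
theorem j0_small : (n : ℝ) ^ 2 * (1 / (P ^ 2 * (k : ℝ) ^ 4)) ≤ 1 / 16 := by
  have hq := h.q1
  have hk := h.kpos
  have hP := h.Ppos
  have hn := h.n2
  have ha := h.ha
  rw [mul_one_div, div_le_div_iff₀ (by positivity) (by norm_num)]
  have e1 : (n : ℝ) ^ 2 ≤ (n : ℝ) ^ 3 := pow_le_pow_right₀ (by linarith) (by norm_num)
  have e2 := h.b3
  rw [div_le_div_iff₀ (by positivity) (by positivity)] at e2
  have e3 : (n : ℝ) ^ 3 * 128 ≤ P ^ 2 := by
    have : (n : ℝ) ^ 3 * 128 * 1 ≤ (n : ℝ) ^ 3 * 128 * q :=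
      mul_le_mul_of_nonneg_left hq (by positivity)
    nlinarith
  have e4 : (1 : ℝ) ≤ (k : ℝ) ^ 4 := one_le_pow₀ (by have := h.kP; have := h.P256; linarith)
  have e5 : P ^ 2 * 1 ≤ P ^ 2 * (k : ℝ) ^ 4 := mul_le_mul_of_nonneg_left e4 (by positivity)
  nlinarith [pow_pos (show (0 : ℝ) < n by linarith) 3]

/-- the classical constant is small -/
theorem const_small : 2 * (n : ℝ) ^ 2 * (a1 / (k : ℝ) ^ 2) ≤ 1 / 2 := by
  have hq := h.q1
  have hk := h.kpos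
  have hP := h.Ppos
  have hn := h.n2
  have ha := h.ha
  rw [← mul_div_assoc, div_le_div_iff₀ (by positivity) (by norm_num)]
  have e1 : (n : ℝ) ^ 2 * a1 ≤ (n : ℝ) ^ 5 * a1 ^ 2 := by
    have f1 : (n : ℝ) ^ 2 ≤ (n : ℝ) ^ 5 := pow_le_pow_right₀ (by linarith) (by norm_num)
    have f2 : a1 ≤ a1 ^ 2 := by nlinarith
    exact mul_le_mul f1 f2 (by linarith) (by positivity)
  have e2 : 256 * ((n : ℝ) ^ 2 * a1) ≤ P := by
    refine le_trans ?_ h.hP
    have : 1 * ((n : ℝ) ^ 5 * a1 ^ 2) ≤ q * ((n : ℝ) ^ 5 * a1 ^ 2) :=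
      mul_le_mul_of_nonneg_right hq (by positivity)
    nlinarith
  have e3 := h.kP
  have e4 := h.P256
  have e5 : (k : ℝ) ≤ (k : ℝ) ^ 2 := by nlinarith
  have e6 : 0 ≤ (n : ℝ) ^ 2 * a1 := by positivity
  nlinarith

end Par

variable {n q k : ℕ} {a1 P : ℝ} {J : ℕ → ℕ → ℝ}

theorem sum_if_le {F : Fin n → Fin n → ℝ} {b : ℝ} (hb : 0 ≤ b) (hF : ∀ i j, |F i j| ≤ b) :
    |∑ i, ∑ j, if i < j then F i j else 0| ≤ n ^ 2 * b := by
  calc |∑ i, ∑ j, if i < j then F i j else 0| ≤ ∑ _i : Fin n, ∑ _j : Fin n, b := by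
        refine (Finset.abs_sum_le_sum_abs _ _).trans (Finset.sum_le_sum fun i _ => ?_)
        refine (Finset.abs_sum_le_sum_abs _ _).trans (Finset.sum_le_sum fun j _ => ?_)
        split_ifs
        · exact hF i j
        · rw [abs_zero]; exact hb
    _ = n ^ 2 * b := by
        simp only [Finset.sum_const, Finset.card_univ, Fintype.card_fin, nsmul_eq_mul]; ring

/-- the coulomb hypotheses at fixed `n`, `k` -/
structure Coul (n k : ℕ) (a1 : ℝ) : Prop where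
  hs : W4Symm
  hV : ∀ i < n, ∀ j < n, 0 ≤ Vc n k i j ∧ Vc n k i j ≤ a1 / (k : ℝ) ^ 2
  hW : ∀ i < n, ∀ j < n, ∀ i' < n, ∀ j' < n, (i ≠ j ∨ i' ≠ j') →
    |W4 (site n k i) (site n k j) (site n k i') (site n k j')| ≤ a1 / (k : ℝ) ^ 5
  hC : ∀ δ : Fin n → ℤ, (∀ i, |δ i| ≤ 1) → ∑ i, δ i = 0 → δ ≠ 0 →
    1 / (a1 * (k : ℝ) ^ 3) ≤
      ∑ i : Fin n, ∑ j : Fin n, Vc n k i j * ((δ i : ℝ) * (δ j : ℝ))

/-- the data -/
def dat (h : Par n q k a1 P) (hc : Coul n k a1) (hJ : ∀ i j, 0 ≤ J i j ∧ J i j ≤ 1) :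
    SX.Data n :=
  data n k (1 / (P ^ 2 * (k : ℝ) ^ 4)) J hc.hs (by have := h.kpos; have := h.Ppos; positivity)
    (fun i j => (hJ i j).1) (1 / (2 * (a1 * (k : ℝ) ^ 3)))
    (by have := h.kpos; have := h.ha; positivity)
    (fun δ h1 h2 h3 => by
      have h4 := hc.hC δ h1 h2 h3
      have : 2 * (1 / (2 * (a1 * (k : ℝ) ^ 3))) = 1 / (a1 * (k : ℝ) ^ 3) := by
        have := h.kpos; have := h.ha
        field_simp
      rw [this]; exact h4)

section
variable (h : Par n q k a1 P) (hc : Coul n k a1) (hJ : ∀ i j, 0 ≤ J i j ∧ J i j ≤ 1)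

theorem Js_le : SX.Js (dat h hc hJ).J ≤ (n : ℝ) ^ 2 * (1 / (P ^ 2 * (k : ℝ) ^ 4)) := by
  have hk := h.kpos
  have hP := h.Ppos
  have hb : (0 : ℝ) ≤ 1 / (P ^ 2 * (k : ℝ) ^ 4) := by positivity
  have := sum_if_le (n := n) (F := (dat h hc hJ).J) hb (fun i j => by
    show |Jn n (1 / (P ^ 2 * (k : ℝ) ^ 4)) J i j| ≤ _
    rw [Jn]
    split_ifs
    · rw [abs_zero]; exact hb
    · rw [abs_mul, abs_of_nonneg hb, abs_of_nonneg (hJ _ _).1]
      exact mul_le_of_le_one_right hb (hJ _ _).2)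
  exact (le_abs_self _).trans this

theorem Js_nonneg' : 0 ≤ SX.Js (dat h hc hJ).J :=
  SX.Js_nonneg fun i j _ => (dat h hc hJ).J_nonneg i j

theorem Del_le (hc : Coul n k a1) {a b : Fin n} : SX.Del (Dn n k) a b ≤ a1 / (k : ℝ) ^ 2 := by
  have h1 := (hc.hV a a.2 a a.2).2
  have h2 := (hc.hV b b.2 b b.2).2
  have h3 := (hc.hV a a.2 b b.2).1
  simp only [SX.Del, Dn]
  linarith

theorem t_le (a b : Fin n) : |(dat h hc hJ).t a b| ≤ (1 / 2) * (a1 / (P * (k : ℝ) ^ 3)) := by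
  have hk := h.kpos
  have hP := h.Ppos
  have ha := h.ha
  show |tn n k (1 / (P ^ 2 * (k : ℝ) ^ 4)) J a b| ≤ _
  rw [tn]
  split_ifs with hab
  · rw [abs_zero]; positivity
  · rw [abs_mul, abs_of_nonneg (by norm_num : (0 : ℝ) ≤ 1 / 2), abs_of_nonneg (Real.sqrt_nonneg _)]
    refine mul_le_mul_of_nonneg_left ?_ (by norm_num)
    refine Real.sqrt_le_sqrt (y := (a1 / (P * (k : ℝ) ^ 3)) ^ 2) ?_ |>.trans ?_
    · have hb : (0 : ℝ) ≤ 1 / (P ^ 2 * (k : ℝ) ^ 4) := by positivity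
      have e1 : Jn n (1 / (P ^ 2 * (k : ℝ) ^ 4)) J a b ≤ 1 / (P ^ 2 * (k : ℝ) ^ 4) := by
        rw [Jn, if_neg hab]
        exact mul_le_of_le_one_right hb (hJ _ _).2
      have e2 : SX.Del (Dn n k) a b ≤ a1 / (k : ℝ) ^ 2 := Del_le hc
      have e3 : 0 ≤ SX.Del (Dn n k) a b := ((dat h hc hJ).Del_pos hab).le
      calc Jn n (1 / (P ^ 2 * (k : ℝ) ^ 4)) J a b * SX.Del (Dn n k) a b
          ≤ (1 / (P ^ 2 * (k : ℝ) ^ 4)) * (a1 / (k : ℝ) ^ 2) :=
            mul_le_mul e1 e2 e3 hb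
        _ = a1 * (1 / (P * (k : ℝ) ^ 3)) ^ 2 := by field_simp
        _ ≤ a1 ^ 2 * (1 / (P * (k : ℝ) ^ 3)) ^ 2 := by
            refine mul_le_mul_of_nonneg_right ?_ (by positivity)
            nlinarith
        _ = (a1 / (P * (k : ℝ) ^ 3)) ^ 2 := by field_simp
    · rw [Real.sqrt_sq (by positivity)]

theorem tau_le : (dat h hc hJ).tau ≤ (n : ℝ) ^ 2 * ((1 / 2) * (a1 / (P * (k : ℝ) ^ 3))) := by
  calc (dat h hc hJ).tau ≤ ∑ _a : Fin n, ∑ _b : Fin n, (1 / 2) * (a1 / (P * (k : ℝ) ^ 3)) :=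
        Finset.sum_le_sum fun a _ => Finset.sum_le_sum fun b _ => t_le h hc hJ a b
    _ = _ := by
        simp only [Finset.sum_const, Finset.card_univ, Fintype.card_fin, nsmul_eq_mul]; ring

theorem x_le : (dat h hc hJ).x ≤ (n : ℝ) ^ 3 * a1 ^ 2 / P := by
  have hk := h.kpos
  have hP := h.Ppos
  have ha := h.ha
  have hn := h.n2
  have h1 := tau_le h hc hJ
  show (n : ℝ) * (dat h hc hJ).tau / (1 / (2 * (a1 * (k : ℝ) ^ 3))) ≤ _
  rw [div_div_eq_mul_div, div_one]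
  calc (n : ℝ) * (dat h hc hJ).tau * (2 * (a1 * (k : ℝ) ^ 3))
      ≤ (n : ℝ) * ((n : ℝ) ^ 2 * ((1 / 2) * (a1 / (P * (k : ℝ) ^ 3)))) * (2 * (a1 * (k : ℝ) ^ 3)) := by
        gcongr
    _ = (n : ℝ) ^ 3 * a1 ^ 2 / P := by field_simp

theorem Jsg_le : 2 * SX.Js (dat h hc hJ).J / (dat h hc hJ).g ≤
    4 * (n : ℝ) ^ 2 * a1 / (P ^ 2 * k) := by
  have hk := h.kpos
  have hP := h.Ppos
  have ha := h.ha
  have h1 := Js_le h hc hJ
  show 2 * SX.Js (dat h hc hJ).J / (1 / (2 * (a1 * (k : ℝ) ^ 3))) ≤ _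
  rw [div_div_eq_mul_div, div_one]
  calc 2 * SX.Js (dat h hc hJ).J * (2 * (a1 * (k : ℝ) ^ 3))
      ≤ 2 * ((n : ℝ) ^ 2 * (1 / (P ^ 2 * (k : ℝ) ^ 4))) * (2 * (a1 * (k : ℝ) ^ 3)) := by
        gcongr
    _ = 4 * (n : ℝ) ^ 2 * a1 / (P ^ 2 * k) := by field_simp; ring

theorem xg_le : 2 * (n : ℝ) ^ 2 * ((dat h hc hJ).x + 2 * SX.Js (dat h hc hJ).J / (dat h hc hJ).g) ≤
    1 / (64 * q) := by
  have hk := h.kpos
  have hP := h.Ppos
  have ha := h.ha
  have hq := h.q1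
  have h1 := x_le h hc hJ
  have h2 := Jsg_le h hc hJ
  have h3 := h.b1
  have h4 := h.b2
  calc 2 * (n : ℝ) ^ 2 * ((dat h hc hJ).x + 2 * SX.Js (dat h hc hJ).J / (dat h hc hJ).g)
      ≤ 2 * (n : ℝ) ^ 2 * ((n : ℝ) ^ 3 * a1 ^ 2 / P + 4 * (n : ℝ) ^ 2 * a1 / (P ^ 2 * k)) := by
        gcongr
    _ = 2 * (n : ℝ) ^ 5 * a1 ^ 2 / P + 8 * (n : ℝ) ^ 4 * a1 / (P ^ 2 * k) := by ring
    _ ≤ 1 / (128 * q) + 1 / (128 * q) := add_le_add h3 h4
    _ = 1 / (64 * q) := by field_simp; norm_num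

theorem hc_le : (dat h hc hJ).x + 2 * SX.Js (dat h hc hJ).J / (dat h hc hJ).g ≤ 1 / 2 := by
  have h1 := xg_le h hc hJ
  have hq := h.q1
  have hn := h.n2
  have h2 : 1 / (64 * (q : ℝ)) ≤ 1 := by
    rw [div_le_one (by positivity)]; linarith
  have h0 : 0 ≤ (dat h hc hJ).x + 2 * SX.Js (dat h hc hJ).J / (dat h hc hJ).g := by
    have := (dat h hc hJ).x_nonneg
    have := Js_nonneg' h hc hJ
    have := (dat h hc hJ).hg
    positivity
  have h3 : (4 : ℝ) ≤ (n : ℝ) ^ 2 := by nlinarith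
  nlinarith

theorem err_le : (dat h hc hJ).err ≤ (1 / (P ^ 2 * (k : ℝ) ^ 4)) / (64 * q) := by
  have h1 := xg_le h hc hJ
  have h2 := Js_le h hc hJ
  have hk := h.kpos
  have hP := h.Ppos
  have hq := h.q1
  have h0 : 0 ≤ (dat h hc hJ).x + 2 * SX.Js (dat h hc hJ).J / (dat h hc hJ).g := by
    have := (dat h hc hJ).x_nonneg
    have := Js_nonneg' h hc hJ
    have := (dat h hc hJ).hg
    positivity
  calc (dat h hc hJ).err = 2 * SX.Js (dat h hc hJ).J *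
        ((dat h hc hJ).x + 2 * SX.Js (dat h hc hJ).J / (dat h hc hJ).g) := rfl
    _ ≤ 2 * ((n : ℝ) ^ 2 * (1 / (P ^ 2 * (k : ℝ) ^ 4))) *
        ((dat h hc hJ).x + 2 * SX.Js (dat h hc hJ).J / (dat h hc hJ).g) := by
        refine mul_le_mul_of_nonneg_right ?_ h0
        linarith
    _ = (1 / (P ^ 2 * (k : ℝ) ^ 4)) * (2 * (n : ℝ) ^ 2 *
        ((dat h hc hJ).x + 2 * SX.Js (dat h hc hJ).J / (dat h hc hJ).g)) := by ring
    _ ≤ (1 / (P ^ 2 * (k : ℝ) ^ 4)) * (1 / (64 * q)) := by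
        refine mul_le_mul_of_nonneg_left h1 (by positivity)
    _ = _ := by rw [mul_one_div]

end

/-- comparison of the site form with `const + energy` -/
theorem site_approx (h : Par n q k a1 P) (hc : Coul n k a1) (hJ : ∀ i j, 0 ≤ J i j ∧ J i j ≤ 1)
    {Lam : ℝ} {A : ℕ → ℕ → ℝ} {a : ℕ → ℝ}
    (hcal : Calib n k (1 / (P ^ 2 * (k : ℝ) ^ 4)) J A a ((1 / (P ^ 2 * (k : ℝ) ^ 4)) / P ^ 2))
    (c : SX.X n) :
    |SX.siteForm (hSite n k Lam A a) (WSite n k) c -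
      ((n * (-2 * Lam) + SX.const0 (Dn n k)) * ‖c‖ ^ 2 +
        SX.energy (dat h hc hJ).t (dat h hc hJ).D c)| ≤
      (1 / (P ^ 2 * (k : ℝ) ^ 4)) / (64 * q) * ‖c‖ ^ 2 := by
  have hk := h.kpos
  have hP := h.Ppos
  have hq := h.q1
  have ha := h.ha
  have key := SX.siteForm_approx (n := n) (t := tn n k (1 / (P ^ 2 * (k : ℝ) ^ 4)) J)
    (D := Dn n k) (h := hSite n k Lam A a) (W := WSite n k) (s := -2 * Lam)
    (ec := (1 / (P ^ 2 * (k : ℝ) ^ 4)) / P ^ 2) (r := a1 / (k : ℝ) ^ 5)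
    (Dn_symm n k hc.hs) (fun a => by simp [tn]) (fun a b => rfl)
    (fun i j hij => hSite_off n k _ J hc.hs hcal hij)
    (fun i => hSite_diag n k _ J hcal i) (by positivity)
    (fun i j i' j' hne => by
      refine hc.hW i i.2 j j.2 i' i'.2 j' j'.2 ?_
      rcases hne with h1 | h1
      · exact Or.inl fun e => h1 (Fin.ext e)
      · exact Or.inr fun e => h1 (Fin.ext e)) c
  refine key.trans ?_
  refine mul_le_mul_of_nonneg_right ?_ (sq_nonneg _)
  have e3 := h.b3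
  have e4 := h.b4
  have e5 : (n : ℝ) ^ 3 * ((1 / (P ^ 2 * (k : ℝ) ^ 4)) / P ^ 2) ≤
      (1 / (P ^ 2 * (k : ℝ) ^ 4)) / (128 * q) := by
    calc (n : ℝ) ^ 3 * ((1 / (P ^ 2 * (k : ℝ) ^ 4)) / P ^ 2)
        = (1 / (P ^ 2 * (k : ℝ) ^ 4)) * ((n : ℝ) ^ 3 / P ^ 2) := by ring
      _ ≤ (1 / (P ^ 2 * (k : ℝ) ^ 4)) * (1 / (128 * q)) :=
          mul_le_mul_of_nonneg_left e3 (by positivity)
      _ = _ := by rw [mul_one_div]
  calc (n : ℝ) ^ 3 * ((1 / (P ^ 2 * (k : ℝ) ^ 4)) / P ^ 2) + (n : ℝ) ^ 4 * (a1 / (k : ℝ) ^ 5)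
      ≤ (1 / (P ^ 2 * (k : ℝ) ^ 4)) / (128 * q) + (1 / (P ^ 2 * (k : ℝ) ^ 4)) / (128 * q) :=
        add_le_add e5 e4
    _ = _ := by field_simp; norm_num

/-- lower bound for the site form -/
theorem site_lower (h : Par n q k a1 P) (hc : Coul n k a1) (hJ : ∀ i j, 0 ≤ J i j ∧ J i j ≤ 1)
    {Lam : ℝ} {A : ℕ → ℕ → ℝ} {a : ℕ → ℝ}
    (hcal : Calib n k (1 / (P ^ 2 * (k : ℝ) ^ 4)) J A a ((1 / (P ^ 2 * (k : ℝ) ^ 4)) / P ^ 2))
    {e : ℝ} (he : ∀ ψ : (Fin n → Bool) → ℂ, e * nrmSq ψ ≤ heis (fun i j : Fin n => J i j) ψ)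
    {c : SX.X n} (hcs : c ∈ SX.antiS n) :
    (constH n k Lam (1 / (P ^ 2 * (k : ℝ) ^ 4)) J + (1 / (P ^ 2 * (k : ℝ) ^ 4)) * e -
      (1 / (P ^ 2 * (k : ℝ) ^ 4)) / (32 * q)) * ‖c‖ ^ 2 ≤
      SX.siteForm (hSite n k Lam A a) (WSite n k) c := by
  have hk := h.kpos
  have hP := h.Ppos
  have hq := h.q1
  set j0 : ℝ := 1 / (P ^ 2 * (k : ℝ) ^ 4) with hj0
  have hj0p : 0 ≤ j0 := by rw [hj0]; positivity
  have h1 := (abs_le.1 (site_approx h hc hJ (Lam := Lam) hcal c)).1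
  have h2 := (dat h hc hJ).lower (hc_le h hc hJ) (e := j0 * e) (fun χ => by
    have e1 : SX.Heis (dat h hc hJ).J χ = j0 * heis (fun i j : Fin n => J i j) χ :=
      Heis_eq n j0 J χ
    rw [e1, mul_assoc]
    exact mul_le_mul_of_nonneg_left (he χ) hj0p) hcs
  have h3 := err_le h hc hJ
  rw [← hj0] at h1 h3
  have h4 : constH n k Lam j0 J = n * (-2 * Lam) + SX.const0 (Dn n k) -
      SX.Js (dat h hc hJ).J / 4 := constH_eq n k j0 J Lam
  rw [h4]
  have h5 : (dat h hc hJ).err * ‖c‖ ^ 2 ≤ j0 / (64 * q) * ‖c‖ ^ 2 :=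
    mul_le_mul_of_nonneg_right h3 (sq_nonneg _)
  have h6 : j0 / (32 * (q : ℝ)) = j0 / (64 * q) + j0 / (64 * q) := by field_simp; ring
  rw [h6]
  have e9 : (j0 * e - SX.Js (dat h hc hJ).J / 4 - (dat h hc hJ).err) * ‖c‖ ^ 2 =
    (j0 * e - SX.Js (dat h hc hJ).J / 4) * ‖c‖ ^ 2 - (dat h hc hJ).err * ‖c‖ ^ 2 := by ring
  rw [e9] at h2
  nlinarith

theorem energy_smul (t D : Fin n → Fin n → ℝ) (r : ℝ) (c : SX.X n) :
    SX.energy t D ((r : ℂ) • c) = r ^ 2 * SX.energy t D c := by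
  rw [SX.energy, SX.energy, map_smul, inner_smul_left, inner_smul_right, mul_add]
  congr 1
  · rw [Complex.conj_ofReal, ← mul_assoc, ← Complex.ofReal_mul]
    rw [show RCLike.re (((r * r : ℝ) : ℂ) * inner ℂ c (SX.hop t c)) =
      (r * r) * RCLike.re (inner ℂ c (SX.hop t c)) from Complex.re_ofReal_mul _ _]
    ring
  · rw [Finset.mul_sum]
    refine Finset.sum_congr rfl fun f _ => ?_
    rw [PiLp.smul_apply, smul_eq_mul, norm_mul, Complex.norm_real, Real.norm_eq_abs, mul_pow,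
      sq_abs]
    ring

/-- upper bound for the site form -/
theorem site_upper (h : Par n q k a1 P) (hc : Coul n k a1) (hJ : ∀ i j, 0 ≤ J i j ∧ J i j ≤ 1)
    {Lam : ℝ} {A : ℕ → ℕ → ℝ} {a : ℕ → ℝ}
    (hcal : Calib n k (1 / (P ^ 2 * (k : ℝ) ^ 4)) J A a ((1 / (P ^ 2 * (k : ℝ) ^ 4)) / P ^ 2))
    {ψ : (Fin n → Bool) → ℂ} (hψ : nrmSq ψ = 1) :
    ∃ c ∈ SX.antiS n, ‖c‖ = 1 ∧ SX.siteForm (hSite n k Lam A a) (WSite n k) c ≤
      constH n k Lam (1 / (P ^ 2 * (k : ℝ) ^ 4)) J +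
        (1 / (P ^ 2 * (k : ℝ) ^ 4)) * heis (fun i j : Fin n => J i j) ψ +
        (1 / (P ^ 2 * (k : ℝ) ^ 4)) / (32 * q) := by
  have hk := h.kpos
  have hP := h.Ppos
  have hq := h.q1
  set j0 : ℝ := 1 / (P ^ 2 * (k : ℝ) ^ 4) with hj0
  have hj0p : 0 ≤ j0 := by rw [hj0]; positivity
  have e1 : SX.Heis (dat h hc hJ).J ψ = j0 * heis (fun i j : Fin n => J i j) ψ :=
    Heis_eq n j0 J ψ
  have hψ' : SX.nsq ψ = 1 := hψ
  obtain ⟨c, hcs, hc0, hce⟩ := (dat h hc hJ).upper (χ := ψ)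
    (e := j0 * heis (fun i j : Fin n => J i j) ψ) (by rw [hψ']; norm_num)
    (by rw [hψ', mul_one, e1])
  refine ⟨((‖c‖⁻¹ : ℝ) : ℂ) • c, (SX.antiS n).smul_mem _ hcs, ?_, ?_⟩
  · rw [norm_smul, Complex.norm_real, Real.norm_eq_abs, abs_of_nonneg (by positivity)]
    exact inv_mul_cancel₀ hc0.ne'
  · have hn1 : ‖((‖c‖⁻¹ : ℝ) : ℂ) • c‖ = 1 := by
      rw [norm_smul, Complex.norm_real, Real.norm_eq_abs, abs_of_nonneg (by positivity)]
      exact inv_mul_cancel₀ hc0.ne'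
    have h1 := (abs_le.1 (site_approx h hc hJ (Lam := Lam) hcal (((‖c‖⁻¹ : ℝ) : ℂ) • c))).2
    rw [hn1, energy_smul] at h1
    have h3 := err_le h hc hJ
    rw [← hj0] at h1 h3
    have h4 : constH n k Lam j0 J = n * (-2 * Lam) + SX.const0 (Dn n k) -
        SX.Js (dat h hc hJ).J / 4 := constH_eq n k j0 J Lam
    have h5 : ‖c‖⁻¹ ^ 2 * SX.energy (dat h hc hJ).t (dat h hc hJ).D c ≤
        j0 * heis (fun i j : Fin n => J i j) ψ - SX.Js (dat h hc hJ).J / 4 +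
          (dat h hc hJ).err := by
      have h6 := mul_le_mul_of_nonneg_left hce (sq_nonneg ‖c‖⁻¹)
      refine h6.trans (le_of_eq ?_)
      field_simp
    have h6 : j0 / (32 * (q : ℝ)) = j0 / (64 * q) + j0 / (64 * q) := by field_simp; ring
    rw [h4, h6]
    linarith

end Crest.Agent.R338.BH

end
end

-- ▼ part R338/BH
section

/-!
Row 338 (S0529): Theorem BH from the Coulomb estimates and the selection theorem.
-/

set_option autoImplicit false
set_option maxSynthPendingDepth 3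

noncomputable section

open Crest.MathPhysics.ElectronicCoulomb
open scoped ComplexConjugate BigOperators

namespace Crest.Agent.R338.BH


/-- the parameter facts -/
theorem par_of {C1 C' n q k : ℕ} (hC1 : 1 ≤ C1) (hC' : 4 * C1 + 14 ≤ C') (hn : 2 ≤ n) (hq : 1 ≤ q)
    (hk : (2 * C' * n * q) ^ (2 * (2 * C')) ≤ k) :
    Par n q k ((C1 : ℝ) * (n : ℝ) ^ C1) (((n : ℝ) * q) ^ C') := by
  have hn' : (2 : ℝ) ≤ n := by exact_mod_cast hn
  have hq' : (1 : ℝ) ≤ q := by exact_mod_cast hq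
  have hC1' : (1 : ℝ) ≤ C1 := by exact_mod_cast hC1
  set N : ℝ := (n : ℝ) * q with hN
  have hN2 : 2 ≤ N := by rw [hN]; nlinarith
  have hnN : (n : ℝ) ≤ N := by rw [hN]; nlinarith
  have hqN : (q : ℝ) ≤ N := by rw [hN]; nlinarith
  refine ⟨hn, hq, ?_, ?_, ?_⟩
  · exact one_le_mul_of_one_le_of_one_le hC1' (one_le_pow₀ (by linarith))
  · have e1 : (256 : ℝ) ≤ N ^ 8 := by
      calc (256 : ℝ) = 2 ^ 8 := by norm_num
        _ ≤ N ^ 8 := pow_le_pow_left₀ (by norm_num) hN2 8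
    have e2 : (n : ℝ) ^ 5 ≤ N ^ 5 := pow_le_pow_left₀ (by linarith) hnN 5
    have e3 : (C1 : ℝ) ≤ N ^ C1 := by
      have : (C1 : ℝ) ≤ 2 ^ C1 := by exact_mod_cast (Nat.lt_two_pow_self).le
      exact this.trans (pow_le_pow_left₀ (by norm_num) hN2 C1)
    have e4 : (n : ℝ) ^ C1 ≤ N ^ C1 := pow_le_pow_left₀ (by linarith) hnN C1
    have e5 : (C1 : ℝ) * (n : ℝ) ^ C1 ≤ N ^ C1 * N ^ C1 :=
      mul_le_mul e3 e4 (by positivity) (by positivity)
    calc 256 * (q : ℝ) * (n : ℝ) ^ 5 * ((C1 : ℝ) * (n : ℝ) ^ C1) ^ 2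
        ≤ N ^ 8 * N * N ^ 5 * (N ^ C1 * N ^ C1) ^ 2 := by gcongr
      _ = N ^ (4 * C1 + 14) := by ring
      _ ≤ N ^ C' := pow_le_pow_right₀ (by linarith) hC'
  · have e1 : ((2 * C' * n * q : ℕ) : ℝ) ^ (2 * (2 * C')) ≤ k := by exact_mod_cast hk
    refine le_trans ?_ e1
    have e2 : N ≤ ((2 * C' * n * q : ℕ) : ℝ) := by
      push_cast
      have : (1 : ℝ) ≤ 2 * C' := by
        have : (14 : ℝ) ≤ C' := by exact_mod_cast (by omega : 14 ≤ C')
        linarith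
      rw [hN]
      nlinarith [mul_nonneg (show (0 : ℝ) ≤ n by linarith) (show (0 : ℝ) ≤ q by linarith)]
    calc (N ^ C') ^ 4 = N ^ (2 * (2 * C')) := by ring
      _ ≤ ((2 * C' * n * q : ℕ) : ℝ) ^ (2 * (2 * C')) := pow_le_pow_left₀ (by linarith) e2 _

theorem pow_le_k {C1 C' n q k : ℕ} (hC1 : C1 ≤ C') (h1 : 1 ≤ C1) (hn : 2 ≤ n) (hq : 1 ≤ q)
    (hk : (2 * C' * n * q) ^ (2 * (2 * C')) ≤ k) : (C1 * n) ^ C1 ≤ k := by
  refine le_trans ?_ hk
  have e1 : C1 * n ≤ 2 * C' * n * q := by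
    calc C1 * n ≤ 2 * C' * n := Nat.mul_le_mul_right n (by omega)
      _ ≤ 2 * C' * n * q := Nat.le_mul_of_pos_right _ hq
  have e2 : 1 ≤ 2 * C' * n * q := by
    exact Nat.mul_pos (Nat.mul_pos (by omega) (by omega)) hq
  calc (C1 * n) ^ C1 ≤ (2 * C' * n * q) ^ C1 := Nat.pow_le_pow_left e1 _
    _ ≤ (2 * C' * n * q) ^ (2 * (2 * C')) := Nat.pow_le_pow_right e2 (by omega)

theorem n0_ge {n k : ℕ} (hn : 2 ≤ n) : (k : ℝ) ^ 6 ≤ (n0' n k : ℝ) := by
  have h1 : k ^ 6 ≤ n0' n k := by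
    rw [n0']
    have hY : 1 ≤ Yn n := by
      rw [Yn]
      have : 1 ≤ n ^ 3 := Nat.one_le_pow _ _ (by omega)
      omega
    have hY2 : 1 ≤ (Yn n) ^ 2 := Nat.one_le_pow _ _ hY
    calc k ^ 6 = 1 * (k ^ 3) ^ 2 * 1 := by ring
      _ ≤ 16 * (k ^ 3) ^ 2 * (Yn n) ^ 2 := by
          refine Nat.mul_le_mul (Nat.mul_le_mul_right _ (by norm_num)) hY2
  exact_mod_cast h1

set_option maxHeartbeats 2000000 in
/-- **Theorem BH** (with the corrected constants) from its inputs. -/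
theorem thmBH_of (hs : W4Symm) (hC : CoulStmt) (hS : SelStmt) : ThmBH' := by
  obtain ⟨C1, hC1, hC⟩ := hC
  obtain ⟨C2, hC2, hS⟩ := hS
  set C' : ℕ := 4 * C1 + C2 + 20 with hC'
  refine ⟨2 * C', by omega, ?_⟩
  intro n q k hn hq hk Lam Amax J A a j0 hJ hA ha hAmax hLam hcal
  have hpar := par_of (C1 := C1) (C' := C') (n := n) (q := q) (k := k) hC1 (by omega) hn hq hk
  have hk1 := pow_le_k (C1 := C1) (C' := C') (by omega) hC1 hn hq hk
  have hk2 := pow_le_k (C1 := C2) (C' := C') (by omega) hC2 hn hq hk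
  obtain ⟨hV, hW, hch⟩ := hC n k hn hk1
  set a1 : ℝ := (C1 : ℝ) * (n : ℝ) ^ C1 with ha1
  set P : ℝ := ((n : ℝ) * q) ^ C' with hP
  have hcoul : Coul n k a1 := ⟨hs, hV, hW, hch⟩
  have hPsq : ((n : ℝ) * q) ^ (2 * C') = P ^ 2 := by rw [hP]; ring
  have hj0 : j0 = 1 / (P ^ 2 * (k : ℝ) ^ 4) := by
    show 1 / (((n : ℝ) * q) ^ (2 * C') * (k : ℝ) ^ 4) = _
    rw [hPsq]
  have hPpos := hpar.Ppos
  have hkpos := hpar.kpos
  have hq1 := hpar.q1
  have hn2 := hpar.n2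
  have hj0p : 0 < j0 := by rw [hj0]; positivity
  have hcal' : Calib n k (1 / (P ^ 2 * (k : ℝ) ^ 4)) J A a
      ((1 / (P ^ 2 * (k : ℝ) ^ 4)) / P ^ 2) := by
    rw [← hj0, ← hPsq]; exact hcal
  -- the selection bound
  have hkn : 1 ≤ k := by exact_mod_cast hkpos
  have hn0 : (k : ℝ) ^ 6 ≤ (n0' n k : ℝ) := n0_ge hn
  have hk1' : (1 : ℝ) ≤ k := by exact_mod_cast hkn
  have hk6 : (1 : ℝ) ≤ (k : ℝ) ^ 6 := one_le_pow₀ hk1'
  set B : ℝ := (n0' n k : ℝ) + Amax with hB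
  have hB1 : 1 ≤ B := by rw [hB]; linarith
  have hLamC : B ^ C2 ≤ Lam := (pow_le_pow_right₀ hB1 (by omega)).trans hLam
  have hLampos : 0 < Lam := lt_of_lt_of_le (by positivity) hLam
  have hsel : B ^ C2 / Lam ≤ j0 / (128 * q) := by
    have e1 : B ^ C2 * B ≤ Lam := by
      rw [← pow_succ]
      exact (pow_le_pow_right₀ hB1 (by omega)).trans hLam
    have e2 : 128 * (q : ℝ) * (P ^ 2 * (k : ℝ) ^ 4) ≤ B := by
      have f1 : 128 * (q : ℝ) ≤ P := by
        refine le_trans ?_ hpar.hP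
        have g1 : (1 : ℝ) ≤ (n : ℝ) ^ 5 := one_le_pow₀ (by linarith)
        have g2 : (1 : ℝ) ≤ a1 ^ 2 := one_le_pow₀ hpar.ha
        have g3 : (1 : ℝ) ≤ (n : ℝ) ^ 5 * a1 ^ 2 := one_le_mul_of_one_le_of_one_le g1 g2
        have g4 : (q : ℝ) * 1 ≤ q * ((n : ℝ) ^ 5 * a1 ^ 2) :=
          mul_le_mul_of_nonneg_left g3 (by linarith)
        nlinarith
      calc 128 * (q : ℝ) * (P ^ 2 * (k : ℝ) ^ 4) ≤ P * (P ^ 2 * (k : ℝ) ^ 4) :=
            mul_le_mul_of_nonneg_right f1 (by positivity)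
        _ = P ^ 3 * (k : ℝ) ^ 4 := by ring
        _ ≤ k * (k : ℝ) ^ 4 := mul_le_mul_of_nonneg_right hpar.kP3 (by positivity)
        _ = (k : ℝ) ^ 5 := by ring
        _ ≤ (k : ℝ) ^ 6 := pow_le_pow_right₀ hk1' (by norm_num)
        _ ≤ B := by rw [hB]; linarith
    rw [hj0, div_div, div_le_div_iff₀ hLampos (by positivity)]
    calc B ^ C2 * (P ^ 2 * (k : ℝ) ^ 4 * (128 * q))
        = B ^ C2 * (128 * (q : ℝ) * (P ^ 2 * (k : ℝ) ^ 4)) := by ring
      _ ≤ B ^ C2 * B := mul_le_mul_of_nonneg_left e2 (by positivity)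
      _ ≤ 1 * Lam := by linarith
  obtain ⟨hup, hlow⟩ := hS n k hn hk2 Lam Amax A a hA ha hAmax hLamC
  have hfrac : j0 / (32 * (q : ℝ)) + j0 / (128 * q) ≤ j0 / (16 * q) := by
    rw [div_add_div _ _ (by positivity) (by positivity), div_le_div_iff₀ (by positivity)
      (by positivity)]
    have : 0 ≤ j0 * q ^ 2 := by positivity
    nlinarith
  have hfrac0 : 0 ≤ j0 / (128 * (q : ℝ)) := by positivity
  constructor
  · intro ψ hψ
    obtain ⟨c, hcs, hc1, hce⟩ := site_upper hpar hcoul hJ (Lam := Lam) hcal' hψ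
    rw [← hj0] at hce
    obtain ⟨D, hD, hDn, hDe⟩ := hup c hcs
    refine ⟨D, hD, by rw [hDn, hc1]; norm_num, ?_⟩
    rw [hDe]
    refine hce.trans ?_
    linarith
  · intro e he D hD
    -- bounded version of `e`
    have hJs0 : 0 ≤ SX.Js (dat hpar hcoul hJ).J := Js_nonneg' hpar hcoul hJ
    have hJsl := Js_le hpar hcoul hJ
    have hj0s := hpar.j0_small
    have hJs1 : SX.Js (dat hpar hcoul hJ).J ≤ 1 / 16 := hJsl.trans hj0s
    have hHeis : ∀ ψ : (Fin n → Bool) → ℂ,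
        SX.Heis (dat hpar hcoul hJ).J ψ = j0 * heis (fun i j : Fin n => J i j) ψ := by
      intro ψ
      rw [hj0]
      exact Heis_eq n (1 / (P ^ 2 * (k : ℝ) ^ 4)) J ψ
    have hbd := fun ψ => SX.Heis_bounds (J := (dat hpar hcoul hJ).J)
      (fun i j _ => (dat hpar hcoul hJ).J_nonneg i j) ψ
    set e' := max e (-(3 / 4 * SX.Js (dat hpar hcoul hJ).J) / j0) with he'
    have he1 : ∀ ψ : (Fin n → Bool) → ℂ, e' * nrmSq ψ ≤ heis (fun i j : Fin n => J i j) ψ := by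
      intro ψ
      rcases le_total e (-(3 / 4 * SX.Js (dat hpar hcoul hJ).J) / j0) with h | h
      · rw [he', max_eq_right h]
        have h2 := (hbd ψ).1
        rw [hHeis ψ] at h2
        rw [div_mul_eq_mul_div, div_le_iff₀ hj0p, mul_comm (heis _ _) j0]
        exact h2
      · rw [he', max_eq_left h]; exact he ψ
    have hlb : -(3 / 4 * SX.Js (dat hpar hcoul hJ).J) ≤ j0 * e' := by
      have h2 : -(3 / 4 * SX.Js (dat hpar hcoul hJ).J) / j0 ≤ e' := le_max_right _ _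
      rw [div_le_iff₀ hj0p] at h2
      linarith
    have hub : j0 * e' ≤ SX.Js (dat hpar hcoul hJ).J / 4 := by
      have h1 := he1 (fun _ => 1)
      have h2 := (hbd (fun _ => 1)).2
      rw [hHeis] at h2
      have h3 : 0 < nrmSq (fun _ : Fin n → Bool => (1 : ℂ)) := by
        unfold nrmSq; simp
      have h4 : j0 * (e' * nrmSq (fun _ : Fin n → Bool => (1 : ℂ))) ≤
          SX.Js (dat hpar hcoul hJ).J / 4 * nrmSq (fun _ : Fin n → Bool => (1 : ℂ)) :=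
        (mul_le_mul_of_nonneg_left h1 hj0p.le).trans h2
      have h5 : (j0 * e') * nrmSq (fun _ : Fin n → Bool => (1 : ℂ)) ≤
          SX.Js (dat hpar hcoul hJ).J / 4 * nrmSq (fun _ : Fin n → Bool => (1 : ℂ)) := by
        rw [mul_assoc]; exact h4
      exact le_of_mul_le_mul_right h5 h3
    have hee : e ≤ e' := le_max_left _ _
    set β : ℝ := constH n k Lam j0 J + j0 * e' - j0 / (32 * q) with hβ
    have hcH : constH n k Lam j0 J = n * (-2 * Lam) + SX.const0 (Dn n k) -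
        SX.Js (dat hpar hcoul hJ).J / 4 := by
      rw [hj0]
      exact constH_eq n k (1 / (P ^ 2 * (k : ℝ) ^ 4)) J Lam
    have hc0 : |SX.const0 (Dn n k)| ≤ 1 / 2 := by
      have hb : (0 : ℝ) ≤ a1 / (k : ℝ) ^ 2 := by have := hpar.ha; positivity
      have hDb : ∀ i j : Fin n, |Dn n k i j| ≤ a1 / (k : ℝ) ^ 2 := by
        intro i j
        have := hV i i.2 j j.2
        rw [abs_le]; constructor
        · have : 0 ≤ Dn n k i j := this.1
          linarith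
        · exact this.2
      have g1 := sum_if_le (n := n) (F := Dn n k) hb hDb
      have g2 : |(∑ i, Dn n k i i) / 2| ≤ (n : ℝ) ^ 2 * (a1 / (k : ℝ) ^ 2) := by
        rw [abs_div, abs_of_pos (by norm_num : (0 : ℝ) < 2)]
        have g3 : |∑ i, Dn n k i i| ≤ n * (a1 / (k : ℝ) ^ 2) := by
          calc |∑ i, Dn n k i i| ≤ ∑ _i : Fin n, a1 / (k : ℝ) ^ 2 :=
                (Finset.abs_sum_le_sum_abs _ _).trans (Finset.sum_le_sum fun i _ => hDb i i)
            _ = _ := by simp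
        have g4 : (n : ℝ) * (a1 / (k : ℝ) ^ 2) ≤ (n : ℝ) ^ 2 * (a1 / (k : ℝ) ^ 2) := by
          refine mul_le_mul_of_nonneg_right ?_ hb
          nlinarith
        have g5 : 0 ≤ (n : ℝ) ^ 2 * (a1 / (k : ℝ) ^ 2) := by positivity
        linarith
      have g6 := hpar.const_small
      rw [SX.const0]
      have g7 := abs_sub (-((∑ i, Dn n k i i) / 2)) (∑ i, ∑ j, if i < j then Dn n k i j else 0)
      rw [abs_neg] at g7
      refine g7.trans ?_
      linarith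
    have hj01 : j0 / (32 * (q : ℝ)) ≤ 1 / 16 := by
      have g1 : j0 ≤ 1 / 16 := by
        have g2 : 1 * j0 ≤ (n : ℝ) ^ 2 * j0 := by
          refine mul_le_mul_of_nonneg_right ?_ hj0p.le
          nlinarith
        rw [hj0] at g2 ⊢
        linarith
      have g3 : j0 / (32 * (q : ℝ)) ≤ j0 := by
        rw [div_le_iff₀ (by positivity)]
        nlinarith
      linarith
    have hj02 : 0 ≤ j0 / (32 * (q : ℝ)) := by positivity
    have hβ2 : |β + 2 * Lam * n| ≤ 2 := by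
      have g0 : β + 2 * Lam * n = SX.const0 (Dn n k) - SX.Js (dat hpar hcoul hJ).J / 4 +
          j0 * e' - j0 / (32 * q) := by rw [hβ, hcH]; ring
      obtain ⟨g1, g2⟩ := abs_le.1 hc0
      rw [g0, abs_le]
      constructor
      · linarith
      · linarith
    have h7 := hlow β hβ2 (fun c hcs => by
      have := site_lower hpar hcoul hJ (Lam := Lam) hcal' he1 hcs
      rw [← hj0] at this
      rw [hβ]; exact this) D hD
    have hD0 : 0 ≤ tnSq D := Finset.sum_nonneg fun _ _ => by positivity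
    refine le_trans ?_ h7
    refine mul_le_mul_of_nonneg_right ?_ hD0
    have g8 : j0 * e ≤ j0 * e' := mul_le_mul_of_nonneg_left hee hj0p.le
    rw [hβ]
    linarith

end Crest.Agent.R338.BH

end
end

-- ▼ part R338/BHF
section

/-!
Row 338 (S0529): Theorem BH in the form of `Iface.lean`.
-/

set_option autoImplicit false

namespace Crest.Agent.R338.BH

theorem w4Symm : W4Symm := fun a b c d => Br.W4_symm a b c d

/-- `ThmBHStmt` from the Coulomb estimates and the selection theorem. -/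
theorem thmBHStmt_of (hC : CoulStmt) (hS : SelStmt) : ThmBHStmt := thmBH_of w4Symm hC hS

end Crest.Agent.R338.BH
end

-- ▼ part R338/CSAsm

/-!
Row 338 (S0529): `CoulStmt` from its third part (charging energy); parts (a), (b) are `CE.coul_a`,
`CE.coul_b`.
-/

set_option autoImplicit false

noncomputable section

open Crest.MathPhysics.ElectronicCoulomb

namespace Crest.Agent.R338.BH

/-- charging energy (part (c) of `CoulStmt`) -/
def CoulC : Prop := ∃ C : ℕ, 1 ≤ C ∧ ∀ n k : ℕ, 2 ≤ n → (C * n) ^ C ≤ k →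
  ∀ δ : Fin n → ℤ, (∀ i, |δ i| ≤ 1) → ∑ i, δ i = 0 → δ ≠ 0 →
    1 / ((C : ℝ) * (n : ℝ) ^ C * (k : ℝ) ^ 3) ≤
      ∑ i : Fin n, ∑ j : Fin n, Vc n k i j * ((δ i : ℝ) * (δ j : ℝ))

theorem coulStmt_of (hc : CoulC) : CoulStmt := by
  obtain ⟨C, hC, h⟩ := hc
  refine ⟨C + 11664, by omega, fun n k hn hk => ?_⟩
  have hC1 : 1 ≤ C * n := Nat.mul_pos (by omega) (by omega)
  have hk0 : (C * n) ^ C ≤ k := by
    refine le_trans ?_ hk
    calc (C * n) ^ C ≤ ((C + 11664) * n) ^ C := Nat.pow_le_pow_left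
            (Nat.mul_le_mul_right _ (by omega)) _
      _ ≤ ((C + 11664) * n) ^ (C + 11664) := Nat.pow_le_pow_right
            (Nat.mul_pos (by omega) (by omega)) (by omega)
  have hk1 : 1 ≤ k := le_trans (Nat.one_le_pow _ _ hC1) hk0
  have hkr : (0 : ℝ) < k := by exact_mod_cast hk1
  have hn1 : (1 : ℝ) ≤ n := by exact_mod_cast (by omega : 1 ≤ n)
  have hCr : (1 : ℝ) ≤ C := by exact_mod_cast hC
  have hpow : (1 : ℝ) ≤ (n : ℝ) ^ (C + 11664) := one_le_pow₀ hn1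
  have hbig : (11664 : ℝ) ≤ ((C + 11664 : ℕ) : ℝ) * (n : ℝ) ^ (C + 11664) := by
    push_cast
    nlinarith [hpow, hCr]
  refine ⟨fun i hi j hj => ?_, fun i hi j hj i' hi' j' hj' hne => ?_, fun δ h1 h2 h3 => ?_⟩
  · obtain ⟨ha, hb⟩ := CE.coul_a (n := n) (k := k) (by omega) hk1 hi hj
    exact ⟨ha, hb.trans (div_le_div_of_nonneg_right hbig (by positivity))⟩
  · refine (CE.coul_b (n := n) (k := k) (by omega) hk1 hi hj hi' hj' hne).trans ?_
    exact div_le_div_of_nonneg_right (by linarith) (by positivity)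
  · refine le_trans ?_ (h n k hn hk0 δ h1 h2 h3)
    have hmono : (C : ℝ) * (n : ℝ) ^ C * (k : ℝ) ^ 3 ≤
        ((C + 11664 : ℕ) : ℝ) * (n : ℝ) ^ (C + 11664) * (k : ℝ) ^ 3 := by
      refine mul_le_mul_of_nonneg_right ?_ (by positivity)
      refine mul_le_mul ?_ (pow_le_pow_right₀ hn1 (by omega)) (by positivity) (by positivity)
      push_cast
      linarith
    exact one_div_le_one_div_of_le (by positivity) hmono

/-- `ThmBHStmt` from the charging energy and the selection theorem. -/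
theorem thmBHStmt_of' (hC : CoulC) (hS : SelStmt) : ThmBHStmt := thmBHStmt_of (coulStmt_of hC) hS

end Crest.Agent.R338.BH

end
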