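import Crest.Agent.R338.HB2
import Crest.Agent.R338.Ten

-- ▼ part R338/HB3
section

/-!
# Row 338, node I.4 (c): the many-block Hamiltonian, its low energy space and second-order term
-/

set_option autoImplicit false

namespace Crest.Agent.R338.HB

open Matrix Finset Ten

/-- total component `∑ r_a S_a^α` -/
noncomputable def XX (al : Fin 3) (r : Fin 4 → ℝ) : Matrix B4 B4 ℝ := ∑ a, r a • TT al a

/-- `P |∑ r_a S_a|² P` -/
noncomputable def RR (r : Fin 4 → ℝ) : Matrix Bool Bool ℝ := ∑ a, ∑ b, (r a * r b) • MM a b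

theorem K4_XX_eM (al : Fin 3) (r : Fin 4 → ℝ) : K4 * (XX al r * eM) = XX al r * eM := by
  simp only [XX, Matrix.sum_mul, Matrix.mul_sum, Matrix.smul_mul, Matrix.mul_smul, K4_TT_eM]

theorem eM_XX_eM (al : Fin 3) (r : Fin 4 → ℝ) : eMᵀ * (XX al r * eM) = 0 := by
  simp only [XX, Matrix.sum_mul, Matrix.mul_sum, Matrix.smul_mul, Matrix.mul_smul, eM_TT_eM,
    smul_zero, Finset.sum_const_zero]

theorem gramXX (al be : Fin 3) (r : Fin 4 → ℝ) :
    (XX al r * eM)ᵀ * (XX be r * eM) = if al = be then (1 / 3 : ℝ) • RR r else 0 := by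
  have h : (XX al r * eM)ᵀ * (XX be r * eM) =
      ∑ a, ∑ b, (r a * r b) • ((TT al a * eM)ᵀ * (TT be b * eM)) := by
    simp only [XX, Matrix.sum_mul, Matrix.mul_sum, Matrix.smul_mul, Matrix.mul_smul,
      Matrix.transpose_sum, Matrix.transpose_smul]
    rw [Finset.sum_comm]
    refine Finset.sum_congr rfl fun a _ => ?_
    rw [Finset.smul_sum]
    refine Finset.sum_congr rfl fun b _ => ?_
    rw [smul_smul, mul_comm]
  rw [h]
  simp only [gram]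
  split_ifs with hab
  · simp only [RR, Finset.smul_sum]
    refine Finset.sum_congr rfl fun a _ => Finset.sum_congr rfl fun b _ => ?_
    rw [smul_smul, smul_smul, mul_comm]
  · simp

theorem XX_transpose (al : Fin 3) (r : Fin 4 → ℝ) : (XX al r)ᵀ = ep al • XX al r := by
  simp only [XX, Matrix.transpose_sum, Matrix.transpose_smul, TT_transpose, Finset.smul_sum]
  refine Finset.sum_congr rfl fun a _ => ?_
  rw [smul_smul, smul_smul, mul_comm]

variable {n : ℕ}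

/-- the isometry onto the product of the singlet spaces -/
noncomputable def iota (n : ℕ) : Matrix (Fin n → B4) (Fin n → Bool) ℝ := T (fun _ => eM)

theorem iota_iso : (iota n)ᵀ * iota n = 1 := by
  unfold iota
  rw [T_transpose, T_mul]
  simp only [eM_iso]
  exact T_one

/-- a product with `A` at the site `p`, `B` at the site `q` and `eM` elsewhere -/
noncomputable def pairT (p q : Fin n) (A B : Matrix B4 Bool ℝ) :
    Matrix (Fin n → B4) (Fin n → Bool) ℝ :=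
  T (Function.update (Function.update (fun _ => eM) q B) p A)

theorem OO_iota {p q : Fin n} (h : p ≠ q) (M N : Matrix B4 B4 ℝ) :
    O p M * O q N * iota n = pairT p q (M * eM) (N * eM) := by
  unfold iota pairT
  rw [Matrix.mul_assoc, O_mul_T, O_mul_T, Function.update_of_ne h]

theorem OO_eq {B : Type*} [Fintype B] [DecidableEq B] {p q : Fin n} (h : p ≠ q)
    (M N : Matrix B B ℝ) : O p M * O q N =
      T (Function.update (Function.update (fun _ => (1 : Matrix B B ℝ)) q N) p M) := by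
  conv_lhs => rw [show O q N = T (Function.update (fun _ => (1 : Matrix B B ℝ)) q N) from rfl]
  rw [O_mul_T, Function.update_of_ne h, Matrix.mul_one]

theorem pairT_K {p q : Fin n} (h : p ≠ q) {A B : Matrix B4 Bool ℝ} (hA : K4 * A = A)
    (hB : K4 * B = B) : (∑ p' : Fin n, O p' K4) * pairT p q A B = (2 : ℝ) • pairT p q A B := by
  rw [Matrix.sum_mul]
  have key : ∀ p' : Fin n, O p' K4 * pairT p q A B =
      (if p' = p then pairT p q A B else 0) + (if p' = q then pairT p q A B else 0) := by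
    intro p'
    unfold pairT
    rw [O_mul_T]
    by_cases h1 : p' = p
    · subst h1
      rw [Function.update_self, hA, Function.update_idem, if_pos rfl, if_neg h, add_zero]
    · by_cases h2 : p' = q
      · subst h2
        rw [Function.update_of_ne h1, Function.update_self, hB, if_neg h1, if_pos rfl, zero_add]
        congr 1
        funext i
        by_cases h3 : i = p'
        · subst h3
          rw [Function.update_self, Function.update_of_ne h1, Function.update_self]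
        · rw [Function.update_of_ne h3]
      · rw [Function.update_of_ne h1, Function.update_of_ne h2, K4_eM, if_neg h1, if_neg h2,
          T_update_zero, add_zero]
  rw [Finset.sum_congr rfl fun p' _ => key p', Finset.sum_add_distrib,
    Finset.sum_ite_eq' Finset.univ p, Finset.sum_ite_eq' Finset.univ q]
  simp [two_smul]

theorem pairT_same {p q : Fin n} (h : p ≠ q) (A B A' B' : Matrix B4 Bool ℝ) :
    (pairT p q A B)ᵀ * pairT p q A' B' = O p (Aᵀ * A') * O q (Bᵀ * B') := by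
  rw [OO_eq h]
  unfold pairT
  rw [T_transpose, T_mul]
  congr 1
  funext i
  by_cases h1 : i = p
  · subst h1; simp
  · by_cases h2 : i = q
    · subst h2; simp [Function.update_of_ne h1]
    · simp [Function.update_of_ne h1, Function.update_of_ne h2, eM_iso]

theorem pairT_orth {p q p' q' : Fin n} (h : p < q) (h' : p' < q') (hne : (p, q) ≠ (p', q'))
    {A B A' B' : Matrix B4 Bool ℝ} (hA : eMᵀ * A = 0) (hB : eMᵀ * B = 0) :
    (pairT p q A B)ᵀ * pairT p' q' A' B' = 0 := by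
  have hA' : Aᵀ * eM = 0 := by
    have := congrArg Matrix.transpose hA
    simpa using this
  have hB' : Bᵀ * eM = 0 := by
    have := congrArg Matrix.transpose hB
    simpa using this
  unfold pairT
  rw [T_transpose, T_mul]
  by_cases hp : p ≠ p' ∧ p ≠ q'
  · refine T_eq_zero _ p ?_
    rw [Function.update_self, Function.update_of_ne hp.1, Function.update_of_ne hp.2, hA']
  · have hq : q ≠ p' ∧ q ≠ q' := by
      constructor
      · rintro rfl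
        apply hp
        exact ⟨h.ne, fun h2 => by omega⟩
      · rintro rfl
        apply hp
        refine ⟨fun h2 => hne (by rw [h2]), h.ne⟩
    refine T_eq_zero _ q ?_
    rw [Function.update_of_ne h.ne', Function.update_self, Function.update_of_ne hq.1,
      Function.update_of_ne hq.2, hB']

theorem iota_pairT (p q : Fin n) {A B : Matrix B4 Bool ℝ} (hA : eMᵀ * A = 0) :
    (iota n)ᵀ * pairT p q A B = 0 := by
  unfold iota pairT
  rw [T_transpose, T_mul]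
  refine T_eq_zero _ p ?_
  rw [Function.update_self, hA]

/-- coupling of the blocks `p`, `q` (in units of `κ`) -/
noncomputable def Vpq (p q : Fin n) (r s : Fin 4 → ℝ) : Matrix (Fin n → B4) (Fin n → B4) ℝ :=
  ∑ al : Fin 3, ep al • (O p (XX al r) * O q (XX al s))

theorem Vpq_iota {p q : Fin n} (h : p ≠ q) (r s : Fin 4 → ℝ) :
    Vpq p q r s * iota n = ∑ al : Fin 3, ep al • pairT p q (XX al r * eM) (XX al s * eM) := by
  unfold Vpq
  rw [Matrix.sum_mul]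
  refine Finset.sum_congr rfl fun al _ => ?_
  rw [Matrix.smul_mul, OO_iota h]

theorem Vpq_transpose {p q : Fin n} (h : p ≠ q) (r s : Fin 4 → ℝ) :
    (Vpq p q r s)ᵀ = Vpq p q r s := by
  unfold Vpq
  rw [Matrix.transpose_sum]
  refine Finset.sum_congr rfl fun al _ => ?_
  rw [Matrix.transpose_smul, Matrix.transpose_mul, O_transpose, O_transpose, XX_transpose,
    XX_transpose, O_smul, O_smul, Matrix.smul_mul, Matrix.mul_smul, smul_smul, ep_sq, one_smul,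
    O_comm h.symm]

theorem K_Vpq_iota {p q : Fin n} (h : p ≠ q) (r s : Fin 4 → ℝ) :
    (∑ p' : Fin n, O p' K4) * (Vpq p q r s * iota n) = (2 : ℝ) • (Vpq p q r s * iota n) := by
  rw [Vpq_iota h, Matrix.mul_sum, Finset.smul_sum]
  refine Finset.sum_congr rfl fun al _ => ?_
  rw [Matrix.mul_smul, pairT_K h (K4_XX_eM al r) (K4_XX_eM al s), smul_comm]

theorem iota_Vpq_iota {p q : Fin n} (h : p ≠ q) (r s : Fin 4 → ℝ) :
    (iota n)ᵀ * (Vpq p q r s * iota n) = 0 := by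
  rw [Vpq_iota h, Matrix.mul_sum]
  refine Finset.sum_eq_zero fun al _ => ?_
  rw [Matrix.mul_smul, iota_pairT p q (eM_XX_eM al r), smul_zero]

theorem Vpq_sq {p q : Fin n} (h : p ≠ q) (r s : Fin 4 → ℝ) :
    (Vpq p q r s * iota n)ᵀ * (Vpq p q r s * iota n) = (1 / 3 : ℝ) • (O p (RR r) * O q (RR s)) := by
  rw [Vpq_iota h, Matrix.transpose_sum, Matrix.sum_mul]
  have key : ∀ al : Fin 3, (ep al • pairT p q (XX al r * eM) (XX al s * eM))ᵀ *
      ∑ be : Fin 3, ep be • pairT p q (XX be r * eM) (XX be s * eM) =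
      (1 / 9 : ℝ) • (O p (RR r) * O q (RR s)) := by
    intro al
    rw [Matrix.mul_sum, Finset.sum_eq_single al]
    · rw [Matrix.transpose_smul, Matrix.smul_mul, Matrix.mul_smul, smul_smul, ep_sq, one_smul,
        pairT_same h, gramXX, gramXX, if_pos rfl, if_pos rfl, O_smul, O_smul, Matrix.smul_mul,
        Matrix.mul_smul, smul_smul]
      norm_num
    · intro be _ hbe
      rw [Matrix.transpose_smul, Matrix.smul_mul, Matrix.mul_smul, pairT_same h, gramXX,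
        if_neg (Ne.symm hbe), O_zero, Matrix.zero_mul, smul_zero, smul_zero]
    · intro h'; exact absurd (Finset.mem_univ _) h'
  rw [Finset.sum_congr rfl fun al _ => key al]
  simp only [Finset.sum_const, Finset.card_univ, Fintype.card_fin]
  rw [← Nat.cast_smul_eq_nsmul ℝ, smul_smul]
  norm_num

theorem Vpq_orth {p q p' q' : Fin n} (h : p < q) (h' : p' < q') (hne : (p, q) ≠ (p', q'))
    (r s r' s' : Fin 4 → ℝ) :
    (Vpq p q r s * iota n)ᵀ * (Vpq p' q' r' s' * iota n) = 0 := by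
  rw [Vpq_iota h.ne, Vpq_iota h'.ne, Matrix.transpose_sum, Matrix.sum_mul]
  refine Finset.sum_eq_zero fun al _ => ?_
  rw [Matrix.mul_sum]
  refine Finset.sum_eq_zero fun be _ => ?_
  rw [Matrix.transpose_smul, Matrix.smul_mul, Matrix.mul_smul,
    pairT_orth h h' hne (eM_XX_eM al r) (eM_XX_eM al s), smul_zero, smul_zero]

end Crest.Agent.R338.HB
end

-- ▼ part R338/HBPert
section

/-!
# Row 338, node I.4 (d): second order perturbation theory, abstract real matrices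

`H0` vanishes on the range of the isometry `ι`, is `≥ J0` on its complement, and is exactly `2 J0`
on the range of the off-diagonal part `Y` of the perturbation `D1`.
-/

set_option autoImplicit false

namespace Crest.Agent.R338.HB

open Matrix Finset Ten

/-- numeric core of the lower bound -/
theorem num_lower {Np Nq a c d0 d1 h μ J d m hb : ℝ} (hNp : 0 ≤ Np) (hNq : 0 ≤ Nq) (hJ : 0 < J)
    (hd : 0 ≤ d) (hm0 : 0 ≤ m) (hhb : 0 ≤ hb) (h0 : 0 ≤ h)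
    (h1 : μ * Np ≤ a - h) (h2 : c ^ 2 ≤ h * d0) (h3 : J * Nq ≤ d0) (h4 : |d1| ≤ d * Nq)
    (h5 : h ≤ hb * Np) (hμ : |μ| ≤ m) (hc : d + m + hb ≤ J / 2) :
    (μ - 2 * hb * (d + m + hb) / J) * (Np + Nq) ≤ a + 2 * c + d0 + d1 := by
  set x := (d + m + hb) / J with hx
  have hx0 : 0 ≤ x := by positivity
  have hx1 : x ≤ 1 / 2 := by rw [hx, div_le_iff₀ hJ]; linarith
  have hxJ : x * J = d + m + hb := by rw [hx]; field_simp
  have herr : 2 * hb * (d + m + hb) / J = 2 * hb * x := by rw [hx]; ring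
  rw [herr]
  set E := μ - 2 * hb * x with hE
  have hEabs : |E| ≤ m + hb := by
    have hhx : 2 * hb * x ≤ hb := by nlinarith
    have hhx0 : 0 ≤ 2 * hb * x := by positivity
    have h6 := abs_le.1 hμ
    rw [abs_le]
    constructor <;> linarith [h6.1, h6.2]
  have hE1 : E ≤ m + hb := (le_abs_self _).trans hEabs
  have hd0 : 0 ≤ d0 := le_trans (by positivity) h3
  -- the Q block
  have hQ : (1 - x) * d0 ≤ d0 + d1 - E * Nq := by
    have h7 : -(d * Nq) ≤ d1 := (abs_le.1 h4).1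
    have h8 : (d + m + hb) * Nq ≤ x * d0 := by
      calc (d + m + hb) * Nq = x * (J * Nq) := by rw [← hxJ]; ring
        _ ≤ x * d0 := by exact mul_le_mul_of_nonneg_left h3 hx0
    have h9 : E * Nq ≤ (m + hb) * Nq := mul_le_mul_of_nonneg_right hE1 hNq
    nlinarith
  -- completing the square
  have h1x : (1 / 2 : ℝ) ≤ 1 - x := by linarith
  have h1x0 : (0 : ℝ) < 1 - x := by linarith
  have hsq : -(h / (1 - x)) ≤ 2 * c + (1 - x) * d0 := by
    have h10 : 0 ≤ h / (1 - x) := by positivity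
    have h11 : 0 ≤ (1 - x) * d0 := by positivity
    have h12 : c ^ 2 ≤ (h / (1 - x)) * ((1 - x) * d0) := by
      have : (h / (1 - x)) * ((1 - x) * d0) = h * d0 := by field_simp
      rw [this]; exact h2
    have h13 : (2 * c) ^ 2 ≤ (h / (1 - x) + (1 - x) * d0) ^ 2 := by
      nlinarith [sq_nonneg (h / (1 - x) - (1 - x) * d0)]
    have h14 := abs_le_of_sq_le_sq' h13 (by positivity)
    linarith [h14.1]
  have hx2 : h / (1 - x) ≤ h + 2 * x * h := by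
    rw [div_le_iff₀ h1x0]
    nlinarith [mul_nonneg h0 hx0, mul_nonneg (mul_nonneg h0 hx0) (by linarith : (0:ℝ) ≤ 1 / 2 - x)]
  have hfin : E * Np + h + 2 * x * h ≤ a := by
    have : 2 * x * h ≤ 2 * x * (hb * Np) := by
      exact mul_le_mul_of_nonneg_left h5 (by positivity)
    have h15 : E * Np = μ * Np - 2 * x * (hb * Np) := by rw [hE]; ring
    linarith
  nlinarith

variable {J K : Type*} [Fintype J] [Fintype K] [DecidableEq J] [DecidableEq K]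

/-- Cauchy–Schwarz for a positive semidefinite symmetric matrix. -/
theorem psd_cs (H : Matrix J J ℝ) (hs : Hᵀ = H) (hp : ∀ x, 0 ≤ x ⬝ᵥ (H *ᵥ x)) (x y : J → ℝ) :
    (x ⬝ᵥ (H *ᵥ y)) ^ 2 ≤ (x ⬝ᵥ (H *ᵥ x)) * (y ⬝ᵥ (H *ᵥ y)) := by
  have hsym : y ⬝ᵥ (H *ᵥ x) = x ⬝ᵥ (H *ᵥ y) := by
    rw [dot_mulVec_transpose, hs, dotProduct_comm]
  have hq : ∀ t : ℝ, 0 ≤ (x ⬝ᵥ (H *ᵥ x)) * (t * t) + (2 * (x ⬝ᵥ (H *ᵥ y))) * t +
      (y ⬝ᵥ (H *ᵥ y)) := by
    intro t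
    have := hp (t • x + y)
    rw [mulVec_add, mulVec_smul, dotProduct_add, add_dotProduct, add_dotProduct, smul_dotProduct,
      smul_dotProduct, dotProduct_smul, dotProduct_smul, hsym] at this
    simp only [smul_eq_mul] at this
    linarith
  have hd := discrim_le_zero hq
  unfold discrim at hd
  nlinarith

structure PertData (ι Y : Matrix J K ℝ) (H0 D1 : Matrix J J ℝ) (A : Matrix K K ℝ)
    (J0 d m hb : ℝ) : Prop where
  iso : ιᵀ * ι = 1
  H0s : H0ᵀ = H0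
  H0p : ∀ x, 0 ≤ x ⬝ᵥ (H0 *ᵥ x)
  H0ι : H0 * ι = 0
  gap : ∀ q, ιᵀ *ᵥ q = 0 → J0 * (q ⬝ᵥ q) ≤ q ⬝ᵥ (H0 *ᵥ q)
  D1s : D1ᵀ = D1
  D1ι : D1 * ι = ι * A + Y
  hY : ιᵀ * Y = 0
  H0Y : H0 * Y = (2 * J0) • Y
  hd : ∀ x, |x ⬝ᵥ (D1 *ᵥ x)| ≤ d * (x ⬝ᵥ x)
  hm : ∀ φ : K → ℝ, |φ ⬝ᵥ (A *ᵥ φ) - (1 / (2 * J0)) * ((Y *ᵥ φ) ⬝ᵥ (Y *ᵥ φ))| ≤ m * (φ ⬝ᵥ φ)
  hhb : ∀ φ : K → ℝ, (Y *ᵥ φ) ⬝ᵥ (Y *ᵥ φ) ≤ 2 * J0 * (hb * (φ ⬝ᵥ φ))
  J0pos : 0 < J0
  d0 : 0 ≤ d
  m0 : 0 ≤ m
  hb0 : 0 ≤ hb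
  cond : d + m + hb ≤ J0 / 2

namespace PertData

variable {ι Y : Matrix J K ℝ} {H0 D1 : Matrix J J ℝ} {A : Matrix K K ℝ} {J0 d m hb : ℝ}

/-- effective energy -/
noncomputable def eff (A : Matrix K K ℝ) (Y : Matrix J K ℝ) (J0 : ℝ) (φ : K → ℝ) : ℝ :=
  φ ⬝ᵥ (A *ᵥ φ) - (1 / (2 * J0)) * ((Y *ᵥ φ) ⬝ᵥ (Y *ᵥ φ))

theorem iso_vec (P : PertData ι Y H0 D1 A J0 d m hb) (φ χ : K → ℝ) :
    (ι *ᵥ φ) ⬝ᵥ (ι *ᵥ χ) = φ ⬝ᵥ χ := by
  rw [dot_mulVec_transpose, mulVec_mulVec, P.iso, one_mulVec]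

theorem lower_aux (P : PertData ι Y H0 D1 A J0 d m hb) {μ : ℝ} (hμm : |μ| ≤ m)
    (hμ : ∀ φ, μ * (φ ⬝ᵥ φ) ≤ eff A Y J0 φ) (ψ : J → ℝ) :
    (μ - 2 * hb * (d + m + hb) / J0) * (ψ ⬝ᵥ ψ) ≤ ψ ⬝ᵥ ((H0 + D1) *ᵥ ψ) := by
  set φ : K → ℝ := ιᵀ *ᵥ ψ with hφ
  set q : J → ℝ := ψ - ι *ᵥ φ with hq
  have hψ : ψ = ι *ᵥ φ + q := by rw [hq]; abel
  have hιq : ιᵀ *ᵥ q = 0 := by
    rw [hq, mulVec_sub, mulVec_mulVec, P.iso, one_mulVec, hφ, sub_self]
  have horth : ∀ χ : K → ℝ, (ι *ᵥ χ) ⬝ᵥ q = 0 := by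
    intro χ
    rw [dotProduct_comm, dot_mulVec_transpose, hιq, zero_dotProduct]
  set y : J → ℝ := Y *ᵥ φ with hy
  have hJ := P.J0pos
  have hN : ψ ⬝ᵥ ψ = φ ⬝ᵥ φ + q ⬝ᵥ q := by
    conv_lhs => rw [hψ]
    rw [dotProduct_add, add_dotProduct, add_dotProduct, P.iso_vec, horth, dotProduct_comm q, horth]
    ring
  have hH0φ : H0 *ᵥ (ι *ᵥ φ) = 0 := by rw [mulVec_mulVec, P.H0ι, zero_mulVec]
  have hD1φ : D1 *ᵥ (ι *ᵥ φ) = ι *ᵥ (A *ᵥ φ) + y := by
    rw [mulVec_mulVec, P.D1ι, add_mulVec, ← mulVec_mulVec]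
  have hE : ψ ⬝ᵥ ((H0 + D1) *ᵥ ψ) =
      φ ⬝ᵥ (A *ᵥ φ) + 2 * (q ⬝ᵥ y) + q ⬝ᵥ (H0 *ᵥ q) + q ⬝ᵥ (D1 *ᵥ q) := by
    have e1 : (ι *ᵥ φ) ⬝ᵥ y = 0 := by
      rw [dotProduct_comm, dot_mulVec_transpose]
      have : ιᵀ *ᵥ y = 0 := by rw [hy, mulVec_mulVec, P.hY, zero_mulVec]
      rw [this, zero_dotProduct]
    have e2 : (ι *ᵥ φ) ⬝ᵥ (D1 *ᵥ q) = q ⬝ᵥ y := by
      rw [dot_mulVec_transpose, P.D1s, hD1φ, add_dotProduct, horth, zero_add, dotProduct_comm]
    have e3 : (ι *ᵥ φ) ⬝ᵥ (H0 *ᵥ q) = 0 := by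
      rw [dot_mulVec_transpose, P.H0s, hH0φ, zero_dotProduct]
    conv_lhs => rw [hψ]
    rw [mulVec_add, add_mulVec, add_mulVec, hH0φ, zero_add, hD1φ, dotProduct_add, add_dotProduct,
      add_dotProduct, dotProduct_add, dotProduct_add, dotProduct_add, dotProduct_add, P.iso_vec,
      e1, e2, e3, dotProduct_comm q (ι *ᵥ (A *ᵥ φ)), horth]
    ring
  rw [hN, hE]
  set h := (1 / (2 * J0)) * (y ⬝ᵥ y) with hh
  have hyy := dot_self_nonneg y
  have h0 : 0 ≤ h := by rw [hh]; positivity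
  refine num_lower (h := h) (dot_self_nonneg φ) (dot_self_nonneg q) hJ P.d0 P.m0 P.hb0 h0
    (hμ φ) ?_ (P.gap q hιq) (P.hd q) ?_ hμm P.cond
  · -- Cauchy-Schwarz
    have h1 : q ⬝ᵥ y = (1 / (2 * J0)) * (q ⬝ᵥ (H0 *ᵥ y)) := by
      have : H0 *ᵥ y = (2 * J0) • y := by
        rw [hy, mulVec_mulVec, P.H0Y, smul_mulVec]
      rw [this, dotProduct_smul, smul_eq_mul]
      field_simp
    have h2 : y ⬝ᵥ (H0 *ᵥ y) = 2 * J0 * (y ⬝ᵥ y) := by
      have : H0 *ᵥ y = (2 * J0) • y := by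
        rw [hy, mulVec_mulVec, P.H0Y, smul_mulVec]
      rw [this, dotProduct_smul, smul_eq_mul]
    have h3 := psd_cs H0 P.H0s P.H0p q y
    rw [h2] at h3
    rw [h1, hh]
    have h4 : (1 / (2 * J0) * (q ⬝ᵥ (H0 *ᵥ y))) ^ 2 =
        (1 / (2 * J0)) ^ 2 * (q ⬝ᵥ (H0 *ᵥ y)) ^ 2 := by ring
    rw [h4]
    calc (1 / (2 * J0)) ^ 2 * (q ⬝ᵥ (H0 *ᵥ y)) ^ 2
        ≤ (1 / (2 * J0)) ^ 2 * ((q ⬝ᵥ (H0 *ᵥ q)) * (2 * J0 * (y ⬝ᵥ y))) :=
          mul_le_mul_of_nonneg_left h3 (by positivity)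
      _ = 1 / (2 * J0) * (y ⬝ᵥ y) * (q ⬝ᵥ (H0 *ᵥ q)) := by field_simp
  · have := P.hhb φ
    rw [hh]
    rw [← hy] at this
    calc 1 / (2 * J0) * (y ⬝ᵥ y) ≤ 1 / (2 * J0) * (2 * J0 * (hb * (φ ⬝ᵥ φ))) :=
          mul_le_mul_of_nonneg_left this (by positivity)
      _ = hb * (φ ⬝ᵥ φ) := by field_simp

theorem lower [Nonempty K] (P : PertData ι Y H0 D1 A J0 d m hb) {μ : ℝ}
    (hμ : ∀ φ, μ * (φ ⬝ᵥ φ) ≤ eff A Y J0 φ) (ψ : J → ℝ) :
    (μ - 2 * hb * (d + m + hb) / J0) * (ψ ⬝ᵥ ψ) ≤ ψ ⬝ᵥ ((H0 + D1) *ᵥ ψ) := by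
  have hψ := dot_self_nonneg ψ
  have hle : μ ≤ m := by
    obtain ⟨k⟩ := ‹Nonempty K›
    have h1 := hμ (Pi.single k 1)
    have h2 := P.hm (Pi.single k 1)
    have h3 : (Pi.single k 1 : K → ℝ) ⬝ᵥ Pi.single k 1 = 1 := by simp
    rw [h3, mul_one] at h1 h2
    exact h1.trans ((le_abs_self _).trans h2)
  by_cases hc : -m ≤ μ
  · exact P.lower_aux (abs_le.2 ⟨hc, hle⟩) hμ ψ
  · have h1 : ∀ φ, (-m) * (φ ⬝ᵥ φ) ≤ eff A Y J0 φ := by
      intro φ
      have := (abs_le.1 (P.hm φ)).1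
      unfold eff
      linarith
    have h2 := P.lower_aux (μ := -m) (by rw [abs_neg, abs_of_nonneg P.m0]) h1 ψ
    refine le_trans ?_ h2
    apply mul_le_mul_of_nonneg_right _ hψ
    linarith

theorem upper (P : PertData ι Y H0 D1 A J0 d m hb) (φ : K → ℝ) (hφ : φ ⬝ᵥ φ = 1) :
    ∃ ψ : J → ℝ, ψ ⬝ᵥ ψ = 1 ∧
      ψ ⬝ᵥ ((H0 + D1) *ᵥ ψ) ≤ eff A Y J0 φ + 2 * hb * (d + m + hb) / J0 := by
  have hJ := P.J0pos
  set y : J → ℝ := Y *ᵥ φ with hy
  set t : ℝ := 1 / (2 * J0) with ht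
  have ht0 : 0 < t := by rw [ht]; positivity
  have htJ : t * (2 * J0) = 1 := by rw [ht]; field_simp
  set χ : J → ℝ := ι *ᵥ φ - t • y with hχ
  have hιy : (ι *ᵥ φ) ⬝ᵥ y = 0 := by
    rw [dotProduct_comm, dot_mulVec_transpose]
    have : ιᵀ *ᵥ y = 0 := by rw [hy, mulVec_mulVec, P.hY, zero_mulVec]
    rw [this, zero_dotProduct]
  have hyy := dot_self_nonneg y
  have hNχ : χ ⬝ᵥ χ = 1 + t ^ 2 * (y ⬝ᵥ y) := by
    rw [hχ, sub_dotProduct, dotProduct_sub, dotProduct_sub, P.iso_vec, hφ, smul_dotProduct,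
      smul_dotProduct, dotProduct_smul, dotProduct_smul, dotProduct_comm y, hιy]
    simp only [smul_eq_mul]
    ring
  have hH0φ : H0 *ᵥ (ι *ᵥ φ) = 0 := by rw [mulVec_mulVec, P.H0ι, zero_mulVec]
  have hD1φ : D1 *ᵥ (ι *ᵥ φ) = ι *ᵥ (A *ᵥ φ) + y := by
    rw [mulVec_mulVec, P.D1ι, add_mulVec, ← mulVec_mulVec]
  have hH0y : H0 *ᵥ y = (2 * J0) • y := by
    rw [hy, mulVec_mulVec, P.H0Y, smul_mulVec]
  have hιAy : (ι *ᵥ (A *ᵥ φ)) ⬝ᵥ y = 0 := by
    rw [dotProduct_comm, dot_mulVec_transpose]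
    have : ιᵀ *ᵥ y = 0 := by rw [hy, mulVec_mulVec, P.hY, zero_mulVec]
    rw [this, zero_dotProduct]
  have hyD : (ι *ᵥ φ) ⬝ᵥ (D1 *ᵥ y) = y ⬝ᵥ y := by
    rw [dot_mulVec_transpose, P.D1s, hD1φ, add_dotProduct, hιAy, zero_add]
  have hE : χ ⬝ᵥ ((H0 + D1) *ᵥ χ) = eff A Y J0 φ + t ^ 2 * (y ⬝ᵥ (D1 *ᵥ y)) := by
    have e0 : (H0 + D1) *ᵥ χ = ι *ᵥ (A *ᵥ φ) + y - t • ((2 * J0) • y + D1 *ᵥ y) := by
      rw [hχ, mulVec_sub, mulVec_smul, add_mulVec, add_mulVec, hH0φ, zero_add, hD1φ, hH0y]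
    rw [e0, hχ]
    rw [sub_dotProduct, dotProduct_sub, dotProduct_sub, dotProduct_add, P.iso_vec, hιy,
      dotProduct_smul, dotProduct_add, dotProduct_smul, hιy, hyD, smul_dotProduct, smul_dotProduct,
      dotProduct_add, dotProduct_comm y (ι *ᵥ (A *ᵥ φ)), hιAy, dotProduct_smul, dotProduct_add,
      dotProduct_smul]
    simp only [smul_eq_mul, eff]
    rw [← hy, ← ht]
    linear_combination (t * (y ⬝ᵥ y)) * htJ
  set N := χ ⬝ᵥ χ with hNdef
  have hN1 : 1 ≤ N := by rw [hNχ]; nlinarith [sq_nonneg t, mul_nonneg (sq_nonneg t) hyy]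
  have hN0 : 0 < N := by linarith
  have hsN : 0 < Real.sqrt N := Real.sqrt_pos.2 hN0
  have hss : (Real.sqrt N)⁻¹ * (Real.sqrt N)⁻¹ = N⁻¹ := by
    rw [← mul_inv, Real.mul_self_sqrt hN0.le]
  refine ⟨(Real.sqrt N)⁻¹ • χ, ?_, ?_⟩
  · rw [smul_dotProduct, dotProduct_smul, smul_eq_mul, smul_eq_mul, ← mul_assoc, hss, ← hNdef]
    field_simp
  · rw [mulVec_smul, smul_dotProduct, dotProduct_smul, smul_eq_mul, smul_eq_mul, ← mul_assoc, hss,
      hE]
    have hb1 := P.hhb φ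
    rw [← hy, hφ, mul_one] at hb1
    have hm1 := P.hm φ
    rw [hφ, mul_one, ← hy, ← ht] at hm1
    have hef : |eff A Y J0 φ| ≤ m := hm1
    have hd1 := (abs_le.1 (P.hd y)).2
    -- t^2 * y.y ≤ t * hb
    have hty : t ^ 2 * (y ⬝ᵥ y) ≤ t * hb := by
      calc t ^ 2 * (y ⬝ᵥ y) ≤ t ^ 2 * (2 * J0 * hb) :=
            mul_le_mul_of_nonneg_left hb1 (by positivity)
        _ = t * (t * (2 * J0)) * hb := by ring
        _ = t * hb := by rw [htJ]; ring
    have hty0 : 0 ≤ t ^ 2 * (y ⬝ᵥ y) := by positivity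
    have h1 : eff A Y J0 φ + t ^ 2 * (y ⬝ᵥ (D1 *ᵥ y)) ≤
        (eff A Y J0 φ + t * hb * (d + m)) * N := by
      have h2 : t ^ 2 * (y ⬝ᵥ (D1 *ᵥ y)) ≤ d * (t ^ 2 * (y ⬝ᵥ y)) := by
        calc t ^ 2 * (y ⬝ᵥ (D1 *ᵥ y)) ≤ t ^ 2 * (d * (y ⬝ᵥ y)) :=
              mul_le_mul_of_nonneg_left hd1 (by positivity)
          _ = d * (t ^ 2 * (y ⬝ᵥ y)) := by ring
      have h3 : d * (t ^ 2 * (y ⬝ᵥ y)) ≤ d * (t * hb) := mul_le_mul_of_nonneg_left hty P.d0
      have h4 : -m * (t ^ 2 * (y ⬝ᵥ y)) ≤ eff A Y J0 φ * (t ^ 2 * (y ⬝ᵥ y)) :=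
        mul_le_mul_of_nonneg_right (abs_le.1 hef).1 hty0
      have h5 : m * (t ^ 2 * (y ⬝ᵥ y)) ≤ m * (t * hb) := mul_le_mul_of_nonneg_left hty P.m0
      have h6 : 0 ≤ t * hb * (d + m) * (t ^ 2 * (y ⬝ᵥ y)) := by
        have := P.hb0; have := P.d0; have := P.m0
        positivity
      rw [hNχ]
      nlinarith
    have h7 : N⁻¹ * (eff A Y J0 φ + t ^ 2 * (y ⬝ᵥ (D1 *ᵥ y))) ≤
        eff A Y J0 φ + t * hb * (d + m) := by
      rw [inv_mul_le_iff₀ hN0]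
      linarith
    refine h7.trans ?_
    have h8 : t * hb * (d + m) ≤ 2 * hb * (d + m + hb) / J0 := by
      rw [ht, le_div_iff₀ hJ]
      have := P.hb0; have := P.d0; have := P.m0
      have : 1 / (2 * J0) * hb * (d + m) * J0 = hb * (d + m) / 2 := by field_simp
      rw [this]
      nlinarith [mul_nonneg P.hb0 P.d0, mul_nonneg P.hb0 P.m0, mul_nonneg P.hb0 P.hb0]
    linarith

end PertData

end Crest.Agent.R338.HB
end

-- ▼ part R338/HB4

/-!
# Row 338, node I.4 (e): the block Hamiltonian is an instance of `PertData`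
-/

set_option autoImplicit false

namespace Crest.Agent.R338.HB

open Matrix Finset Ten

section NB
variable {J : Type*} [Fintype J]

/-- operator norm bound -/
def NB (M : Matrix J J ℝ) (c : ℝ) : Prop :=
  0 ≤ c ∧ ∀ x : J → ℝ, (M *ᵥ x) ⬝ᵥ (M *ᵥ x) ≤ c ^ 2 * (x ⬝ᵥ x)

theorem NB.form {M : Matrix J J ℝ} {c : ℝ} (h : NB M c) (x : J → ℝ) :
    |x ⬝ᵥ (M *ᵥ x)| ≤ c * (x ⬝ᵥ x) := by
  have h1 := dot_sq_le x (M *ᵥ x)
  have h2 := h.2 x
  have h3 := dot_self_nonneg x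
  apply abs_le_of_sq_le_sq
  · calc (x ⬝ᵥ (M *ᵥ x)) ^ 2 ≤ (x ⬝ᵥ x) * ((M *ᵥ x) ⬝ᵥ (M *ᵥ x)) := h1
      _ ≤ (x ⬝ᵥ x) * (c ^ 2 * (x ⬝ᵥ x)) := mul_le_mul_of_nonneg_left h2 h3
      _ = (c * (x ⬝ᵥ x)) ^ 2 := by ring
  · exact mul_nonneg h.1 h3

theorem NB.mono {M : Matrix J J ℝ} {c c' : ℝ} (h : NB M c) (hc : c ≤ c') : NB M c' := by
  refine ⟨h.1.trans hc, fun x => (h.2 x).trans ?_⟩
  have := h.1
  exact mul_le_mul_of_nonneg_right (by nlinarith) (dot_self_nonneg x)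

theorem NB.mul {M N : Matrix J J ℝ} {a b : ℝ} (hM : NB M a) (hN : NB N b) : NB (M * N) (a * b) := by
  refine ⟨mul_nonneg hM.1 hN.1, fun x => ?_⟩
  rw [← mulVec_mulVec]
  calc (M *ᵥ (N *ᵥ x)) ⬝ᵥ (M *ᵥ (N *ᵥ x)) ≤ a ^ 2 * ((N *ᵥ x) ⬝ᵥ (N *ᵥ x)) := hM.2 _
    _ ≤ a ^ 2 * (b ^ 2 * (x ⬝ᵥ x)) := mul_le_mul_of_nonneg_left (hN.2 x) (sq_nonneg _)
    _ = (a * b) ^ 2 * (x ⬝ᵥ x) := by ring

theorem NB.add {M N : Matrix J J ℝ} {a b : ℝ} (hM : NB M a) (hN : NB N b) : NB (M + N) (a + b) := by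
  refine ⟨add_nonneg hM.1 hN.1, fun x => ?_⟩
  have h0 := dot_self_nonneg x
  have hm := hM.2 x
  have hn := hN.2 x
  have hm0 := dot_self_nonneg (M *ᵥ x)
  have hn0 := dot_self_nonneg (N *ᵥ x)
  have hcs := dot_sq_le (M *ᵥ x) (N *ᵥ x)
  have h1 : |(M *ᵥ x) ⬝ᵥ (N *ᵥ x)| ≤ a * b * (x ⬝ᵥ x) := by
    apply abs_le_of_sq_le_sq
    · calc ((M *ᵥ x) ⬝ᵥ (N *ᵥ x)) ^ 2
          ≤ ((M *ᵥ x) ⬝ᵥ (M *ᵥ x)) * ((N *ᵥ x) ⬝ᵥ (N *ᵥ x)) := hcs
        _ ≤ (a ^ 2 * (x ⬝ᵥ x)) * (b ^ 2 * (x ⬝ᵥ x)) := by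
            apply mul_le_mul hm hn hn0
            positivity
        _ = (a * b * (x ⬝ᵥ x)) ^ 2 := by ring
    · have := hM.1; have := hN.1; positivity
  rw [add_mulVec, dotProduct_add, add_dotProduct, add_dotProduct,
    dotProduct_comm (N *ᵥ x) (M *ᵥ x)]
  have h2 := (abs_le.1 h1).2
  nlinarith

theorem NB.smul {M : Matrix J J ℝ} {a : ℝ} (c : ℝ) (hM : NB M a) : NB (c • M) (|c| * a) := by
  refine ⟨mul_nonneg (abs_nonneg _) hM.1, fun x => ?_⟩
  rw [smul_mulVec, smul_dotProduct, dotProduct_smul, smul_eq_mul, smul_eq_mul]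
  have h := hM.2 x
  calc c * (c * ((M *ᵥ x) ⬝ᵥ (M *ᵥ x))) = c ^ 2 * ((M *ᵥ x) ⬝ᵥ (M *ᵥ x)) := by ring
    _ ≤ c ^ 2 * (a ^ 2 * (x ⬝ᵥ x)) := mul_le_mul_of_nonneg_left h (sq_nonneg _)
    _ = (|c| * a) ^ 2 * (x ⬝ᵥ x) := by rw [mul_pow, sq_abs]; ring

theorem NB.zero : NB (0 : Matrix J J ℝ) 0 := ⟨le_rfl, fun x => by simp⟩

theorem NB.neg {M : Matrix J J ℝ} {a : ℝ} (hM : NB M a) : NB (-M) a := by
  have := hM.smul (-1)
  simpa using this

theorem NB.sub {M N : Matrix J J ℝ} {a b : ℝ} (hM : NB M a) (hN : NB N b) : NB (M - N) (a + b) := by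
  rw [sub_eq_add_neg]; exact hM.add hN.neg

theorem NB.sum {κ : Type*} (s : Finset κ) {M : κ → Matrix J J ℝ} {a : κ → ℝ}
    (h : ∀ k ∈ s, NB (M k) (a k)) : NB (∑ k ∈ s, M k) (∑ k ∈ s, a k) := by
  classical
  induction s using Finset.induction_on with
  | empty => simpa using NB.zero
  | insert i s hi ih =>
    rw [Finset.sum_insert hi, Finset.sum_insert hi]
    exact (h i (Finset.mem_insert_self i s)).add (ih fun k hk => h k (Finset.mem_insert_of_mem hk))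

theorem NB.of_iso [DecidableEq J] {M : Matrix J J ℝ} (h : Mᵀ * M = 1) : NB M 1 := by
  refine ⟨zero_le_one, fun x => ?_⟩
  rw [dot_mulVec_transpose, mulVec_mulVec, h, one_mulVec]
  simp

theorem NB.one [DecidableEq J] : NB (1 : Matrix J J ℝ) 1 := NB.of_iso (by simp)

end NB

variable {n : ℕ}

theorem O_iso {B : Type*} [Fintype B] [DecidableEq B] {M : Matrix B B ℝ} (h : Mᵀ * M = 1)
    (p : Fin n) : NB (O p M) 1 := by
  apply NB.of_iso
  rw [O_transpose, O_mul, h, O_one]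

theorem P4_iso (a b : Fin 4) : (P4 a b)ᵀ * P4 a b = 1 := by
  rw [P4_transpose]
  ext i j
  rw [Matrix.mul_apply]
  have : ∀ k, P4 a b i k * P4 a b k j = if k = swp a b i then (P4 a b k j) else 0 := by
    intro k
    by_cases hk : k = swp a b i <;> simp [P4, hk]
  rw [Finset.sum_congr rfl fun k _ => this k, Finset.sum_ite_eq']
  simp [P4, swp_swp, Matrix.one_apply, eq_comm]

theorem TT_sq (al : Fin 3) (a : Fin 4) :
    ((2 : ℝ) • TT al a)ᵀ * ((2 : ℝ) • TT al a) = 1 := by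
  have h : ∀ v : B4 → ℝ, (((2 : ℝ) • TT al a)ᵀ * ((2 : ℝ) • TT al a)) *ᵥ v = v := by
    intro v
    rw [← mulVec_mulVec, transpose_smul, TT_transpose]
    funext i
    rw [smul_mulVec, smul_mulVec, smul_mulVec]
    simp only [Pi.smul_apply, smul_eq_mul]
    rw [mulVec_smul, Pi.smul_apply, TT_mulVec_real]
    have e2 : ((sg (i a) : ℤ) : ℝ) * (sg (i a) : ℝ) = 1 := by
      unfold sg; split_ifs <;> norm_num
    have e3 : ((sg (flp a i a) : ℤ) : ℝ) = - (sg (i a) : ℝ) := by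
      rw [sg_flp]; push_cast; ring
    fin_cases al
    · simp [ep, TT_mulVec_real, flp_flp]
      ring
    · simp only [ep, TT_mulVec_real, flp_flp, e3]
      simp
      linear_combination (v i) * e2
    · simp only [ep, TT_mulVec_real]
      simp
      linear_combination (v i) * e2
  ext i j
  have := congrFun (h (Pi.single j 1)) i
  rw [Matrix.mulVec_single_one] at this
  rw [Matrix.one_apply]
  simpa [Pi.single_apply, eq_comm] using this

theorem NB_TT (p : Fin n) (al : Fin 3) (a : Fin 4) : NB (O p (TT al a)) (1 / 2) := by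
  have h := (O_iso (TT_sq al a) p).smul (1 / 2 : ℝ)
  rw [← O_smul, smul_smul] at h
  norm_num at h
  convert h using 1

theorem NB_XX (p : Fin n) (al : Fin 3) (r : Fin 4 → ℝ) :
    NB (O p (XX al r)) (∑ a, |r a| * (1 / 2)) := by
  unfold XX
  rw [O_sum]
  refine NB.sum _ fun a _ => ?_
  rw [O_smul]
  exact (NB_TT p al a).smul (r a)

theorem NB_Vpq (p q : Fin n) (r s : Fin 4 → ℝ) :
    NB (Vpq p q r s) (3 / 4 * (∑ a, |r a|) * (∑ a, |s a|)) := by
  have h : NB (Vpq p q r s) (∑ al : Fin 3, |ep al| *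
      ((∑ a, |r a| * (1 / 2)) * (∑ a, |s a| * (1 / 2)))) := by
    unfold Vpq
    exact NB.sum _ fun al _ => ((NB_XX p al r).mul (NB_XX q al s)).smul (ep al)
  convert h using 1
  rw [← Finset.sum_mul, ← Finset.sum_mul, ← Finset.sum_mul]
  have : ∑ al : Fin 3, |ep al| = 3 := by
    rw [Fin.sum_univ_three]; simp [ep]; norm_num
  rw [this]
  ring

/-! ### The gap -/

theorem Rproj (p : Fin n) : (1 - O p Pi4)ᵀ = 1 - O p Pi4 ∧
    (1 - O p Pi4) * (1 - O p Pi4) = 1 - O p Pi4 := by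
  constructor
  · rw [Matrix.transpose_sub, O_transpose, Pi4_transpose, Matrix.transpose_one]
  · rw [mul_sub, sub_mul, sub_mul, O_mul, Pi4_sq]
    simp

/-- projection onto singlets on the sites of `S` -/
noncomputable def PS (S : Finset (Fin n)) : Matrix (Fin n → B4) (Fin n → B4) ℝ :=
  T (fun p => if p ∈ S then Pi4 else 1)

theorem PS_transpose (S : Finset (Fin n)) : (PS S)ᵀ = PS S := by
  unfold PS
  rw [T_transpose]
  congr 1
  funext p
  split_ifs <;> simp [Pi4_transpose]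

theorem PS_sq (S : Finset (Fin n)) : PS S * PS S = PS S := by
  unfold PS
  rw [T_mul]
  congr 1
  funext p
  split_ifs <;> simp [Pi4_sq]

theorem PS_insert {S : Finset (Fin n)} {a : Fin n} (ha : a ∉ S) :
    PS (insert a S) = O a Pi4 * PS S := by
  unfold PS
  rw [O_mul_T]
  congr 1
  funext p
  by_cases h : p = a
  · subst h; simp [ha]
  · simp [h]

theorem PS_comm {S : Finset (Fin n)} {a : Fin n} (ha : a ∉ S) :
    O a Pi4 * PS S = PS S * O a Pi4 := by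
  unfold PS
  rw [O_mul_T, T_mul_O]
  congr 1
  funext p
  by_cases h : p = a
  · subst h; simp [ha]
  · simp [h]

theorem gap_aux (S : Finset (Fin n)) (ψ : (Fin n → B4) → ℝ) :
    ψ ⬝ᵥ ψ - ψ ⬝ᵥ (PS S *ᵥ ψ) ≤ ∑ p ∈ S, ψ ⬝ᵥ ((1 - O p Pi4) *ᵥ ψ) := by
  classical
  induction S using Finset.induction_on with
  | empty =>
    have : PS (∅ : Finset (Fin n)) = 1 := by
      unfold PS; simp [T_one]
    simp [this]
  | insert a S ha ih =>
    rw [Finset.sum_insert ha]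
    set R := (1 : Matrix (Fin n → B4) (Fin n → B4) ℝ) - O a Pi4 with hR
    obtain ⟨hRt, hRs⟩ := Rproj a
    have hc : R * PS S = PS S * R := by
      rw [hR, sub_mul, mul_sub, PS_comm ha]; simp
    have h1 : PS (insert a S) = PS S - R * PS S := by
      rw [PS_insert ha, hR, sub_mul]; simp
    have h2 : ψ ⬝ᵥ ((R * PS S) *ᵥ ψ) = (PS S *ᵥ (R *ᵥ ψ)) ⬝ᵥ (PS S *ᵥ (R *ᵥ ψ)) := by
      have hMt : (PS S * R)ᵀ = PS S * R := by
        rw [Matrix.transpose_mul, PS_transpose, hR, hRt, ← hR, hc]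
      have hMs : (PS S * R) * (PS S * R) = PS S * R := by
        calc (PS S * R) * (PS S * R) = PS S * (R * PS S) * R := by noncomm_ring
          _ = (PS S * PS S) * (R * R) := by rw [hc]; noncomm_ring
          _ = PS S * R := by rw [PS_sq, hR, hRs]
      rw [hc, proj_form _ hMt hMs, mulVec_mulVec]
    have h3 : (PS S *ᵥ (R *ᵥ ψ)) ⬝ᵥ (PS S *ᵥ (R *ᵥ ψ)) ≤ (R *ᵥ ψ) ⬝ᵥ (R *ᵥ ψ) :=
      proj_form_le _ (PS_transpose S) (PS_sq S) _
    have h4 : (R *ᵥ ψ) ⬝ᵥ (R *ᵥ ψ) = ψ ⬝ᵥ (R *ᵥ ψ) := (proj_form R hRt hRs ψ).symm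
    rw [h1, sub_mulVec, dotProduct_sub]
    linarith

theorem PS_univ : PS (Finset.univ : Finset (Fin n)) = iota n * (iota n)ᵀ := by
  unfold PS iota
  rw [T_transpose, T_mul]
  congr 1
  funext p
  simp [Pi4]

theorem gap_K (q : (Fin n → B4) → ℝ) (hq : (iota n)ᵀ *ᵥ q = 0) :
    q ⬝ᵥ q ≤ q ⬝ᵥ ((∑ p : Fin n, O p K4) *ᵥ q) := by
  have h1 := gap_aux Finset.univ q
  rw [PS_univ, ← mulVec_mulVec, hq, mulVec_zero, dotProduct_zero, sub_zero] at h1
  refine h1.trans ?_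
  rw [sum_mulVec, dotProduct_sum]
  refine Finset.sum_le_sum fun p _ => ?_
  have h2 : O p K4 = (1 - O p Pi4) + (2 : ℝ) • O p N4 := by
    rw [K4_eq, O_add, O_sub, O_one, O_smul]
  have h3 := proj_form_nonneg (O p N4) (by rw [O_transpose, N4_transpose])
    (by rw [O_mul, N4_sq]) q
  rw [h2, add_mulVec, dotProduct_add, smul_mulVec, dotProduct_smul, smul_eq_mul]
  linarith

theorem K_nonneg (q : (Fin n → B4) → ℝ) : 0 ≤ q ⬝ᵥ ((∑ p : Fin n, O p K4) *ᵥ q) := by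
  rw [sum_mulVec, dotProduct_sum]
  refine Finset.sum_nonneg fun p _ => ?_
  have h2 : O p K4 = (1 - O p Pi4) + (2 : ℝ) • O p N4 := by
    rw [K4_eq, O_add, O_sub, O_one, O_smul]
  have h3 := proj_form_nonneg (O p N4) (by rw [O_transpose, N4_transpose])
    (by rw [O_mul, N4_sq]) q
  have h4 := proj_form_nonneg _ (Rproj p).1 (Rproj p).2 q
  rw [h2, add_mulVec, dotProduct_add, smul_mulVec, dotProduct_smul, smul_eq_mul]
  linarith

theorem K_transpose : (∑ p : Fin n, O p K4)ᵀ = ∑ p : Fin n, O p K4 := by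
  rw [Matrix.transpose_sum]
  exact Finset.sum_congr rfl fun p _ => by rw [O_transpose, K4_transpose]

theorem K_iota : (∑ p : Fin n, O p K4) * iota n = 0 := by
  rw [Matrix.sum_mul]
  refine Finset.sum_eq_zero fun p _ => ?_
  unfold iota
  rw [O_mul_T, K4_eM, T_update_zero]

/-! ### The Hamiltonian -/

/-- pairs -/
def pairs (n : ℕ) : Finset (Fin n × Fin n) := Finset.univ.filter fun x => x.1 < x.2

/-- in-block field `∑_b u_b S_0·S_b` -/
noncomputable def wB (u : Fin 4 → ℝ) : Matrix B4 B4 ℝ :=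
  ∑ b ∈ ({1, 2, 3} : Finset (Fin 4)), u b • ((1 / 2 : ℝ) • P4 0 b - (1 / 4 : ℝ) • 1)

/-- its compression -/
noncomputable def wL (u : Fin 4 → ℝ) : Matrix Bool Bool ℝ :=
  ∑ b ∈ ({1, 2, 3} : Finset (Fin 4)), u b • (-(1 / 4 : ℝ) • 1 - (1 / 2 : ℝ) • tau 0 b)

theorem wB_eM (u : Fin 4 → ℝ) : wB u * eM = eM * wL u := by
  unfold wB wL
  rw [Matrix.sum_mul, Matrix.mul_sum]
  refine Finset.sum_congr rfl fun b hb => ?_
  have hb0 : b ≠ 0 := by
    intro h; subst h; simp at hb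
  rw [Matrix.smul_mul, Matrix.mul_smul, Matrix.sub_mul, Matrix.smul_mul, Matrix.smul_mul,
    P4_eM b hb0, Matrix.mul_sub, Matrix.mul_smul, Matrix.mul_smul, Matrix.one_mul, Matrix.mul_one,
    Matrix.mul_neg]
  congr 1
  module

theorem wB_transpose (u : Fin 4 → ℝ) : (wB u)ᵀ = wB u := by
  unfold wB
  rw [Matrix.transpose_sum]
  refine Finset.sum_congr rfl fun b _ => ?_
  simp [P4_transpose]

/-- the perturbation -/
noncomputable def D1 (r s : Fin n → Fin n → Fin 4 → ℝ) (u : Fin n → Fin 4 → ℝ) (kap : ℝ) :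
    Matrix (Fin n → B4) (Fin n → B4) ℝ :=
  ∑ p, O p (wB (u p)) + kap • ∑ x ∈ pairs n, Vpq x.1 x.2 (r x.1 x.2) (s x.1 x.2)

/-- local part of the effective Hamiltonian -/
noncomputable def AL (u : Fin n → Fin 4 → ℝ) : Matrix (Fin n → Bool) (Fin n → Bool) ℝ :=
  ∑ p, O p (wL (u p))

/-- off-diagonal part -/
noncomputable def YY (r s : Fin n → Fin n → Fin 4 → ℝ) (kap : ℝ) :
    Matrix (Fin n → B4) (Fin n → Bool) ℝ :=
  kap • ∑ x ∈ pairs n, Vpq x.1 x.2 (r x.1 x.2) (s x.1 x.2) * iota n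

/-- second order form -/
noncomputable def SO (r s : Fin n → Fin n → Fin 4 → ℝ) :
    Matrix (Fin n → Bool) (Fin n → Bool) ℝ :=
  ∑ x ∈ pairs n, O x.1 (RR (r x.1 x.2)) * O x.2 (RR (s x.1 x.2))

theorem YY_sq (r s : Fin n → Fin n → Fin 4 → ℝ) (kap : ℝ) :
    (YY r s kap)ᵀ * YY r s kap = (kap ^ 2 / 3) • SO r s := by
  unfold YY SO
  rw [Matrix.transpose_smul, Matrix.smul_mul, Matrix.mul_smul, smul_smul, Matrix.transpose_sum,
    Matrix.sum_mul]
  have key : ∀ x ∈ pairs n, (Vpq x.1 x.2 (r x.1 x.2) (s x.1 x.2) * iota n)ᵀ *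
      ∑ y ∈ pairs n, Vpq y.1 y.2 (r y.1 y.2) (s y.1 y.2) * iota n =
      (1 / 3 : ℝ) • (O x.1 (RR (r x.1 x.2)) * O x.2 (RR (s x.1 x.2))) := by
    intro x hx
    have hx' : x.1 < x.2 := by simpa [pairs] using hx
    rw [Matrix.mul_sum, Finset.sum_eq_single x]
    · exact Vpq_sq hx'.ne _ _
    · intro y hy hne
      have hy' : y.1 < y.2 := by simpa [pairs] using hy
      exact Vpq_orth hx' hy' (fun h => hne (by rw [Prod.ext_iff] at h ⊢; exact ⟨h.1.symm, h.2.symm⟩))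
        _ _ _ _
    · intro h; exact absurd hx h
  rw [Finset.sum_congr rfl key, ← Finset.smul_sum, smul_smul]
  congr 1
  ring

theorem pertData (r s : Fin n → Fin n → Fin 4 → ℝ) (u : Fin n → Fin 4 → ℝ) {kap J0 d m hb : ℝ}
    (hJ : 0 < J0) (hk : kap ^ 2 = 6 * J0) (hd0 : 0 ≤ d) (hm0 : 0 ≤ m) (hb0 : 0 ≤ hb)
    (hd : NB (D1 r s u kap) d) (hm : NB (AL u - SO r s) m) (hhb : NB (SO r s) hb)
    (hc : d + m + hb ≤ J0 / 2) :
    PertData (iota n) (YY r s kap) (J0 • ∑ p : Fin n, O p K4) (D1 r s u kap) (AL u) J0 d m hb where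
  iso := iota_iso
  H0s := by rw [Matrix.transpose_smul, K_transpose]
  H0p x := by
    rw [smul_mulVec, dotProduct_smul, smul_eq_mul]
    exact mul_nonneg hJ.le (K_nonneg x)
  H0ι := by rw [Matrix.smul_mul, K_iota, smul_zero]
  gap q hq := by
    rw [smul_mulVec, dotProduct_smul, smul_eq_mul]
    exact mul_le_mul_of_nonneg_left (gap_K q hq) hJ.le
  D1s := by
    unfold D1
    rw [Matrix.transpose_add, Matrix.transpose_smul, Matrix.transpose_sum, Matrix.transpose_sum]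
    congr 1
    · exact Finset.sum_congr rfl fun p _ => by rw [O_transpose, wB_transpose]
    · congr 1
      refine Finset.sum_congr rfl fun x hx => ?_
      have hx' : x.1 < x.2 := by simpa [pairs] using hx
      exact Vpq_transpose hx'.ne _ _
  D1ι := by
    unfold D1 AL YY
    rw [Matrix.add_mul, Matrix.smul_mul, Matrix.sum_mul, Matrix.sum_mul, Matrix.mul_sum]
    congr 1
    refine Finset.sum_congr rfl fun p _ => ?_
    unfold iota
    rw [O_mul_T, T_mul_O, wB_eM]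
  hY := by
    unfold YY
    rw [Matrix.mul_smul, Matrix.mul_sum]
    rw [Finset.sum_eq_zero, smul_zero]
    intro x hx
    have hx' : x.1 < x.2 := by simpa [pairs] using hx
    exact iota_Vpq_iota hx'.ne _ _
  H0Y := by
    unfold YY
    rw [Matrix.smul_mul, Matrix.mul_smul, Matrix.mul_sum]
    have : ∑ x ∈ pairs n, (∑ p : Fin n, O p K4) * (Vpq x.1 x.2 (r x.1 x.2) (s x.1 x.2) * iota n) =
        ∑ x ∈ pairs n, (2 : ℝ) • (Vpq x.1 x.2 (r x.1 x.2) (s x.1 x.2) * iota n) := by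
      refine Finset.sum_congr rfl fun x hx => ?_
      have hx' : x.1 < x.2 := by simpa [pairs] using hx
      exact K_Vpq_iota hx'.ne _ _
    rw [this, ← Finset.smul_sum]
    module
  hd := hd.form
  hm φ := by
    have h1 : (YY r s kap *ᵥ φ) ⬝ᵥ (YY r s kap *ᵥ φ) = 2 * J0 * (φ ⬝ᵥ (SO r s *ᵥ φ)) := by
      rw [dotProduct_comm, dot_mulVec_transpose, mulVec_mulVec, YY_sq, smul_mulVec, smul_dotProduct,
        smul_eq_mul, hk, dotProduct_comm]
      ring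
    have h2 := hm.form φ
    rw [sub_mulVec, dotProduct_sub] at h2
    rw [h1]
    have h3 : 1 / (2 * J0) * (2 * J0 * (φ ⬝ᵥ (SO r s *ᵥ φ))) = φ ⬝ᵥ (SO r s *ᵥ φ) := by
      field_simp
    rw [h3]
    exact h2
  hhb φ := by
    have h1 : (YY r s kap *ᵥ φ) ⬝ᵥ (YY r s kap *ᵥ φ) = 2 * J0 * (φ ⬝ᵥ (SO r s *ᵥ φ)) := by
      rw [dotProduct_comm, dot_mulVec_transpose, mulVec_mulVec, YY_sq, smul_mulVec, smul_dotProduct,
        smul_eq_mul, hk, dotProduct_comm]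
      ring
    rw [h1]
    have h2 := (le_abs_self _).trans (hhb.form φ)
    exact mul_le_mul_of_nonneg_left h2 (by positivity)
  J0pos := hJ
  d0 := hd0
  m0 := hm0
  hb0 := hb0
  cond := hc

/-- effective energy is the form of `AL - SO` -/
theorem eff_eq (r s : Fin n → Fin n → Fin 4 → ℝ) (u : Fin n → Fin 4 → ℝ) {kap J0 : ℝ}
    (hJ : 0 < J0) (hk : kap ^ 2 = 6 * J0) (φ : (Fin n → Bool) → ℝ) :
    PertData.eff (AL u) (YY r s kap) J0 φ = φ ⬝ᵥ ((AL u - SO r s) *ᵥ φ) := by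
  unfold PertData.eff
  have h1 : (YY r s kap *ᵥ φ) ⬝ᵥ (YY r s kap *ᵥ φ) = 2 * J0 * (φ ⬝ᵥ (SO r s *ᵥ φ)) := by
    rw [dotProduct_comm, dot_mulVec_transpose, mulVec_mulVec, YY_sq, smul_mulVec, smul_dotProduct,
      smul_eq_mul, hk, dotProduct_comm]
    ring
  rw [h1, sub_mulVec, dotProduct_sub]
  field_simp

end Crest.Agent.R338.HB
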