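import Crest.Agent.R338.Pauli
import Crest.Agent.R338.Iface
import Crest.Agent.R338.Nu0

-- ▼ part R338/XZ
section

/-!
# Row 338: interface between node I.3 (mediators) and node I.4 (Heisenberg blocks)

`XZ n` = real data of a two-local `XZ` Hamiltonian with one rank-one coupling on every pair `p < q`.
`XInst` = coded rational instances; the `X` coefficients are `√3` times a rational number, the `Z`
coefficients are rational.
-/

set_option autoImplicit false

noncomputable section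

open Crest.Quantum.QMA Crest.Agent.Lib.PT

namespace Crest.Agent.R338

/-- data of a two-local `XZ` Hamiltonian with one rank-one coupling on every pair `p < q` -/
structure XZ (n : ℕ) where
  /-- local `X` fields -/
  fx : Fin n → ℝ
  /-- local `Z` fields -/
  fz : Fin n → ℝ
  /-- `X` coefficient of the first factor -/
  ax : Fin n → Fin n → ℝ
  /-- `Z` coefficient of the first factor -/
  az : Fin n → Fin n → ℝ
  /-- `X` coefficient of the second factor -/
  bx : Fin n → Fin n → ℝ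
  /-- `Z` coefficient of the second factor -/
  bz : Fin n → Fin n → ℝ

/-- the Hamiltonian -/
def XZ.op {n : ℕ} (D : XZ n) : Op (Fin n) :=
  ∑ p, (D.fx p • X p + D.fz p • Z p) +
  ∑ p, ∑ q, if p < q then
    (D.ax p q • X p + D.az p q • Z p) * (D.bx p q • X q + D.bz p q • Z q) else 0

/-- A coded `XZ` instance `(((n, q), b), ((local fields (x, z), couplings ((ax, az), (bx, bz)) row
major), e))`; `n`, `q`, `b` in unary; all `X` coefficients are in units of `√3`; `b` bounds all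
coefficients. -/
abbrev XInst := ((Un × Un) × Un) × ((List (ℚ × ℚ) × List ((ℚ × ℚ) × (ℚ × ℚ))) × ℚ)

namespace XInst
/-- number of qubits -/
def n (x : XInst) : ℕ := x.1.1.1.val
/-- inverse promise gap -/
def q (x : XInst) : ℕ := x.1.1.2.val
/-- bound for the coefficients -/
def b (x : XInst) : ℕ := x.1.2.val
/-- local field `(x, z)` at `p` -/
def fl (x : XInst) (p : ℕ) : ℚ × ℚ := x.2.1.1.getD p (0, 0)
/-- coupling `((ax, az), (bx, bz))` of the pair `p < q` -/
def cp (x : XInst) (p q : ℕ) : (ℚ × ℚ) × (ℚ × ℚ) := x.2.1.2.getD (p * x.n + q) ((0, 0), (0, 0))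
/-- threshold -/
def e (x : XInst) : ℚ := x.2.2
/-- the real data -/
def xz (x : XInst) : XZ x.n where
  fx p := √3 * ((x.fl p).1 : ℝ)
  fz p := ((x.fl p).2 : ℝ)
  ax p q := √3 * ((x.cp p q).1.1 : ℝ)
  az p q := ((x.cp p q).1.2 : ℝ)
  bx p q := √3 * ((x.cp p q).2.1 : ℝ)
  bz p q := ((x.cp p q).2.2 : ℝ)
/-- validity -/
def Valid (x : XInst) : Prop := 1 ≤ x.n ∧ 1 ≤ x.q ∧ 1 ≤ x.b ∧
  (∀ p < x.n, |(x.fl p).1| ≤ x.b ∧ |(x.fl p).2| ≤ x.b) ∧
  (∀ p < x.n, ∀ q < x.n, p < q → |(x.cp p q).1.1| ≤ x.b ∧ |(x.cp p q).1.2| ≤ x.b ∧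
    |(x.cp p q).2.1| ≤ x.b ∧ |(x.cp p q).2.2| ≤ x.b)
/-- YES instance -/
def Yes (x : XInst) : Prop := ∃ φ : Q (Fin x.n), nsq φ = 1 ∧ E x.xz.op φ ≤ (x.e : ℝ)
/-- NO instance -/
def No (x : XInst) : Prop := ∀ φ : Q (Fin x.n), nsq φ = 1 →
  (x.e : ℝ) + 1 / (x.q : ℝ) ≤ E x.xz.op φ
end XInst

/-- PART I, first half (nodes I.1, I.2, I.3): `QMA → XZ` -/
def PartIaStmt : Prop := ∀ P : Promise, InQMA P → ∃ g : Bits → XInst, PTF g ∧
  (∀ x, (g x).Valid) ∧ (∀ x : Bits, x.val ∈ P.yes → (g x).Yes) ∧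
  (∀ x : Bits, x.val ∈ P.no → (g x).No)

/-- PART I, second half (node I.4): `XZ → Heisenberg` -/
def PartIbStmt : Prop := ∃ F : XInst → HInst, PTF F ∧
  (∀ x : XInst, x.Valid → (F x).Valid) ∧ (∀ x : XInst, x.Valid → x.Yes → (F x).Yes) ∧
  (∀ x : XInst, x.Valid → x.No → (F x).No)

theorem partI_of (ha : PartIaStmt) (hb : PartIbStmt) : PartIStmt := by
  intro P hP
  obtain ⟨g, hg, hv, hy, hn⟩ := ha P hP
  obtain ⟨F, hF, hFv, hFy, hFn⟩ := hb
  exact ⟨fun x => F (g x), hF.comp hg, fun x => hFv _ (hv x), fun x hx => hFy _ (hv x) (hy x hx),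
    fun x hx => hFn _ (hv x) (hn x hx)⟩

end Crest.Agent.R338

end
end

-- ▼ part R338/P1Fin

/-!
Row 338, node P1 (assembly of Part I), last step: from real couplings computable in polynomial
time to a coded Heisenberg instance.
-/

set_option autoImplicit false

noncomputable section

namespace Crest.Agent.R338.P1

open Finset Crest.Agent.Lib.PT Crest.Agent.R338.Nu
open scoped ComplexConjugate

section heis
variable {n : ℕ}

/-- overlap with the swapped state -/
def swapR (i j : Fin n) (φ : Q (Fin n)) : ℝ := ∑ σ, φ σ * φ (σ ∘ Equiv.swap i j)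

/-- real Heisenberg form -/
def heisR (J : Fin n → Fin n → ℝ) (φ : Q (Fin n)) : ℝ :=
  ∑ i, ∑ j, if i < j then J i j * ((1 / 2) * swapR i j φ - (1 / 4) * nsq φ) else 0

lemma nrmSq_split (ψ : (Fin n → Bool) → ℂ) :
    nrmSq ψ = nsq (fun σ => (ψ σ).re) + nsq (fun σ => (ψ σ).im) := by
  simp only [nrmSq, nsq_eq_sum, ← Finset.sum_add_distrib]
  refine Finset.sum_congr rfl fun σ _ => ?_
  rw [← Complex.normSq_eq_norm_sq, Complex.normSq_apply]; ring

lemma swapExp_split (i j : Fin n) (ψ : (Fin n → Bool) → ℂ) :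
    swapExp i j ψ = swapR i j (fun σ => (ψ σ).re) + swapR i j (fun σ => (ψ σ).im) := by
  simp only [swapExp, swapR, ← Finset.sum_add_distrib]
  refine Finset.sum_congr rfl fun σ _ => ?_
  simp [Complex.mul_re]

lemma heis_split (J : Fin n → Fin n → ℝ) (ψ : (Fin n → Bool) → ℂ) :
    heis J ψ = heisR J (fun σ => (ψ σ).re) + heisR J (fun σ => (ψ σ).im) := by
  simp only [heis, heisR, ← Finset.sum_add_distrib]
  refine Finset.sum_congr rfl fun i _ => Finset.sum_congr rfl fun j _ => ?_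
  split_ifs
  · rw [swapExp_split, nrmSq_split]; ring
  · simp

lemma nrmSq_ofReal (φ : Q (Fin n)) : nrmSq (fun σ => (φ σ : ℂ)) = nsq φ := by
  rw [nrmSq_split]
  have h1 : (fun σ => ((φ σ : ℂ)).re) = φ := by funext σ; simp
  have h2 : (fun σ => ((φ σ : ℂ)).im) = 0 := by funext σ; simp
  rw [h1, h2]; simp [nsq]

lemma heisR_zero (J : Fin n → Fin n → ℝ) : heisR J 0 = 0 := by
  simp [heisR, swapR, nsq]

lemma heis_ofReal (J : Fin n → Fin n → ℝ) (φ : Q (Fin n)) :
    heis J (fun σ => (φ σ : ℂ)) = heisR J φ := by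
  rw [heis_split]
  have h1 : (fun σ => ((φ σ : ℂ)).re) = φ := by funext σ; simp
  have h2 : (fun σ => ((φ σ : ℂ)).im) = 0 := by funext σ; simp
  rw [h1, h2, heisR_zero, add_zero]

lemma abs_swapR_le (i j : Fin n) (φ : Q (Fin n)) : |swapR i j φ| ≤ nsq φ := by
  have h := abs_dot_le φ (fun σ => φ (σ ∘ Equiv.swap i j))
  have h2 : nsq (fun σ : Fin n → Bool => φ (σ ∘ Equiv.swap i j)) = nsq φ := by
    rw [nsq_eq_sum, nsq_eq_sum]
    exact Equiv.sum_comp (Equiv.arrowCongr (Equiv.swap i j) (Equiv.refl Bool))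
      (fun σ => φ σ ^ 2)
  rw [h2] at h
  have h3 : swapR i j φ = φ ⬝ᵥ (fun σ => φ (σ ∘ Equiv.swap i j)) := rfl
  rw [h3]
  linarith

lemma heisR_perturb {J J' : Fin n → Fin n → ℝ} {ε : ℝ} (h : ∀ i j, |J i j - J' i j| ≤ ε)
    (φ : Q (Fin n)) : |heisR J φ - heisR J' φ| ≤ (n : ℝ) ^ 2 * ε * nsq φ := by
  have h0 := nsq_nonneg φ
  have e : heisR J φ - heisR J' φ = ∑ i, ∑ j, if i < j then
      (J i j - J' i j) * ((1 / 2) * swapR i j φ - (1 / 4) * nsq φ) else 0 := by
    simp only [heisR, ← Finset.sum_sub_distrib]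
    refine Finset.sum_congr rfl fun i _ => Finset.sum_congr rfl fun j _ => ?_
    split_ifs
    · ring
    · simp
  rw [e]
  have hb : ∀ i j, |if i < j then
      (J i j - J' i j) * ((1 / 2) * swapR i j φ - (1 / 4) * nsq φ) else 0| ≤ ε * nsq φ := by
    intro i j
    have hε : 0 ≤ ε := (abs_nonneg _).trans (h i j)
    split_ifs
    · rw [abs_mul]
      refine mul_le_mul (h i j) ?_ (abs_nonneg _) hε
      have := abs_le.1 (abs_swapR_le i j φ)
      rw [abs_le]; constructor <;> linarith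
    · simpa using mul_nonneg hε h0
  refine (Finset.abs_sum_le_sum_abs _ _).trans ?_
  refine (Finset.sum_le_sum fun i _ => (Finset.abs_sum_le_sum_abs _ _).trans
    (Finset.sum_le_sum fun j _ => hb i j)).trans ?_
  simp only [Finset.sum_const, Finset.card_univ, Fintype.card_fin, nsmul_eq_mul]
  apply le_of_eq; ring

/-- complex YES from real YES -/
lemma yes_of_real {J : Fin n → Fin n → ℝ} {e : ℝ} (h : ∃ φ : Q (Fin n), nsq φ = 1 ∧ heisR J φ ≤ e) :
    ∃ ψ : (Fin n → Bool) → ℂ, nrmSq ψ = 1 ∧ heis J ψ ≤ e := by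
  obtain ⟨φ, h1, h2⟩ := h
  exact ⟨fun σ => (φ σ : ℂ), by rw [nrmSq_ofReal, h1], by rw [heis_ofReal]; exact h2⟩

/-- complex NO from real NO -/
lemma no_of_real {J : Fin n → Fin n → ℝ} {μ : ℝ} (h : ∀ φ : Q (Fin n), μ * nsq φ ≤ heisR J φ)
    (ψ : (Fin n → Bool) → ℂ) (hψ : nrmSq ψ = 1) : μ ≤ heis J ψ := by
  rw [heis_split]
  have h1 := h (fun σ => (ψ σ).re)
  have h2 := h (fun σ => (ψ σ).im)
  rw [nrmSq_split] at hψ
  have h3 : μ * nsq (fun σ => (ψ σ).re) + μ * nsq (fun σ => (ψ σ).im) = μ := by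
    rw [← mul_add, hψ, mul_one]
  linarith

end heis

/-! ### final rounding -/

section fin
variable {α : Type} [PTCode α]

lemma half_pow_le (k : ℕ) (hk : 1 ≤ k) : (1 / 2 : ℝ) ^ k ≤ 1 / k := by
  have h : (k : ℝ) ≤ 2 ^ k := by exact_mod_cast Nat.lt_two_pow_self.le
  rw [one_div, inv_pow, one_div]
  exact inv_anti₀ (by exact_mod_cast hk) h

/-- FINAL STEP of Part I: rounding real couplings. -/
theorem finalize (n q : α → ℕ) (hn : PTU n) (hq : PTU q) (hn2 : ∀ a, 2 ≤ n a) (hq1 : ∀ a, 1 ≤ q a)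
    (J : α → ℕ → ℕ → ℝ) (hJ : PTR (fun p : α × (ℕ × ℕ) => J p.1 p.2.1 p.2.2))
    (hJ0 : ∀ a i j, 0 ≤ J a i j) (hJ1 : ∀ a i j, J a i j ≤ 1)
    (lo : α → ℝ) (hlo : PTR lo) :
    ∃ g : α → HInst, PTF g ∧ (∀ a, (g a).Valid) ∧
      (∀ a, (∃ φ : Q (Fin (n a)), nsq φ = 1 ∧ heisR (fun i j => J a i j) φ ≤ lo a) → (g a).Yes) ∧
      (∀ a, (∀ φ : Q (Fin (n a)), (lo a + 1 / (q a : ℝ)) * nsq φ ≤
        heisR (fun i j => J a i j) φ) → (g a).No) := by
  -- precision
  have hk : PTU (fun a => 8 * q a * (n a * n a)) :=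
    PTU.mul (PTU.mul (PTU.const 8) hq) (PTU.mul hn hn)
  obtain ⟨qJ, hqJ, hqJ'⟩ := hJ.get (γ := α × (ℕ × ℕ)) (k := fun p => 8 * q p.1 * (n p.1 * n p.1))
    PTF.id (PTU.comp hk PTF.fst)
  obtain ⟨qe, hqe, hqe'⟩ := hlo.approx hk
  -- couplings
  let c : α → ℕ → ℚ := fun a m => max 0 (min 1 (qJ (a, (m / n a, m % n a))))
  let g : α → HInst := fun a => ((Un.mk (n a), Un.mk (2 * q a)),
    ((List.range (n a * n a)).map (c a), qe a + 1 / (4 * (q a : ℚ))))
  have hc : PTF₂ c := by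
    have h1 : PTF (fun p : α × ℕ => n p.1) := (PTU.comp hn PTF.fst).toPTF
    have h2 : PTF (fun p : α × ℕ => qJ (p.1, (p.2 / n p.1, p.2 % n p.1))) :=
      PTF.comp hqJ (PTF.prodMk PTF.fst (PTF.prodMk (PTF.natDiv PTF.snd h1) (PTF.natMod PTF.snd h1)))
    exact PTF.ratMax (PTF.const 0) (PTF.ratMin (PTF.const 1) h2)
  have hg : PTF g := by
    refine PTF.prodMk (PTF.prodMk hn (PTU.mul (PTU.const 2) hq)) (PTF.prodMk ?_ ?_)
    · exact PTF.tabulate (PTU.mul hn hn) hc
    · exact PTF.ratAdd hqe (PTF.ratDiv (PTF.const 1) (PTF.ratMul (PTF.const 4)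
        (PTF.ratNatCast hq.toPTF)))
  have hc0 : ∀ a m, 0 ≤ c a m := fun a m => le_max_left _ _
  have hc1 : ∀ a m, c a m ≤ 1 := fun a m => max_le (by norm_num) (min_le_left _ _)
  have hgJ : ∀ a i j, (g a).J i j = if i * n a + j < n a * n a then c a (i * n a + j) else 0 := by
    intro a i j
    show ((List.range (n a * n a)).map (c a)).getD (i * n a + j) 0 = _
    rw [List.getD_eq_getElem?_getD, List.getElem?_map]
    split_ifs with h
    · rw [List.getElem?_range h]; simp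
    · rw [List.getElem?_eq_none (by simpa using h)]; simp
  have hkey : ∀ a (i j : Fin (n a)), |J a i j - (((g a).J i j : ℚ) : ℝ)| ≤
      1 / (8 * q a * (n a) ^ 2) := by
    intro a i j
    have hlt : (i : ℕ) * n a + j < n a * n a := by
      have hi := i.2
      have hj := j.2
      calc (i : ℕ) * n a + j < i * n a + n a := by omega
        _ = (i + 1) * n a := by ring
        _ ≤ n a * n a := Nat.mul_le_mul_right _ hi
    rw [hgJ, if_pos hlt]
    have hpos : 0 < n a := by have := hn2 a; omega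
    have e1 : ((i : ℕ) * n a + j) / n a = i := by
      rw [Nat.add_comm, Nat.add_mul_div_right _ _ hpos, Nat.div_eq_of_lt j.2, zero_add]
    have e2 : ((i : ℕ) * n a + j) % n a = j := by
      rw [Nat.add_comm, Nat.add_mul_mod_self_right, Nat.mod_eq_of_lt j.2]
    have hb := hqJ' (a, ((i : ℕ), (j : ℕ)))
    simp only at hb
    have hK : 1 ≤ 8 * q a * (n a * n a) := by
      have h1 := hq1 a
      have h2 := hn2 a
      have : 1 ≤ n a * n a := Nat.one_le_iff_ne_zero.2 (by positivity)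
      calc 1 ≤ 8 * 1 * 1 := by norm_num
        _ ≤ 8 * q a * (n a * n a) := by gcongr
    have hb2 := hb.trans (half_pow_le _ hK)
    have h3 : c a ((i : ℕ) * n a + j) = max 0 (min 1 (qJ (a, ((i : ℕ), (j : ℕ))))) := by
      show max 0 (min 1 (qJ (a, (((i : ℕ) * n a + j) / n a, ((i : ℕ) * n a + j) % n a)))) = _
      rw [e1, e2]
    rw [h3]
    have h4 : |J a i j - ((max 0 (min 1 (qJ (a, ((i : ℕ), (j : ℕ))))) : ℚ) : ℝ)| ≤
        |((qJ (a, ((i : ℕ), (j : ℕ))) : ℚ) : ℝ) - J a i j| := by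
      push_cast
      have a0 := hJ0 a i j
      have a1 := hJ1 a i j
      rcases le_total ((qJ (a, ((i : ℕ), (j : ℕ))) : ℚ) : ℝ) 1 with h | h
      · rw [min_eq_right h]
        rcases le_total 0 ((qJ (a, ((i : ℕ), (j : ℕ))) : ℚ) : ℝ) with h' | h'
        · rw [max_eq_right h', abs_sub_comm]
        · rw [max_eq_left h', sub_zero, abs_of_nonneg a0, abs_sub_comm, abs_of_nonneg (by linarith)]
          linarith
      · rw [min_eq_left h, max_eq_right (by norm_num : (0 : ℝ) ≤ 1), abs_sub_comm,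
          abs_of_nonneg (by linarith : (0 : ℝ) ≤ 1 - J a i j), abs_of_nonneg (by linarith)]
        linarith
    refine h4.trans (hb2.trans (le_of_eq ?_))
    push_cast; ring
  have hpert : ∀ a (φ : Q (Fin (n a))), |heisR (fun i j => J a i j) φ - heisR (g a).Jr φ| ≤
      1 / (8 * q a) * nsq φ := by
    intro a φ
    have h := heisR_perturb (J := fun i j : Fin (n a) => J a i j) (J' := (g a).Jr) (hkey a) φ
    refine h.trans (le_of_eq ?_)
    have hpos : (0 : ℝ) < n a := by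
      have := hn2 a
      exact_mod_cast (by omega : 0 < n a)
    have hq0 : (0 : ℝ) < q a := by exact_mod_cast hq1 a
    field_simp
  have hqe2 : ∀ a, |((qe a : ℚ) : ℝ) - lo a| ≤ 1 / (8 * q a) := by
    intro a
    have hK : 1 ≤ 8 * q a * (n a * n a) := by
      have h1 := hq1 a
      have h2 := hn2 a
      have : 1 ≤ n a * n a := Nat.one_le_iff_ne_zero.2 (by positivity)
      calc 1 ≤ 8 * 1 * 1 := by norm_num
        _ ≤ 8 * q a * (n a * n a) := by gcongr
    refine (hqe' a).trans ((half_pow_le _ hK).trans ?_)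
    have hq0 : (0 : ℝ) < q a := by exact_mod_cast hq1 a
    have hn0 : (1 : ℝ) ≤ n a := by
      have := hn2 a
      exact_mod_cast (by omega : 1 ≤ n a)
    push_cast
    apply one_div_le_one_div_of_le (by positivity)
    have : (1 : ℝ) ≤ n a * n a := by nlinarith
    nlinarith
  refine ⟨g, hg, ?_, ?_, ?_⟩
  · intro a
    refine ⟨hn2 a, ?_, ?_⟩
    · show 1 ≤ 2 * q a
      have := hq1 a; omega
    · intro i j
      rw [hgJ]
      split_ifs
      · exact ⟨hc0 _ _, hc1 _ _⟩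
      · exact ⟨le_rfl, by norm_num⟩
  · intro a ⟨φ, h1, h2⟩
    have hq0 : (0 : ℝ) < q a := by exact_mod_cast hq1 a
    refine yes_of_real ⟨φ, h1, ?_⟩
    have h3 := abs_le.1 (hpert a φ)
    have h4 := abs_le.1 (hqe2 a)
    rw [h1] at h3
    have h5 : (((g a).e : ℚ) : ℝ) = (qe a : ℝ) + 1 / (4 * q a) := by
      show ((qe a + 1 / (4 * (q a : ℚ)) : ℚ) : ℝ) = _
      push_cast; ring
    rw [h5]
    have h6 : (1 : ℝ) / (4 * q a) = 1 / (8 * q a) + 1 / (8 * q a) := by field_simp; norm_num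
    rw [h6]
    linarith [h3.1, h3.2, h4.1, h4.2]
  · intro a h ψ hψ
    have hq0 : (0 : ℝ) < q a := by exact_mod_cast hq1 a
    have h5 : (((g a).e : ℚ) : ℝ) = (qe a : ℝ) + 1 / (4 * q a) := by
      show ((qe a + 1 / (4 * (q a : ℚ)) : ℚ) : ℝ) = _
      push_cast; ring
    have hqq : (((g a).q : ℕ) : ℝ) = 2 * q a := by
      show ((2 * q a : ℕ) : ℝ) = _
      push_cast; ring
    have key : ∀ φ : Q (Fin (n a)), (((g a).e : ℝ) + 1 / ((g a).q : ℝ)) * nsq φ
        ≤ heisR (g a).Jr φ := ?_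
    · exact no_of_real (n := n a) key ψ hψ
    intro φ
    have h3 := abs_le.1 (hpert a φ)
    have h4 := abs_le.1 (hqe2 a)
    have h7 := h φ
    have h0 := nsq_nonneg φ
    rw [h5, hqq]
    have h8 : (qe a : ℝ) + 1 / (4 * q a) + 1 / (2 * q a) ≤ lo a + 1 / q a - 1 / (8 * q a) := by
      have e1 : (1 : ℝ) / (4 * q a) = 2 * (1 / (8 * q a)) := by field_simp; norm_num
      have e2 : (1 : ℝ) / (2 * q a) = 4 * (1 / (8 * q a)) := by field_simp; norm_num
      have e3 : (1 : ℝ) / (q a) = 8 * (1 / (8 * q a)) := by field_simp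
      rw [e1, e2, e3]
      linarith [h4.2]
    have h9 := mul_le_mul_of_nonneg_right h8 h0
    have h10 : (lo a + 1 / q a - 1 / (8 * q a)) * nsq φ
        = (lo a + 1 / q a) * nsq φ - 1 / (8 * q a) * nsq φ := by ring
    rw [h10] at h9
    exact h9.trans (by linarith [h3.2])

end fin

end Crest.Agent.R338.P1

end
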