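import Mathlib

/-!
Row 338 (S0529), blueprint part 4 (proton lattice), definitions and statements of the nodes.

Everything in scaled units, `P3 = EuclideanSpace ℝ (Fin 3)` (`= Pos3` of the Prelude).
-/

set_option autoImplicit false

noncomputable section
open MeasureTheory Real Set

namespace Crest.Agent.R338.Lat

/-- one-particle position space -/
abbrev P3 := EuclideanSpace ℝ (Fin 3)

/-- the index box `|α|_∞ ≤ nL` -/
def Box (nL : ℕ) : Finset (Fin 3 → ℤ) := Fintype.piFinset fun _ => Finset.Icc (-(nL : ℤ)) (nL : ℤ)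

/-- lattice point `s α` -/
def pt (s : ℝ) (α : Fin 3 → ℤ) : P3 := WithLp.toLp 2 fun c => s * (α c : ℝ)

/-- `E_τ(x) = exp(-τ² |x|²)` -/
def gau (τ : ℝ) (x : P3) : ℝ := Real.exp (-(τ ^ 2 * ‖x‖ ^ 2))

/-- long range part `erf(√a r)/r` -/
def LR (a : ℝ) (x : P3) : ℝ := 2 / √π * ∫ τ in (0 : ℝ)..√a, gau τ x

/-- short range part `erfc(√a r)/r` -/
def SR (a : ℝ) (x : P3) : ℝ := 1 / ‖x‖ - LR a x

/-- the smooth one-proton potential -/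
def Psi (lam a : ℝ) (x : P3) : ℝ := -(lam * LR a x) - lam * √(a / π) * gau (√a) x

/-- the singular remainder: `-λ/r = Psi + k1` -/
def k1 (lam a : ℝ) (x : P3) : ℝ := -(lam * (1 / ‖x‖)) - Psi lam a x

/-- the field with `div F1 = k1`, `|F1| ≤ (λ/2) exp(-a r²)` -/
def F1 (lam a : ℝ) (x : P3) : P3 := (-(lam / 2) * SR a x) • x

/-- displaced proton positions -/
def nuc (s : ℝ) (d : (Fin 3 → ℤ) → P3) (α : Fin 3 → ℤ) : P3 := pt s α - d α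

/-- nuclear potential -/
def Vnuc (lam s : ℝ) (nL : ℕ) (d : (Fin 3 → ℤ) → P3) (x : P3) : ℝ :=
  ∑ α ∈ Box nL, -(lam * (1 / ‖x - nuc s d α‖))

/-- its smooth part -/
def Vs (lam s a : ℝ) (nL : ℕ) (d : (Fin 3 → ℤ) → P3) (x : P3) : ℝ :=
  ∑ α ∈ Box nL, Psi lam a (x - nuc s d α)

/-- its singular part -/
def kk (lam s a : ℝ) (nL : ℕ) (d : (Fin 3 → ℤ) → P3) (x : P3) : ℝ :=
  ∑ α ∈ Box nL, k1 lam a (x - nuc s d α)

/-- the field with `div FF = kk` -/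
def FF (lam s a : ℝ) (nL : ℕ) (d : (Fin 3 → ℤ) → P3) (x : P3) : P3 :=
  ∑ α ∈ Box nL, F1 lam a (x - nuc s d α)

/-- 1D lattice sum -/
def Sx (s : ℝ) (nL : ℕ) (x τ : ℝ) : ℝ :=
  ∑ k ∈ Finset.Icc (-(nL : ℤ)) (nL : ℤ), Real.exp (-(τ ^ 2 * (x - s * (k : ℝ)) ^ 2))

/-- potential of the undisplaced lattice, product form -/
def V0 (lam s a : ℝ) (nL : ℕ) (x : P3) : ℝ :=
  -(lam * (2 / √π * ∫ τ in (0 : ℝ)..√a, ∏ c : Fin 3, Sx s nL (x c) τ)) -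
    lam * √(a / π) * ∏ c : Fin 3, Sx s nL (x c) (√a)

theorem Vnuc_eq (lam s a : ℝ) (nL : ℕ) (d : (Fin 3 → ℤ) → P3) (x : P3) :
    Vnuc lam s nL d x = Vs lam s a nL d x + kk lam s a nL d x := by
  unfold Vnuc Vs kk k1
  rw [← Finset.sum_add_distrib]
  exact Finset.sum_congr rfl fun α _ => by ring

theorem norm_sq_P3 (x : P3) : ‖x‖ ^ 2 = ∑ c, x c ^ 2 := by
  rw [EuclideanSpace.norm_sq_eq]
  exact Finset.sum_congr rfl fun c _ => by rw [Real.norm_eq_abs, sq_abs]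

theorem gau_eq_prod (τ : ℝ) (x : P3) : gau τ x = ∏ c, Real.exp (-(τ ^ 2 * x c ^ 2)) := by
  unfold gau
  rw [norm_sq_P3, Finset.mul_sum, ← Finset.sum_neg_distrib, Real.exp_sum]

/-- sums of Gaussians over the box factorise -/
theorem sum_gau (s : ℝ) (nL : ℕ) (τ : ℝ) (x : P3) :
    ∑ α ∈ Box nL, gau τ (x - pt s α) = ∏ c : Fin 3, Sx s nL (x c) τ := by
  unfold Sx Box
  rw [Finset.prod_univ_sum]
  refine Finset.sum_congr rfl fun α _ => ?_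
  rw [gau_eq_prod]
  refine Finset.prod_congr rfl fun c _ => ?_
  simp [pt]

theorem continuous_gau_param (x : P3) : Continuous fun τ : ℝ => gau τ x := by
  unfold gau; fun_prop

theorem continuous_gau (τ : ℝ) : Continuous (gau τ) := by
  unfold gau; fun_prop

/-- the undisplaced lattice -/
theorem Vs_zero (lam s a : ℝ) (nL : ℕ) (x : P3) :
    Vs lam s a nL (fun _ => 0) x = V0 lam s a nL x := by
  unfold Vs V0 Psi LR nuc
  simp only [sub_zero]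
  rw [Finset.sum_sub_distrib, Finset.sum_neg_distrib, ← Finset.mul_sum, ← Finset.mul_sum,
    ← Finset.mul_sum, sum_gau]
  congr 4
  rw [← intervalIntegral.integral_finsetSum
    (fun α _ => (continuous_gau_param (x - pt s α)).intervalIntegrable _ _)]
  congr 1
  ext τ
  rw [sum_gau]

end Crest.Agent.R338.Lat

namespace Crest.Agent.R338.Lat

/-- hypotheses on the cut-off designer potential `w_c` and on the displacements -/
structure Disp (s : ℝ) (d : (Fin 3 → ℤ) → P3) (w : P3 → ℝ) (Lw G eps : ℝ) : Prop where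
  smooth : ContDiff ℝ 1 w
  supp : ∀ x, (∃ c, Lw < |x c|) → w x = 0
  b0 : ∀ x, ‖fderiv ℝ w x‖ ≤ G
  b1 : ∀ x v, ‖fderiv ℝ w (x + v) - fderiv ℝ w x‖ ≤ G * ‖v‖
  b2 : ∀ x v, ‖fderiv ℝ w (x + v) + fderiv ℝ w (x - v) - (2 : ℝ) • fderiv ℝ w x‖ ≤ G * ‖v‖ ^ 2
  dapp : ∀ α, ‖d α - (s ^ 3 / (4 * π)) • gradient w (pt s α)‖ ≤ eps
  dsupp : ∀ α, (∃ c, Lw < |s * (α c : ℝ)|) → d α = 0
  dsmall : ∀ α, ‖d α‖ ≤ s / 4

/-- node C.5 (displacements) -/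
def C5Stmt : Prop := ∃ C : ℝ, ∀ (lam s K a : ℝ) (nL : ℕ) (d : (Fin 3 → ℤ) → P3) (w : P3 → ℝ)
    (Lw G eps : ℝ), 0 ≤ lam → 0 < s → s ≤ 1 → 1 ≤ K → a = 1 / (K * s) ^ 2 → 1 ≤ Lw →
    Lw + s ≤ nL * s → 1 ≤ G → 0 ≤ eps → Disp s d w Lw G eps →
    ∀ x, |Vs lam s a nL d x - V0 lam s a nL x - lam * w x| ≤
      C * lam * (G ^ 2 * (s ^ 2 * Lw + K * s) + eps * Lw / s ^ 3)

/-- node C.1, bound of the field -/
def C1Bound : Prop := ∃ C : ℝ, ∀ (lam s K a : ℝ) (nL : ℕ) (d : (Fin 3 → ℤ) → P3),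
    0 ≤ lam → 0 < s → 1 ≤ K → a = 1 / (K * s) ^ 2 → (∀ α, ‖d α‖ ≤ s / 4) →
    ∀ x, ‖FF lam s a nL d x‖ ≤ C * lam * K ^ 3


/-- node C.2 = (N3) -/
def C2Stmt : Prop := ∃ C : ℝ, ∀ (lam s K a : ℝ) (nL : ℕ) (d : (Fin 3 → ℤ) → P3),
    0 ≤ lam → 0 < s → 1 ≤ K → K * s ≤ 1 → a = 1 / (K * s) ^ 2 → (∀ α, ‖d α‖ ≤ s / 4) →
    ∀ (f : P3 → ℂ) (M : ℝ), ContDiff ℝ 1 f → Integrable f → Integrable (fderiv ℝ f) →
      (∀ x v, ‖v‖ ≤ 1 → ‖fderiv ℝ f (x + v) - fderiv ℝ f x‖ ≤ M * ‖v‖ / (1 + ‖x‖) ^ 4) →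
      (∀ x, ‖fderiv ℝ f x‖ ≤ M / (1 + ‖x‖) ^ 4) →
      ‖∫ x, (kk lam s a nL d x : ℂ) * f x‖ ≤ C * lam * M * K ^ 4 * s

end Crest.Agent.R338.Lat
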