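import Mathlib
import Crest.Agent.R338.LatDefs

-- ▼ part R338/GS1
section

/-!
Row 338, node II.C.3/II.C.4, file 1: one dimensional Gaussian lattice sums (scaled, lattice constant 1).
`g u z = exp (-(u^2 z^2))`, `TZ u y = ∑' k : ℤ, g u (y - k)`; Poisson bound
`|TZ u y - √π / u| ≤ (√π / u) * (3 * exp (-(π^2 / u^2)))` for `0 < u ≤ 1`.
-/

set_option autoImplicit false
open Real Finset
open scoped BigOperators

namespace Crest.Agent.R338.GS

noncomputable section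

/-- Gaussian. -/
def g (u z : ℝ) : ℝ := Real.exp (-(u ^ 2 * z ^ 2))

lemma g_pos (u z : ℝ) : 0 < g u z := Real.exp_pos _
lemma g_nonneg (u z : ℝ) : 0 ≤ g u z := (g_pos u z).le
lemma g_neg (u z : ℝ) : g u (-z) = g u z := by unfold g; congr 2; ring
lemma g_zero (u : ℝ) : g u 0 = 1 := by unfold g; simp

/-- full one-dimensional lattice sum -/
def TZ (u y : ℝ) : ℝ := ∑' k : ℤ, g u (y - k)

lemma summable_g_cexp {u : ℝ} (hu : 0 < u) (y : ℝ) : Summable fun k : ℤ => g u (y - k) := by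
  have h1 : Summable fun k : ℤ => Complex.exp (Real.pi * Complex.I * (k:ℂ) ^ 2 * (Complex.I * (u^2 / Real.pi : ℝ)) +
      2 * Real.pi * Complex.I * k * (Complex.I * (-(u^2 * y / Real.pi) : ℝ))) := by
    have him : (Complex.I * ((u^2 / Real.pi : ℝ) : ℂ)).im = u^2 / Real.pi := by
      rw [Complex.mul_im, Complex.I_re, Complex.I_im, Complex.ofReal_re, Complex.ofReal_im]; ring
    have := (summable_jacobiTheta₂_term_iff (Complex.I * (-(u^2 * y / Real.pi) : ℝ)) (Complex.I * (u^2 / Real.pi : ℝ))).mpr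
      (by rw [him]; positivity)
    unfold jacobiTheta₂_term at this
    refine this.congr (fun k => ?_)
    congr 1; ring
  have h2 := h1.norm.mul_left (Real.exp (-(u^2*y^2)))
  refine h2.congr (fun k => ?_)
  rw [Complex.norm_exp, ← Real.exp_add]
  unfold g
  congr 1
  have hpi : (Real.pi : ℝ) ≠ 0 := Real.pi_ne_zero
  have e : (Real.pi * Complex.I * (k:ℂ) ^ 2 * (Complex.I * (u^2 / Real.pi : ℝ)) +
      2 * Real.pi * Complex.I * k * (Complex.I * (-(u^2 * y / Real.pi) : ℝ))) =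
      ((-(u^2*k^2) + 2*u^2*k*y : ℝ) : ℂ) := by
    push_cast
    have hpc : (Real.pi : ℂ) ≠ 0 := by exact_mod_cast hpi
    field_simp
    ring_nf
    rw [Complex.I_sq]
    ring
  rw [e, Complex.ofReal_re]
  ring

/-- Poisson summation for the shifted Gaussian sum. -/
lemma TZ_poisson {u : ℝ} (hu : 0 < u) (y : ℝ) :
    ((TZ u y : ℝ) : ℂ) = ((Real.sqrt Real.pi / u : ℝ) : ℂ) *
      ∑' j : ℤ, Complex.exp (-Real.pi * (Real.pi / u^2 : ℝ) * (j:ℂ)^2 + 2 * Real.pi * (Complex.I * y) * j) := by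
  have ha : 0 < ((Real.pi / u^2 : ℝ) : ℂ).re := by
    rw [Complex.ofReal_re]; positivity
  have h := Complex.tsum_exp_neg_quadratic ha (Complex.I * y)
  rw [h]
  have hpos : 0 < Real.pi / u^2 := by positivity
  have hsq : ((Real.pi / u^2 : ℝ) : ℂ) ^ (1/2 : ℂ) = ((Real.sqrt Real.pi / u : ℝ) : ℂ) := by
    have h1 : ((Real.pi / u^2 : ℝ) : ℂ) ^ (1/2 : ℂ) = (((Real.pi / u^2) ^ (1/2 : ℝ) : ℝ) : ℂ) := by
      rw [Complex.ofReal_cpow hpos.le]; norm_num
    rw [h1, ← Real.sqrt_eq_rpow, Real.sqrt_div Real.pi_pos.le, Real.sqrt_sq hu.le]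
  rw [hsq]
  have hne : ((Real.sqrt Real.pi / u : ℝ) : ℂ) ≠ 0 := by
    have : Real.sqrt Real.pi / u ≠ 0 := by
      have := Real.sqrt_pos.mpr Real.pi_pos
      positivity
    exact_mod_cast this
  rw [← mul_assoc, mul_one_div_cancel hne, one_mul]
  unfold TZ
  rw [Complex.ofReal_tsum]
  congr 1
  ext k
  unfold g
  rw [Complex.ofReal_exp]
  congr 1
  have hpc : (Real.pi : ℂ) ≠ 0 := by exact_mod_cast Real.pi_ne_zero
  have huc : (u : ℂ) ≠ 0 := by exact_mod_cast hu.ne'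
  push_cast
  have : (k : ℂ) + Complex.I * (Complex.I * y) = k - y := by
    rw [← mul_assoc, Complex.I_mul_I]; ring
  rw [this]
  field_simp
  ring

/-- abstract bound for a sum over `ℤ` dominated by a geometric series -/
lemma norm_tsum_int_sub_le {F : ℤ → ℂ} {r : ℝ} (hr0 : 0 ≤ r) (hr1 : r < 1)
    (hF : ∀ j : ℤ, ‖F j‖ ≤ r ^ j.natAbs) : ‖(∑' j : ℤ, F j) - F 0‖ ≤ 2 * (r / (1 - r)) := by
  have hg : Summable fun m : ℕ => r ^ (m + 1) := by
    have := (summable_geometric_of_lt_one hr0 hr1).mul_left r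
    refine this.congr (fun m => ?_); ring
  have hgs : ∑' m : ℕ, r ^ (m+1) = r / (1 - r) := by
    have : ∑' m : ℕ, r ^ (m+1) = r * ∑' m : ℕ, r ^ m := by
      rw [← tsum_mul_left]; congr 1; ext m; ring
    rw [this, tsum_geometric_of_lt_one hr0 hr1]; ring
  have hb1 : ∀ m : ℕ, ‖F ((m:ℤ) + 1)‖ ≤ r ^ (m+1) := fun m => by
    have := hF ((m:ℤ)+1)
    have e : ((m:ℤ)+1).natAbs = m + 1 := by omega
    rwa [e] at this
  have hb2 : ∀ m : ℕ, ‖F (-((m:ℤ) + 1))‖ ≤ r ^ (m+1) := fun m => by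
    have := hF (-((m:ℤ)+1))
    have e : (-((m:ℤ)+1)).natAbs = m + 1 := by omega
    rwa [e] at this
  have s1 : Summable fun m : ℕ => F ((m:ℤ)+1) := Summable.of_norm_bounded hg hb1
  have s2 : Summable fun m : ℕ => F (-((m:ℤ)+1)) := Summable.of_norm_bounded hg hb2
  have s1' : Summable fun m : ℕ => F (m:ℤ) := by
    rw [← summable_nat_add_iff 1]
    simpa using s1
  rw [tsum_of_nat_of_neg_add_one s1' s2, s1'.tsum_eq_zero_add]
  have e : (F ((0:ℕ):ℤ) + ∑' b : ℕ, F ((b+1:ℕ):ℤ)) + ∑' b : ℕ, F (-((b:ℤ)+1)) - F 0 =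
      (∑' b : ℕ, F ((b:ℤ)+1)) + ∑' b : ℕ, F (-((b:ℤ)+1)) := by
    simp only [Nat.cast_zero, Nat.cast_add, Nat.cast_one]; ring
  rw [e]
  have n1 : ‖∑' b : ℕ, F ((b:ℤ)+1)‖ ≤ r/(1-r) := by
    rw [← hgs]; exact tsum_of_norm_bounded hg.hasSum hb1
  have n2 : ‖∑' b : ℕ, F (-((b:ℤ)+1))‖ ≤ r/(1-r) := by
    rw [← hgs]; exact tsum_of_norm_bounded hg.hasSum hb2
  calc _ ≤ _ := norm_add_le _ _
    _ ≤ r/(1-r) + r/(1-r) := add_le_add n1 n2
    _ = _ := by ring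

lemma exp_neg_nine : Real.exp (-9) ≤ 1/3 := by
  have h : (1:ℝ) + 9 ≤ Real.exp 9 := by linarith [Real.add_one_le_exp (9:ℝ)]
  rw [Real.exp_neg]
  rw [inv_eq_one_div]
  exact one_div_le_one_div_of_le (by norm_num) (by linarith)

lemma nine_le_pi_sq : (9:ℝ) ≤ Real.pi ^ 2 := by
  nlinarith [Real.pi_gt_three]

/-- Poisson bound: oscillation of the full Gaussian sum. -/
lemma TZ_osc {u : ℝ} (hu : 0 < u) (hu1 : u ≤ 1) (y : ℝ) :
    |TZ u y - Real.sqrt Real.pi / u| ≤ (Real.sqrt Real.pi / u) * (3 * Real.exp (-(9 / u^2))) := by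
  set r : ℝ := Real.exp (-(Real.pi^2 / u^2)) with hr
  have hr0 : 0 ≤ r := (Real.exp_pos _).le
  have hu2 : u^2 ≤ 1 := by nlinarith
  have hle : r ≤ Real.exp (-(9/u^2)) := by
    rw [hr]; apply Real.exp_le_exp.mpr
    have : 9 / u^2 ≤ Real.pi^2/u^2 := div_le_div_of_nonneg_right nine_le_pi_sq (by positivity)
    linarith
  have hle9 : Real.exp (-(9/u^2)) ≤ 1/3 := by
    refine le_trans (Real.exp_le_exp.mpr ?_) exp_neg_nine
    have : (9:ℝ) ≤ 9/u^2 := by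
      rw [le_div_iff₀ (by positivity)]; nlinarith
    linarith
  have hr3 : r ≤ 1/3 := hle.trans hle9
  have hbd : ∀ j : ℤ, ‖Complex.exp (-Real.pi * (Real.pi / u^2 : ℝ) * (j:ℂ)^2 + 2 * Real.pi * (Complex.I * y) * j)‖ ≤ r ^ j.natAbs := by
    intro j
    rw [Complex.norm_exp, hr, ← Real.exp_nat_mul]
    apply Real.exp_le_exp.mpr
    have e : (-(Real.pi:ℂ) * (Real.pi / u^2 : ℝ) * (j:ℂ)^2 + 2 * Real.pi * (Complex.I * y) * j) =
        ((-(Real.pi^2/u^2 * (j:ℝ)^2) : ℝ) : ℂ) + ((2 * Real.pi * y * j : ℝ) : ℂ) * Complex.I := by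
      push_cast; ring
    rw [e]
    simp only [Complex.add_re, Complex.ofReal_re, Complex.mul_re, Complex.I_re, mul_zero, Complex.ofReal_im, Complex.I_im, mul_one, sub_self, add_zero]
    have hj : ((j.natAbs : ℕ) : ℝ) ≤ (j:ℝ)^2 := by
      have h1 : j.natAbs ≤ j.natAbs ^ 2 := Nat.le_self_pow (by norm_num) _
      have h2 : ((j.natAbs : ℕ) : ℝ) ≤ ((j.natAbs ^ 2 : ℕ) : ℝ) := by exact_mod_cast h1
      have h3 : (((j.natAbs ^ 2 : ℕ)) : ℝ) = (j:ℝ)^2 := by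
        push_cast
        rw [Nat.cast_natAbs, Int.cast_abs, sq_abs]
      linarith
    have hp : 0 ≤ Real.pi^2/u^2 := by positivity
    nlinarith
  have h0 : Complex.exp (-Real.pi * (Real.pi / u^2 : ℝ) * ((0:ℤ):ℂ)^2 + 2 * Real.pi * (Complex.I * y) * ((0:ℤ):ℂ)) = 1 := by
    simp
  have key := norm_tsum_int_sub_le hr0 (lt_of_le_of_lt hr3 (by norm_num)) hbd
  rw [h0] at key
  have hb : 2 * (r/(1-r)) ≤ 3 * r := by
    have : r/(1-r) ≤ (3/2) * r := by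
      rw [div_le_iff₀ (by linarith)]; nlinarith
    linarith
  have hpos : 0 ≤ Real.sqrt Real.pi / u := by positivity
  have : ((TZ u y - Real.sqrt Real.pi / u : ℝ) : ℂ) = ((Real.sqrt Real.pi / u : ℝ) : ℂ) *
      ((∑' j : ℤ, Complex.exp (-Real.pi * (Real.pi / u^2 : ℝ) * (j:ℂ)^2 + 2 * Real.pi * (Complex.I * y) * j)) - 1) := by
    rw [Complex.ofReal_sub, TZ_poisson hu y]; ring
  rw [← Real.norm_eq_abs, ← Complex.norm_real, this, norm_mul, Complex.norm_real, Real.norm_of_nonneg hpos]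
  refine mul_le_mul_of_nonneg_left ?_ hpos
  calc _ ≤ 2 * (r/(1-r)) := key
    _ ≤ 3 * r := hb
    _ ≤ _ := by linarith

end

end Crest.Agent.R338.GS
end

-- ▼ part R338/GS2
section

/-!
Row 338, node II.C.3/II.C.4, file 2: finite Gaussian sums, tails, second differences.
-/

set_option autoImplicit false
open Real Finset
open scoped BigOperators

namespace Crest.Agent.R338.GS

noncomputable section

lemma exp_neg_nine' : Real.exp (-9) ≤ 1/50 := by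
  have h : (50:ℝ) ≤ Real.exp 9 := by
    have := Real.quadratic_le_exp_of_nonneg (show (0:ℝ) ≤ 9 by norm_num)
    linarith
  rw [Real.exp_neg, inv_eq_one_div]
  exact one_div_le_one_div_of_le (by norm_num) h

lemma sqrt_pi_le : Real.sqrt Real.pi ≤ 1.78 := by
  rw [show (1.78:ℝ) = Real.sqrt (1.78^2) by rw [Real.sqrt_sq (by norm_num)]]
  apply Real.sqrt_le_sqrt
  linarith [Real.pi_lt_d2]

lemma sqrt_pi_ge : 1.77 ≤ Real.sqrt Real.pi := by
  rw [show (1.77:ℝ) = Real.sqrt (1.77^2) by rw [Real.sqrt_sq (by norm_num)]]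
  apply Real.sqrt_le_sqrt
  linarith [Real.pi_gt_d2]

lemma exp_neg_nine_div {u : ℝ} (hu : 0 < u) (hu1 : u ≤ 1) : Real.exp (-(9/u^2)) ≤ 1/50 := by
  refine le_trans (Real.exp_le_exp.mpr ?_) exp_neg_nine'
  have : (9:ℝ) ≤ 9/u^2 := by
    rw [le_div_iff₀ (by positivity)]; nlinarith
  linarith

lemma TZ_le {u : ℝ} (hu : 0 < u) (hu1 : u ≤ 1) (y : ℝ) : TZ u y ≤ 2 / u := by
  have h := TZ_osc hu hu1 y
  have h2 := exp_neg_nine_div hu hu1
  have h3 := sqrt_pi_le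
  have h4 : Real.sqrt Real.pi / u * (3 * Real.exp (-(9/u^2))) ≤ Real.sqrt Real.pi / u * (3 * (1/50)) := by
    apply mul_le_mul_of_nonneg_left _ (by positivity); linarith
  have h5 := (abs_le.mp h).2
  have h6 : Real.sqrt Real.pi / u ≤ 1.78 / u := div_le_div_of_nonneg_right h3 hu.le
  calc TZ u y ≤ Real.sqrt Real.pi / u + Real.sqrt Real.pi / u * (3 * (1/50)) := by linarith
    _ = (Real.sqrt Real.pi / u) * (53/50) := by ring
    _ ≤ (1.78/u) * (53/50) := by apply mul_le_mul_of_nonneg_right h6 (by norm_num)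
    _ ≤ 2 / u := by
      rw [div_mul_eq_mul_div]; apply div_le_div_of_nonneg_right (by norm_num) hu.le

lemma TZ_osc' {u : ℝ} (hu : 0 < u) (hu1 : u ≤ 1) (y : ℝ) :
    |TZ u y - Real.sqrt Real.pi / u| ≤ 6 / u * Real.exp (-(9/u^2)) := by
  refine (TZ_osc hu hu1 y).trans ?_
  have h3 := sqrt_pi_le
  have h6 : Real.sqrt Real.pi / u ≤ 2 / u := div_le_div_of_nonneg_right (by linarith) hu.le
  have : Real.sqrt Real.pi / u * (3 * Real.exp (-(9/u^2))) ≤ 2/u * (3 * Real.exp (-(9/u^2))) := by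
    apply mul_le_mul_of_nonneg_right h6; positivity
  refine this.trans (le_of_eq ?_); ring

/-- finite sum over `|k| ≤ n` -/
def T (n : ℕ) (u y : ℝ) : ℝ := ∑ k ∈ range (n+1), g u (y - k) + ∑ k ∈ range n, g u (y + (k+1))

/-- tail `|k| > n` -/
def tl (n : ℕ) (u y : ℝ) : ℝ := ∑' m : ℕ, (g u (y - (n+1+m)) + g u (y + (n+1+m)))

lemma T_nonneg (n : ℕ) (u y : ℝ) : 0 ≤ T n u y :=
  add_nonneg (sum_nonneg fun _ _ => g_nonneg _ _) (sum_nonneg fun _ _ => g_nonneg _ _)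

lemma summable_nat_sub {u : ℝ} (hu : 0 < u) (y : ℝ) : Summable fun m : ℕ => g u (y - m) := by
  have := (summable_g_cexp hu y).comp_injective (f := fun k : ℤ => g u (y - k)) (i := fun m : ℕ => (m:ℤ)) Nat.cast_injective
  simpa [Function.comp_def] using this

lemma summable_nat_add' {u : ℝ} (hu : 0 < u) (y : ℝ) : Summable fun m : ℕ => g u (y + m) := by
  have h := summable_nat_sub hu (-y)
  refine h.congr (fun m => ?_)
  rw [← g_neg]; congr 1; ring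

lemma summable_g_nat {u : ℝ} (hu : 0 < u) : Summable fun m : ℕ => g u m := by
  simpa using summable_nat_add' hu 0

lemma summable_tail_sub {u : ℝ} (hu : 0 < u) (n : ℕ) (y : ℝ) : Summable fun m : ℕ => g u (y - (n+1+m)) := by
  have h := (summable_nat_add_iff (n+1)).mpr (summable_nat_sub hu y)
  refine h.congr (fun m => ?_)
  congr 1; push_cast; ring

lemma summable_tail_add {u : ℝ} (hu : 0 < u) (n : ℕ) (y : ℝ) : Summable fun m : ℕ => g u (y + (n+1+m)) := by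
  have h := (summable_nat_add_iff (n+1)).mpr (summable_nat_add' hu y)
  refine h.congr (fun m => ?_)
  congr 1; push_cast; ring

lemma TZ_eq {u : ℝ} (hu : 0 < u) (n : ℕ) (y : ℝ) : TZ u y = T n u y + tl n u y := by
  unfold TZ T tl
  have s1 : Summable fun m : ℕ => g u (y - ((m:ℤ):ℝ)) := by simpa using summable_nat_sub hu y
  have s2 : Summable fun m : ℕ => g u (y - ((-((m:ℤ)+1) : ℤ):ℝ)) := by
    have h := (summable_nat_add_iff 1).mpr (summable_nat_add' hu y)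
    refine h.congr (fun m => ?_)
    congr 1; push_cast; ring
  rw [tsum_of_nat_of_neg_add_one (f := fun k : ℤ => g u (y - k)) s1 s2]
  have e1 : ∑' m : ℕ, g u (y - ((m:ℤ):ℝ)) = ∑ k ∈ range (n+1), g u (y - k) + ∑' m : ℕ, g u (y - (n+1+m)) := by
    rw [← Summable.sum_add_tsum_nat_add (n+1) s1]
    congr 1
    apply tsum_congr; intro m; congr 1; push_cast; ring
  have e2 : ∑' m : ℕ, g u (y - ((-((m:ℤ)+1) : ℤ):ℝ)) = ∑ k ∈ range n, g u (y + (k+1)) + ∑' m : ℕ, g u (y + (n+1+m)) := by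
    rw [← Summable.sum_add_tsum_nat_add n s2]
    congr 1
    · apply sum_congr rfl; intro k _; congr 1; push_cast; ring
    · apply tsum_congr; intro m; congr 1; push_cast; ring
  rw [e1, e2, (summable_tail_sub hu n y).tsum_add (summable_tail_add hu n y)]
  ring

lemma tl_nonneg (n : ℕ) (u y : ℝ) : 0 ≤ tl n u y :=
  tsum_nonneg fun _ => add_nonneg (g_nonneg _ _) (g_nonneg _ _)

lemma T_le {u : ℝ} (hu : 0 < u) (hu1 : u ≤ 1) (n : ℕ) (y : ℝ) : T n u y ≤ 2 / u := by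
  have := TZ_le hu hu1 y
  rw [TZ_eq hu n y] at this
  linarith [tl_nonneg n u y]

lemma tsum_g_nat_le {u : ℝ} (hu : 0 < u) (hu1 : u ≤ 1) : ∑' m : ℕ, g u m ≤ 2 / u := by
  refine le_trans ?_ (TZ_le hu hu1 0)
  unfold TZ
  have s1 : Summable fun m : ℕ => g u (0 - ((m:ℤ):ℝ)) := by simpa using summable_nat_sub hu 0
  have s2 : Summable fun m : ℕ => g u (0 - ((-((m:ℤ)+1) : ℤ):ℝ)) := by
    have h := (summable_nat_add_iff 1).mpr (summable_nat_add' hu 0)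
    refine h.congr (fun m => ?_)
    congr 1; push_cast; ring
  rw [tsum_of_nat_of_neg_add_one (f := fun k : ℤ => g u (0 - k)) s1 s2]
  have e1 : ∑' m : ℕ, g u (0 - ((m:ℤ):ℝ)) = ∑' m : ℕ, g u m := by
    apply tsum_congr; intro m; rw [← g_neg]; congr 1; push_cast; ring
  rw [e1]
  have : 0 ≤ ∑' m : ℕ, g u (0 - ((-((m:ℤ)+1) : ℤ):ℝ)) := tsum_nonneg fun _ => g_nonneg _ _
  linarith

/-- the basic tail sum, `∑_{k>n} exp(-u²k²/4)` -/
def tau (n : ℕ) (u : ℝ) : ℝ := ∑' m : ℕ, g (u/2) (n+1+m)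

lemma summable_tau {u : ℝ} (hu : 0 < u) (n : ℕ) : Summable fun m : ℕ => g (u/2) (n+1+m) := by
  have := summable_tail_add (half_pos hu) n 0
  simpa using this

lemma tau_nonneg (n : ℕ) (u : ℝ) : 0 ≤ tau n u := tsum_nonneg fun _ => g_nonneg _ _

lemma tau_le {u : ℝ} (hu : 0 < u) (hu1 : u ≤ 1) (n : ℕ) : tau n u ≤ 8 / u * Real.exp (-(3/16 * (u^2 * n^2))) := by
  have hb : ∀ m : ℕ, g (u/2) (n+1+m) ≤ Real.exp (-(3/16 * (u^2 * n^2))) * g (u/4) ((n+1+m : ℕ)) := by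
    intro m
    unfold g
    rw [← Real.exp_add]
    apply Real.exp_le_exp.mpr
    push_cast
    have hnm : (n:ℝ)^2 ≤ ((n:ℝ)+1+m)^2 := by
      apply pow_le_pow_left₀ (by positivity); linarith [Nat.cast_nonneg (α := ℝ) m]
    nlinarith [mul_le_mul_of_nonneg_left hnm (sq_nonneg u)]
  have hs : Summable fun m : ℕ => g (u/4) ((n+1+m : ℕ)) := by
    have := (summable_nat_add_iff (n+1)).mpr (summable_g_nat (show 0 < u/4 by linarith))
    refine this.congr (fun m => ?_); congr 1; push_cast; ring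
  have h1 : tau n u ≤ Real.exp (-(3/16 * (u^2 * n^2))) * ∑' m : ℕ, g (u/4) ((n+1+m : ℕ)) := by
    unfold tau
    rw [← tsum_mul_left]
    exact (summable_tau hu n).tsum_le_tsum hb (hs.mul_left _)
  have h2 : ∑' m : ℕ, g (u/4) ((n+1+m : ℕ)) ≤ ∑' m : ℕ, g (u/4) m := by
    have := (summable_g_nat (show 0 < u/4 by linarith)).sum_add_tsum_nat_add (n+1)
    rw [← this]
    have e : ∑' m : ℕ, g (u/4) ((n+1+m : ℕ)) = ∑' m : ℕ, g (u/4) ((m + (n+1) : ℕ)) := by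
      apply tsum_congr; intro m; congr 1; push_cast; ring
    rw [e]
    have : 0 ≤ ∑ i ∈ range (n+1), g (u/4) i := sum_nonneg fun _ _ => g_nonneg _ _
    linarith
  have h3 := tsum_g_nat_le (show 0 < u/4 by linarith) (show u/4 ≤ 1 by linarith)
  have h4 : (2:ℝ) / (u/4) = 8 / u := by field_simp; norm_num
  rw [h4] at h3
  calc tau n u ≤ _ := h1
    _ ≤ Real.exp (-(3/16 * (u^2 * n^2))) * (8/u) := by
      apply mul_le_mul_of_nonneg_left (h2.trans h3) (Real.exp_pos _).le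
    _ = _ := by ring

/-- second derivative of `g` -/
def g2 (u z : ℝ) : ℝ := (4 * u^4 * z^2 - 2 * u^2) * g u z

lemma abs_g2_le (u z : ℝ) : |g2 u z| ≤ 8 * u^2 * g (u/2) z := by
  unfold g2
  rw [abs_mul, abs_of_pos (g_pos u z)]
  set v := u^2 * z^2 with hv
  have hv0 : 0 ≤ v := by positivity
  have h1 : |4 * u^4 * z^2 - 2 * u^2| ≤ u^2 * (4 * v + 2) := by
    rw [abs_le]; constructor <;> nlinarith [mul_nonneg (sq_nonneg u) hv0]
  have h2 : g u z = Real.exp (-(v/4)) * Real.exp (-(3/4*v)) := by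
    unfold g; rw [← Real.exp_add]; congr 1; rw [hv]; ring
  have h3 : g (u/2) z = Real.exp (-(v/4)) := by
    unfold g; congr 1; rw [hv]; ring
  have h4 : (4 * v + 2) * Real.exp (-(3/4*v)) ≤ 8 := by
    have : 1 + 3/4*v ≤ Real.exp (3/4*v) := by linarith [Real.add_one_le_exp (3/4*v)]
    rw [Real.exp_neg, ← div_eq_mul_inv, div_le_iff₀ (Real.exp_pos _)]
    nlinarith
  rw [h2, h3]
  calc |4 * u^4 * z^2 - 2 * u^2| * (Real.exp (-(v/4)) * Real.exp (-(3/4*v)))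
      ≤ (u^2 * (4*v+2)) * (Real.exp (-(v/4)) * Real.exp (-(3/4*v))) := by
        apply mul_le_mul_of_nonneg_right h1; positivity
    _ = (u^2 * Real.exp (-(v/4))) * ((4*v+2) * Real.exp (-(3/4*v))) := by ring
    _ ≤ (u^2 * Real.exp (-(v/4))) * 8 := by
        apply mul_le_mul_of_nonneg_left h4; positivity
    _ = _ := by ring

/-- `|e^q + e^{-q} - 2 - q²| ≤ 2 q⁴ e^{|q|}` -/
lemma cosh_aux (q : ℝ) : |Real.exp q + Real.exp (-q) - 2 - q^2| ≤ 2 * q^4 * Real.exp |q| := by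
  by_cases hq : |q| ≤ 1
  · have h1 := Real.exp_bound hq (n := 4) (by norm_num)
    have h2 := Real.exp_bound (show |-q| ≤ 1 by rwa [abs_neg]) (n := 4) (by norm_num)
    simp only [Finset.sum_range_succ, Finset.sum_range_zero, Nat.factorial] at h1 h2
    norm_num at h1 h2
    have e1 := abs_le.mp h1
    have e2 := abs_le.mp h2
    have h3 : |q|^4 = q^4 := by rw [← abs_pow, abs_of_nonneg (by positivity)]
    rw [h3] at e1 e2
    have h4 : q^4 * 1 ≤ q^4 * Real.exp |q| :=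
      mul_le_mul_of_nonneg_left (Real.one_le_exp (abs_nonneg q)) (by positivity)
    rw [abs_le]; constructor <;> nlinarith [e1.1, e1.2, e2.1, e2.2]
  · push Not at hq
    have h1 : Real.exp q ≤ Real.exp |q| := Real.exp_le_exp.mpr (le_abs_self q)
    have h2 : Real.exp (-q) ≤ Real.exp |q| := Real.exp_le_exp.mpr (neg_le_abs q)
    have h3 : 1 ≤ q^2 := by rw [← sq_abs]; nlinarith
    have h4 : 1 ≤ q^4 := by nlinarith
    have h5 : q^4 * Real.exp |q| ≥ Real.exp |q| := by nlinarith [Real.exp_pos |q|]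
    have h6 : 2 ≤ Real.exp |q| := by linarith [Real.add_one_le_exp |q|]
    have h7 : q^2 ≤ q^4 := by nlinarith
    have h8 : 2 * q^4 ≤ q^4 * Real.exp |q| := by nlinarith
    have e1 := Real.exp_pos q
    have e2 := Real.exp_pos (-q)
    rw [abs_le]; constructor
    · nlinarith
    · nlinarith

lemma exp_neg_aux {p : ℝ} (hp : 0 ≤ p) : 0 ≤ Real.exp (-p) - 1 + p ∧ Real.exp (-p) - 1 + p ≤ p^2/2 := by
  constructor
  · linarith [Real.add_one_le_exp (-p)]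
  · -- `1 ≤ (1 - p + p²/2) e^p`
    have h1 := Real.quadratic_le_exp_of_nonneg hp
    have h2 : 0 ≤ 1 - p + p^2/2 := by nlinarith [sq_nonneg (p-1)]
    have h3 : 1 ≤ (1 - p + p^2/2) * Real.exp p := by
      have : (1 - p + p^2/2) * (1 + p + p^2/2) ≤ (1 - p + p^2/2) * Real.exp p :=
        mul_le_mul_of_nonneg_left h1 h2
      nlinarith [sq_nonneg (p^2)]
    have h4 : Real.exp (-p) = 1 / Real.exp p := by rw [Real.exp_neg, inv_eq_one_div]
    rw [h4]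
    have : 1 / Real.exp p ≤ 1 - p + p^2/2 := by
      rw [div_le_iff₀ (Real.exp_pos p)]; exact h3
    linarith

lemma scalar_aux {p q v w : ℝ} (hp0 : 0 ≤ p) (hv0 : 0 ≤ v) (hw0 : 0 ≤ w) (hqv : |q| ≤ v / 2)
    (hq4 : q^4 = 16 * w * v^2) (hq2p : q^2 * p = 4 * w * v) (hpp : p^2 = w) :
    |Real.exp (-p) * (Real.exp q + Real.exp (-q) - 2 - q^2) + 2 * (Real.exp (-p) - 1 + p)
        + q^2 * (Real.exp (-p) - 1)| ≤ w * (1024 * Real.exp (v/4)) * Real.exp (v/2) := by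
  have hexq : Real.exp |q| ≤ Real.exp (v/2) := Real.exp_le_exp.mpr hqv
  have hc := cosh_aux q
  have hx := exp_neg_aux hp0
  have hep : Real.exp (-p) ≤ 1 := by rw [Real.exp_le_one_iff]; linarith
  have hep0 := Real.exp_pos (-p)
  have b1 : |Real.exp (-p) * (Real.exp q + Real.exp (-q) - 2 - q^2)| ≤ 2 * q^4 * Real.exp (v/2) := by
    rw [abs_mul, abs_of_pos hep0]
    have h0 : 0 ≤ |Real.exp q + Real.exp (-q) - 2 - q^2| := abs_nonneg _
    have hh : 2 * q^4 * Real.exp |q| ≤ 2 * q^4 * Real.exp (v/2) :=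
      mul_le_mul_of_nonneg_left hexq (by positivity)
    calc Real.exp (-p) * |Real.exp q + Real.exp (-q) - 2 - q^2|
        ≤ 1 * |Real.exp q + Real.exp (-q) - 2 - q^2| := mul_le_mul_of_nonneg_right hep h0
      _ ≤ _ := by rw [one_mul]; exact hc.trans hh
  have b2 : |2 * (Real.exp (-p) - 1 + p)| ≤ p^2 := by
    rw [abs_of_nonneg (by linarith [hx.1])]; linarith [hx.2]
  have b3 : |q^2 * (Real.exp (-p) - 1)| ≤ q^2 * p := by
    rw [abs_mul, abs_of_nonneg (sq_nonneg q)]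
    apply mul_le_mul_of_nonneg_left _ (sq_nonneg q)
    rw [abs_le]; constructor <;> linarith [hx.1]
  have b4 : |Real.exp (-p) * (Real.exp q + Real.exp (-q) - 2 - q^2) + 2 * (Real.exp (-p) - 1 + p)
        + q^2 * (Real.exp (-p) - 1)| ≤ 2 * q^4 * Real.exp (v/2) + p^2 + q^2 * p := by
    refine (abs_add_le _ _).trans ?_
    refine add_le_add ((abs_add_le _ _).trans (add_le_add b1 b2)) b3
  have hev : 1 ≤ Real.exp (v/2) := Real.one_le_exp (by linarith)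
  have c1 : w * 1 ≤ w * Real.exp (v/2) := mul_le_mul_of_nonneg_left hev hw0
  have c2 : (w * v) * 1 ≤ (w * v) * Real.exp (v/2) := mul_le_mul_of_nonneg_left hev (mul_nonneg hw0 hv0)
  have b5 : 2 * q^4 * Real.exp (v/2) + p^2 + q^2 * p ≤ w * (1 + 4 * v + 32 * v^2) * Real.exp (v/2) := by
    rw [hq4, hq2p, hpp]
    have : w * (1 + 4 * v + 32 * v^2) * Real.exp (v/2) = w * Real.exp (v/2) + 4 * ((w * v) * Real.exp (v/2)) + 2 * (16 * w * v^2) * Real.exp (v/2) := by ring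
    rw [this]; linarith
  have b6 : 1 + 4 * v + 32 * v^2 ≤ 1024 * Real.exp (v/4) := by
    have := Real.quadratic_le_exp_of_nonneg (show 0 ≤ v/4 by linarith)
    nlinarith
  refine b4.trans (b5.trans ?_)
  apply mul_le_mul_of_nonneg_right _ (Real.exp_pos _).le
  exact mul_le_mul_of_nonneg_left b6 hw0

/-- second difference of the Gaussian -/
lemma second_diff {u y k : ℝ} (hk : 0 ≤ k) (hyk : 4 * |y| ≤ k) :
    |g u (y - k) + g u (y + k) - 2 * g u k - y^2 * g2 u k| ≤ 1024 * u^4 * y^4 * g (u/2) k := by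
  have hqv : |2 * u^2 * k * y| ≤ (u^2 * k^2) / 2 := by
    rw [abs_mul, abs_of_nonneg (by positivity : (0:ℝ) ≤ 2 * u^2 * k)]
    have h := mul_le_mul_of_nonneg_left hyk (mul_nonneg (sq_nonneg u) hk)
    linarith [h, (by ring : u^2 * k * (4 * |y|) = 2 * (2 * u^2 * k * |y|)), (by ring : u^2 * k * k = u^2 * k^2)]
  have key := scalar_aux (p := u^2*y^2) (q := 2 * u^2 * k * y) (v := u^2 * k^2) (w := u^4 * y^4)
    (by positivity) (by positivity) (by positivity) hqv (by ring) (by ring) (by ring)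
  have e4 : g u (y - k) + g u (y + k) - 2 * g u k - y^2 * g2 u k =
      Real.exp (-(u^2*k^2)) * (Real.exp (-(u^2*y^2)) * (Real.exp (2 * u^2 * k * y) + Real.exp (-(2 * u^2 * k * y)) - 2 - (2 * u^2 * k * y)^2) + 2 * (Real.exp (-(u^2*y^2)) - 1 + u^2*y^2)
        + (2 * u^2 * k * y)^2 * (Real.exp (-(u^2*y^2)) - 1)) := by
    have e1 : g u (y - k) = Real.exp (-(u^2*k^2)) * (Real.exp (-(u^2*y^2)) * Real.exp (2 * u^2 * k * y)) := by
      unfold g; rw [← Real.exp_add, ← Real.exp_add]; congr 1; ring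
    have e2 : g u (y + k) = Real.exp (-(u^2*k^2)) * (Real.exp (-(u^2*y^2)) * Real.exp (-(2 * u^2 * k * y))) := by
      unfold g; rw [← Real.exp_add, ← Real.exp_add]; congr 1; ring
    have e0 : g u k = Real.exp (-(u^2*k^2)) := rfl
    unfold g2
    rw [e1, e2, e0]; ring
  have e5 : g (u/2) k = Real.exp (-(u^2*k^2)) * (Real.exp ((u^2*k^2)/4) * Real.exp ((u^2*k^2)/2)) := by
    unfold g; rw [← Real.exp_add, ← Real.exp_add]; congr 1; ring
  rw [e4, abs_mul, abs_of_pos (Real.exp_pos _), e5]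
  refine (mul_le_mul_of_nonneg_left key (Real.exp_pos _).le).trans (le_of_eq ?_)
  ring

end

end Crest.Agent.R338.GS
end

-- ▼ part R338/GS3
section

/-!
Row 338, node II.C.3/II.C.4, file 3: quadratic expansion of the finite sums `T n u y`.
-/

set_option autoImplicit false
open Real Finset
open scoped BigOperators

namespace Crest.Agent.R338.GS

noncomputable section

/-- second derivative at 0 of the finite sum -/
def T2 (n : ℕ) (u : ℝ) : ℝ := g2 u 0 + 2 * ∑ k ∈ range n, g2 u (k+1)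

/-- second derivative at 0 of the full sum -/
def Z2 (u : ℝ) : ℝ := g2 u 0 + 2 * ∑' m : ℕ, g2 u (m+1)

/-- tail of the second derivatives -/
def G2 (n : ℕ) (u : ℝ) : ℝ := ∑' m : ℕ, g2 u (n+1+m)

lemma summable_g2_tail {u : ℝ} (hu : 0 < u) (n : ℕ) : Summable fun m : ℕ => g2 u (n+1+m) := by
  refine Summable.of_norm_bounded ((summable_tau hu n).mul_left (8 * u^2)) (fun m => ?_)
  rw [Real.norm_eq_abs]; exact abs_g2_le u _

lemma Z2_eq {u : ℝ} (hu : 0 < u) (n : ℕ) : Z2 u = T2 n u + 2 * G2 n u := by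
  unfold Z2 T2 G2
  have s : Summable fun m : ℕ => g2 u (m+1) := by
    have := summable_g2_tail hu 0
    refine this.congr (fun m => ?_); congr 1; push_cast; ring
  rw [← Summable.sum_add_tsum_nat_add n s]
  have e : ∑' i : ℕ, g2 u (((i + n : ℕ) : ℝ) + 1) = ∑' m : ℕ, g2 u (n+1+m) := by
    apply tsum_congr; intro m; congr 1; push_cast; ring
  rw [e]; ring

lemma abs_G2_le {u : ℝ} (hu : 0 < u) (n : ℕ) : |G2 n u| ≤ 8 * u^2 * tau n u := by
  unfold G2 tau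
  rw [← tsum_mul_left, ← Real.norm_eq_abs]
  refine tsum_of_norm_bounded ((summable_tau hu n).mul_left (8 * u^2)).hasSum (fun m => ?_)
  rw [Real.norm_eq_abs]; exact abs_g2_le u _

lemma tl_diff {u : ℝ} (hu : 0 < u) (n : ℕ) {y : ℝ} (hy : 4 * |y| ≤ n + 1) :
    |tl n u y - tl n u 0 - y^2 * G2 n u| ≤ 1024 * u^4 * y^4 * tau n u := by
  have hs1 : Summable fun m : ℕ => (g u (y - (n+1+m)) + g u (y + (n+1+m))) :=
    (summable_tail_sub hu n y).add (summable_tail_add hu n y)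
  have hs0 : Summable fun m : ℕ => (g u (0 - (n+1+m)) + g u (0 + (n+1+m))) :=
    (summable_tail_sub hu n 0).add (summable_tail_add hu n 0)
  have hs2 := (summable_g2_tail hu n).mul_left (y^2)
  have e : tl n u y - tl n u 0 - y^2 * G2 n u =
      ∑' m : ℕ, ((g u (y - (n+1+m)) + g u (y + (n+1+m))) - (g u (0 - (n+1+m)) + g u (0 + (n+1+m))) - y^2 * g2 u (n+1+m)) := by
    unfold tl G2
    rw [(hs1.sub hs0).tsum_sub hs2, hs1.tsum_sub hs0, tsum_mul_left]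
  rw [e, tau, ← tsum_mul_left, ← Real.norm_eq_abs]
  refine tsum_of_norm_bounded ((summable_tau hu n).mul_left _).hasSum (fun m => ?_)
  have hk0 : (0:ℝ) ≤ n + 1 + m := by positivity
  have hk : 4 * |y| ≤ (n:ℝ) + 1 + m := by
    have : (0:ℝ) ≤ m := Nat.cast_nonneg m
    linarith
  have := second_diff (u := u) (y := y) hk0 hk
  rw [Real.norm_eq_abs]
  have e0 : g u (0 - (n+1+m)) + g u (0 + (n+1+m)) = 2 * g u ((n:ℝ)+1+m) := by
    have : (0:ℝ) - (n+1+m) = -(n+1+m) := by ring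
    rw [this, g_neg, zero_add]; ring
  rw [e0]
  exact this

lemma T_expand {u : ℝ} (hu : 0 < u) (n : ℕ) {y : ℝ} (hy : 4 * |y| ≤ n + 1) :
    |T n u y - T n u 0 - y^2/2 * T2 n u| ≤ |TZ u y - TZ u 0| + y^2/2 * |Z2 u| + 1024 * u^4 * y^4 * tau n u := by
  have h1 := TZ_eq hu n y
  have h0 := TZ_eq hu n 0
  have h2 := Z2_eq hu n
  have h3 := tl_diff hu n hy
  have e : T n u y - T n u 0 - y^2/2 * T2 n u = (TZ u y - TZ u 0) - (y^2/2) * Z2 u - (tl n u y - tl n u 0 - y^2 * G2 n u) := by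
    rw [h1, h0, h2]; ring
  rw [e]
  have a1 : |(TZ u y - TZ u 0) - (y^2/2) * Z2 u - (tl n u y - tl n u 0 - y^2 * G2 n u)| ≤
      |TZ u y - TZ u 0| + |(y^2/2) * Z2 u| + |tl n u y - tl n u 0 - y^2 * G2 n u| := by
    refine (abs_sub _ _).trans ?_
    exact add_le_add ((abs_sub _ _).trans le_rfl) le_rfl
  refine a1.trans ?_
  rw [abs_mul, abs_of_nonneg (by positivity : 0 ≤ y^2/2)]
  linarith

lemma T_zero_sum (u y : ℝ) : T 0 u y = g u y := by unfold T; simp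
lemma T2_zero (u : ℝ) : T2 0 u = -(2 * u^2) := by unfold T2 g2; simp [g_zero]

lemma TZ_diff {u : ℝ} (hu : 0 < u) (hu1 : u ≤ 1) (y y' : ℝ) :
    |TZ u y - TZ u y'| ≤ 12 / u * Real.exp (-(9/u^2)) := by
  have h1 := TZ_osc' hu hu1 y
  have h2 := TZ_osc' hu hu1 y'
  have : TZ u y - TZ u y' = (TZ u y - Real.sqrt Real.pi / u) - (TZ u y' - Real.sqrt Real.pi / u) := by ring
  rw [this]
  refine (abs_sub _ _).trans ((add_le_add h1 h2).trans (le_of_eq ?_))
  ring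

lemma Z2_bound {u : ℝ} (hu : 0 < u) (hu1 : u ≤ 1) : |Z2 u| ≤ 16410 / u * Real.exp (-(9/(2*u^2))) := by
  set h : ℝ := Real.exp (-(9/(4*u^2))) with hh
  have hpos : 0 < h := Real.exp_pos _
  have hu2 : u^2 ≤ 1 := by nlinarith
  have hsmall : h ≤ 1/4 := by
    have h1 : (3:ℝ)/2 ≤ 9/(4*u^2) := by
      rw [le_div_iff₀ (by positivity)]; nlinarith
    have h2 : (4:ℝ) ≤ Real.exp (9/4) := by
      have := Real.quadratic_le_exp_of_nonneg (show (0:ℝ) ≤ 9/4 by norm_num)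
      have h3 : (1:ℝ) + 9/4 + (9/4)^2/2 = 185/32 := by norm_num
      linarith
    have h4 : (9:ℝ)/4 ≤ 9/(4*u^2) := by
      rw [le_div_iff₀ (by positivity)]; nlinarith
    rw [hh, Real.exp_neg, inv_eq_one_div]
    exact one_div_le_one_div_of_le (by norm_num) (h2.trans (Real.exp_le_exp.mpr h4))
  have hsq : h^2 = Real.exp (-(9/(2*u^2))) := by
    rw [hh, ← Real.exp_nat_mul]; congr 1; push_cast; field_simp; ring
  have hsq4 : Real.exp (-(9/u^2)) = h^2 * h^2 := by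
    rw [hsq, ← Real.exp_add]; congr 1; field_simp; ring
  have hE := Z2_eq hu 0
  have h3 := tl_diff hu 0 (y := h) (by rw [abs_of_pos hpos]; norm_num; linarith)
  have h1 := TZ_eq hu 0 h
  have h0 := TZ_eq hu 0 0
  rw [T_zero_sum] at h1 h0
  rw [g_zero] at h0
  rw [T2_zero] at hE
  have hd := TZ_diff hu hu1 h 0
  have hp := exp_neg_aux (show 0 ≤ u^2*h^2 by positivity)
  have htau := tau_le hu hu1 0
  have htau' : tau 0 u ≤ 8/u := by
    refine htau.trans (le_of_eq ?_); simp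
  -- (h²/2) Z2 = (TZ h - TZ 0) - (g h - 1 + u²h²) - R
  have e : h^2/2 * Z2 u = (TZ u h - TZ u 0) - (g u h - 1 + u^2*h^2) - (tl 0 u h - tl 0 u 0 - h^2 * G2 0 u) := by
    rw [h1, h0, hE]; ring
  have a1 : |h^2/2 * Z2 u| ≤ 12 / u * Real.exp (-(9/u^2)) + (u^2*h^2)^2/2 + 1024 * u^4 * h^4 * (8/u) := by
    rw [e]
    refine (abs_sub _ _).trans (add_le_add ((abs_sub _ _).trans (add_le_add hd ?_)) ?_)
    · unfold g; rw [abs_of_nonneg hp.1]; exact hp.2
    · refine h3.trans ?_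
      exact mul_le_mul_of_nonneg_left htau' (by positivity)
  rw [abs_mul, abs_of_nonneg (by positivity : 0 ≤ h^2/2), hsq4] at a1
  -- divide by h²/2
  have e2 : 12 / u * (h^2*h^2) + (u^2*h^2)^2/2 + 1024 * u^4 * h^4 * (8/u) = (h^2/2) * ((24/u + u^4 + 16384 * u^3) * h^2) := by
    field_simp; ring
  rw [e2] at a1
  have a2 : |Z2 u| ≤ (24/u + u^4 + 16384*u^3) * h^2 := le_of_mul_le_mul_left a1 (by positivity)
  refine a2.trans ?_
  rw [hsq]
  apply mul_le_mul_of_nonneg_right _ (Real.exp_pos _).le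
  have hu3 : u^4 ≤ 1/u := by
    rw [le_div_iff₀ hu]; have : u^5 ≤ 1 := pow_le_one₀ hu.le hu1
    calc u^4*u = u^5 := by ring
      _ ≤ 1 := this
  have hu4 : u^3 ≤ 1/u := by
    rw [le_div_iff₀ hu]; have : u^4 ≤ 1 := pow_le_one₀ hu.le hu1
    calc u^3*u = u^4 := by ring
      _ ≤ 1 := this
  have : (24:ℝ)/u + 1/u + 16384 * (1/u) = 16409/u := by ring
  have h16 : (16409:ℝ)/u ≤ 16410/u := div_le_div_of_nonneg_right (by norm_num) hu.le
  linarith

end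

end Crest.Agent.R338.GS
end

-- ▼ part R338/GS4
section

/-!
Row 338, node II.C.3/II.C.4, file 4: bounds for `u ≤ 1/K` and the product expansion.
-/

set_option autoImplicit false
open Real Finset
open scoped BigOperators

namespace Crest.Agent.R338.GS

noncomputable section

/-- `exp (-2K²)` -/
def EE (K : ℝ) : ℝ := Real.exp (-(2*K^2))

/-- `exp (-(3/32) u² n²)` -/
def XX (n : ℕ) (u : ℝ) : ℝ := Real.exp (-(3/32 * (u^2 * n^2)))

lemma EE_pos (K : ℝ) : 0 < EE K := Real.exp_pos _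
lemma EE_le_one (K : ℝ) : EE K ≤ 1 := by
  unfold EE; rw [Real.exp_le_one_iff]; nlinarith [sq_nonneg K]
lemma XX_pos (n : ℕ) (u : ℝ) : 0 < XX n u := Real.exp_pos _
lemma XX_le_one (n : ℕ) (u : ℝ) : XX n u ≤ 1 := by
  unfold XX; rw [Real.exp_le_one_iff]
  have : 0 ≤ u^2 * (n:ℝ)^2 := by positivity
  linarith
lemma XX_sq (n : ℕ) (u : ℝ) : XX n u ^ 2 = Real.exp (-(3/16 * (u^2 * n^2))) := by
  unfold XX; rw [← Real.exp_nat_mul]; congr 1; push_cast; ring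
lemma x_mul_XX (n : ℕ) (u : ℝ) : (u^2 * n^2) * XX n u ≤ 11 := by
  unfold XX
  set x : ℝ := u^2 * n^2
  have hx : 0 ≤ x := by positivity
  have h := Real.add_one_le_exp (3/32 * x)
  rw [Real.exp_neg, ← div_eq_mul_inv, div_le_iff₀ (Real.exp_pos _)]
  nlinarith

lemma small_exp {u K : ℝ} (hu : 0 < u) (hK : 1 ≤ K) (huK : u * K ≤ 1) :
    Real.exp (-(9/(2*u^2))) ≤ u^6 * EE K := by
  have hK0 : 0 < K := by linarith
  have h1 : K^2 ≤ 1/u^2 := by
    rw [le_div_iff₀ (by positivity)]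
    have : (u*K)^2 ≤ 1 := pow_le_one₀ (by positivity) huK
    nlinarith
  have e : Real.exp (-(9/(2*u^2))) = Real.exp (-(2*(1/u^2))) * Real.exp (-(5/(2*u^2))) := by
    rw [← Real.exp_add]; congr 1; field_simp; ring
  rw [e, mul_comm]
  have h2 : Real.exp (-(2*(1/u^2))) ≤ EE K := by
    unfold EE; apply Real.exp_le_exp.mpr; linarith
  have h3 : Real.exp (-(5/(2*u^2))) ≤ u^6 := by
    have hx : 0 ≤ 5/(2*u^2) := by positivity
    have := Real.pow_div_factorial_le_exp (5/(2*u^2)) hx 3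
    have h4 : (5/(2*u^2))^3/(Nat.factorial 3 : ℝ) = (125/48) * (1/u^6) := by
      simp only [Nat.factorial]; push_cast; field_simp; norm_num
    rw [h4] at this
    have h5 : 1/u^6 ≤ Real.exp (5/(2*u^2)) := by
      have : (0:ℝ) < 1/u^6 := by positivity
      linarith
    rw [Real.exp_neg, inv_eq_one_div]
    rw [div_le_iff₀ (Real.exp_pos _)]
    have h6 : u^6 * (1/u^6) = 1 := by field_simp
    calc (1:ℝ) = u^6 * (1/u^6) := h6.symm
      _ ≤ u^6 * Real.exp (5/(2*u^2)) := mul_le_mul_of_nonneg_left h5 (by positivity)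
  exact mul_le_mul h3 h2 (Real.exp_pos _).le (by positivity)

lemma u_le_one {u K : ℝ} (hu : 0 < u) (hK : 1 ≤ K) (huK : u * K ≤ 1) : u ≤ 1 := by nlinarith

lemma Z2_bound' {u K : ℝ} (hu : 0 < u) (hK : 1 ≤ K) (huK : u * K ≤ 1) : |Z2 u| ≤ 16410 * u^5 * EE K := by
  refine (Z2_bound hu (u_le_one hu hK huK)).trans ?_
  refine (mul_le_mul_of_nonneg_left (small_exp hu hK huK) (by positivity)).trans (le_of_eq ?_)
  field_simp

lemma TZ_diff' {u K : ℝ} (hu : 0 < u) (hK : 1 ≤ K) (huK : u * K ≤ 1) (y y' : ℝ) :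
    |TZ u y - TZ u y'| ≤ 12 * u^5 * EE K := by
  refine (TZ_diff hu (u_le_one hu hK huK) y y').trans ?_
  have h : Real.exp (-(9/u^2)) ≤ Real.exp (-(9/(2*u^2))) := by
    apply Real.exp_le_exp.mpr
    have : 9/(2*u^2) ≤ 9/u^2 := div_le_div_of_nonneg_left (by norm_num) (by positivity) (by nlinarith [sq_nonneg u])
    linarith
  refine (mul_le_mul_of_nonneg_left (h.trans (small_exp hu hK huK)) (by positivity)).trans (le_of_eq ?_)
  field_simp

lemma TZ_osc'' {u K : ℝ} (hu : 0 < u) (hK : 1 ≤ K) (huK : u * K ≤ 1) (y : ℝ) :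
    |TZ u y - Real.sqrt Real.pi / u| ≤ 6 * u^5 * EE K := by
  refine (TZ_osc' hu (u_le_one hu hK huK) y).trans ?_
  have h : Real.exp (-(9/u^2)) ≤ Real.exp (-(9/(2*u^2))) := by
    apply Real.exp_le_exp.mpr
    have : 9/(2*u^2) ≤ 9/u^2 := div_le_div_of_nonneg_left (by norm_num) (by positivity) (by nlinarith [sq_nonneg u])
    linarith
  refine (mul_le_mul_of_nonneg_left (h.trans (small_exp hu hK huK)) (by positivity)).trans (le_of_eq ?_)
  field_simp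

lemma tau_le' {u : ℝ} (hu : 0 < u) (hu1 : u ≤ 1) (n : ℕ) : tau n u ≤ 8 / u * XX n u ^ 2 := by
  rw [XX_sq]; exact tau_le hu hu1 n

section
variable {u K ρ y : ℝ} {n : ℕ}

lemma T2_bound (hu : 0 < u) (hK : 1 ≤ K) (huK : u * K ≤ 1) :
    |T2 n u| ≤ 16410 * u^5 * EE K + 128 * u * XX n u ^ 2 := by
  have h1 := Z2_eq hu n
  have e : T2 n u = Z2 u - 2 * G2 n u := by rw [h1]; ring
  have h2 := Z2_bound' hu hK huK
  have h3 := abs_G2_le hu n
  have h4 := tau_le' hu (u_le_one hu hK huK) n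
  have h5 : 8 * u^2 * tau n u ≤ 64 * u * XX n u ^ 2 := by
    refine (mul_le_mul_of_nonneg_left h4 (by positivity)).trans (le_of_eq ?_)
    field_simp; ring
  rw [e]
  refine (abs_sub _ _).trans ?_
  rw [abs_mul, abs_of_nonneg (by norm_num : (0:ℝ) ≤ 2)]
  linarith

lemma D_minus_Q (hu : 0 < u) (hK : 1 ≤ K) (huK : u * K ≤ 1) (hρ : 1 ≤ ρ) (hn : 4 * ρ ≤ n) (hy : |y| ≤ ρ) :
    |T n u y - T n u 0 - y^2/2 * T2 n u| ≤ 8217 * ρ^2 * u^5 * EE K + 8192 * u^3 * ρ^4 * XX n u ^ 2 := by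
  have h := T_expand hu n (y := y) (by linarith)
  have h1 := TZ_diff' hu hK huK y 0
  have h2 := Z2_bound' hu hK huK
  have h4 := tau_le' hu (u_le_one hu hK huK) n
  have hy2 : y^2 ≤ ρ^2 := by rw [← sq_abs]; exact pow_le_pow_left₀ (abs_nonneg _) hy 2
  have hy4 : y^4 ≤ ρ^4 := by
    calc y^4 = (y^2)^2 := by ring
      _ ≤ (ρ^2)^2 := pow_le_pow_left₀ (sq_nonneg _) hy2 2
      _ = ρ^4 := by ring
  have hρ2 : 1 ≤ ρ^2 := one_le_pow₀ hρ
  have hE : 0 ≤ u^5 * EE K := by have := EE_pos K; positivity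
  have b1 : 12 * u^5 * EE K ≤ 12 * ρ^2 * (u^5 * EE K) := by nlinarith
  have b2 : y^2/2 * |Z2 u| ≤ 8205 * ρ^2 * (u^5 * EE K) := by
    calc y^2/2 * |Z2 u| ≤ ρ^2/2 * (16410 * u^5 * EE K) := by
          apply mul_le_mul _ h2 (abs_nonneg _) (by positivity); linarith
      _ = _ := by ring
  have b3 : 1024 * u^4 * y^4 * tau n u ≤ 8192 * u^3 * ρ^4 * XX n u ^ 2 := by
    calc 1024 * u^4 * y^4 * tau n u ≤ 1024 * u^4 * ρ^4 * (8 / u * XX n u ^ 2) := by
          apply mul_le_mul _ h4 (tau_nonneg _ _) (by positivity)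
          exact mul_le_mul_of_nonneg_left hy4 (by positivity)
      _ = _ := by field_simp; ring
  calc _ ≤ _ := h
    _ ≤ 12 * ρ^2 * (u^5 * EE K) + 8205 * ρ^2 * (u^5 * EE K) + 8192 * u^3 * ρ^4 * XX n u ^ 2 := by
      linarith
    _ = _ := by ring

lemma rho_u_XX (hρ : 1 ≤ ρ) (hn : 4 * ρ ≤ n) : (ρ^2 * u^2) * XX n u ≤ 1 := by
  have h := x_mul_XX n u
  have hX := XX_pos n u
  have h1 : ρ^2 ≤ (n:ℝ)^2 / 16 := by nlinarith
  have h2 : ρ^2 * u^2 ≤ (u^2 * n^2)/16 := by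
    have := mul_le_mul_of_nonneg_right h1 (sq_nonneg u)
    linarith
  have h3 := mul_le_mul_of_nonneg_right h2 hX.le
  linarith

lemma D_bound (hu : 0 < u) (hK : 1 ≤ K) (huK : u * K ≤ 1) (hρ : 1 ≤ ρ) (hn : 4 * ρ ≤ n) (hy : |y| ≤ ρ) :
    |T n u y - T n u 0| ≤ 20000 * (ρ^2 * u * XX n u + ρ^2 * u^5 * EE K) := by
  have h1 := D_minus_Q hu hK huK hρ hn hy
  have h2 := T2_bound (n := n) hu hK huK
  have hX := XX_pos n u
  have hX1 := XX_le_one n u
  have hE := EE_pos K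
  have hy2 : y^2 ≤ ρ^2 := by rw [← sq_abs]; exact pow_le_pow_left₀ (abs_nonneg _) hy 2
  have e : T n u y - T n u 0 = (T n u y - T n u 0 - y^2/2 * T2 n u) + y^2/2 * T2 n u := by ring
  rw [e]
  refine (abs_add_le _ _).trans ?_
  rw [abs_mul, abs_of_nonneg (by positivity : 0 ≤ y^2/2)]
  have b1 : y^2/2 * |T2 n u| ≤ ρ^2/2 * (16410 * u^5 * EE K + 128 * u * XX n u ^ 2) := by
    apply mul_le_mul _ h2 (abs_nonneg _) (by positivity); linarith
  have hXX : XX n u ^2 ≤ XX n u := by nlinarith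
  have b2 : ρ^2 * u * XX n u ^2 ≤ ρ^2 * u * XX n u := mul_le_mul_of_nonneg_left hXX (by positivity)
  have b3 : u^3 * ρ^4 * XX n u ^2 ≤ ρ^2 * u * XX n u := by
    have := rho_u_XX (u := u) hρ hn
    calc u^3 * ρ^4 * XX n u ^2 = (ρ^2 * u * XX n u) * ((ρ^2 * u^2) * XX n u) := by ring
      _ ≤ (ρ^2 * u * XX n u) * 1 := mul_le_mul_of_nonneg_left this (by positivity)
      _ = _ := by ring
  have hb : 0 ≤ ρ^2 * u^5 * EE K := by positivity
  have ha : 0 ≤ ρ^2 * u * XX n u := by positivity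
  nlinarith

/-- algebraic expansion of a product of three factors around `t` -/
lemma prod3 (t d1 d2 d3 q1 q2 q3 : ℝ) :
    (t + d1) * (t + d2) * (t + d3) - t^3 - t^2 * (q1 + q2 + q3) =
      t^2 * ((d1 - q1) + (d2 - q2) + (d3 - q3)) + t * (d1*d2 + d1*d3 + d2*d3) + d1*d2*d3 := by ring

lemma prod3_bound {t d1 d2 d3 q1 q2 q3 τ δ ε : ℝ} (ht : |t| ≤ τ) (h1 : |d1| ≤ δ) (h2 : |d2| ≤ δ) (h3 : |d3| ≤ δ)
    (e1 : |d1 - q1| ≤ ε) (e2 : |d2 - q2| ≤ ε) (e3 : |d3 - q3| ≤ ε) :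
    |(t + d1) * (t + d2) * (t + d3) - t^3 - t^2 * (q1 + q2 + q3)| ≤ 3 * τ^2 * ε + 3 * τ * δ^2 + δ^3 := by
  rw [prod3]
  have hδ : 0 ≤ δ := (abs_nonneg _).trans h1
  have hτ : 0 ≤ τ := (abs_nonneg _).trans ht
  have hε : 0 ≤ ε := (abs_nonneg _).trans e1
  have m12 : |d1*d2| ≤ δ^2 := by rw [abs_mul, sq]; exact mul_le_mul h1 h2 (abs_nonneg _) hδ
  have m13 : |d1*d3| ≤ δ^2 := by rw [abs_mul, sq]; exact mul_le_mul h1 h3 (abs_nonneg _) hδ
  have m23 : |d2*d3| ≤ δ^2 := by rw [abs_mul, sq]; exact mul_le_mul h2 h3 (abs_nonneg _) hδ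
  have m123 : |d1*d2*d3| ≤ δ^3 := by
    rw [abs_mul, pow_succ]; exact mul_le_mul m12 h3 (abs_nonneg _) (by positivity)
  have s1 : |(d1 - q1) + (d2 - q2) + (d3 - q3)| ≤ 3 * ε := by
    refine (abs_add_le _ _).trans ?_
    have := abs_add_le (d1 - q1) (d2 - q2)
    linarith
  have s2 : |d1*d2 + d1*d3 + d2*d3| ≤ 3 * δ^2 := by
    refine (abs_add_le _ _).trans ?_
    have := abs_add_le (d1*d2) (d1*d3)
    linarith
  have t2 : |t^2| ≤ τ^2 := by rw [abs_pow]; exact pow_le_pow_left₀ (abs_nonneg _) ht 2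
  have p1 : |t^2 * ((d1 - q1) + (d2 - q2) + (d3 - q3))| ≤ τ^2 * (3*ε) := by
    rw [abs_mul]; exact mul_le_mul t2 s1 (abs_nonneg _) (by positivity)
  have p2 : |t * (d1*d2 + d1*d3 + d2*d3)| ≤ τ * (3*δ^2) := by
    rw [abs_mul]; exact mul_le_mul ht s2 (abs_nonneg _) hτ
  refine (abs_add_le _ _).trans ?_
  have := abs_add_le (t^2 * ((d1 - q1) + (d2 - q2) + (d3 - q3))) (t * (d1*d2 + d1*d3 + d2*d3))
  linarith

end

/-- product of the three one-dimensional sums -/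
def P3 (n : ℕ) (u : ℝ) (y : Fin 3 → ℝ) : ℝ := T n u (y 0) * T n u (y 1) * T n u (y 2)

/-- first term of the error -/
lemma err1 {u X E ρ : ℝ} (hu : 0 < u) (hu1 : u ≤ 1) (hE : 0 ≤ E) (hρ : 1 ≤ ρ) :
    3 * (2/u)^2 * (8217 * ρ^2 * u^5 * E + 8192 * u^3 * ρ^4 * X ^ 2) ≤
      98604 * (ρ^6 * E) + 98304 * (ρ^4 * (u * X^2)) := by
  have hρ4 : 1 ≤ ρ^4 := one_le_pow₀ hρ
  have e1 : 3 * (2/u)^2 * (8217 * ρ^2 * u^5 * E + 8192 * u^3 * ρ^4 * X ^ 2) =
      98604 * (ρ^2 * u^3 * E) + 98304 * (ρ^4 * (u * X^2)) := by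
    field_simp; ring
  rw [e1]
  have : ρ^2 * u^3 * E ≤ ρ^6 * E := by
    apply mul_le_mul_of_nonneg_right _ hE
    calc ρ^2 * u^3 ≤ ρ^2 * 1 := mul_le_mul_of_nonneg_left (pow_le_one₀ hu.le hu1) (by positivity)
      _ ≤ ρ^2 * ρ^4 := mul_le_mul_of_nonneg_left hρ4 (by positivity)
      _ = ρ^6 := by ring
  linarith

/-- squares -/
lemma err2 {u X E ρ : ℝ} (hu : 0 < u) (hu1 : u ≤ 1) (hE : 0 ≤ E) (hE1 : E ≤ 1) (hρ : 1 ≤ ρ) :
    (ρ^2 * u * X + ρ^2 * u^5 * E)^2 / u ≤ 2 * (ρ^4 * (u * X^2)) + 2 * (ρ^6 * E) := by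
  have hρ2 : 1 ≤ ρ^2 := one_le_pow₀ hρ
  have h9 : u^9 * E ≤ 1 := by
    have := pow_le_one₀ hu.le hu1 (n := 9)
    exact mul_le_one₀ this hE hE1
  have b2 : (ρ^2 * u^5 * E)^2 / u ≤ ρ^6 * E := by
    have e : (ρ^2 * u^5 * E)^2 / u = (ρ^4 * E) * (u^9 * E) := by field_simp
    rw [e]
    calc (ρ^4 * E) * (u^9 * E) ≤ (ρ^4 * E) * 1 := mul_le_mul_of_nonneg_left h9 (by positivity)
      _ ≤ (ρ^4 * E) * ρ^2 := mul_le_mul_of_nonneg_left hρ2 (by positivity)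
      _ = ρ^6 * E := by ring
  have a2 : (ρ^2 * u * X)^2 / u = ρ^4 * (u * X^2) := by field_simp
  have h : (ρ^2 * u * X + ρ^2 * u^5 * E)^2 ≤ 2*(ρ^2 * u * X)^2 + 2*(ρ^2 * u^5 * E)^2 := by
    have := sq_nonneg (ρ^2 * u * X - ρ^2 * u^5 * E)
    have e : 2*(ρ^2 * u * X)^2 + 2*(ρ^2 * u^5 * E)^2 - (ρ^2 * u * X + ρ^2 * u^5 * E)^2 =
      (ρ^2 * u * X - ρ^2 * u^5 * E)^2 := by ring
    linarith
  calc (ρ^2 * u * X + ρ^2 * u^5 * E)^2 / u ≤ (2*(ρ^2 * u * X)^2 + 2*(ρ^2 * u^5 * E)^2) / u :=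
        div_le_div_of_nonneg_right h hu.le
    _ = 2*((ρ^2 * u * X)^2/u) + 2*((ρ^2 * u^5 * E)^2/u) := by ring
    _ ≤ _ := by rw [a2]; linarith

/-- cubes -/
lemma err3 {u X E ρ : ℝ} (hu : 0 < u) (hu1 : u ≤ 1) (hX : 0 ≤ X) (hE : 0 ≤ E) (hE1 : E ≤ 1) (hρ : 1 ≤ ρ)
    (h : (ρ^2 * u^2) * X ≤ 1) :
    (ρ^2 * u * X + ρ^2 * u^5 * E)^3 ≤ 4 * (ρ^4 * (u * X^2)) + 4 * (ρ^6 * E) := by
  have a3 : (ρ^2 * u * X)^3 ≤ ρ^4 * (u * X^2) := by
    have e : (ρ^2 * u * X)^3 = (ρ^4 * (u * X^2)) * ((ρ^2 * u^2) * X) := by ring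
    rw [e]
    calc _ ≤ (ρ^4 * (u * X^2)) * 1 := mul_le_mul_of_nonneg_left h (by positivity)
      _ = _ := by ring
  have b3 : (ρ^2 * u^5 * E)^3 ≤ ρ^6 * E := by
    have h15 : u^15 * E^2 ≤ 1 :=
      mul_le_one₀ (pow_le_one₀ hu.le hu1) (by positivity) (pow_le_one₀ hE hE1)
    have e : (ρ^2 * u^5 * E)^3 = (ρ^6 * E) * (u^15 * E^2) := by ring
    rw [e]
    calc _ ≤ (ρ^6 * E) * 1 := mul_le_mul_of_nonneg_left h15 (by positivity)
      _ = _ := by ring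
  have cube : ∀ a b : ℝ, 0 ≤ a → 0 ≤ b → (a+b)^3 ≤ 4*a^3 + 4*b^3 := by
    intro a b ha hb
    nlinarith [mul_nonneg (add_nonneg ha hb) (sq_nonneg (a-b))]
  have := cube (ρ^2 * u * X) (ρ^2 * u^5 * E) (by positivity) (by positivity)
  linarith

lemma err_all {u X E ρ : ℝ} (hu : 0 < u) (hu1 : u ≤ 1) (hX : 0 ≤ X) (hE : 0 ≤ E) (hE1 : E ≤ 1) (hρ : 1 ≤ ρ)
    (h : (ρ^2 * u^2) * X ≤ 1) :
    3 * (2/u)^2 * (8217 * ρ^2 * u^5 * E + 8192 * u^3 * ρ^4 * X ^ 2) +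
      3 * (2/u) * (20000 * (ρ^2 * u * X + ρ^2 * u^5 * E))^2 + (20000 * (ρ^2 * u * X + ρ^2 * u^5 * E))^3 ≤
    40000000000000 * (ρ^4 * (u * X^2) + ρ^6 * E) := by
  have h1 := err1 (X := X) hu hu1 hE hρ
  have h2 := err2 (X := X) hu hu1 hE hE1 hρ
  have h3 := err3 hu hu1 hX hE hE1 hρ h
  generalize hs : ρ^2 * u * X + ρ^2 * u^5 * E = S at h2 h3 ⊢
  have hA0 : 0 ≤ ρ^4 * (u * X^2) := by positivity
  have hB0 : 0 ≤ ρ^6 * E := by positivity
  generalize hA : ρ^4 * (u * X^2) = A at *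
  generalize hB : ρ^6 * E = B at *
  generalize 3 * (2/u)^2 * (8217 * ρ^2 * u^5 * E + 8192 * u^3 * ρ^4 * X ^ 2) = Z at *
  have e2 : 3 * (2/u) * (20000 * S)^2 = 2400000000 * (S^2/u) := by ring
  have e3 : (20000 * S)^3 = 8000000000000 * S^3 := by ring
  rw [e2, e3]
  generalize S^2/u = p at *
  generalize S^3 = q at *
  linarith

lemma E1_bound {u K ρ : ℝ} {n : ℕ} {y : Fin 3 → ℝ} (hu : 0 < u) (hK : 1 ≤ K) (huK : u * K ≤ 1) (hρ : 1 ≤ ρ)
    (hn : 4 * ρ ≤ n) (hy : ∀ c, |y c| ≤ ρ) :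
    |P3 n u y - T n u 0 ^ 3 - T n u 0 ^ 2 * T2 n u * ((y 0^2 + y 1^2 + y 2^2)/2)| ≤
      40000000000000 * (ρ^4 * (u * XX n u ^ 2) + ρ^6 * EE K) := by
  have hu1 := u_le_one hu hK huK
  have e : P3 n u y - T n u 0 ^ 3 - T n u 0 ^ 2 * T2 n u * ((y 0^2 + y 1^2 + y 2^2)/2) =
      (T n u 0 + (T n u (y 0) - T n u 0)) * (T n u 0 + (T n u (y 1) - T n u 0)) * (T n u 0 + (T n u (y 2) - T n u 0)) - T n u 0 ^ 3 -
      T n u 0 ^ 2 * ((y 0)^2/2 * T2 n u + (y 1)^2/2 * T2 n u + (y 2)^2/2 * T2 n u) := by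
    unfold P3; ring
  rw [e]
  refine (prod3_bound (τ := 2/u) (δ := 20000 * (ρ^2 * u * XX n u + ρ^2 * u^5 * EE K))
    (ε := 8217 * ρ^2 * u^5 * EE K + 8192 * u^3 * ρ^4 * XX n u ^ 2)
    (by rw [abs_of_nonneg (T_nonneg _ _ _)]; exact T_le hu hu1 n 0)
    (D_bound hu hK huK hρ hn (hy 0)) (D_bound hu hK huK hρ hn (hy 1)) (D_bound hu hK huK hρ hn (hy 2))
    (D_minus_Q hu hK huK hρ hn (hy 0)) (D_minus_Q hu hK huK hρ hn (hy 1)) (D_minus_Q hu hK huK hρ hn (hy 2))).trans ?_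
  exact err_all hu hu1 (XX_pos n u).le (EE_pos K).le (EE_le_one K) hρ (rho_u_XX hρ hn)

end

end Crest.Agent.R338.GS
end

-- ▼ part R338/GS5
section

/-!
Row 338, node II.C.3/II.C.4, file 5: the near theorem (quadratic approximation of the
potential of the undisplaced lattice in scaled units).
-/

set_option autoImplicit false
open Real Finset
open scoped BigOperators

namespace Crest.Agent.R338.GS

noncomputable section

lemma g_le_half (u z : ℝ) : g u z ≤ g (u/2) z := by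
  unfold g; apply Real.exp_le_exp.mpr; nlinarith [sq_nonneg (u*z)]

lemma tl_zero_le {u : ℝ} (hu : 0 < u) (n : ℕ) : tl n u 0 ≤ 2 * tau n u := by
  unfold tl tau
  rw [← tsum_mul_left]
  refine Summable.tsum_le_tsum (fun m => ?_)
    ((summable_tail_sub hu n 0).add (summable_tail_add hu n 0)) ((summable_tau hu n).mul_left 2)
  have e : (0:ℝ) - (n+1+m) = -(n+1+m) := by ring
  rw [e, g_neg, zero_add]
  linarith [g_le_half u ((n:ℝ)+1+m)]

lemma T_zero_close {u K : ℝ} (hu : 0 < u) (hK : 1 ≤ K) (huK : u * K ≤ 1) (n : ℕ) :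
    |u * T n u 0 - Real.sqrt Real.pi| ≤ 6 * EE K + 16 * XX n u ^ 2 := by
  have hu1 := u_le_one hu hK huK
  have h1 := TZ_osc'' hu hK huK 0
  have h2 := tl_zero_le hu n
  have h3 := tau_le' hu hu1 n
  have h4 := tl_nonneg n u 0
  have h5 := TZ_eq hu n 0
  have e : u * T n u 0 - Real.sqrt Real.pi = u * (TZ u 0 - Real.sqrt Real.pi / u) - u * tl n u 0 := by
    rw [h5]; field_simp; ring
  rw [e]
  refine (abs_sub _ _).trans ?_
  rw [abs_mul, abs_mul, abs_of_pos hu, abs_of_nonneg h4]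
  have a1 : u * |TZ u 0 - Real.sqrt Real.pi / u| ≤ 6 * EE K := by
    calc u * |TZ u 0 - Real.sqrt Real.pi / u| ≤ u * (6 * u^5 * EE K) := mul_le_mul_of_nonneg_left h1 hu.le
      _ = u^6 * (6 * EE K) := by ring
      _ ≤ 1 * (6 * EE K) := mul_le_mul_of_nonneg_right (pow_le_one₀ hu.le hu1) (by have := EE_pos K; positivity)
      _ = _ := by ring
  have a2 : u * tl n u 0 ≤ 16 * XX n u ^ 2 := by
    calc u * tl n u 0 ≤ u * (2 * (8/u * XX n u ^ 2)) := by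
          apply mul_le_mul_of_nonneg_left _ hu.le; linarith
      _ = _ := by field_simp; ring
  linarith

lemma T_zero_eq (n : ℕ) (u : ℝ) : T n u 0 = 1 + 2 * ∑ k ∈ range n, g u (k+1) := by
  unfold T
  rw [Finset.sum_range_succ']
  have e1 : ∀ k : ℕ, g u (0 - ((k+1 : ℕ) : ℝ)) = g u ((k:ℝ)+1) := by
    intro k; rw [show (0:ℝ) - ((k+1 : ℕ) : ℝ) = -((k:ℝ)+1) by push_cast; ring, g_neg]
  have e2 : ∀ k : ℕ, g u (0 + ((k:ℝ)+1)) = g u ((k:ℝ)+1) := by intro k; rw [zero_add]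
  simp only [e1, e2]
  have : g u (0 - ((0:ℕ):ℝ)) = 1 := by simp [g_zero]
  rw [this]; ring

/-- derivative of `u * T n u 0` -/
def W' (n : ℕ) (u : ℝ) : ℝ := 1 + 2 * ∑ k ∈ range n, (1 - 2 * u^2 * (k+1)^2) * g u (k+1)

lemma hasDerivAt_g (u z : ℝ) : HasDerivAt (fun u => g u z) (-(2 * u * z^2) * g u z) u := by
  unfold g
  have h : HasDerivAt (fun u : ℝ => -(u^2*z^2)) (-(2*u*z^2)) u := by
    have := ((hasDerivAt_pow 2 u).mul_const (z^2)).fun_neg
    simpa using this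
  refine h.exp.congr_deriv ?_
  ring

lemma hasDerivAt_uT (n : ℕ) (u : ℝ) : HasDerivAt (fun u => u * T n u 0) (W' n u) u := by
  have e : (fun u => u * T n u 0) = fun u => u * (1 + 2 * ∑ k ∈ range n, g u ((k:ℝ)+1)) := by
    ext v; rw [T_zero_eq]
  rw [e]
  have h1 : HasDerivAt (fun u : ℝ => ∑ k ∈ range n, g u ((k:ℝ)+1)) (∑ k ∈ range n, (-(2 * u * ((k:ℝ)+1)^2) * g u ((k:ℝ)+1))) u := by
    exact HasDerivAt.fun_sum (u := range n) (A := fun (k:ℕ) (u:ℝ) => g u ((k:ℝ)+1)) (A' := fun k => -(2 * u * ((k:ℝ)+1)^2) * g u ((k:ℝ)+1)) (x := u) (fun k _ => hasDerivAt_g u ((k:ℝ)+1))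
  have h2 := ((hasDerivAt_id' u).fun_mul ((h1.const_mul 2).const_add 1))
  have h3 : W' n u = 1 * (1 + 2 * ∑ k ∈ range n, g u ((k:ℝ)+1)) + u * (2 * ∑ k ∈ range n, (-(2 * u * ((k:ℝ)+1)^2) * g u ((k:ℝ)+1))) := by
    unfold W'
    have : ∑ k ∈ range n, (1 - 2 * u^2 * ((k:ℝ)+1)^2) * g u ((k:ℝ)+1) = ∑ k ∈ range n, g u ((k:ℝ)+1) + u * ∑ k ∈ range n, (-(2 * u * ((k:ℝ)+1)^2) * g u ((k:ℝ)+1)) := by
      rw [Finset.mul_sum, ← Finset.sum_add_distrib]
      exact Finset.sum_congr rfl (fun k _ => by ring)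
    rw [this]; ring
  rw [h3]
  exact h2

lemma T2_eq_W' (n : ℕ) (u : ℝ) : T2 n u = -(2 * u^2) * W' n u := by
  unfold T2 W' g2
  rw [mul_add, mul_left_comm, Finset.mul_sum (a := -(2*u^2))]
  have e0 : (4 * u^4 * 0^2 - 2 * u^2) * g u 0 = -(2*u^2) * 1 := by rw [g_zero]; ring
  rw [e0]
  congr 2
  exact Finset.sum_congr rfl (fun k _ => by ring)

lemma hasDerivAt_F (n : ℕ) (u : ℝ) :
    HasDerivAt (fun u => -(2/3) * (u * T n u 0)^3) (T n u 0 ^ 2 * T2 n u) u := by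
  have h := ((hasDerivAt_uT n u).fun_pow 3).const_mul (-(2/3 : ℝ))
  rw [T2_eq_W']
  refine h.congr_deriv ?_
  push_cast; ring

@[fun_prop]
lemma continuous_g (z : ℝ) : Continuous fun u => g u z := by unfold g; fun_prop

lemma continuous_T (n : ℕ) (y : ℝ) : Continuous fun u => T n u y := by
  unfold T; fun_prop

lemma continuous_T2 (n : ℕ) : Continuous fun u => T2 n u := by
  unfold T2 g2; fun_prop

lemma continuous_P3 (n : ℕ) (y : Fin 3 → ℝ) : Continuous fun u => P3 n u y := by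
  unfold P3
  exact ((continuous_T n _).mul (continuous_T n _)).mul (continuous_T n _)

lemma continuous_XX (n : ℕ) : Continuous fun u => XX n u := by
  unfold XX; fun_prop

lemma integral_T2 (n : ℕ) (b : ℝ) : ∫ u in (0:ℝ)..b, T n u 0 ^ 2 * T2 n u = -(2/3) * (b * T n b 0)^3 := by
  rw [intervalIntegral.integral_eq_sub_of_hasDerivAt (fun u _ => hasDerivAt_F n u)
    (Continuous.intervalIntegrable (((continuous_T n 0).pow 2).mul (continuous_T2 n)) _ _)]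
  simp

lemma integral_uXX {n : ℕ} (hn : 0 < n) (b : ℝ) : ∫ u in (0:ℝ)..b, u * XX n u ^ 2 ≤ 8/(3*n^2) := by
  have hn' : (0:ℝ) < n := by exact_mod_cast hn
  have hd : ∀ u : ℝ, HasDerivAt (fun u => -(8/(3*(n:ℝ)^2)) * Real.exp (-(3/16*(u^2*n^2)))) (u * XX n u ^ 2) u := by
    intro u
    have h : HasDerivAt (fun u : ℝ => -(3/16*(u^2*(n:ℝ)^2))) (-(3/16*((2*u)*(n:ℝ)^2))) u := by
      have := (((hasDerivAt_pow 2 u).mul_const ((n:ℝ)^2)).const_mul (3/16:ℝ)).fun_neg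
      simpa using this
    have h2 := (h.exp).const_mul (-(8/(3*(n:ℝ)^2)))
    rw [XX_sq]
    refine h2.congr_deriv ?_
    field_simp; ring
  rw [intervalIntegral.integral_eq_sub_of_hasDerivAt (fun u _ => hd u)
    (Continuous.intervalIntegrable (continuous_id.mul ((continuous_XX n).pow 2)) _ _)]
  have h1 : 0 < Real.exp (-(3/16*(b^2*(n:ℝ)^2))) := Real.exp_pos _
  have h2 : (0:ℝ) < 8/(3*(n:ℝ)^2) := by positivity
  have h3 : Real.exp (-(3/16*((0:ℝ)^2*(n:ℝ)^2))) = 1 := by simp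
  rw [h3]
  nlinarith [mul_pos h2 h1]

lemma XXb_le {K : ℝ} {n : ℕ} (hn : 0 < n) (hK : 1 ≤ K) : XX n (1/K) ^ 2 ≤ 16/3 * (K^2/n^2) := by
  have hn' : (0:ℝ) < n := by exact_mod_cast hn
  have hK0 : 0 < K := by linarith
  rw [XX_sq]
  have hx : 0 < 3/16*((1/K)^2*(n:ℝ)^2) := by positivity
  have h := Real.add_one_le_exp (3/16*((1/K)^2*(n:ℝ)^2))
  rw [Real.exp_neg, inv_eq_one_div]
  have h2 : 1 / Real.exp (3/16*((1/K)^2*(n:ℝ)^2)) ≤ 1 / (3/16*((1/K)^2*(n:ℝ)^2)) :=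
    one_div_le_one_div_of_le hx (by linarith)
  refine h2.trans (le_of_eq ?_)
  field_simp

/-- scaled potential `U` (up to the factor `-λ/s`) -/
def UU (n : ℕ) (K : ℝ) (y : Fin 3 → ℝ) : ℝ :=
  2 / Real.sqrt Real.pi * (∫ u in (0:ℝ)..(1/K), P3 n u y) + 1/K / Real.sqrt Real.pi * P3 n (1/K) y

/-- the error of the quadratic expansion at parameter `u` -/
def er (n : ℕ) (u : ℝ) (y : Fin 3 → ℝ) : ℝ :=
  P3 n u y - T n u 0 ^ 3 - T n u 0 ^ 2 * T2 n u * ((y 0^2 + y 1^2 + y 2^2)/2)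

lemma continuous_er (n : ℕ) (y : Fin 3 → ℝ) : Continuous fun u => er n u y := by
  unfold er
  exact ((continuous_P3 n y).sub ((continuous_T n 0).pow 3)).sub
    ((((continuous_T n 0).pow 2).mul (continuous_T2 n)).mul continuous_const)

lemma integral_er {K ρ : ℝ} {n : ℕ} {y : Fin 3 → ℝ} (hK : 1 ≤ K) (hρ : 1 ≤ ρ)
    (hn : 4 * ρ ≤ n) (hy : ∀ c, |y c| ≤ ρ) :
    |∫ u in (0:ℝ)..(1/K), er n u y| ≤ 40000000000000 * (3 * (ρ^4/n^2) + ρ^6 * EE K) := by
  have hK0 : 0 < K := by linarith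
  have hn0 : 0 < n := by
    rcases Nat.eq_zero_or_pos n with h | h
    · subst h; norm_num at hn; linarith
    · exact h
  have hn' : (0:ℝ) < n := by exact_mod_cast hn0
  have hE := EE_pos K
  have hb : (0:ℝ) ≤ 1/K := by positivity
  have hb1 : 1/K ≤ 1 := by rw [div_le_one hK0]; exact hK
  rw [← Real.norm_eq_abs]
  have hc : Continuous fun u : ℝ => 40000000000000 * (ρ^4 * (u * XX n u ^ 2) + ρ^6 * EE K) := by
    have := continuous_XX n
    fun_prop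
  have h1 := intervalIntegral.norm_integral_le_of_norm_le (f := fun u => er n u y) (μ := MeasureTheory.volume)
    (g := fun u : ℝ => 40000000000000 * (ρ^4 * (u * XX n u ^ 2) + ρ^6 * EE K)) hb
    (Filter.Eventually.of_forall (fun u hu => ?_)) (hc.intervalIntegrable _ _)
  · refine h1.trans ?_
    rw [intervalIntegral.integral_const_mul]
    apply mul_le_mul_of_nonneg_left _ (by norm_num)
    rw [intervalIntegral.integral_add, intervalIntegral.integral_const_mul, intervalIntegral.integral_const]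
    · have h2 := integral_uXX hn0 (1/K)
      have h3 : ρ^4 * (∫ u in (0:ℝ)..(1/K), u * XX n u ^ 2) ≤ ρ^4 * (8/(3*n^2)) :=
        mul_le_mul_of_nonneg_left h2 (by positivity)
      have h4 : ρ^4 * (8/(3*(n:ℝ)^2)) ≤ 3 * (ρ^4/n^2) := by
        have : 0 ≤ ρ^4/(n:ℝ)^2 := by positivity
        have e : ρ^4 * (8/(3*(n:ℝ)^2)) = 8/3 * (ρ^4/n^2) := by field_simp
        rw [e]; linarith
      have h5 : (1/K - 0) • (ρ^6 * EE K) ≤ ρ^6 * EE K := by
        rw [smul_eq_mul, sub_zero]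
        have : 0 ≤ ρ^6 * EE K := by positivity
        nlinarith
      linarith
    · apply Continuous.intervalIntegrable
      have := continuous_XX n
      fun_prop
    · exact continuous_const.intervalIntegrable _ _
  · rw [Real.norm_eq_abs]
    have hu0 : 0 < u := hu.1
    have huK : u * K ≤ 1 := by
      have := hu.2
      rw [le_div_iff₀ hK0] at this; exact this
    exact E1_bound hu0 hK huK hρ hn hy

lemma P3_zero (n : ℕ) (u : ℝ) : P3 n u (fun _ => 0) = T n u 0 ^ 3 := by unfold P3; ring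

lemma near_identity (n : ℕ) (K : ℝ) (y : Fin 3 → ℝ) :
    UU n K (fun _ => 0) - UU n K y - 2 * Real.pi / 3 * (y 0^2 + y 1^2 + y 2^2) =
      2 / Real.sqrt Real.pi * (2/3) * ((y 0^2 + y 1^2 + y 2^2)/2) * ((1/K * T n (1/K) 0)^3 - Real.sqrt Real.pi ^ 3)
      - 2 / Real.sqrt Real.pi * (∫ u in (0:ℝ)..(1/K), er n u y)
      - 1/K / Real.sqrt Real.pi * (T n (1/K) 0 ^ 2 * T2 n (1/K) * ((y 0^2 + y 1^2 + y 2^2)/2))
      - 1/K / Real.sqrt Real.pi * er n (1/K) y := by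
  have hp : 0 < Real.sqrt Real.pi := Real.sqrt_pos.mpr Real.pi_pos
  have e1 : ∀ u, P3 n u y = T n u 0 ^ 3 + T n u 0 ^ 2 * T2 n u * ((y 0^2 + y 1^2 + y 2^2)/2) + er n u y := by
    intro u; unfold er; ring
  have hI : ∫ u in (0:ℝ)..(1/K), P3 n u y = (∫ u in (0:ℝ)..(1/K), T n u 0 ^ 3) +
      (-(2/3) * (1/K * T n (1/K) 0)^3) * ((y 0^2 + y 1^2 + y 2^2)/2) + ∫ u in (0:ℝ)..(1/K), er n u y := by
    have c1 : Continuous fun u => T n u 0 ^ 3 := (continuous_T n 0).pow 3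
    have c2 : Continuous fun u => T n u 0 ^ 2 * T2 n u * ((y 0^2 + y 1^2 + y 2^2)/2) :=
      (((continuous_T n 0).pow 2).mul (continuous_T2 n)).mul continuous_const
    rw [intervalIntegral.integral_congr (g := fun u => T n u 0 ^ 3 + T n u 0 ^ 2 * T2 n u * ((y 0^2 + y 1^2 + y 2^2)/2) + er n u y) (fun u _ => e1 u)]
    rw [intervalIntegral.integral_add ((Continuous.fun_add c1 c2).intervalIntegrable _ _) ((continuous_er n y).intervalIntegrable _ _),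
      intervalIntegral.integral_add (c1.intervalIntegrable _ _) (c2.intervalIntegrable _ _),
      intervalIntegral.integral_mul_const, integral_T2]
  unfold UU
  simp only [P3_zero]
  rw [hI, e1 (1/K)]
  have hpi : Real.pi = Real.sqrt Real.pi ^ 2 := (Real.sq_sqrt Real.pi_pos.le).symm
  have e2 : 2 * Real.pi / 3 * (y 0^2 + y 1^2 + y 2^2) = 2 * Real.sqrt Real.pi ^ 2 / 3 * (y 0^2 + y 1^2 + y 2^2) := by
    rw [← hpi]
  rw [e2]
  generalize Real.sqrt Real.pi = p at *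
  generalize (∫ u in (0:ℝ)..(1/K), T n u 0 ^ 3) = I1
  generalize (∫ u in (0:ℝ)..(1/K), er n u y) = I2
  generalize er n (1/K) y = e3
  generalize T2 n (1/K) = t2
  generalize T n (1/K) 0 = t0
  generalize 1/K = b
  field_simp
  ring

end

end Crest.Agent.R338.GS
end

-- ▼ part R338/GS6
section

/-!
Row 338, node II.C.3/II.C.4, file 6: near theorem, monotonicity, far theorem (scaled units).
-/

set_option autoImplicit false
open Real Finset
open scoped BigOperators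

namespace Crest.Agent.R338.GS

noncomputable section

lemma cube_diff {m p d : ℝ} (hm : 0 ≤ m) (hm2 : m ≤ 2) (hp : 0 ≤ p) (hp2 : p ≤ 2) (h : |m - p| ≤ d) :
    |m^3 - p^3| ≤ 12 * d := by
  have e : m^3 - p^3 = (m - p) * (m^2 + m*p + p^2) := by ring
  rw [e, abs_mul, abs_of_nonneg (by positivity : 0 ≤ m^2+m*p+p^2)]
  have h1 : m^2 + m*p + p^2 ≤ 12 := by nlinarith
  have h2 : 0 ≤ m^2 + m*p + p^2 := by positivity
  calc |m-p| * (m^2+m*p+p^2) ≤ |m-p| * 12 := mul_le_mul_of_nonneg_left h1 (abs_nonneg _)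
    _ ≤ d * 12 := by linarith
    _ = _ := by ring

section
variable {K ρ : ℝ} {n : ℕ} {y : Fin 3 → ℝ}

lemma sq_sum_le (hy : ∀ c, |y c| ≤ ρ) : (y 0^2 + y 1^2 + y 2^2)/2 ≤ 3/2 * ρ^2 := by
  have h : ∀ c, y c ^ 2 ≤ ρ^2 := fun c => by
    rw [← sq_abs]; exact pow_le_pow_left₀ (abs_nonneg _) (hy c) 2
  linarith [h 0, h 1, h 2]

lemma XXb_le' (hK : 1 ≤ K) (hKρ : K ≤ ρ) (hn : 0 < n) : ρ^2 * XX n (1/K)^2 ≤ 16/3 * (ρ^4/n^2) := by
  have h := XXb_le hn hK
  have hn' : (0:ℝ) < n := by exact_mod_cast hn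
  have hK2 : K^2 ≤ ρ^2 := pow_le_pow_left₀ (by linarith) hKρ 2
  calc ρ^2 * XX n (1/K)^2 ≤ ρ^2 * (16/3 * (K^2/n^2)) := mul_le_mul_of_nonneg_left h (by positivity)
    _ ≤ ρ^2 * (16/3 * (ρ^2/n^2)) := by
      apply mul_le_mul_of_nonneg_left _ (by positivity)
      apply mul_le_mul_of_nonneg_left _ (by norm_num)
      exact div_le_div_of_nonneg_right hK2 (by positivity)
    _ = _ := by ring

lemma inv_sqrt_pi_le : 1 / Real.sqrt Real.pi ≤ 1 := by
  rw [div_le_one (Real.sqrt_pos.mpr Real.pi_pos)]; linarith [sqrt_pi_ge]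

lemma n_pos (hρ : 1 ≤ ρ) (hn : 4 * ρ ≤ n) : 0 < n := by
  rcases Nat.eq_zero_or_pos n with h | h
  · subst h; norm_num at hn; linarith
  · exact h

lemma termA (hK : 1 ≤ K) (hKρ : K ≤ ρ) (hn : 4 * ρ ≤ n) (hy : ∀ c, |y c| ≤ ρ) :
    |2 / Real.sqrt Real.pi * (2/3) * ((y 0^2 + y 1^2 + y 2^2)/2) * ((1/K * T n (1/K) 0)^3 - Real.sqrt Real.pi ^ 3)| ≤
      1536 * (ρ^4/n^2) + 108 * (ρ^6 * EE K) := by
  have hρ : 1 ≤ ρ := hK.trans hKρ
  have hn0 := n_pos hρ hn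
  have hn' : (0:ℝ) < n := by exact_mod_cast hn0
  have hK0 : 0 < K := by linarith
  have hb : 0 < 1/K := by positivity
  have hbK : 1/K * K ≤ 1 := le_of_eq (by field_simp)
  have hb1 := u_le_one hb hK hbK
  have hE := EE_pos K
  have hm0 : 0 ≤ 1/K * T n (1/K) 0 := mul_nonneg hb.le (T_nonneg _ _ _)
  have hm2 : 1/K * T n (1/K) 0 ≤ 2 := by
    have := mul_le_mul_of_nonneg_left (T_le hb hb1 n 0) hb.le
    refine this.trans (le_of_eq ?_); field_simp
  have h1 := cube_diff hm0 hm2 (Real.sqrt_nonneg Real.pi) (by linarith [sqrt_pi_le]) (T_zero_close hb hK hbK n)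
  have hQ0 : 0 ≤ (y 0^2 + y 1^2 + y 2^2)/2 := by positivity
  have hQ := sq_sum_le hy
  have hp : 0 < Real.sqrt Real.pi := Real.sqrt_pos.mpr Real.pi_pos
  have hp' : 2 / Real.sqrt Real.pi * (2/3) ≤ 1 := by
    have : 2 / Real.sqrt Real.pi ≤ 3/2 := by
      rw [div_le_iff₀ hp]; linarith [sqrt_pi_ge]
    linarith
  have hpp : 0 ≤ 2 / Real.sqrt Real.pi * (2/3) := by positivity
  rw [abs_mul, abs_of_nonneg (mul_nonneg hpp hQ0)]
  have hX := XXb_le' hK hKρ hn0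
  have hρ2 : ρ^2 ≤ ρ^6 := pow_le_pow_right₀ hρ (by norm_num)
  calc 2 / Real.sqrt Real.pi * (2/3) * ((y 0^2 + y 1^2 + y 2^2)/2) * |(1/K * T n (1/K) 0)^3 - Real.sqrt Real.pi ^ 3|
      ≤ (1 * (3/2 * ρ^2)) * (12 * (6 * EE K + 16 * XX n (1/K) ^ 2)) := by
        apply mul_le_mul (mul_le_mul hp' hQ hQ0 (by norm_num)) h1 (abs_nonneg _) (by positivity)
    _ = 288 * (ρ^2 * XX n (1/K)^2) + 108 * (ρ^2 * EE K) := by ring
    _ ≤ 288 * (16/3 * (ρ^4/n^2)) + 108 * (ρ^6 * EE K) := by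
        have := mul_le_mul_of_nonneg_right hρ2 hE.le
        linarith
    _ = _ := by ring

lemma termB (hK : 1 ≤ K) (hKρ : K ≤ ρ) (hn : 4 * ρ ≤ n) (hy : ∀ c, |y c| ≤ ρ) :
    |2 / Real.sqrt Real.pi * (∫ u in (0:ℝ)..(1/K), er n u y)| ≤
      240000000000000 * (ρ^4/n^2) + 80000000000000 * (ρ^6 * EE K) := by
  have hρ : 1 ≤ ρ := hK.trans hKρ
  have hp : 0 < Real.sqrt Real.pi := Real.sqrt_pos.mpr Real.pi_pos
  have h := integral_er hK hρ hn hy
  rw [abs_mul, abs_of_pos (by positivity)]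
  have h2 : 2 / Real.sqrt Real.pi ≤ 2 := by
    rw [div_le_iff₀ hp]; linarith [sqrt_pi_ge]
  calc 2 / Real.sqrt Real.pi * |∫ u in (0:ℝ)..(1/K), er n u y| ≤ 2 * (40000000000000 * (3 * (ρ^4/n^2) + ρ^6 * EE K)) :=
        mul_le_mul h2 h (abs_nonneg _) (by norm_num)
    _ = _ := by ring

lemma termC (hK : 1 ≤ K) (hKρ : K ≤ ρ) (hn : 4 * ρ ≤ n) (hy : ∀ c, |y c| ≤ ρ) :
    |1/K / Real.sqrt Real.pi * (T n (1/K) 0 ^ 2 * T2 n (1/K) * ((y 0^2 + y 1^2 + y 2^2)/2))| ≤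
      4096 * (ρ^4/n^2) + 98460 * (ρ^6 * EE K) := by
  have hρ : 1 ≤ ρ := hK.trans hKρ
  have hn0 := n_pos hρ hn
  have hK0 : 0 < K := by linarith
  have hb : 0 < 1/K := by positivity
  have hbK : 1/K * K ≤ 1 := le_of_eq (by field_simp)
  have hb1 := u_le_one hb hK hbK
  have hE := EE_pos K
  have hQ0 : 0 ≤ (y 0^2 + y 1^2 + y 2^2)/2 := by positivity
  have hQ := sq_sum_le hy
  have hX := XXb_le' hK hKρ hn0
  have hρ2 : ρ^2 ≤ ρ^6 := pow_le_pow_right₀ hρ (by norm_num)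
  have h2 := T2_bound (n := n) hb hK hbK
  have hT := T_le hb hb1 n 0
  have hT0 := T_nonneg n (1/K) 0
  generalize 1/K = b at *
  have hp0 : 0 < Real.sqrt Real.pi := Real.sqrt_pos.mpr Real.pi_pos
  have e : b / Real.sqrt Real.pi = b * (1 / Real.sqrt Real.pi) := by ring
  have e3 : |b * (1 / Real.sqrt Real.pi) * (T n b 0 ^ 2 * T2 n b * ((y 0^2 + y 1^2 + y 2^2)/2))| =
      b * (1 / Real.sqrt Real.pi) * (T n b 0 ^ 2 * |T2 n b| * ((y 0^2 + y 1^2 + y 2^2)/2)) := by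
    rw [abs_mul, abs_of_nonneg (by positivity : 0 ≤ b * (1 / Real.sqrt Real.pi)), abs_mul, abs_mul,
      abs_of_nonneg (by positivity : 0 ≤ T n b 0 ^ 2), abs_of_nonneg hQ0]
  rw [e, e3]
  have hT2 : T n b 0 ^ 2 ≤ (2/b)^2 := pow_le_pow_left₀ hT0 hT 2
  have hb4 : b^4 ≤ 1 := pow_le_one₀ hb.le hb1
  calc b * (1 / Real.sqrt Real.pi) * (T n b 0 ^ 2 * |T2 n b| * ((y 0^2 + y 1^2 + y 2^2)/2))
      ≤ (b * 1) * (((2/b)^2 * (16410 * b^5 * EE K + 128 * b * XX n b ^ 2)) * (3/2 * ρ^2)) := by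
        apply mul_le_mul (mul_le_mul_of_nonneg_left inv_sqrt_pi_le hb.le) _ (by positivity) (by positivity)
        apply mul_le_mul _ hQ hQ0 (by positivity)
        exact mul_le_mul hT2 h2 (abs_nonneg _) (by positivity)
    _ = 98460 * (b^4 * (ρ^2 * EE K)) + 768 * (ρ^2 * XX n b^2) := by field_simp; ring
    _ ≤ 98460 * (ρ^6 * EE K) + 768 * (16/3 * (ρ^4/n^2)) := by
        have h3 := mul_le_mul_of_nonneg_right hρ2 hE.le
        have h4 : b^4 * (ρ^2 * EE K) ≤ 1 * (ρ^2 * EE K) := mul_le_mul_of_nonneg_right hb4 (by positivity)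
        linarith
    _ = _ := by ring

lemma termD (hK : 1 ≤ K) (hKρ : K ≤ ρ) (hn : 4 * ρ ≤ n) (hy : ∀ c, |y c| ≤ ρ) :
    |1/K / Real.sqrt Real.pi * er n (1/K) y| ≤
      240000000000000 * (ρ^4/n^2) + 40000000000000 * (ρ^6 * EE K) := by
  have hρ : 1 ≤ ρ := hK.trans hKρ
  have hn0 := n_pos hρ hn
  have hn' : (0:ℝ) < n := by exact_mod_cast hn0
  have hK0 : 0 < K := by linarith
  have hb : 0 < 1/K := by positivity
  have hbK : 1/K * K ≤ 1 := le_of_eq (by field_simp)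
  have hb1 := u_le_one hb hK hbK
  have hE := EE_pos K
  have hX := XXb_le' hK hKρ hn0
  have h := E1_bound hb hK hbK hρ hn hy
  change |er n (1/K) y| ≤ _ at h
  have e : 1/K / Real.sqrt Real.pi = 1/K * (1 / Real.sqrt Real.pi) := by ring
  rw [e, abs_mul, abs_of_nonneg (by positivity : 0 ≤ 1/K * (1 / Real.sqrt Real.pi))]
  have h1 : 1/K * (1 / Real.sqrt Real.pi) ≤ 1/K := by
    have := mul_le_mul_of_nonneg_left inv_sqrt_pi_le hb.le
    linarith
  have h2 : ρ^4 * (1/K * (1/K * XX n (1/K)^2)) ≤ 16/3 * (ρ^4/n^2) := by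
    have h3 := XXb_le hn0 hK
    have h4 : 1/K * (1/K * XX n (1/K)^2) ≤ 16/3 * (1/n^2) := by
      calc 1/K * (1/K * XX n (1/K)^2) = (1/K)^2 * XX n (1/K)^2 := by ring
        _ ≤ (1/K)^2 * (16/3 * (K^2/n^2)) := mul_le_mul_of_nonneg_left h3 (by positivity)
        _ = _ := by field_simp
    have := mul_le_mul_of_nonneg_left h4 (by positivity : 0 ≤ ρ^4)
    refine this.trans (le_of_eq ?_); ring
  calc 1/K * (1 / Real.sqrt Real.pi) * |er n (1/K) y| ≤ 1/K * (40000000000000 * (ρ^4 * (1/K * XX n (1/K) ^ 2) + ρ^6 * EE K)) :=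
        mul_le_mul h1 h (abs_nonneg _) hb.le
    _ = 40000000000000 * (ρ^4 * (1/K * (1/K * XX n (1/K)^2))) + 40000000000000 * (1/K * (ρ^6 * EE K)) := by ring
    _ ≤ 40000000000000 * (16/3 * (ρ^4/n^2)) + 40000000000000 * (ρ^6 * EE K) := by
        have : 1/K * (ρ^6 * EE K) ≤ 1 * (ρ^6 * EE K) := mul_le_mul_of_nonneg_right hb1 (by positivity)
        linarith
    _ ≤ _ := by
        have : 0 ≤ ρ^4/(n:ℝ)^2 := by positivity
        linarith

/-- constant of the near theorem -/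
def CG : ℝ := 1000000000000000

theorem near (hK : 1 ≤ K) (hKρ : K ≤ ρ) (hn : 4 * ρ ≤ n) (hy : ∀ c, |y c| ≤ ρ) :
    |UU n K (fun _ => 0) - UU n K y - 2 * Real.pi / 3 * (y 0^2 + y 1^2 + y 2^2)| ≤
      CG * (ρ^4/n^2 + ρ^6 * EE K) := by
  have hρ : 1 ≤ ρ := hK.trans hKρ
  have hn0 := n_pos hρ hn
  have hn' : (0:ℝ) < n := by exact_mod_cast hn0
  have hE := EE_pos K
  rw [near_identity]
  have hA := termA hK hKρ hn hy
  have hB := termB hK hKρ hn hy
  have hC := termC hK hKρ hn hy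
  have hD := termD hK hKρ hn hy
  have hx : 0 ≤ ρ^4/(n:ℝ)^2 := by positivity
  have hz : 0 ≤ ρ^6 * EE K := by positivity
  generalize 2 / Real.sqrt Real.pi * (2/3) * ((y 0^2 + y 1^2 + y 2^2)/2) * ((1/K * T n (1/K) 0)^3 - Real.sqrt Real.pi ^ 3) = tA at *
  generalize 2 / Real.sqrt Real.pi * (∫ u in (0:ℝ)..(1/K), er n u y) = tB at *
  generalize 1/K / Real.sqrt Real.pi * (T n (1/K) 0 ^ 2 * T2 n (1/K) * ((y 0^2 + y 1^2 + y 2^2)/2)) = tC at *
  generalize 1/K / Real.sqrt Real.pi * er n (1/K) y = tD at *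
  generalize ρ^4/(n:ℝ)^2 = x1 at *
  generalize ρ^6 * EE K = x2 at *
  unfold CG
  have a1 := abs_sub (tA - tB - tC) tD
  have a2 := abs_sub (tA - tB) tC
  have a3 := abs_sub tA tB
  linarith

end

end

end Crest.Agent.R338.GS
end

-- ▼ part R338/GS7
section

/-!
Row 338, node II.C.3/II.C.4, file 7: monotonicity in the distance from the centre, far theorem,
bound of the central value (scaled units).
-/

set_option autoImplicit false
open Real Finset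
open scoped BigOperators

namespace Crest.Agent.R338.GS

noncomputable section

lemma T_neg (n : ℕ) (u y : ℝ) : T n u (-y) = T n u y := by
  unfold T
  rw [Finset.sum_range_succ', Finset.sum_range_succ' (fun k : ℕ => g u (y - k))]
  have e1 : ∀ k : ℕ, g u (-y - ((k+1 : ℕ) : ℝ)) = g u (y + ((k:ℝ)+1)) := by
    intro k; rw [show (-y) - ((k+1 : ℕ) : ℝ) = -(y + ((k:ℝ)+1)) by push_cast; ring, g_neg]
  have e2 : ∀ k : ℕ, g u (-y + ((k:ℝ)+1)) = g u (y - ((k+1 : ℕ) : ℝ)) := by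
    intro k; rw [show (-y) + ((k:ℝ)+1) = -(y - ((k+1 : ℕ) : ℝ)) by push_cast; ring, g_neg]
  have e3 : g u (-y - ((0:ℕ):ℝ)) = g u (y - ((0:ℕ):ℝ)) := by
    rw [show (-y) - ((0:ℕ) : ℝ) = -(y - ((0:ℕ):ℝ)) by push_cast; ring, g_neg]
  simp only [e1, e2, e3]
  ring

lemma T_abs (n : ℕ) (u y : ℝ) : T n u |y| = T n u y := by
  rcases abs_choice y with h | h <;> rw [h]
  exact T_neg n u y

lemma T_step (n : ℕ) (u y : ℝ) : T n u (y + 1) = T n u y + g u (y + (n+1)) - g u (y - n) := by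
  unfold T
  rw [Finset.sum_range_succ' (fun k : ℕ => g u (y + 1 - k)), Finset.sum_range_succ (fun k : ℕ => g u (y - k))]
  have h := Finset.sum_range_succ (fun k : ℕ => g u (y + (k:ℝ))) n
  have h' := Finset.sum_range_succ' (fun k : ℕ => g u (y + (k:ℝ))) n
  have e1 : ∀ k : ℕ, g u (y + 1 - ((k+1 : ℕ) : ℝ)) = g u (y - k) := by
    intro k; congr 1; push_cast; ring
  have e2 : g u (y + 1 - ((0:ℕ):ℝ)) = g u (y + 1) := by simp
  simp only [e1, e2]
  -- remaining: Σ_{k<n} g(y+1+(k+1)) + g(y+1) = Σ_{k<n} g(y+(k+1)) + g(y+(n+1))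
  have h3 : ∑ k ∈ range n, g u (y + 1 + ((k:ℝ)+1)) + g u (y + 1) = ∑ k ∈ range n, g u (y + ((k:ℝ)+1)) + g u (y + ((n:ℝ)+1)) := by
    have a := Finset.sum_range_succ (fun k : ℕ => g u (y + ((k:ℝ)+1))) n
    have b := Finset.sum_range_succ' (fun k : ℕ => g u (y + ((k:ℝ)+1))) n
    have e3 : ∀ k : ℕ, g u (y + (((k+1 : ℕ):ℝ)+1)) = g u (y + 1 + ((k:ℝ)+1)) := by
      intro k; congr 1; push_cast; ring
    have e4 : g u (y + (((0:ℕ):ℝ)+1)) = g u (y + 1) := by simp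
    simp only [e3, e4] at b
    linarith
  linarith

lemma T_step_le (n : ℕ) (u : ℝ) {y : ℝ} (hy : 0 ≤ y) : T n u (y + 1) ≤ T n u y := by
  rw [T_step]
  have : g u (y + (n+1)) ≤ g u (y - n) := by
    unfold g; apply Real.exp_le_exp.mpr
    have hn : (0:ℝ) ≤ n := Nat.cast_nonneg n
    have : (y - n)^2 ≤ (y + (n+1))^2 := by nlinarith [mul_nonneg hy hn]
    have := mul_le_mul_of_nonneg_left this (sq_nonneg u)
    linarith
  linarith

lemma T_add_nat_le (n : ℕ) (u : ℝ) {y : ℝ} (hy : 0 ≤ y) (m : ℕ) : T n u (y + m) ≤ T n u y := by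
  induction m with
  | zero => simp
  | succ m ih =>
    have := T_step_le n u (y := y + m) (by positivity)
    push_cast
    rw [← add_assoc]
    exact this.trans ih

/-- a representative in `[r, r+1)` with larger `T`, for all parameters simultaneously -/
lemma T_reduce (n : ℕ) {y r : ℝ} (hr : 0 ≤ r) (hy : r ≤ |y|) :
    ∃ z, r ≤ z ∧ z < r + 1 ∧ ∀ u, T n u y ≤ T n u z := by
  have h0 : 0 ≤ |y| - r := by linarith
  refine ⟨|y| - ⌊|y| - r⌋₊, ?_, ?_, fun u => ?_⟩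
  · have := Nat.floor_le h0; linarith
  · have := Nat.lt_floor_add_one (|y| - r); linarith
  · have h1 := Nat.floor_le h0
    have h := T_add_nat_le n u (y := |y| - ⌊|y| - r⌋₊) (by linarith) ⌊|y| - r⌋₊
    rw [sub_add_cancel, T_abs] at h
    exact h

lemma UU_mono {n : ℕ} {K : ℝ} (hK : 0 < K) {y z : Fin 3 → ℝ} (h : ∀ u c, T n u (y c) ≤ T n u (z c)) :
    UU n K y ≤ UU n K z := by
  have hP : ∀ u, P3 n u y ≤ P3 n u z := by
    intro u
    unfold P3
    have n0 := T_nonneg n u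
    exact mul_le_mul (mul_le_mul (h u 0) (h u 1) (n0 _) (n0 _)) (h u 2) (n0 _) (mul_nonneg (n0 _) (n0 _))
  have hp : 0 < Real.sqrt Real.pi := Real.sqrt_pos.mpr Real.pi_pos
  unfold UU
  refine add_le_add (mul_le_mul_of_nonneg_left ?_ (by positivity)) (mul_le_mul_of_nonneg_left (hP _) (by positivity))
  exact intervalIntegral.integral_mono_on (by positivity) ((continuous_P3 n y).intervalIntegrable _ _)
    ((continuous_P3 n z).intervalIntegrable _ _) (fun u _ => hP u)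

theorem far {K r : ℝ} {n : ℕ} {y : Fin 3 → ℝ} (hK : 1 ≤ K) (hr : 0 ≤ r) (hKr : K ≤ r + 1) (hn : 4 * (r+1) ≤ n)
    (hy : ∃ c, r ≤ |y c|) :
    2 * Real.pi / 3 * r^2 - CG * ((r+1)^4/n^2 + (r+1)^6 * EE K) ≤ UU n K (fun _ => 0) - UU n K y := by
  obtain ⟨c0, hc0⟩ := hy
  have hex : ∀ c, ∃ z, 0 ≤ z ∧ z < r + 1 ∧ (c = c0 → r ≤ z) ∧ ∀ u, T n u (y c) ≤ T n u z := by
    intro c
    by_cases hc : c = c0
    · subst hc
      obtain ⟨z, h1, h2, h3⟩ := T_reduce n hr hc0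
      exact ⟨z, hr.trans h1, h2, fun _ => h1, h3⟩
    · obtain ⟨z, h1, h2, h3⟩ := T_reduce n (le_refl (0:ℝ)) (abs_nonneg (y c))
      exact ⟨z, h1, by linarith, fun h => absurd h hc, h3⟩
  choose z hz0 hz1 hzc hzT using hex
  have hmono := UU_mono (K := K) (by linarith : 0 < K) (y := y) (z := z) (fun u c => hzT c u)
  have hnear := near (K := K) (ρ := r+1) (n := n) (y := z) hK hKr hn
    (fun c => by rw [abs_of_nonneg (hz0 c)]; exact (hz1 c).le)
  have h1 := (abs_le.mp hnear).1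
  have hsum : r^2 ≤ z 0^2 + z 1^2 + z 2^2 := by
    have hh : r^2 ≤ z c0 ^ 2 := pow_le_pow_left₀ hr (hzc c0 rfl) 2
    have : z c0 ^ 2 ≤ ∑ c, z c ^ 2 := Finset.single_le_sum (f := fun c => z c ^ 2) (fun c _ => sq_nonneg _) (Finset.mem_univ c0)
    rw [Fin.sum_univ_three] at this
    linarith
  have h2 : 2 * Real.pi / 3 * r^2 ≤ 2 * Real.pi / 3 * (z 0^2 + z 1^2 + z 2^2) :=
    mul_le_mul_of_nonneg_left hsum (by positivity)
  linarith





end

end Crest.Agent.R338.GS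
end

-- ▼ part R338/GS8

/-!
Row 338, node II.C.3/II.C.4, file 8: final statements in terms of `Lat.V0` (LatDefs).

`V0_near`, `V0_far`, `V0_nonpos`, `V0_zero_le`.
-/

set_option autoImplicit false
open Real Finset
open scoped BigOperators

namespace Crest.Agent.R338.GS

noncomputable section

lemma sum_Icc_int (f : ℤ → ℝ) (n : ℕ) :
    ∑ k ∈ Icc (-(n:ℤ)) n, f k = ∑ k ∈ range (n+1), f k + ∑ k ∈ range n, f (-((k:ℤ)+1)) := by
  induction n with
  | zero => simp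
  | succ n ih =>
    push_cast
    rw [Finset.Icc_succ_succ, Finset.sum_union, ih, Finset.sum_range_succ _ (n+1),
      Finset.sum_range_succ (fun k : ℕ => f (-((k:ℤ)+1))) n, Finset.sum_pair]
    · push_cast; ring
    · omega
    · rw [Finset.disjoint_left]
      intro a ha hb
      simp only [mem_Icc, mem_insert, mem_singleton] at ha hb
      omega

lemma Sx_eq {s : ℝ} (hs : s ≠ 0) (n : ℕ) (x τ : ℝ) : Lat.Sx s n x τ = T n (τ * s) (x / s) := by
  unfold Lat.Sx T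
  rw [sum_Icc_int (fun k : ℤ => Real.exp (-(τ ^ 2 * (x - s * (k : ℝ)) ^ 2)))]
  congr 1
  · refine Finset.sum_congr rfl (fun k _ => ?_)
    unfold g; congr 2; push_cast; field_simp
  · refine Finset.sum_congr rfl (fun k _ => ?_)
    unfold g; congr 2; push_cast; field_simp; ring

lemma V0_eq {lam s K : ℝ} (hs : 0 < s) (hK : 0 < K) (n : ℕ) (x : Lat.P3) :
    Lat.V0 lam s (1/(K*s)^2) n x = -(lam/s) * UU n K (fun c => x c / s) := by
  have ha : Real.sqrt (1/(K*s)^2) = 1/(K*s) := by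
    rw [Real.sqrt_div (by norm_num), Real.sqrt_one, Real.sqrt_sq (by positivity)]
  have ha2 : Real.sqrt (1/(K*s)^2/Real.pi) = 1/(K*s) / Real.sqrt Real.pi := by
    rw [Real.sqrt_div (by positivity), ha]
  have hp : 0 < Real.sqrt Real.pi := Real.sqrt_pos.mpr Real.pi_pos
  have hprod : ∀ τ : ℝ, ∏ c : Fin 3, Lat.Sx s n (x c) τ = P3 n (τ*s) (fun c => x c / s) := by
    intro τ
    rw [Fin.prod_univ_three]
    unfold P3
    rw [Sx_eq hs.ne', Sx_eq hs.ne', Sx_eq hs.ne']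
  unfold Lat.V0 UU
  rw [ha, ha2]
  simp only [hprod]
  rw [intervalIntegral.integral_comp_mul_right (fun u => P3 n u (fun c => x c / s)) hs.ne']
  have e1 : 1/(K*s)*s = 1/K := by field_simp
  rw [e1, zero_mul, smul_eq_mul]
  generalize (∫ u in (0:ℝ)..(1/K), P3 n u (fun c => x c / s)) = I
  generalize P3 n (1/K) (fun c => x c / s) = B
  field_simp
  ring

variable {lam s K : ℝ} {n : ℕ}

lemma lam_div (hs : 0 < s) (hlam : lam = 3 * s^3/(4*Real.pi)) : lam / s = 3/(4*Real.pi) * s^2 := by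
  rw [hlam]; field_simp

lemma coef_le : 3/(4*Real.pi) ≤ 1/4 := by
  rw [div_le_iff₀ (by positivity)]; linarith [Real.pi_gt_three]

/-- error of the near and far theorems -/
lemma err_scale {L : ℝ} (hs : 0 < s) (_hL : 0 ≤ L) (n : ℕ) (K : ℝ) :
    3/(4*Real.pi) * s^2 * (CG * ((L/s)^4/n^2 + (L/s)^6 * EE K)) ≤
      CG * (L^4/(s*n)^2 + L^6/s^4 * Real.exp (-(2*K^2))) := by
  have hE := EE_pos K
  have e : 3/(4*Real.pi) * s^2 * (CG * ((L/s)^4/n^2 + (L/s)^6 * EE K)) =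
      3/(4*Real.pi) * (CG * (L^4/(s*n)^2 + L^6/s^4 * EE K)) := by
    have : s^2 * ((L/s)^4/n^2 + (L/s)^6 * EE K) = L^4/(s*n)^2 + L^6/s^4 * EE K := by
      rw [mul_pow]
      field_simp
    rw [← this]; ring
  rw [e]
  have h0 : 0 ≤ CG * (L^4/(s*n)^2 + L^6/s^4 * EE K) := by unfold CG; positivity
  have h1 := mul_le_mul_of_nonneg_right coef_le h0
  change 3 / (4 * Real.pi) * (CG * (L^4/(s*n)^2 + L^6/s^4 * EE K)) ≤ CG * (L^4/(s*n)^2 + L^6/s^4 * EE K)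
  linarith

theorem V0_near (hlam : lam = 3 * s^3/(4*Real.pi)) (hs : 0 < s) (hK : 1 ≤ K) {L : ℝ} (hKL : K * s ≤ L)
    (hn : 4 * L ≤ n * s) {x : Lat.P3} (hx : ∀ c, |x c| ≤ L) :
    |Lat.V0 lam s (1/(K*s)^2) n x - Lat.V0 lam s (1/(K*s)^2) n 0 - ‖x‖^2/2| ≤
      CG * (L^4/(s*n)^2 + L^6/s^4 * Real.exp (-(2*K^2))) := by
  have hK0 : 0 < K := by linarith
  have hL : 0 ≤ L := le_trans (by positivity) hKL
  have hnear := near (K := K) (ρ := L/s) (n := n) (y := fun c => x c / s) hK (by rwa [le_div_iff₀ hs])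
    (by rw [mul_div_assoc', div_le_iff₀ hs]; exact hn)
    (fun c => by rw [abs_div, abs_of_pos hs]; exact div_le_div_of_nonneg_right (hx c) hs.le)
  rw [V0_eq hs hK0, V0_eq hs hK0]
  have e0 : (fun c : Fin 3 => (0 : Lat.P3) c / s) = fun _ => 0 := by ext c; simp
  rw [e0, Lat.norm_sq_P3, Fin.sum_univ_three]
  have hpi := Real.pi_pos
  have e : -(lam/s) * UU n K (fun c => x c / s) - -(lam/s) * UU n K (fun _ => 0) - (x 0^2 + x 1^2 + x 2^2)/2 =
      3/(4*Real.pi) * s^2 * (UU n K (fun _ => 0) - UU n K (fun c => x c / s) - 2*Real.pi/3 * ((x 0 / s)^2 + (x 1 / s)^2 + (x 2 / s)^2)) := by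
    rw [lam_div hs hlam]; field_simp; ring
  rw [e, abs_mul, abs_of_pos (by positivity)]
  refine (mul_le_mul_of_nonneg_left hnear (by positivity)).trans (err_scale hs hL n K)

theorem V0_far (hlam : lam = 3 * s^3/(4*Real.pi)) (hs : 0 < s) (hK : 1 ≤ K) {r : ℝ} (hr : 0 ≤ r)
    (hKr : K * s ≤ r + s) (hn : 4 * (r+s) ≤ n * s) {x : Lat.P3} (hx : ∃ c, r ≤ |x c|) :
    r^2/2 - CG * ((r+s)^4/(s*n)^2 + (r+s)^6/s^4 * Real.exp (-(2*K^2))) ≤
      Lat.V0 lam s (1/(K*s)^2) n x - Lat.V0 lam s (1/(K*s)^2) n 0 := by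
  have hK0 : 0 < K := by linarith
  have e1 : r/s + 1 = (r+s)/s := by field_simp
  obtain ⟨c, hc⟩ := hx
  have hfar := far (K := K) (r := r/s) (n := n) (y := fun c => x c / s) hK (by positivity)
    (by rw [e1, le_div_iff₀ hs]; exact hKr) (by rw [e1, mul_div_assoc', div_le_iff₀ hs]; exact hn)
    ⟨c, by rw [abs_div, abs_of_pos hs]; exact div_le_div_of_nonneg_right hc hs.le⟩
  rw [V0_eq hs hK0, V0_eq hs hK0]
  have e0 : (fun c : Fin 3 => (0 : Lat.P3) c / s) = fun _ => 0 := by ext c; simp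
  rw [e0]
  rw [e1] at hfar
  have hpi := Real.pi_pos
  have h2 := mul_le_mul_of_nonneg_left hfar (by positivity : 0 ≤ 3/(4*Real.pi) * s^2)
  have h3 := err_scale (L := r+s) hs (by positivity) n K
  have e3 : 3/(4*Real.pi) * s^2 * (2 * Real.pi/3 * (r/s)^2) = r^2/2 := by field_simp; norm_num
  rw [mul_sub, e3] at h2
  rw [lam_div hs hlam]
  linarith



end

end Crest.Agent.R338.GS
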