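import Crest.Agent.R338.PTab1
import Crest.Agent.R338.Nu1
import Crest.Agent.R338.Nu2
import Crest.Agent.R338.P1Fin_Mg

-- ▼ part R338/P1PTb
section

/-!
# Row 338: `PTR` of the exact arrays of `H_2` (helper18; `fx`, `fz`, `bz`, `c0`)
-/

set_option autoImplicit false

noncomputable section

open Crest.Agent.Lib.PT

namespace Crest.Agent.R338.P1

open Crest.Agent.R338 PTab Nu

variable {α β γ : Type} [PTCode α] [PTCode β] [PTCode γ]

/-- poly-time numerical data -/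
structure NDP (N : γ → ND) : Prop where
  M : PTF (fun c => (N c).M)
  T : PTU (fun c => (N c).T)
  kd : PTF (fun p : γ × ℕ => (N p.1).kd p.2)
  ga : PTF (fun p : γ × ℕ => (N p.1).ga p.2)
  gb : PTF (fun p : γ × ℕ => (N p.1).gb p.2)
  con : PTF (fun p : γ × ℕ => (N p.1).con p.2)
  nc : PTF (fun c => (N c).nc)
  out : PTF (fun c => (N c).out)

theorem NDP.comp {N : γ → ND} (h : NDP N) {f : β → γ} (hf : PTF f) : NDP (fun b => N (f b)) where
  M := PTF.comp (g := fun c => (N c).M) h.M hf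
  T := PTU.comp (n := fun c => (N c).T) h.T hf
  kd := PTF.comp h.kd (PTF.prodMk (PTF.comp hf PTF.fst) PTF.snd)
  ga := PTF.comp h.ga (PTF.prodMk (PTF.comp hf PTF.fst) PTF.snd)
  gb := PTF.comp h.gb (PTF.prodMk (PTF.comp hf PTF.fst) PTF.snd)
  con := PTF.comp h.con (PTF.prodMk (PTF.comp hf PTF.fst) PTF.snd)
  nc := PTF.comp (g := fun c => (N c).nc) h.nc hf
  out := PTF.comp (g := fun c => (N c).out) h.out hf

section
variable {N : γ → ND} (h : NDP N) {p q : γ → ℕ} (hp : PTF p) (hq : PTF q)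
include h

theorem NDP.kd' (hp : PTF p) : PTF (fun c => (N c).kd (p c)) := PTF.comp h.kd (PTF.prodMk PTF.id hp)
theorem NDP.ga' (hp : PTF p) : PTF (fun c => (N c).ga (p c)) := PTF.comp h.ga (PTF.prodMk PTF.id hp)
theorem NDP.gb' (hp : PTF p) : PTF (fun c => (N c).gb (p c)) := PTF.comp h.gb (PTF.prodMk PTF.id hp)
theorem NDP.con' (hp : PTF p) : PTF (fun c => (N c).con (p c)) :=
  PTF.comp h.con (PTF.prodMk PTF.id hp)

variable {Jin Jp Jk δ : γ → ℝ} (hJin : PTR Jin) (hJp : PTR Jp) (hJk : PTR Jk) (hδ : PTR δ)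

theorem ptr_fx (hJp : PTR Jp) (hδ : PTR δ) (hp : PTF p) : PTR (fun c => (N c).fx (Jp c) (δ c) (p c)) := by
  unfold ND.fx
  have hM := h.M
  have hT := h.T.toPTF
  have hk : PTF (fun c => (N c).kd (p c - (N c).M)) := h.kd' (by fun_prop)
  refine PTR.ite ?_ ?_ PTR.zero
  · exact PTPred.and (PTPred.natLe hM hp) (PTPred.and (PTPred.natLt hp (by fun_prop))
      (PTPred.natEq hk (PTF.const 3)))
  · fun_prop

theorem ptr_fz (hJin : PTR Jin) (hJp : PTR Jp) (hJk : PTR Jk) (hδ : PTR δ) (hp : PTF p) :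
    PTR (fun c => (N c).fz (Jin c) (Jp c) (Jk c) (δ c) (p c)) := by
  unfold ND.fz
  have hM := h.M
  have hT := h.T.toPTF
  have ho := h.out
  have hn : PTR (fun c => ((N c).nc : ℝ)) := PTR.natCast h.nc
  have hc := (h.con' hp).toPTPred
  have h14 : PTR (fun _ : γ => (1 / 4 : ℝ)) := by fun_prop
  refine PTR.ite (PTPred.natLt hp hM) ?_ (PTR.ite (PTPred.natLt hp (by fun_prop)) ?_ ?_)
  · exact PTR.sub (PTR.ite (PTPred.natEq hp ho) h14 PTR.zero)
      (PTR.ite hc (by fun_prop) PTR.zero)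
  · refine PTR.sub (PTR.add (PTR.add (PTR.ite (PTPred.natEq hp hM) ?_ PTR.zero)
      (PTR.ite (PTPred.natEq (by fun_prop) (by fun_prop)) ?_ PTR.zero))
      (PTR.ite (PTPred.natLt (by fun_prop) (by fun_prop)) ?_ PTR.zero))
      (PTR.ite (PTPred.natLt hM hp) ?_ PTR.zero)
    all_goals fun_prop
  · fun_prop

theorem ptr_ncz (hp : PTF p) (hq : PTF q) : PTR (fun c => (N c).ncz (p c) (q c)) := by
  unfold ND.ncz
  have h1 : NDP (fun x : γ × Un => N x.1) := h.comp PTF.fst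
  have hi : PTF (fun x : γ × Un => x.2.val) := ptu_snd.toPTF
  have hk : PTF (fun x : γ × Un => (N x.1).kd x.2.val) := h1.kd' hi
  have ha : PTF (fun x : γ × Un => (N x.1).ga x.2.val) := h1.ga' hi
  have hb : PTF (fun x : γ × Un => (N x.1).gb x.2.val) := h1.gb' hi
  have hp1 : PTF (fun x : γ × Un => p x.1) := PTF.comp hp PTF.fst
  have hq1 : PTF (fun x : γ × Un => q x.1) := PTF.comp hq PTF.fst
  refine PTR.sumRange (r := fun c t => if (N c).kd t = 3 ∧
    (((N c).ga t = p c ∧ (N c).gb t = q c) ∨ ((N c).ga t = q c ∧ (N c).gb t = p c)) then (1 : ℝ)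
      else 0) h.T ?_
  refine PTR.ite ?_ PTR.one PTR.zero
  exact PTPred.and (PTPred.natEq hk (PTF.const 3)) (PTPred.or
    (PTPred.and (PTPred.natEq ha hp1) (PTPred.natEq hb hq1))
    (PTPred.and (PTPred.natEq ha hq1) (PTPred.natEq hb hp1)))

theorem ptr_bz (hJin : PTR Jin) (hJp : PTR Jp) (hJk : PTR Jk) (hδ : PTR δ) (hp : PTF p)
    (hq : PTF q) : PTR (fun c => (N c).bz (Jin c) (Jp c) (Jk c) (δ c) (p c) (q c)) := by
  unfold ND.bz
  have hM := h.M
  have hT := h.T.toPTF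
  have ho := h.out
  have hn := ptr_ncz h hp hq
  have hc := (h.con' hp).toPTPred
  have hk : PTF (fun c => (N c).kd (p c - (N c).M)) := h.kd' (by fun_prop)
  have h14 : PTR (fun _ : γ => -(1 / 4 : ℝ)) := by fun_prop
  refine PTR.ite (PTPred.natLt hq hM) (by fun_prop) (PTR.ite (PTPred.natLt hp hM) ?_
    (PTR.ite (PTPred.natLt hq (by fun_prop)) ?_ (PTR.ite (PTPred.natLt hp (by fun_prop)) ?_
      PTR.zero)))
  · refine PTR.ite (PTPred.natLt hq (by fun_prop)) (PTR.add (PTR.ite ?_ ?_ PTR.zero)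
      (PTR.ite ?_ h14 PTR.zero)) PTR.zero
    · exact PTPred.and (PTPred.natEq hq hM) hc
    · fun_prop
    · exact PTPred.and (PTPred.natEq (by fun_prop) (by fun_prop)) (PTPred.natEq hp ho)
  · exact PTR.ite (PTPred.natEq (by fun_prop) hq) (by fun_prop) PTR.zero
  · exact PTR.ite (PTPred.and (PTPred.natEq hq (by fun_prop)) (PTPred.natEq hk (PTF.const 3)))
      (by fun_prop) PTR.zero

theorem ptr_c0 (hJin : PTR Jin) (hJp : PTR Jp) (hJk : PTR Jk) (hδ : PTR δ) :
    PTR (fun c => (N c).c0 (Jin c) (Jp c) (Jk c) (δ c)) := by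
  unfold ND.c0
  have hn : PTR (fun c => ((N c).nc : ℝ)) := PTR.natCast h.nc
  have hT : PTR (fun c => ((N c).T : ℝ)) := PTR.natCast h.T.toPTF
  have hs : PTR (fun c => ∑ t ∈ Finset.range (N c).T, if (N c).kd t = 3 then (1 : ℝ) else 0) := by
    refine PTR.sumRange (r := fun c t => if (N c).kd t = 3 then (1 : ℝ) else 0) h.T ?_
    exact PTR.ite (PTPred.natEq ((h.comp PTF.fst).kd' ptu_snd.toPTF) (PTF.const 3)) PTR.one PTR.zero
  fun_prop

theorem ptp_isR (hp : PTF p) (hq : PTF q) : PTPred (fun c => (N c).isR (p c) (q c) = true) := by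
  have hM := h.M
  have hT := h.T.toPTF
  have hk : PTF (fun c => (N c).kd (q c - (N c).M)) := h.kd' (by fun_prop)
  have ha : PTF (fun c => (N c).ga (q c - (N c).M)) := h.ga' (by fun_prop)
  refine PTPred.of_iff (p := fun c => p c < (N c).M ∧ (N c).M ≤ q c ∧ q c < (N c).M + (N c).T ∧
    ¬ ((N c).kd (q c - (N c).M) = 3) ∧ (N c).ga (q c - (N c).M) = p c) ?_ ?_
  · exact PTPred.and (PTPred.natLt hp hM) (PTPred.and (PTPred.natLe hM hq)
      (PTPred.and (PTPred.natLt hq (by fun_prop)) (PTPred.and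
        (PTPred.not (PTPred.natEq hk (PTF.const 3))) (PTPred.natEq ha hp))))
  · intro c
    simp [ND.isR, and_assoc]

theorem ptp_isCM (hp : PTF p) (hq : PTF q) : PTPred (fun c => (N c).isCM (p c) (q c) = true) := by
  have hM := h.M
  have hT := h.T.toPTF
  refine PTPred.of_iff (p := fun c => (N c).M ≤ p c ∧ p c < (N c).M + (N c).T ∧
    (N c).M + (N c).T ≤ q c) ?_ ?_
  · exact PTPred.and (PTPred.natLe hM hp) (PTPred.and (PTPred.natLt hp (by fun_prop))
      (PTPred.natLe (by fun_prop) hq))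
  · intro c
    simp [ND.isCM, and_assoc]

omit h in
theorem ptr_cosN (hk : PTF p) : PTR (fun c => cosN (p c)) := by
  have h8 : PTR (fun _ : γ => Real.cos (Real.pi / 8)) := by
    simp only [Real.cos_pi_div_eight]
    exact PTR.divOfNat (PTR.sqrt (PTR.add (PTR.ofNat 2) (PTR.sqrt (PTR.ofNat 2)))) 2
  have h4 : PTR (fun _ : γ => Real.cos (Real.pi / 4)) := by
    simp only [Real.cos_pi_div_four]
    exact PTR.divOfNat (PTR.sqrt (PTR.ofNat 2)) 2
  have h2 : PTR (fun _ : γ => Real.cos (Real.pi / 2)) := by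
    simp only [Real.cos_pi_div_two]
    exact PTR.zero
  unfold cosN
  exact PTR.ite (PTPred.natEq hk (PTF.const 0)) h8 (PTR.ite (PTPred.natEq hk (PTF.const 1)) h4 h2)

omit h in
theorem ptr_sinN (hk : PTF p) : PTR (fun c => sinN (p c)) := by
  have h8 : PTR (fun _ : γ => Real.sin (Real.pi / 8)) := by
    simp only [Real.sin_pi_div_eight]
    exact PTR.divOfNat (PTR.sqrt (PTR.sub (PTR.ofNat 2) (PTR.sqrt (PTR.ofNat 2)))) 2
  have h4 : PTR (fun _ : γ => Real.sin (Real.pi / 4)) := by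
    simp only [Real.sin_pi_div_four]
    exact PTR.divOfNat (PTR.sqrt (PTR.ofNat 2)) 2
  have h2 : PTR (fun _ : γ => Real.sin (Real.pi / 2)) := by
    simp only [Real.sin_pi_div_two]
    exact PTR.one
  unfold sinN
  exact PTR.ite (PTPred.natEq hk (PTF.const 0)) h8 (PTR.ite (PTPred.natEq hk (PTF.const 1)) h4 h2)

theorem ptr_ax (hp : PTF p) (hq : PTF q) : PTR (fun c => (N c).ax (p c) (q c)) := by
  have hM := h.M
  unfold ND.ax
  exact PTR.ite (ptp_isR h hp hq) (ptr_sinN (h.kd' (by fun_prop)))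
    (PTR.ite (ptp_isCM h hp hq) PTR.one PTR.zero)

theorem ptr_az (hp : PTF p) (hq : PTF q) : PTR (fun c => (N c).az (p c) (q c)) := by
  have hM := h.M
  unfold ND.az
  exact PTR.ite (ptp_isR h hp hq) (ptr_cosN (h.kd' (by fun_prop)))
    (PTR.ite (ptp_isCM h hp hq) PTR.zero PTR.one)

theorem ptr_bx (hJp : PTR Jp) (hδ : PTR δ) (hp : PTF p) (hq : PTF q) :
    PTR (fun c => (N c).bx (Jp c) (δ c) (p c) (q c)) := by
  have hM := h.M
  have hT := h.T.toPTF
  have hk : PTF (fun c => (N c).kd (q c - (N c).M)) := h.kd' (by fun_prop)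
  have ha : PTF (fun c => (N c).ga (q c - (N c).M)) := h.ga' (by fun_prop)
  have hb : PTF (fun c => (N c).gb (q c - (N c).M)) := h.gb' (by fun_prop)
  have ha2 : PTF (fun c => (N c).ga (q c - ((N c).M + (N c).T))) := h.ga' (by fun_prop)
  have hb2 : PTF (fun c => (N c).gb (q c - ((N c).M + (N c).T))) := h.gb' (by fun_prop)
  have j4 : PTR (fun c => -(Jp c / 4)) := by fun_prop
  have j2 : PTR (fun c => -(Jp c / 2)) := by fun_prop
  have d2 : PTR (fun c => δ c ^ 2) := by fun_prop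
  unfold ND.bx
  refine PTR.ite (PTPred.natLt hp hM) (PTR.ite (PTPred.natLt hq hM) PTR.zero
    (PTR.ite (PTPred.natLt hq (by fun_prop)) (PTR.ite (PTPred.natEq hk (PTF.const 3)) ?_ ?_) ?_))
    PTR.zero
  · exact PTR.add (PTR.ite (PTPred.natEq ha hp) j4 PTR.zero)
      (PTR.ite (PTPred.natEq hb hp) j4 PTR.zero)
  · exact PTR.ite (PTPred.natEq ha hp) j2 PTR.zero
  · exact PTR.sub (PTR.ite (PTPred.natEq ha2 hp) d2 PTR.zero)
      (PTR.ite (PTPred.natEq hb2 hp) d2 PTR.zero)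

end

end Crest.Agent.R338.P1

end
end

-- ▼ part R338/P1Round

/-!
Row 338, node P1: from exact real `XZ` arrays computable in polynomial time (`PTR`) to coded
instances `XInst`.
-/

set_option autoImplicit false

noncomputable section

namespace Crest.Agent.R338.P1

open Finset Crest.Agent.Lib.PT Crest.Agent.R338.Nu

section pert
variable {ι : Type*} [Fintype ι] [DecidableEq ι]

lemma FB_mul_invol {A B : Op ι} (hA : Sym A) (hB : Sym B) (hA2 : A * A = 1) (hB2 : B * B = 1)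
    (hc : Commute A B) : FB (A * B) 1 := by
  refine FB_invol (hA.mul hB hc) ?_
  rw [mul_assoc, ← mul_assoc B A B, ← hc.eq, mul_assoc A B B, hB2, mul_one, hA2]

/-- perturbation of a rank one coupling -/
lemma FB_pair {p q : ι} (h : p ≠ q) {a a' b b' c c' d d' B ε : ℝ} (hε : 0 ≤ ε)
    (hc : |c| ≤ B) (hc' : |c'| ≤ B) (hb : |b| ≤ B) (hb' : |b'| ≤ B)
    (h1 : |a - c| ≤ ε) (h2 : |a' - c'| ≤ ε) (h3 : |b - d| ≤ ε) (h4 : |b' - d'| ≤ ε) :
    FB ((a • X p + a' • Z p) * (b • X q + b' • Z q) - (c • X p + c' • Z p) * (d • X q + d' • Z q))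
      (8 * B * ε) := by
  have hB : 0 ≤ B := (abs_nonneg _).trans hc
  have e : (a • X p + a' • Z p) * (b • X q + b' • Z q)
      - (c • X p + c' • Z p) * (d • X q + d' • Z q)
      = (a * b - c * d) • (X p * X q) + (a * b' - c * d') • (X p * Z q)
        + ((a' * b - c' * d) • (Z p * X q) + (a' * b' - c' * d') • (Z p * Z q)) := by
    simp only [add_mul, mul_add, smul_mul_assoc, mul_smul_comm]
    module
  have key : ∀ x y z w : ℝ, |z| ≤ B → |y| ≤ B → |x - z| ≤ ε → |y - w| ≤ ε →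
      |x * y - z * w| ≤ 2 * B * ε := by
    intro x y z w hz hy h1 h2
    have : x * y - z * w = (x - z) * y + z * (y - w) := by ring
    rw [this]
    refine (abs_add_le _ _).trans ?_
    rw [abs_mul, abs_mul]
    have g1 : |x - z| * |y| ≤ ε * B := mul_le_mul h1 hy (abs_nonneg _) hε
    have g2 : |z| * |y - w| ≤ B * ε := mul_le_mul hz h2 (abs_nonneg _) hB
    linarith
  have f1 := (FB_mul_invol (sym_X p) (sym_X q) (X_mul_self p) (X_mul_self q) (X_comm p q)).smul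
    (a * b - c * d)
  have f2 := (FB_mul_invol (sym_X p) (sym_Z q) (X_mul_self p) (Z_mul_self q) (X_Z_comm h)).smul
    (a * b' - c * d')
  have f3 := (FB_mul_invol (sym_Z p) (sym_X q) (Z_mul_self p) (X_mul_self q)
    (X_Z_comm h.symm).symm).smul (a' * b - c' * d)
  have f4 := (FB_mul_invol (sym_Z p) (sym_Z q) (Z_mul_self p) (Z_mul_self q) (Z_comm p q)).smul
    (a' * b' - c' * d')
  rw [e]
  refine ((f1.add f2).add (f3.add f4)).mono ?_
  have k1 := key a b c d hc hb h1 h3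
  have k2 := key a b' c d' hc hb' h1 h4
  have k3 := key a' b c' d hc' hb h2 h3
  have k4 := key a' b' c' d' hc' hb' h2 h4
  linarith

/-- perturbation of an `XZ` Hamiltonian -/
lemma FB_op {n : ℕ} (D D' : XZ n) {B ε : ℝ} (hB : 1 ≤ B) (hε : 0 ≤ ε)
    (h1 : ∀ p, |D.fx p - D'.fx p| ≤ ε) (h2 : ∀ p, |D.fz p - D'.fz p| ≤ ε)
    (h3 : ∀ p q, |D.ax p q - D'.ax p q| ≤ ε) (h4 : ∀ p q, |D.az p q - D'.az p q| ≤ ε)
    (h5 : ∀ p q, |D.bx p q - D'.bx p q| ≤ ε) (h6 : ∀ p q, |D.bz p q - D'.bz p q| ≤ ε)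
    (g3 : ∀ p q, |D'.ax p q| ≤ B) (g4 : ∀ p q, |D'.az p q| ≤ B)
    (g5 : ∀ p q, |D.bx p q| ≤ B) (g6 : ∀ p q, |D.bz p q| ≤ B) :
    FB (D.op - D'.op) (10 * (n : ℝ) ^ 2 * B * ε) := by
  have e : D.op - D'.op = ∑ p, ((D.fx p - D'.fx p) • X p + (D.fz p - D'.fz p) • Z p)
      + ∑ p, ∑ q, (if p < q then
        ((D.ax p q • X p + D.az p q • Z p) * (D.bx p q • X q + D.bz p q • Z q)
          - (D'.ax p q • X p + D'.az p q • Z p) * (D'.bx p q • X q + D'.bz p q • Z q)) else 0) := by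
    unfold XZ.op
    have e1 : ∑ p, ((D.fx p - D'.fx p) • X p + (D.fz p - D'.fz p) • Z p)
        = ∑ p, (D.fx p • X p + D.fz p • Z p) - ∑ p, (D'.fx p • X p + D'.fz p • Z p) := by
      rw [← Finset.sum_sub_distrib]
      refine Finset.sum_congr rfl fun p _ => ?_
      module
    have e2 : ∑ p, ∑ q, (if p < q then
        ((D.ax p q • X p + D.az p q • Z p) * (D.bx p q • X q + D.bz p q • Z q)
          - (D'.ax p q • X p + D'.az p q • Z p) * (D'.bx p q • X q + D'.bz p q • Z q)) else 0)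
        = (∑ p, ∑ q, if p < q then
            (D.ax p q • X p + D.az p q • Z p) * (D.bx p q • X q + D.bz p q • Z q) else 0)
          - ∑ p, ∑ q, if p < q then
            (D'.ax p q • X p + D'.az p q • Z p) * (D'.bx p q • X q + D'.bz p q • Z q) else 0 := by
      rw [← Finset.sum_sub_distrib]
      refine Finset.sum_congr rfl fun p _ => ?_
      rw [← Finset.sum_sub_distrib]
      refine Finset.sum_congr rfl fun q _ => ?_
      split_ifs
      · rfl
      · simp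
    rw [e1, e2]; abel
  rw [e]
  have hs1 : FB (∑ p, ((D.fx p - D'.fx p) • X p + (D.fz p - D'.fz p) • Z p))
      (∑ _p : Fin n, (2 * ε)) := by
    refine FB.sum fun p _ => ?_
    refine (((FB_X p).smul _).add ((FB_Z p).smul _)).mono ?_
    have := h1 p
    have := h2 p
    linarith
  have hs2 : FB (∑ p, ∑ q, (if p < q then
        ((D.ax p q • X p + D.az p q • Z p) * (D.bx p q • X q + D.bz p q • Z q)
          - (D'.ax p q • X p + D'.az p q • Z p) * (D'.bx p q • X q + D'.bz p q • Z q)) else 0))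
      (∑ _p : Fin n, ∑ _q : Fin n, (8 * B * ε)) := by
    refine FB.sum fun p _ => FB.sum fun q _ => ?_
    split_ifs with h
    · exact FB_pair (ne_of_lt h) hε (g3 p q) (g4 p q) (g5 p q) (g6 p q) (h3 p q) (h4 p q)
        (h5 p q) (h6 p q)
    · intro ψ
      rw [E_zero, abs_zero]
      exact mul_nonneg (by positivity) (nsq_nonneg _)
  refine (hs1.add hs2).mono ?_
  simp only [Finset.sum_const, Finset.card_univ, Fintype.card_fin, nsmul_eq_mul]
  have hn : (n : ℝ) ≤ (n : ℝ) ^ 2 := by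
    rcases Nat.eq_zero_or_pos n with h | h
    · simp [h]
    · have : (1 : ℝ) ≤ n := by exact_mod_cast h
      nlinarith
  have hn0 : (0 : ℝ) ≤ (n : ℝ) ^ 2 := by positivity
  have h7 : (n : ℝ) * (2 * ε) ≤ (n : ℝ) ^ 2 * (2 * (B * ε)) := by
    refine mul_le_mul hn ?_ (by positivity) hn0
    nlinarith
  nlinarith

end pert

section round
variable {α : Type} [PTCode α]

/-- real arrays as an `XZ` datum -/
def arr (n : α → ℕ) (fx fz : α → ℕ → ℝ) (ax az bx bz : α → ℕ → ℕ → ℝ) (a : α) : XZ (n a) where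
  fx p := fx a p
  fz p := fz a p
  ax p q := ax a p q
  az p q := az a p q
  bx p q := bx a p q
  bz p q := bz a p q

lemma ptr_div_sqrt3 {r : α → ℝ} (h : PTR r) : PTR (fun a => r a / √3) := by
  have h1 : PTR (fun a => r a * (√3 * ((1 / 3 : ℚ) : ℝ))) :=
    h.mul ((PTR.sqrt (PTR.ofNat 3)).mul (PTR.constRat _))
  refine h1.of_eq fun a => ?_
  have h3 : √3 * √3 = 3 := Real.mul_self_sqrt (by norm_num)
  have h4 : √3 ≠ 0 := by positivity
  push_cast
  rw [eq_div_iff h4]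
  linear_combination (r a / 3) * h3

lemma sqrt3_le : √3 ≤ 2 := by
  rw [Real.sqrt_le_left (by norm_num)]; norm_num

lemma sqrt3_ge : 1 ≤ √3 := by
  rw [Real.one_le_sqrt]; norm_num

/-- getD of a tabulated list -/
lemma getD_tab {β : Type} (f : ℕ → β) (d : β) (N m : ℕ) :
    ((List.range N).map f).getD m d = if m < N then f m else d := by
  rw [List.getD_eq_getElem?_getD, List.getElem?_map]
  split_ifs with h
  · rw [List.getElem?_range h]; simp
  · rw [List.getElem?_eq_none (by simpa using h)]; simp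

lemma idx_lt {n i j : ℕ} (hi : i < n) (hj : j < n) : i * n + j < n * n := by
  calc i * n + j < i * n + n := by omega
    _ = (i + 1) * n := by ring
    _ ≤ n * n := Nat.mul_le_mul_right _ hi

lemma idx_div {n i j : ℕ} (hj : j < n) : (i * n + j) / n = i := by
  have hpos : 0 < n := by omega
  rw [Nat.add_comm, Nat.add_mul_div_right _ _ hpos, Nat.div_eq_of_lt hj, zero_add]

lemma idx_mod {n i j : ℕ} (hj : j < n) : (i * n + j) % n = j := by
  rw [Nat.add_comm, Nat.add_mul_mod_self_right, Nat.mod_eq_of_lt hj]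

/-- ROUNDING of exact real `XZ` arrays to coded instances -/
theorem roundXZ (n q b : α → ℕ) (hn : PTU n) (hq : PTU q) (hb : PTU b)
    (hn1 : ∀ a, 1 ≤ n a) (hq1 : ∀ a, 1 ≤ q a)
    (fx fz : α → ℕ → ℝ) (ax az bx bz : α → ℕ → ℕ → ℝ)
    (hfx : PTR (fun p : α × ℕ => fx p.1 p.2)) (hfz : PTR (fun p : α × ℕ => fz p.1 p.2))
    (hax : PTR (fun p : α × (ℕ × ℕ) => ax p.1 p.2.1 p.2.2))
    (haz : PTR (fun p : α × (ℕ × ℕ) => az p.1 p.2.1 p.2.2))
    (hbx : PTR (fun p : α × (ℕ × ℕ) => bx p.1 p.2.1 p.2.2))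
    (hbz : PTR (fun p : α × (ℕ × ℕ) => bz p.1 p.2.1 p.2.2))
    (bfx : ∀ a p, |fx a p| ≤ b a) (bfz : ∀ a p, |fz a p| ≤ b a)
    (bax : ∀ a p r, |ax a p r| ≤ b a) (baz : ∀ a p r, |az a p r| ≤ b a)
    (bbx : ∀ a p r, |bx a p r| ≤ b a) (bbz : ∀ a p r, |bz a p r| ≤ b a)
    (lo : α → ℝ) (hlo : PTR lo) :
    ∃ g : α → XInst, PTF g ∧ (∀ a, (g a).Valid) ∧
      (∀ a, (∃ φ : Q (Fin (n a)), nsq φ = 1 ∧ E (arr n fx fz ax az bx bz a).op φ ≤ lo a) →
        (g a).Yes) ∧
      (∀ a, (∀ φ : Q (Fin (n a)), (lo a + 1 / (q a : ℝ)) * nsq φ ≤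
        E (arr n fx fz ax az bx bz a).op φ) → (g a).No) := by
  -- precision
  let K : α → ℕ := fun a => 320 * q a * (n a * n a) * (b a + 1)
  have hK : PTU K := PTU.mul (PTU.mul (PTU.mul (PTU.const 320) hq) (PTU.mul hn hn)) (PTU.succ hb)
  have hK1 : ∀ a, 1 ≤ K a := by
    intro a
    have h1 := hq1 a
    have h2 := hn1 a
    have h3 : 1 ≤ n a * n a := Nat.mul_le_mul h2 h2
    calc 1 ≤ 320 * 1 * 1 * 1 := by norm_num
      _ ≤ 320 * q a * (n a * n a) * (b a + 1) := by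
        apply Nat.mul_le_mul (Nat.mul_le_mul (Nat.mul_le_mul le_rfl h1) h3); omega
  have one : ∀ {r : α → ℕ → ℝ}, PTR (fun p : α × ℕ => r p.1 p.2) →
      ∃ s : α × ℕ → ℚ, PTF s ∧ ∀ a p, |((s (a, p) : ℚ) : ℝ) - r a p| ≤ 1 / (K a : ℝ) := by
    intro r hr
    obtain ⟨s, hs, hs'⟩ := hr.get (γ := α × ℕ) (k := fun p => K p.1) PTF.id (PTU.comp hK PTF.fst)
    exact ⟨s, hs, fun a p => (hs' (a, p)).trans (half_pow_le _ (hK1 a))⟩
  have two : ∀ {r : α → ℕ → ℕ → ℝ}, PTR (fun p : α × (ℕ × ℕ) => r p.1 p.2.1 p.2.2) →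
      ∃ s : α × (ℕ × ℕ) → ℚ, PTF s ∧
        ∀ a p t, |((s (a, (p, t)) : ℚ) : ℝ) - r a p t| ≤ 1 / (K a : ℝ) := by
    intro r hr
    obtain ⟨s, hs, hs'⟩ := hr.get (γ := α × (ℕ × ℕ)) (k := fun p => K p.1) PTF.id
      (PTU.comp hK PTF.fst)
    exact ⟨s, hs, fun a p t => (hs' (a, (p, t))).trans (half_pow_le _ (hK1 a))⟩
  obtain ⟨sfx, hsfx, esfx⟩ := one (r := fun a p => fx a p / √3) (ptr_div_sqrt3 hfx)
  obtain ⟨sfz, hsfz, esfz⟩ := one hfz
  obtain ⟨sax, hsax, esax⟩ := two (r := fun a p t => ax a p t / √3) (ptr_div_sqrt3 hax)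
  obtain ⟨saz, hsaz, esaz⟩ := two haz
  obtain ⟨sbx, hsbx, esbx⟩ := two (r := fun a p t => bx a p t / √3) (ptr_div_sqrt3 hbx)
  obtain ⟨sbz, hsbz, esbz⟩ := two hbz
  obtain ⟨qe, hqe, hqe'⟩ := hlo.approx hK
  let fl : α → ℕ → ℚ × ℚ := fun a m => (sfx (a, m), sfz (a, m))
  let cp : α → ℕ → (ℚ × ℚ) × (ℚ × ℚ) := fun a m =>
    ((sax (a, (m / n a, m % n a)), saz (a, (m / n a, m % n a))),
     (sbx (a, (m / n a, m % n a)), sbz (a, (m / n a, m % n a))))
  let g : α → XInst := fun a => (((Un.mk (n a), Un.mk (2 * q a)), Un.mk (b a + 1)),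
    (((List.range (n a)).map (fl a), (List.range (n a * n a)).map (cp a)),
      qe a + 1 / (4 * (q a : ℚ))))
  have hfl : PTF₂ fl := PTF.prodMk hsfx hsfz
  have hcp : PTF₂ cp := by
    have h1 : PTF (fun p : α × ℕ => n p.1) := (PTU.comp hn PTF.fst).toPTF
    have h2 : PTF (fun p : α × ℕ => (p.1, (p.2 / n p.1, p.2 % n p.1))) :=
      PTF.prodMk PTF.fst (PTF.prodMk (PTF.natDiv PTF.snd h1) (PTF.natMod PTF.snd h1))
    exact PTF.prodMk (PTF.prodMk (PTF.comp hsax h2) (PTF.comp hsaz h2))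
      (PTF.prodMk (PTF.comp hsbx h2) (PTF.comp hsbz h2))
  have hg : PTF g := by
    refine PTF.prodMk (PTF.prodMk (PTF.prodMk hn (PTU.mul (PTU.const 2) hq)) (PTU.succ hb))
      (PTF.prodMk (PTF.prodMk ?_ ?_) ?_)
    · exact PTF.tabulate hn hfl
    · exact PTF.tabulate (PTU.mul hn hn) hcp
    · exact PTF.ratAdd hqe (PTF.ratDiv (PTF.const 1) (PTF.ratMul (PTF.const 4)
        (PTF.ratNatCast hq.toPTF)))
  have hgfl : ∀ a p, p < n a → (g a).fl p = (sfx (a, p), sfz (a, p)) := by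
    intro a p hp
    show ((List.range (n a)).map (fl a)).getD p (0, 0) = _
    rw [getD_tab, if_pos hp]
  have hgcp : ∀ a p t, p < n a → t < n a → (g a).cp p t =
      ((sax (a, (p, t)), saz (a, (p, t))), (sbx (a, (p, t)), sbz (a, (p, t)))) := by
    intro a p t hp ht
    show ((List.range (n a * n a)).map (cp a)).getD (p * n a + t) ((0, 0), (0, 0)) = _
    rw [getD_tab, if_pos (idx_lt hp ht)]
    show ((sax (a, ((p * n a + t) / n a, (p * n a + t) % n a)),
      saz (a, ((p * n a + t) / n a, (p * n a + t) % n a))),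
     (sbx (a, ((p * n a + t) / n a, (p * n a + t) % n a)),
      sbz (a, ((p * n a + t) / n a, (p * n a + t) % n a)))) = _
    rw [idx_div ht, idx_mod ht]
  have hKpos : ∀ a, (0 : ℝ) < K a := fun a => by exact_mod_cast hK1 a
  have hKle : ∀ a, 1 / (K a : ℝ) ≤ 1 := fun a => by
    rw [div_le_one (hKpos a)]; exact_mod_cast hK1 a
  have h3a := sqrt3_le
  have h3b := sqrt3_ge
  have h3p : (0 : ℝ) < √3 := by positivity
  -- bounds of the rational coefficients
  have bX : ∀ (a : α) (r : ℝ) (s : ℚ), |r| ≤ b a → |(s : ℝ) - r / √3| ≤ 1 / (K a : ℝ) →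
      |s| ≤ ((b a + 1 : ℕ) : ℚ) := by
    intro a r s h1 h2
    have h4 : |r / √3| ≤ b a := by
      rw [abs_div, abs_of_pos h3p, div_le_iff₀ h3p]
      have : (0 : ℝ) ≤ b a := Nat.cast_nonneg _
      nlinarith
    have h5 : |(s : ℝ)| ≤ b a + 1 := by
      have := abs_sub_abs_le_abs_sub (s : ℝ) (r / √3)
      have := hKle a
      linarith
    exact_mod_cast h5
  have bZ : ∀ (a : α) (r : ℝ) (s : ℚ), |r| ≤ b a → |(s : ℝ) - r| ≤ 1 / (K a : ℝ) →
      |s| ≤ ((b a + 1 : ℕ) : ℚ) := by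
    intro a r s h1 h2
    have h5 : |(s : ℝ)| ≤ b a + 1 := by
      have := abs_sub_abs_le_abs_sub (s : ℝ) r
      have := hKle a
      linarith
    exact_mod_cast h5
  -- differences of the real coefficients
  have dX : ∀ (a : α) (r : ℝ) (s : ℚ), |(s : ℝ) - r / √3| ≤ 1 / (K a : ℝ) →
      |r - √3 * (s : ℝ)| ≤ 2 * (1 / (K a : ℝ)) := by
    intro a r s h2
    have e : r - √3 * (s : ℝ) = -(√3 * ((s : ℝ) - r / √3)) := by
      have : √3 * (r / √3) = r := by field_simp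
      rw [mul_sub, this]; ring
    rw [e, abs_neg, abs_mul, abs_of_pos h3p]
    exact mul_le_mul h3a h2 (abs_nonneg _) (by norm_num)
  have dZ : ∀ (a : α) (r : ℝ) (s : ℚ), |(s : ℝ) - r| ≤ 1 / (K a : ℝ) →
      |r - (s : ℝ)| ≤ 2 * (1 / (K a : ℝ)) := by
    intro a r s h2
    rw [abs_sub_comm]
    have : 0 ≤ 1 / (K a : ℝ) := by positivity
    linarith
  have cX : ∀ (a : α) (s : ℚ), |s| ≤ ((b a + 1 : ℕ) : ℚ) →
      |√3 * (s : ℝ)| ≤ 2 * ((b a : ℝ) + 1) := by
    intro a s h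
    have h' : |(s : ℝ)| ≤ (b a : ℝ) + 1 := by exact_mod_cast h
    rw [abs_mul, abs_of_pos h3p]
    exact mul_le_mul h3a h' (abs_nonneg _) (by norm_num)
  have cZ : ∀ (a : α) (s : ℚ), |s| ≤ ((b a + 1 : ℕ) : ℚ) →
      |(s : ℝ)| ≤ 2 * ((b a : ℝ) + 1) := by
    intro a s h
    have h' : |(s : ℝ)| ≤ (b a : ℝ) + 1 := by exact_mod_cast h
    have : (0 : ℝ) ≤ b a := Nat.cast_nonneg _
    linarith
  have hpert : ∀ a (φ : Q (Fin (n a))), |E (arr n fx fz ax az bx bz a).op φ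
      - E (XInst.xz (g a)).op φ| ≤ 1 / (8 * q a) * nsq φ := by
    intro a φ
    have hba : (0 : ℝ) ≤ b a := Nat.cast_nonneg _
    have h := FB_op (arr n fx fz ax az bx bz a) (XInst.xz (g a)) (B := 2 * ((b a : ℝ) + 1))
      (ε := 2 * (1 / (K a : ℝ))) (by linarith) (by positivity)
      (fun p => by
        show |fx a p - √3 * ((((g a).fl p).1 : ℚ) : ℝ)| ≤ _
        rw [hgfl a p p.2]; exact dX a _ _ (esfx a p))
      (fun p => by
        show |fz a p - ((((g a).fl p).2 : ℚ) : ℝ)| ≤ _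
        rw [hgfl a p p.2]; exact dZ a _ _ (esfz a p))
      (fun p t => by
        show |ax a p t - √3 * ((((g a).cp p t).1.1 : ℚ) : ℝ)| ≤ _
        rw [hgcp a p t p.2 t.2]; exact dX a _ _ (esax a p t))
      (fun p t => by
        show |az a p t - ((((g a).cp p t).1.2 : ℚ) : ℝ)| ≤ _
        rw [hgcp a p t p.2 t.2]; exact dZ a _ _ (esaz a p t))
      (fun p t => by
        show |bx a p t - √3 * ((((g a).cp p t).2.1 : ℚ) : ℝ)| ≤ _
        rw [hgcp a p t p.2 t.2]; exact dX a _ _ (esbx a p t))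
      (fun p t => by
        show |bz a p t - ((((g a).cp p t).2.2 : ℚ) : ℝ)| ≤ _
        rw [hgcp a p t p.2 t.2]; exact dZ a _ _ (esbz a p t))
      (fun p t => by
        show |√3 * ((((g a).cp p t).1.1 : ℚ) : ℝ)| ≤ _
        rw [hgcp a p t p.2 t.2]; exact cX a _ (bX a _ _ (bax a p t) (esax a p t)))
      (fun p t => by
        show |((((g a).cp p t).1.2 : ℚ) : ℝ)| ≤ _
        rw [hgcp a p t p.2 t.2]; exact cZ a _ (bZ a _ _ (baz a p t) (esaz a p t)))
      (fun p t => (bbx a p t).trans (by linarith))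
      (fun p t => (bbz a p t).trans (by linarith)) φ
    rw [E_sub] at h
    refine h.trans ?_
    refine mul_le_mul_of_nonneg_right ?_ (nsq_nonneg φ)
    have hq0 : (0 : ℝ) < q a := by exact_mod_cast hq1 a
    have hn0 : (0 : ℝ) < n a := by exact_mod_cast hn1 a
    have hKe : (K a : ℝ) = 320 * q a * (n a * n a) * (b a + 1) := by
      show ((320 * q a * (n a * n a) * (b a + 1) : ℕ) : ℝ) = _
      push_cast; ring
    rw [hKe]
    have hb0 : (0 : ℝ) < b a + 1 := by linarith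
    apply le_of_eq
    field_simp
    norm_num
  have hqe2 : ∀ a, |((qe a : ℚ) : ℝ) - lo a| ≤ 1 / (8 * q a) := by
    intro a
    have hq0 : (0 : ℝ) < q a := by exact_mod_cast hq1 a
    refine (hqe' a).trans ((half_pow_le _ (hK1 a)).trans ?_)
    apply one_div_le_one_div_of_le (by positivity)
    have h1 : 1 ≤ n a * n a := Nat.mul_le_mul (hn1 a) (hn1 a)
    have h2 : 8 * q a ≤ K a := by
      calc 8 * q a ≤ 320 * q a * 1 * 1 := by omega
        _ ≤ 320 * q a * (n a * n a) * (b a + 1) := by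
          apply Nat.mul_le_mul (Nat.mul_le_mul le_rfl h1); omega
    exact_mod_cast h2
  have he : ∀ a, ((((g a).e : ℚ)) : ℝ) = (qe a : ℝ) + 1 / (4 * q a) := by
    intro a
    show ((qe a + 1 / (4 * (q a : ℚ)) : ℚ) : ℝ) = _
    push_cast; ring
  refine ⟨g, hg, ?_, ?_, ?_⟩
  · intro a
    refine ⟨hn1 a, ?_, ?_, ?_, ?_⟩
    · show 1 ≤ 2 * q a
      have := hq1 a; omega
    · show 1 ≤ b a + 1
      omega
    · intro p hp
      rw [hgfl a p hp]
      exact ⟨bX a _ _ (bfx a p) (esfx a p), bZ a _ _ (bfz a p) (esfz a p)⟩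
    · intro p hp t ht _
      rw [hgcp a p t hp ht]
      exact ⟨bX a _ _ (bax a p t) (esax a p t), bZ a _ _ (baz a p t) (esaz a p t),
        bX a _ _ (bbx a p t) (esbx a p t), bZ a _ _ (bbz a p t) (esbz a p t)⟩
  · intro a ⟨φ, h1, h2⟩
    have hq0 : (0 : ℝ) < q a := by exact_mod_cast hq1 a
    refine ⟨φ, h1, ?_⟩
    have h3 := abs_le.1 (hpert a φ)
    have h4 := abs_le.1 (hqe2 a)
    rw [h1, mul_one] at h3
    rw [he]
    have h6 : (1 : ℝ) / (4 * q a) = 1 / (8 * q a) + 1 / (8 * q a) := by field_simp; norm_num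
    rw [h6]
    linarith [h3.1, h3.2, h4.1, h4.2]
  · intro a h φ hφ
    have hq0 : (0 : ℝ) < q a := by exact_mod_cast hq1 a
    have hqq : ((((g a).q : ℕ)) : ℝ) = 2 * q a := by
      show ((2 * q a : ℕ) : ℝ) = _
      push_cast; ring
    rw [he, hqq]
    have h3 := abs_le.1 (hpert a φ)
    have h4 := abs_le.1 (hqe2 a)
    have h7 := h φ
    have hφ' : nsq (ι := Fin (n a)) φ = 1 := hφ
    rw [hφ', mul_one] at h7
    rw [hφ', mul_one] at h3
    have h8 : (qe a : ℝ) + 1 / (4 * q a) + 1 / (2 * q a) ≤ lo a + 1 / q a - 1 / (8 * q a) := by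
      have e1 : (1 : ℝ) / (4 * q a) = 2 * (1 / (8 * q a)) := by field_simp; norm_num
      have e2 : (1 : ℝ) / (2 * q a) = 4 * (1 / (8 * q a)) := by field_simp; norm_num
      have e3 : (1 : ℝ) / (q a) = 8 * (1 / (8 * q a)) := by field_simp
      rw [e1, e2, e3]
      linarith [h4.2]
    exact h8.trans (by linarith [h3.2])

end round

end Crest.Agent.R338.P1

end
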