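import Mathlib
import Crest.Prelude.Def_QMA
import Crest.Agent.Lib.PT.ArithRat

/-!
# Row 338, node I.1: real circuits — definitions

Elementary real gates `R(θ)`, `θ ∈ {π/8, π/4, π/2}` and `CZ` on wires `W`, the words for AND,
controlled primitives, the compiled word of a verifier circuit (layout on `Fin (N + K + 4)`).
-/

set_option autoImplicit false

namespace Crest.Agent.R338.RC

open Function Crest.Quantum.GateCircuit Crest.Quantum.QMA

/-- Elementary gates on the wires `W`: `rot k a` is `R(θ_k)` on wire `a`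
(`θ_0 = π/8`, `θ_1 = π/4`, `θ_2 = π/2`), `cz a b` is the controlled sign. -/
inductive EG (W : Type) where
  | rot (k : Fin 3) (a : W) : EG W
  | cz (a b : W) : EG W
  deriving DecidableEq

/-- relabel wires -/
def EG.map {W W' : Type} (f : W → W') : EG W → EG W'
  | EG.rot k a => EG.rot k (f a)
  | EG.cz a b => EG.cz (f a) (f b)

/-- well formed: the two wires of `cz` are distinct -/
def EG.WF {W : Type} : EG W → Prop
  | EG.rot _ _ => True
  | EG.cz a b => a ≠ b

/-- the gate does not touch wire `d` -/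
def EG.Avoids {W : Type} (d : W) : EG W → Prop
  | EG.rot _ a => a ≠ d
  | EG.cz a b => a ≠ d ∧ b ≠ d

/-- the three angles -/
noncomputable def ang (k : Fin 3) : ℝ :=
  if k = 0 then Real.pi / 8 else if k = 1 then Real.pi / 4 else Real.pi / 2

/-- real states on the wires `W` -/
abbrev RVec (W : Type) : Type := (W → Bool) → ℝ

/-- the `2 × 2` matrix of `R(θ_k)` -/
noncomputable def rmat (k : Fin 3) : Bool → Bool → ℝ
  | false, false => Real.cos (ang k)
  | false, true => Real.sin (ang k)
  | true, false => Real.sin (ang k)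
  | true, true => -Real.cos (ang k)

/-- action of an elementary gate -/
noncomputable def EG.act {W : Type} [DecidableEq W] : EG W → RVec W → RVec W
  | EG.rot k a => fun Ψ σ => rmat k (σ a) false * Ψ (update σ a false) +
      rmat k (σ a) true * Ψ (update σ a true)
  | EG.cz a b => fun Ψ σ => if σ a = true ∧ σ b = true then -Ψ σ else Ψ σ

/-- run a word, first gate first -/
noncomputable def run {W : Type} [DecidableEq W] (w : List (EG W)) (Ψ : RVec W) : RVec W :=
  w.foldl (fun Φ g => g.act Φ) Ψ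

/-- squared norm -/
noncomputable def nsq {W : Type} [Fintype W] [DecidableEq W] (Ψ : RVec W) : ℝ := ∑ σ, Ψ σ ^ 2

/-- weight of the strings whose bit `o` is `b` -/
noncomputable def wt {W : Type} [Fintype W] [DecidableEq W] (o : W) (b : Bool) (Ψ : RVec W) : ℝ :=
  ∑ σ, if σ o = b then Ψ σ ^ 2 else 0

/-- inner product -/
noncomputable def ip {W : Type} [Fintype W] [DecidableEq W] (Ψ Φ : RVec W) : ℝ := ∑ σ, Ψ σ * Φ σ

/-! ### words -/

section words

variable {W : Type}

/-- `AND(a, b → c)` -/
def andW (a b c : W) : List (EG W) :=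
  [EG.rot 0 c, EG.cz b c, EG.rot 0 c, EG.cz a c, EG.rot 0 c, EG.cz b c, EG.rot 0 c]

/-- chain of ANDs: `z (j+i+1) = z (j+i) ∧ c_i` -/
def chainW (z : ℕ → W) : ℕ → List W → List (EG W)
  | _, [] => []
  | j, c :: cs => andW (z j) c (z (j + 1)) ++ chainW z (j + 1) cs

/-- the controlled rotation of wire `r` by the angle `2 θ_k` from `y` -/
def phW (k : Fin 3) (y r : W) : List (EG W) := [EG.cz y r, EG.rot k r, EG.cz y r, EG.rot k r]

/-- primitive `g` on `t` controlled by `c`; `y` an ancilla, `r` the real/imaginary wire -/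
def primW (g : Prim) (c t y r : W) : List (EG W) :=
  match g with
  | Prim.x => [EG.rot 1 t, EG.cz c t, EG.rot 1 t]
  | Prim.h => [EG.rot 0 t, EG.cz c t, EG.rot 0 t]
  | Prim.s => andW c t y ++ phW 1 y r ++ andW c t y
  | Prim.sdg => andW c t y ++ (phW 1 y r).reverse ++ andW c t y
  | Prim.t => andW c t y ++ phW 0 y r ++ andW c t y
  | Prim.tdg => andW c t y ++ (phW 0 y r).reverse ++ andW c t y

/-- the computation of all control bits -/
def preW (z : ℕ → W) (cs : List W) : List (EG W) := EG.rot 2 (z 0) :: chainW z 0 cs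

/-- the word of a controlled primitive -/
def gateW (z : ℕ → W) (y r : W) (g : Prim) (cs : List W) (t : W) : List (EG W) :=
  preW z cs ++ primW g (z cs.length) t y r ++ (preW z cs).reverse

end words

/-! ### layout and compiled word -/

section layout

variable {N : ℕ}

/-- number of controls of a gate -/
def ctrlLen : Gate N 0 → ℕ
  | Gate.ctrl _ cs _ => cs.length
  | Gate.oracle _ _ => 0

/-- number of AND ancillas of a verifier (apart from `z 0`) -/
def VK (V : VCirc) : ℕ := (V.gates.map ctrlLen).sum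

/-- number of wires: `V.N` data wires, `r`, `D`, `y`, `z_0 … z_K` -/
@[reducible] def VM (V : VCirc) : ℕ := V.N + VK V + 4

/-- data wire -/
def qw (N K : ℕ) (i : Fin N) : Fin (N + K + 4) := ⟨i, by omega⟩
/-- the real/imaginary wire -/
def rw' (N K : ℕ) : Fin (N + K + 4) := ⟨N, by omega⟩
/-- the dummy wire -/
def dw (N K : ℕ) : Fin (N + K + 4) := ⟨N + 1, by omega⟩
/-- the ancilla `y` -/
def yw (N K : ℕ) : Fin (N + K + 4) := ⟨N + 2, by omega⟩
/-- the ancillas `z_j`, `j ≤ K` (capped) -/
def zw (N K : ℕ) (j : ℕ) : Fin (N + K + 4) := ⟨N + 3 + min j K, by omega⟩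

/-- the word of a gate in the layout -/
def gword (N K : ℕ) : Gate N 0 → List (EG (Fin (N + K + 4)))
  | Gate.ctrl g cs t => gateW (zw N K) (yw N K) (rw' N K) g (cs.map (qw N K)) (qw N K t)
  | Gate.oracle _ _ => []

/-- the compiled word `U_1 … U_T` -/
def word (V : VCirc) : List (EG (Fin (VM V))) :=
  EG.rot 2 (dw V.N (VK V)) :: (V.gates.flatMap (gword V.N (VK V)) ++ [EG.rot 2 (dw V.N (VK V))])

/-- the constrained wires (must be `false` in a valid input): data wires `≥ w` and the ancillas -/
def conNat (N w K : ℕ) : List ℕ := (List.range (N + K + 4)).filter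
  fun a => decide ((w ≤ a ∧ a < N) ∨ N + 2 ≤ a)

/-- a wire is constrained -/
def IsCon (V : VCirc) (a : Fin (VM V)) : Prop := (V.w ≤ (a : ℕ) ∧ (a : ℕ) < V.N) ∨ V.N + 2 ≤ (a : ℕ)

instance (V : VCirc) : DecidablePred (IsCon V) := fun _ => by unfold IsCon; infer_instance

/-- valid inputs: supported on strings vanishing on the constrained wires -/
def Valid (V : VCirc) (χ : RVec (Fin (VM V))) : Prop :=
  ∀ σ, (∃ a, IsCon V a ∧ σ a = true) → χ σ = 0

/-- the output wire -/
def outW (V : VCirc) : Fin (VM V) := qw V.N (VK V) V.out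

/-- the dummy wire -/
def dumW (V : VCirc) : Fin (VM V) := dw V.N (VK V)

end layout

/-! ### interface of node I.1 (proved in `RCMain`) -/

/-- YES side -/
def YesSpec : Prop := ∀ (V : VCirc) (h : V.WellFormed),
  (∃ ψ : QVec V.w, IsWitness ψ ∧ 2 / 3 ≤ acceptProb V h.1 ψ) →
  ∃ χ : RVec (Fin (VM V)), nsq χ = 1 ∧ Valid V χ ∧ wt (outW V) false (run (word V) χ) ≤ 1 / 3

/-- NO side -/
def NoSpec : Prop := ∀ (V : VCirc) (h : V.WellFormed),
  (∀ ψ : QVec V.w, IsWitness ψ → acceptProb V h.1 ψ ≤ 1 / 3) →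
  ∀ χ : RVec (Fin (VM V)), nsq χ = 1 → Valid V χ → 2 / 3 ≤ wt (outW V) false (run (word V) χ)

/-! ### numerical form (for the polynomial-time part) -/

/-- numerical form of a gate: `rot k a ↦ (k, a, a)`, `cz a b ↦ (3, a, b)` -/
def EG.num : EG ℕ → ℕ × ℕ × ℕ
  | EG.rot k a => ((k : ℕ), a, a)
  | EG.cz a b => (3, a, b)

/-- the compiled word in numerical form -/
def wordN (V : VCirc) : List (ℕ × ℕ × ℕ) :=
  (word V).map fun g => (g.map fun a : Fin (VM V) => (a : ℕ)).num

/-- the list of constrained wires, as numbers -/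
def conN (V : VCirc) : List ℕ := conNat V.N V.w (VK V)

open Crest.Agent.Lib.PT in
/-- the compiled data are poly-time computable from the input: number of wires (unary), the word,
the constrained wires, the output wire, the dummy wire -/
def PTSpec : Prop := ∀ (V : List Bool → VCirc) (_ : ∀ x, (V x).WellFormed)
  (gen : List Bool → List Bool), Crest.Complexity.PolyTime gen → (∀ x, gen x = vcode (V x)) →
  (∃ p : Polynomial ℕ, ∀ x, (V x).N + (V x).gates.length ≤ p.eval x.length) →
  PTF (fun x : Bits => (Un.mk (VM (V x.val)), wordN (V x.val), conN (V x.val),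
    ((outW (V x.val) : ℕ), (dumW (V x.val) : ℕ))))

end Crest.Agent.R338.RC
private theorem rz_a2fe66e135 : type_of% @_root_.Crest.Agent.R338.RC.EG.Avoids.eq_1 := @_root_.Crest.Agent.R338.RC.EG.Avoids.eq_1 -- L36
private theorem rz_911b65edb9 : type_of% @_root_.Crest.Agent.R338.RC.EG.WF.eq_1 := @_root_.Crest.Agent.R338.RC.EG.WF.eq_1 -- L31
private theorem rz_0dca89e86c : type_of% @_root_.Crest.Agent.R338.RC.EG.act.eq_1 := @_root_.Crest.Agent.R338.RC.EG.act.eq_1 -- L55
private theorem rz_bee1af1bbf : type_of% @_root_.Crest.Agent.R338.RC.chainW.eq_def := @_root_.Crest.Agent.R338.RC.chainW.eq_def -- L85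
private theorem rz_ecd24f9825 : type_of% @_root_.Crest.Agent.R338.RC.chainW.eq_1 := @_root_.Crest.Agent.R338.RC.chainW.eq_1 -- L85
private theorem rz_ebdbe3544d : type_of% @_root_.Crest.Agent.R338.RC.ctrlLen.eq_1 := @_root_.Crest.Agent.R338.RC.ctrlLen.eq_1 -- L118
private theorem rz_8f7591d714 : type_of% @_root_.Crest.Agent.R338.RC.gword.eq_1 := @_root_.Crest.Agent.R338.RC.gword.eq_1 -- L140
private theorem rz_581292a346 : type_of% @_root_.Crest.Agent.R338.RC.primW.eq_1 := @_root_.Crest.Agent.R338.RC.primW.eq_1 -- L93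
private theorem rz_12d4d9906a : type_of% @_root_.Crest.Agent.R338.RC.rmat.eq_1 := @_root_.Crest.Agent.R338.RC.rmat.eq_1 -- L48
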