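import Crest.Agent.R338.Pauli
import Crest.Agent.R338.Clock
import Crest.Agent.R338.RCDefs

-- ▼ part R338/Med
section

/-!
Row 338, node I.3: replacing `c Z_a Z_b X_k` by a mediator qubit.  Exact identity, no Schur lemma.
-/

set_option autoImplicit false
set_option linter.unusedVariables false
set_option linter.unusedSimpArgs false
set_option linter.unusedSectionVars false

noncomputable section

namespace Crest.Agent.R338.Med

open Finset

section comp
variable {ι τ : Type*}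

/-- component of a vector of the joint system at the mediator configuration `ω` -/
def cmp (ω : τ → Bool) (Ψ : Q (ι ⊕ τ)) : Q ι := fun σ => Ψ (Sum.elim σ ω)

/-- assemble a joint vector -/
def asm (F : (τ → Bool) → Q ι) : Q (ι ⊕ τ) := fun ρ => F (fun t => ρ (Sum.inr t)) (fun i => ρ (Sum.inl i))

@[simp] lemma cmp_asm (F : (τ → Bool) → Q ι) (ω : τ → Bool) : cmp ω (asm F) = F ω := rfl

@[simp] lemma asm_cmp (Ψ : Q (ι ⊕ τ)) : asm (fun ω => cmp ω Ψ) = Ψ := by
  funext ρ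
  simp only [asm, cmp]
  congr 1
  funext x
  cases x <;> rfl

lemma cmp_add (ω : τ → Bool) (Φ Ψ : Q (ι ⊕ τ)) : cmp ω (Φ + Ψ) = cmp ω Φ + cmp ω Ψ := rfl
lemma cmp_smul (ω : τ → Bool) (c : ℝ) (Ψ : Q (ι ⊕ τ)) : cmp ω (c • Ψ) = c • cmp ω Ψ := rfl

/-- lift of an operator of the system to the joint system -/
def lift (A : Op ι) : Op (ι ⊕ τ) where
  toFun Ψ := asm fun ω => A (cmp ω Ψ)
  map_add' Φ Ψ := by
    funext ρ
    simp [asm, cmp_add]
  map_smul' c Ψ := by
    funext ρ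
    simp [asm, cmp_smul]

@[simp] lemma cmp_lift (A : Op ι) (ω : τ → Bool) (Ψ : Q (ι ⊕ τ)) :
    cmp ω (lift A Ψ) = A (cmp ω Ψ) := rfl

lemma cmp_ext {Φ Ψ : Q (ι ⊕ τ)} (h : ∀ ω, cmp ω Φ = cmp ω Ψ) : Φ = Ψ := by
  rw [← asm_cmp Φ, ← asm_cmp Ψ]
  simp only [h]

lemma lift_add (A B : Op ι) : (lift (A + B) : Op (ι ⊕ τ)) = lift A + lift B :=
  LinearMap.ext fun Ψ => cmp_ext fun ω => by simp [cmp_add]

lemma lift_sub (A B : Op ι) : (lift (A - B) : Op (ι ⊕ τ)) = lift A - lift B :=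
  LinearMap.ext fun Ψ => cmp_ext fun ω => rfl


lemma lift_smul (c : ℝ) (A : Op ι) : (lift (c • A) : Op (ι ⊕ τ)) = c • lift A :=
  LinearMap.ext fun Ψ => cmp_ext fun ω => rfl

lemma lift_mul (A B : Op ι) : (lift (A * B) : Op (ι ⊕ τ)) = lift A * lift B :=
  LinearMap.ext fun Ψ => cmp_ext fun ω => rfl

lemma lift_one : (lift 1 : Op (ι ⊕ τ)) = 1 :=
  LinearMap.ext fun Ψ => cmp_ext fun ω => rfl

lemma lift_zero : (lift 0 : Op (ι ⊕ τ)) = 0 :=
  LinearMap.ext fun Ψ => cmp_ext fun ω => rfl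


lemma lift_Z (i : ι) : (lift (Z i) : Op (ι ⊕ τ)) = Z (Sum.inl i) :=
  LinearMap.ext fun Ψ => cmp_ext fun ω => by
    rw [cmp_lift]
    funext σ
    simp [Z_apply, cmp]


lemma cmp_Nb_inr (t : τ) (ω : τ → Bool) (Ψ : Q (ι ⊕ τ)) :
    cmp ω (Nb (Sum.inr t) Ψ) = if ω t then cmp ω Ψ else 0 := by
  funext σ
  by_cases h : ω t <;> simp [Nb_apply, cmp, h]

variable [DecidableEq ι] [DecidableEq τ]

lemma lift_X (i : ι) : (lift (X i) : Op (ι ⊕ τ)) = X (Sum.inl i) :=
  LinearMap.ext fun Ψ => cmp_ext fun ω => by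
    rw [cmp_lift]
    funext σ
    simp only [X_apply, cmp]
    congr 1
    funext x
    rcases x with j | t
    · simp [flip_apply]
    · simp

lemma cmp_X_inr (t : τ) (ω : τ → Bool) (Ψ : Q (ι ⊕ τ)) :
    cmp ω (X (Sum.inr t) Ψ) = cmp (flip t ω) Ψ := by
  funext σ
  simp only [X_apply, cmp]
  congr 1
  funext x
  rcases x with j | s
  · simp [flip_apply]
  · simp [flip_apply]

variable [Fintype ι] [Fintype τ]

lemma dot_cmp (Φ Ψ : Q (ι ⊕ τ)) : Φ ⬝ᵥ Ψ = ∑ ω, cmp ω Φ ⬝ᵥ cmp ω Ψ := by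
  simp only [dotProduct, cmp]
  rw [Finset.sum_comm, ← Finset.sum_product' (f := fun σ ω => Φ (Sum.elim σ ω) * Ψ (Sum.elim σ ω))]
  rw [Finset.univ_product_univ]
  exact (Equiv.sum_comp (Equiv.sumArrowEquivProdArrow ι τ Bool).symm
    (fun ρ => Φ ρ * Ψ ρ)).symm

lemma nsq_cmp (Ψ : Q (ι ⊕ τ)) : nsq Ψ = ∑ ω, nsq (cmp ω Ψ) := dot_cmp Ψ Ψ

lemma E_lift (A : Op ι) (Ψ : Q (ι ⊕ τ)) : E (lift A) Ψ = ∑ ω, E A (cmp ω Ψ) := by
  simp [E, dot_cmp]


/-- sum over configurations in pairs -/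
lemma sum_pair (t : τ) (f : (τ → Bool) → ℝ) :
    ∑ ω, f ω = ∑ ω ∈ univ.filter (fun ω : τ → Bool => ω t = false), (f ω + f (flip t ω)) := by
  classical
  rw [Finset.sum_add_distrib]
  have h1 : ∑ ω ∈ univ.filter (fun ω : τ → Bool => ω t = false), f (flip t ω)
      = ∑ ω ∈ univ.filter (fun ω : τ → Bool => ¬ ω t = false), f ω := by
    refine Finset.sum_nbij' (flip t) (flip t) ?_ ?_ ?_ ?_ ?_
    · intro ω hω; simp at hω ⊢; simp [hω]
    · intro ω hω; simp at hω ⊢; simp [hω]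
    · intro ω _; simp
    · intro ω _; simp
    · intro ω _; rfl
  rw [h1, Finset.sum_filter_add_sum_filter_not]

end comp

section med
variable {ι τ : Type*} [DecidableEq ι]

/-- data of a mediated term -/
structure Term (ι : Type*) where
  a : ι
  b : ι
  k : ι
  hka : k ≠ a
  hkb : k ≠ b

/-- `Z_a Z_b X_k` -/
def Term.W (m : Term ι) : Op ι := Z m.a * Z m.b * X m.k

/-- `1 - Z_a Z_b` -/
def Term.P (m : Term ι) : Op ι := 1 - Z m.a * Z m.b

/-- `G = (1 - ZZ)(2 δ + c X)` -/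
def Term.G (m : Term ι) (c δ : ℝ) : Op ι := m.P * ((2 * δ) • 1 + c • X m.k)

/-- `D = δ^3 - (c δ^2/2) X` -/
def Term.D (m : Term ι) (c δ : ℝ) : Op ι := (δ ^ 3) • 1 - (c * δ ^ 2 / 2) • X m.k

/-- `A = δ^2 (Z_a - Z_b)` -/
def Term.A (m : Term ι) (δ : ℝ) : Op ι := (δ ^ 2) • (Z m.a - Z m.b)

/-- `κ = 1/(1 - c^2/(4δ^2))` -/
def kap (c δ : ℝ) : ℝ := 1 / (1 - c ^ 2 / (4 * δ ^ 2))

/-- `R = D⁻¹ A = κ δ^{-2} (δ + (c/2) X)(Z_a - Z_b)` -/
def Term.R (m : Term ι) (c δ : ℝ) : Op ι :=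
  (kap c δ / δ ^ 2) • ((δ • 1 + (c / 2) • X m.k) * (Z m.a - Z m.b))

lemma kap_ge {c δ : ℝ} (hδ : 0 < δ) (hc : 0 ≤ c) (hcδ : c ≤ δ) : 1 ≤ kap c δ := by
  unfold kap
  have h1 : c ^ 2 / (4 * δ ^ 2) ≤ 1 / 4 := by
    rw [div_le_div_iff₀ (by positivity) (by norm_num)]
    nlinarith
  have h2 : 0 ≤ c ^ 2 / (4 * δ ^ 2) := by positivity
  rw [le_div_iff₀ (by linarith)]
  linarith

lemma kap_le {c δ : ℝ} (hδ : 0 < δ) (hc : 0 ≤ c) (hcδ : c ≤ δ) : kap c δ ≤ 4 / 3 := by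
  unfold kap
  have h1 : c ^ 2 / (4 * δ ^ 2) ≤ 1 / 4 := by
    rw [div_le_div_iff₀ (by positivity) (by norm_num)]
    nlinarith
  rw [div_le_div_iff₀ (by linarith) (by norm_num)]
  linarith

lemma kap_sub_one {c δ : ℝ} (hδ : 0 < δ) (hc : 0 ≤ c) (hcδ : c ≤ δ) :
    kap c δ - 1 ≤ c ^ 2 / (3 * δ ^ 2) := by
  have h1 : c ^ 2 / (4 * δ ^ 2) ≤ 1 / 4 := by
    rw [div_le_div_iff₀ (by positivity) (by norm_num)]
    nlinarith
  have h3 := kap_le hδ hc hcδ
  have h4 : kap c δ * (1 - c ^ 2 / (4 * δ ^ 2)) = 1 := by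
    unfold kap
    rw [one_div, inv_mul_cancel₀ (by linarith)]
  have h5 : kap c δ - 1 = kap c δ * (c ^ 2 / (4 * δ ^ 2)) := by linarith
  rw [h5]
  have h6 : c ^ 2 / (3 * δ ^ 2) = 4 / 3 * (c ^ 2 / (4 * δ ^ 2)) := by
    field_simp
  rw [h6]
  exact mul_le_mul_of_nonneg_right h3 (by positivity)

lemma kap_eq {c δ : ℝ} (hδ : 0 < δ) (hc : 0 ≤ c) (hcδ : c ≤ δ) :
    kap c δ * (δ ^ 2 - c ^ 2 / 4) = δ ^ 2 := by
  have h1 : c ^ 2 / (4 * δ ^ 2) ≤ 1 / 4 := by
    rw [div_le_div_iff₀ (by positivity) (by norm_num)]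
    nlinarith
  have h4 : kap c δ * (1 - c ^ 2 / (4 * δ ^ 2)) = 1 := by
    unfold kap
    rw [one_div, inv_mul_cancel₀ (by linarith)]
  have h5 : δ ^ 2 - c ^ 2 / 4 = δ ^ 2 * (1 - c ^ 2 / (4 * δ ^ 2)) := by
    field_simp
  rw [h5, mul_left_comm, h4, mul_one]

variable (m : Term ι)

lemma Term.comm_XA : Commute (X m.k) (Z m.a - Z m.b) :=
  (X_Z_comm m.hka).sub_right (X_Z_comm m.hkb)

lemma Term.comm_XP : Commute (X m.k) m.P :=
  (Commute.one_right _).sub_right ((X_Z_comm m.hka).mul_right (X_Z_comm m.hkb))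

omit [DecidableEq ι] in
lemma Term.A_sq : (Z m.a - Z m.b) * (Z m.a - Z m.b) = (2 : ℝ) • m.P := by
  have h := (Z_comm m.a m.b).eq
  have : (Z m.a - Z m.b) * (Z m.a - Z m.b) = Z m.a * Z m.a - Z m.a * Z m.b - Z m.b * Z m.a
      + Z m.b * Z m.b := by simp only [sub_mul, mul_sub]; abel
  rw [this, Z_mul_self, Z_mul_self, ← h, Term.P, two_smul]
  abel

omit [DecidableEq ι] in
lemma Term.P_sq : m.P * m.P = (2 : ℝ) • m.P := by
  have h := (Z_comm m.a m.b).eq
  have e : Z m.a * Z m.b * (Z m.a * Z m.b) = 1 := by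
    rw [mul_assoc, ← mul_assoc (Z m.b) (Z m.a) (Z m.b), ← h, mul_assoc (Z m.a) (Z m.b) (Z m.b),
      Z_mul_self, mul_one, Z_mul_self]
  have : m.P * m.P = 1 - Z m.a * Z m.b - Z m.a * Z m.b + Z m.a * Z m.b * (Z m.a * Z m.b) := by
    unfold Term.P; simp only [sub_mul, mul_sub, one_mul, mul_one]; abel
  rw [this, e, Term.P, two_smul]; abel

lemma Term.DR {c δ : ℝ} (hδ : 0 < δ) (hc : 0 ≤ c) (hcδ : c ≤ δ) : m.D c δ * m.R c δ = m.A δ := by
  have hX : (((δ ^ 3) • (1 : Op ι) - (c * δ ^ 2 / 2) • X m.k)) * ((δ • 1 + (c / 2) • X m.k))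
      = (δ ^ 2 * (δ ^ 2 - c ^ 2 / 4)) • (1 : Op ι) := by
    have : (((δ ^ 3) • (1 : Op ι) - (c * δ ^ 2 / 2) • X m.k)) * ((δ • 1 + (c / 2) • X m.k))
        = (δ ^ 3 * δ) • (1 : Op ι) + (δ ^ 3 * (c / 2)) • X m.k - (c * δ ^ 2 / 2 * δ) • X m.k
          - (c * δ ^ 2 / 2 * (c / 2)) • (X m.k * X m.k) := by
      simp only [sub_mul, mul_add, smul_mul_assoc, mul_smul_comm, one_mul, mul_one, smul_smul]
      module
    rw [this, X_mul_self]
    module
  unfold Term.D Term.R Term.A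
  rw [mul_smul_comm, ← mul_assoc, hX, smul_mul_assoc, one_mul, smul_smul]
  congr 1
  have h1 : kap c δ / δ ^ 2 * (δ ^ 2 * (δ ^ 2 - c ^ 2 / 4)) = kap c δ * (δ ^ 2 - c ^ 2 / 4) := by
    field_simp
  rw [h1, kap_eq hδ hc hcδ]

lemma Term.RA {c δ : ℝ} (hδ : 0 < δ) : m.R c δ * m.A δ = (kap c δ) • m.G c δ := by
  unfold Term.R Term.A Term.G
  rw [mul_smul_comm, smul_mul_assoc, smul_smul, mul_assoc, Term.A_sq]
  have h : m.P * ((2 * δ) • 1 + c • X m.k) = ((2 * δ) • 1 + c • X m.k) * m.P := by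
    have h1 := m.comm_XP.eq
    simp only [mul_add, add_mul, mul_smul_comm, smul_mul_assoc, mul_one, one_mul]
    rw [h1]
  rw [h]
  simp only [mul_smul_comm, smul_mul_assoc, smul_smul, add_mul, one_mul, smul_add]
  have e1 : δ ^ 2 * (kap c δ / δ ^ 2) * 2 * δ = kap c δ * (2 * δ) := by
    field_simp
  have e2 : δ ^ 2 * (kap c δ / δ ^ 2) * 2 * (c / 2) = kap c δ * c := by
    field_simp
  rw [← e1, ← e2]
  module

/-- `2δ(1-ZZ) + cX = G + c ZZX` -/
lemma Term.rest (c δ : ℝ) : (2 * δ) • m.P + c • X m.k = m.G c δ + c • m.W := by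
  unfold Term.G Term.W Term.P
  simp only [sub_mul, mul_add, mul_smul_comm, one_mul, mul_one, smul_sub]
  abel

variable [Fintype ι]

lemma sym_A (δ : ℝ) : Sym (m.A δ) := ((sym_Z m.a).sub (sym_Z m.b)).smul _

lemma sym_D (c δ : ℝ) : Sym (m.D c δ) := (Sym.one.smul _).sub ((sym_X m.k).smul _)

lemma sym_R (c δ : ℝ) : Sym (m.R c δ) := by
  refine Sym.smul _ (Sym.mul ((Sym.one.smul _).add ((sym_X m.k).smul _))
    ((sym_Z m.a).sub (sym_Z m.b)) ?_)
  exact ((Commute.one_left _).smul_left _).add_left (m.comm_XA.smul_left _)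

lemma sym_P : Sym m.P := Sym.one.sub ((sym_Z m.a).mul (sym_Z m.b) (Z_comm _ _))

lemma E_D_nonneg {c δ : ℝ} (hδ : 0 < δ) (hc : 0 ≤ c) (hcδ : c ≤ δ) (φ : Q ι) :
    0 ≤ E (m.D c δ) φ := by
  unfold Term.D
  rw [E_sub, E_smul, E_smul, E_one]
  have h := (abs_le.1 (FB_X m.k φ)).2
  have h0 := nsq_nonneg φ
  have h1 : c * δ ^ 2 / 2 * E (X m.k) φ ≤ c * δ ^ 2 / 2 * (1 * nsq φ) :=
    mul_le_mul_of_nonneg_left h (by positivity)
  have h2 : c * δ ^ 2 / 2 * (1 * nsq φ) ≤ δ ^ 3 * nsq φ := by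
    have : c * δ ^ 2 / 2 ≤ δ ^ 3 := by nlinarith [sq_nonneg δ, pow_pos hδ 2]
    nlinarith
  linarith

/-- positivity and boundedness of `G` -/
lemma E_G {c δ : ℝ} (φ : Q ι) :
    E (m.G c δ) φ = δ * nsq (m.P φ) + c / 2 * E (X m.k) (m.P φ) := by
  have h1 : m.P * ((2 * δ) • 1 + c • X m.k)
      = (1 / 2 : ℝ) • (m.P * ((2 * δ) • 1 + c • X m.k) * m.P) := by
    have h : (((2 * δ) • (1 : Op ι) + c • X m.k)) * m.P = m.P * ((2 * δ) • 1 + c • X m.k) := by
      have h1 := m.comm_XP.eq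
      simp only [mul_add, add_mul, mul_smul_comm, smul_mul_assoc, mul_one, one_mul]
      rw [h1]
    rw [mul_assoc, h, ← mul_assoc, Term.P_sq, smul_mul_assoc, smul_smul]
    norm_num
  unfold Term.G
  rw [h1, E_smul]
  have h2 : E (m.P * ((2 * δ) • 1 + c • X m.k) * m.P) φ
      = E ((2 * δ) • 1 + c • X m.k) (m.P φ) := by
    unfold E
    rw [Module.End.mul_apply, Module.End.mul_apply, sym_P m]
  rw [h2, E_add, E_smul, E_smul, E_one]
  ring

lemma nsq_P_le (φ : Q ι) : nsq (m.P φ) ≤ 4 * nsq φ := by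
  have h1 : nsq (m.P φ) = 2 * E m.P φ := by
    unfold nsq
    rw [← sym_P m, ← Module.End.mul_apply, Term.P_sq]
    simp [E]
  have h2 : E m.P φ ≤ 2 * nsq φ := by
    unfold Term.P
    rw [E_sub, E_one]
    have hc : Commute (Z m.a : Op ι) (Z m.b) := Z_comm _ _
    have h3 := FB_invol ((sym_Z m.a).mul (sym_Z m.b) hc) (by
      rw [mul_assoc, ← mul_assoc (Z m.b) (Z m.a) (Z m.b), ← hc.eq,
        mul_assoc (Z m.a) (Z m.b) (Z m.b), Z_mul_self, mul_one, Z_mul_self]) φ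
    have h4 := (abs_le.1 h3).1
    linarith
  linarith

lemma E_G_nonneg {c δ : ℝ} (hδ : 0 < δ) (hc : 0 ≤ c) (hcδ : c ≤ δ) (φ : Q ι) :
    0 ≤ E (m.G c δ) φ := by
  rw [E_G]
  have h := (abs_le.1 (FB_X m.k (m.P φ))).1
  have h0 := nsq_nonneg (m.P φ)
  have h1 : c / 2 * -(1 * nsq (m.P φ)) ≤ c / 2 * E (X m.k) (m.P φ) :=
    mul_le_mul_of_nonneg_left h (by positivity)
  nlinarith

lemma E_G_le {c δ : ℝ} (hδ : 0 < δ) (hc : 0 ≤ c) (hcδ : c ≤ δ) (φ : Q ι) :
    E (m.G c δ) φ ≤ 6 * δ * nsq φ := by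
  rw [E_G]
  have h := (abs_le.1 (FB_X m.k (m.P φ))).2
  have h0 := nsq_nonneg (m.P φ)
  have h1 : c / 2 * E (X m.k) (m.P φ) ≤ c / 2 * (1 * nsq (m.P φ)) :=
    mul_le_mul_of_nonneg_left h (by positivity)
  have h2 := nsq_P_le m φ
  have h3 : c / 2 * nsq (m.P φ) ≤ δ / 2 * nsq (m.P φ) :=
    mul_le_mul_of_nonneg_right (by linarith) h0
  have h4 : δ * nsq (m.P φ) ≤ δ * (4 * nsq φ) := mul_le_mul_of_nonneg_left h2 hδ.le
  linarith

lemma nsq_R_le {c δ : ℝ} (hδ : 0 < δ) (hc : 0 ≤ c) (hcδ : c ≤ δ) (φ : Q ι) :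
    nsq (m.R c δ φ) ≤ 16 / δ ^ 2 * nsq φ := by
  set χ : Q ι := (Z m.a - Z m.b) φ with hχ
  have h1 : nsq χ ≤ 4 * nsq φ := by
    have : nsq χ = 2 * E m.P φ := by
      rw [hχ]
      unfold nsq
      rw [← ((sym_Z m.a).sub (sym_Z m.b)), ← Module.End.mul_apply, Term.A_sq]
      simp [E]
    rw [this]
    have h2 : nsq (m.P φ) = 2 * E m.P φ := by
      unfold nsq
      rw [← sym_P m, ← Module.End.mul_apply, Term.P_sq]
      simp [E]
    rw [← h2]; exact nsq_P_le m φ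
  have h2 : m.R c δ φ = (kap c δ / δ ^ 2) • (δ • χ + (c / 2) • X m.k χ) := by
    unfold Term.R
    simp [Module.End.mul_apply, hχ]
  have h3 : nsq (δ • χ + (c / 2) • X m.k χ) ≤ (δ + c / 2) ^ 2 * nsq χ := by
    have e : nsq (δ • χ + (c / 2) • X m.k χ)
        = δ ^ 2 * nsq χ + δ * c * E (X m.k) χ + (c / 2) ^ 2 * nsq (X m.k χ) := by
      simp only [nsq, E, add_dotProduct, dotProduct_add, smul_dotProduct, dotProduct_smul,
        smul_eq_mul, dotProduct_comm (X m.k χ) χ]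
      ring
    rw [e, nsq_invol (sym_X m.k) (X_mul_self m.k)]
    have h := (abs_le.1 (FB_X m.k χ)).2
    have : δ * c * E (X m.k) χ ≤ δ * c * (1 * nsq χ) :=
      mul_le_mul_of_nonneg_left h (by positivity)
    nlinarith
  rw [h2, nsq_smul]
  have hk := kap_le hδ hc hcδ
  have hk1 := kap_ge hδ hc hcδ
  have h4 : (kap c δ / δ ^ 2) ^ 2 ≤ (4 / 3 / δ ^ 2) ^ 2 := by
    apply pow_le_pow_left₀ (by positivity)
    gcongr
  have h5 : (δ + c / 2) ^ 2 ≤ (3 / 2 * δ) ^ 2 := by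
    apply pow_le_pow_left₀ (by positivity); linarith
  have h0 := nsq_nonneg φ
  calc (kap c δ / δ ^ 2) ^ 2 * nsq (δ • χ + (c / 2) • X m.k χ)
      ≤ (4 / 3 / δ ^ 2) ^ 2 * ((3 / 2 * δ) ^ 2 * (4 * nsq φ)) := by
        apply mul_le_mul h4 (h3.trans _) (nsq_nonneg _) (by positivity)
        exact mul_le_mul h5 h1 (nsq_nonneg _) (by positivity)
    _ = 16 / δ ^ 2 * nsq φ := by field_simp; ring

/-- the energy of one pair of components -/
def pairE (c δ : ℝ) (φ0 φ1 : Q ι) : ℝ :=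
  E (m.D c δ) φ1 + 2 * (φ1 ⬝ᵥ m.A δ φ0)
    + (2 * δ * E m.P φ0 + c * E (X m.k) φ0) + (2 * δ * E m.P φ1 + c * E (X m.k) φ1)

/-- EXACT IDENTITY for one pair of components -/
lemma pairE_eq {c δ : ℝ} (hδ : 0 < δ) (hc : 0 ≤ c) (hcδ : c ≤ δ) (φ0 φ1 : Q ι) :
    pairE m c δ φ0 φ1 = E (m.D c δ) (φ1 + m.R c δ φ0) - (kap c δ - 1) * E (m.G c δ) φ0
      + E (m.G c δ) φ1 + c * E m.W φ0 + c * E m.W φ1 := by
  have h1 : E (m.D c δ) (φ1 + m.R c δ φ0)
      = E (m.D c δ) φ1 + 2 * (φ1 ⬝ᵥ m.A δ φ0) + kap c δ * E (m.G c δ) φ0 := by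
    rw [E_add_vec (sym_D m c δ)]
    have e1 : m.D c δ (m.R c δ φ0) = m.A δ φ0 := by
      rw [← Module.End.mul_apply, m.DR hδ hc hcδ]
    have e2 : E (m.D c δ) (m.R c δ φ0) = kap c δ * E (m.G c δ) φ0 := by
      unfold E
      rw [e1, ← sym_R m c δ φ0, ← Module.End.mul_apply, m.RA hδ]
      simp
    rw [e1, e2]
  have h2 : ∀ φ : Q ι, 2 * δ * E m.P φ + c * E (X m.k) φ = E (m.G c δ) φ + c * E m.W φ := by
    intro φ
    have := congrArg (fun A => E A φ) (m.rest c δ)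
    simpa [E_add, E_smul] using this
  rw [h1, pairE, h2, h2]
  ring

end med

section main
variable {ι τ : Type*} [DecidableEq ι] [DecidableEq τ] [Fintype ι] [Fintype τ]

/-- the three-local Hamiltonian -/
def H3 (L : Op ι) (m : τ → Term ι) (c : τ → ℝ) : Op ι := L + ∑ t, c t • (m t).W

/-- the mediator terms of `t` -/
def med (m : τ → Term ι) (c : τ → ℝ) (δ : ℝ) (t : τ) : Op (ι ⊕ τ) :=
  (δ ^ 3) • Nb (Sum.inr t)
    + (δ ^ 2) • ((Z (Sum.inl (m t).a) - Z (Sum.inl (m t).b)) * X (Sum.inr t))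
    - (c t * δ ^ 2 / 2) • (Nb (Sum.inr t) * X (Sum.inl (m t).k))
    + (2 * δ) • (1 - Z (Sum.inl (m t).a) * Z (Sum.inl (m t).b))
    + c t • X (Sum.inl (m t).k)

/-- the two-local Hamiltonian with mediators -/
def H2 (L : Op ι) (m : τ → Term ι) (c : τ → ℝ) (δ : ℝ) : Op (ι ⊕ τ) :=
  lift L + ∑ t, med m c δ t

variable (L : Op ι) (m : τ → Term ι) (c : τ → ℝ) (δ : ℝ)

lemma E_med (t : τ) (Ψ : Q (ι ⊕ τ)) :
    E (med m c δ t) Ψ = ∑ ω ∈ univ.filter (fun ω : τ → Bool => ω t = false),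
      pairE (m t) (c t) δ (cmp ω Ψ) (cmp (flip t ω) Ψ) := by
  have h0 : E (med m c δ t) Ψ = ∑ ω, (cmp ω Ψ ⬝ᵥ cmp ω (med m c δ t Ψ)) := by
    unfold E; rw [dot_cmp]
  rw [h0, sum_pair t]
  refine Finset.sum_congr rfl fun ω hω => ?_
  simp only [mem_filter, mem_univ, true_and] at hω
  have hc : ∀ η : τ → Bool, cmp η (med m c δ t Ψ) =
      (δ ^ 3) • (if η t then cmp η Ψ else 0)
      + (m t).A δ (cmp (flip t η) Ψ)
      - (c t * δ ^ 2 / 2) • (if η t then X (m t).k (cmp η Ψ) else 0)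
      + (2 * δ) • (m t).P (cmp η Ψ) + c t • X (m t).k (cmp η Ψ) := by
    intro η
    have e1 : (med m c δ t) = (δ ^ 3) • Nb (Sum.inr t)
        + lift ((m t).A δ) * X (Sum.inr t)
        - (c t * δ ^ 2 / 2) • (Nb (Sum.inr t) * lift (X (m t).k))
        + (2 * δ) • lift (m t).P + c t • lift (X (m t).k) := by
      unfold med Term.A Term.P
      rw [lift_smul, lift_sub, lift_sub, lift_mul, lift_one, lift_Z, lift_Z, lift_X, smul_mul_assoc]
    rw [e1]
    simp only [LinearMap.add_apply, LinearMap.sub_apply, LinearMap.smul_apply,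
      Module.End.mul_apply]
    change (δ ^ 3) • cmp η (Nb (Sum.inr t) Ψ) + cmp η (lift ((m t).A δ) (X (Sum.inr t) Ψ))
      - (c t * δ ^ 2 / 2) • cmp η (Nb (Sum.inr t) (lift (X (m t).k) Ψ))
      + (2 * δ) • cmp η (lift (m t).P Ψ) + c t • cmp η (lift (X (m t).k) Ψ) = _
    rw [cmp_Nb_inr, cmp_Nb_inr, cmp_lift, cmp_lift, cmp_lift, cmp_X_inr]
  rw [hc, hc]
  have hf : flip t ω t = true := by simp [hω]
  simp only [hω, hf, flip_flip, if_true, Bool.false_eq_true, if_false, smul_zero]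
  unfold pairE Term.D
  rw [E_sub, E_smul, E_smul, E_one]
  have hs := sym_A (m t) δ (cmp ω Ψ) (cmp (flip t ω) Ψ)
  simp only [E, nsq, dotProduct_add, dotProduct_sub, dotProduct_smul, dotProduct_zero, smul_eq_mul]
  rw [hs, dotProduct_comm ((m t).A δ (cmp ω Ψ)) (cmp (flip t ω) Ψ)]
  ring

lemma E_H3_cmp (Ψ : Q (ι ⊕ τ)) :
    ∑ ω, E (H3 L m c) (cmp ω Ψ) = ∑ ω, E L (cmp ω Ψ)
      + ∑ t, ∑ ω ∈ univ.filter (fun ω : τ → Bool => ω t = false),
        (c t * E (m t).W (cmp ω Ψ) + c t * E (m t).W (cmp (flip t ω) Ψ)) := by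
  have h : ∀ t, ∑ ω ∈ univ.filter (fun ω : τ → Bool => ω t = false),
        (c t * E (m t).W (cmp ω Ψ) + c t * E (m t).W (cmp (flip t ω) Ψ))
      = ∑ ω, c t * E (m t).W (cmp ω Ψ) := fun t =>
    (sum_pair t (fun ω => c t * E (m t).W (cmp ω Ψ))).symm
  simp only [h]
  rw [Finset.sum_comm, ← Finset.sum_add_distrib]
  refine Finset.sum_congr rfl fun ω _ => ?_
  rw [H3, E_add, E_sum]
  simp [E_smul]

variable {L m c δ}

/-- LOWER BOUND of the mediator step -/
theorem med_lower (hδ : 0 < δ) (hc : ∀ t, 0 ≤ c t) (hcδ : ∀ t, c t ≤ δ) {μ : ℝ}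
    (h : ∀ ψ, μ * nsq ψ ≤ E (H3 L m c) ψ) (Ψ : Q (ι ⊕ τ)) :
    (μ - 2 * (∑ t, c t ^ 2) / δ) * nsq Ψ ≤ E (H2 L m c δ) Ψ := by
  have h1 : μ * nsq Ψ ≤ ∑ ω, E (H3 L m c) (cmp ω Ψ) := by
    rw [nsq_cmp, Finset.mul_sum]
    exact Finset.sum_le_sum fun ω _ => h _
  rw [E_H3_cmp] at h1
  have h2 : ∀ t, ∑ ω ∈ univ.filter (fun ω : τ → Bool => ω t = false),
        (c t * E (m t).W (cmp ω Ψ) + c t * E (m t).W (cmp (flip t ω) Ψ))
        - 2 * c t ^ 2 / δ * nsq Ψ ≤ E (med m c δ t) Ψ := by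
    intro t
    rw [E_med, nsq_cmp, sum_pair t (fun ω => nsq (cmp ω Ψ)), Finset.mul_sum,
      ← Finset.sum_sub_distrib]
    refine Finset.sum_le_sum fun ω _ => ?_
    rw [pairE_eq (m t) hδ (hc t) (hcδ t)]
    have a1 := E_D_nonneg (m t) hδ (hc t) (hcδ t) (cmp (flip t ω) Ψ + (m t).R (c t) δ (cmp ω Ψ))
    have a2 := E_G_nonneg (m t) hδ (hc t) (hcδ t) (cmp (flip t ω) Ψ)
    have a3 := E_G_le (m t) hδ (hc t) (hcδ t) (cmp ω Ψ)
    have a4 := E_G_nonneg (m t) hδ (hc t) (hcδ t) (cmp ω Ψ)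
    have a5 := kap_sub_one hδ (hc t) (hcδ t)
    have a6 : (kap (c t) δ - 1) * E ((m t).G (c t) δ) (cmp ω Ψ)
        ≤ c t ^ 2 / (3 * δ ^ 2) * (6 * δ * nsq (cmp ω Ψ)) :=
      mul_le_mul a5 a3 a4 (by positivity)
    have a7 : c t ^ 2 / (3 * δ ^ 2) * (6 * δ * nsq (cmp ω Ψ))
        = 2 * c t ^ 2 / δ * nsq (cmp ω Ψ) := by
      field_simp; ring
    have a8 : 0 ≤ 2 * c t ^ 2 / δ * nsq (cmp (flip t ω) Ψ) :=
      mul_nonneg (by positivity) (nsq_nonneg _)
    rw [mul_add]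
    linarith
  have h3 := Finset.sum_le_sum (s := (univ : Finset τ)) fun t _ => h2 t
  rw [Finset.sum_sub_distrib] at h3
  have h4 : ∑ t, 2 * c t ^ 2 / δ * nsq Ψ = 2 * (∑ t, c t ^ 2) / δ * nsq Ψ := by
    rw [← Finset.sum_mul]
    congr 1
    rw [Finset.mul_sum, Finset.sum_div]
  rw [h4] at h3
  rw [H2, E_add, E_lift, E_sum, sub_mul]
  linarith

/-! ### the upper bound: product trial state -/

/-- factor of the trial state -/
def fct (m : τ → Term ι) (c : τ → ℝ) (δ : ℝ) (ω : τ → Bool) (t : τ) : Op ι :=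
  if ω t then -(m t).R (c t) δ else 1

lemma comm_R (hk : ∀ s t, (m s).k ≠ (m t).a ∧ (m s).k ≠ (m t).b) (s t : τ) :
    Commute ((m s).R (c s) δ) ((m t).R (c t) δ) := by
  have hXZ : ∀ s t, Commute (X (m s).k) (Z (m t).a - Z (m t).b) := fun s t =>
    (X_Z_comm (hk s t).1).sub_right (X_Z_comm (hk s t).2)
  have hZZ : Commute (Z (m s).a - Z (m s).b : Op ι) (Z (m t).a - Z (m t).b) :=
    ((Z_comm _ _).sub_right (Z_comm _ _)).sub_left ((Z_comm _ _).sub_right (Z_comm _ _))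
  have hXX : Commute ((δ • 1 + (c s / 2) • X (m s).k : Op ι)) (δ • 1 + (c t / 2) • X (m t).k) := by
    refine Commute.add_left ((Commute.one_left _).smul_left _) (Commute.smul_left ?_ _)
    exact ((Commute.one_right _).smul_right _).add_right ((X_comm _ _).smul_right _)
  have h1 : ∀ s t, Commute ((δ • 1 + (c s / 2) • X (m s).k : Op ι)) (Z (m t).a - Z (m t).b) :=
    fun s t => Commute.add_left ((Commute.one_left _).smul_left _) ((hXZ s t).smul_left _)
  unfold Term.R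
  refine (Commute.smul_left (Commute.smul_right ?_ _) _)
  exact (hXX.mul_right (h1 s t)).mul_left (((h1 t s).symm).mul_right hZZ)

lemma comm_fct (hk : ∀ s t, (m s).k ≠ (m t).a ∧ (m s).k ≠ (m t).b) (ω : τ → Bool) (s t : τ) :
    Commute (fct m c δ ω s) (fct m c δ ω t) := by
  unfold fct
  split_ifs
  · exact ((comm_R hk s t).neg_left).neg_right
  · exact Commute.one_right _
  · exact Commute.one_left _
  · exact Commute.one_left _

lemma comm_set (hk : ∀ s t, (m s).k ≠ (m t).a ∧ (m s).k ≠ (m t).b) (ω : τ → Bool) :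
    ((univ : Finset τ) : Set τ).Pairwise (Function.onFun Commute (fct m c δ ω)) :=
  fun s _ t _ _ => comm_fct hk ω s t

/-- operator of the configuration `ω` -/
def pr (hk : ∀ s t, (m s).k ≠ (m t).a ∧ (m s).k ≠ (m t).b) (c : τ → ℝ) (δ : ℝ)
    (ω : τ → Bool) : Op ι :=
  (univ : Finset τ).noncommProd (fct m c δ ω) (comm_set hk ω)

/-- the trial state -/
def trial (hk : ∀ s t, (m s).k ≠ (m t).a ∧ (m s).k ≠ (m t).b) (c : τ → ℝ) (δ : ℝ)
    (ψ : Q ι) : Q (ι ⊕ τ) := asm fun ω => pr hk c δ ω ψ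

lemma pr_flip (hk : ∀ s t, (m s).k ≠ (m t).a ∧ (m s).k ≠ (m t).b) (ω : τ → Bool) (t : τ)
    (h : ω t = false) : pr hk c δ (flip t ω) = -(m t).R (c t) δ * pr hk c δ ω := by
  unfold pr
  rw [← Finset.mul_noncommProd_erase univ (mem_univ t) (fct m c δ (flip t ω)),
    ← Finset.mul_noncommProd_erase univ (mem_univ t) (fct m c δ ω)]
  have e1 : fct m c δ (flip t ω) t = -(m t).R (c t) δ := by simp [fct, h]
  have e2 : fct m c δ ω t = 1 := by simp [fct, h]
  rw [e1, e2, one_mul]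
  congr 1
  refine Finset.noncommProd_congr rfl (fun s hs => ?_) _
  have : s ≠ t := Finset.ne_of_mem_erase hs
  simp [fct, this]

lemma pr_zero (hk : ∀ s t, (m s).k ≠ (m t).a ∧ (m s).k ≠ (m t).b) :
    pr hk c δ (fun _ => false) = 1 := by
  unfold pr
  rw [Finset.noncommProd_eq_pow_card _ _ _ 1 (fun t _ => by simp [fct])]
  simp

lemma cmp_trial_flip (hk : ∀ s t, (m s).k ≠ (m t).a ∧ (m s).k ≠ (m t).b) (ψ : Q ι)
    (ω : τ → Bool) (t : τ) (h : ω t = false) :
    cmp (flip t ω) (trial hk c δ ψ) = -(m t).R (c t) δ (cmp ω (trial hk c δ ψ)) := by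
  unfold trial
  rw [cmp_asm, cmp_asm, pr_flip hk ω t h]
  simp [Module.End.mul_apply]

lemma nsq_neg (φ : Q ι) : nsq (-φ) = nsq φ := by simp [nsq]

/-- the weight of the configurations with `ω t = true` is small -/
lemma weight_one (hδ : 0 < δ) (hc : ∀ t, 0 ≤ c t) (hcδ : ∀ t, c t ≤ δ)
    (hk : ∀ s t, (m s).k ≠ (m t).a ∧ (m s).k ≠ (m t).b) (ψ : Q ι) (t : τ) :
    ∑ ω ∈ univ.filter (fun ω : τ → Bool => ω t = false), nsq (cmp (flip t ω) (trial hk c δ ψ))
      ≤ 16 / δ ^ 2 * nsq (trial hk c δ ψ) := by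
  rw [nsq_cmp, Finset.mul_sum]
  refine (Finset.sum_le_sum fun ω hω => ?_).trans
    (Finset.sum_le_univ_sum_of_nonneg (f := fun ω => 16 / δ ^ 2 * nsq (cmp ω (trial hk c δ ψ)))
      fun ω => mul_nonneg (by positivity) (nsq_nonneg _))
  simp only [mem_filter, mem_univ, true_and] at hω
  rw [cmp_trial_flip hk ψ ω t hω, nsq_neg]
  exact nsq_R_le (m t) hδ (hc t) (hcδ t) _

lemma weight_all (hδ : 0 < δ) (hc : ∀ t, 0 ≤ c t) (hcδ : ∀ t, c t ≤ δ)
    (hk : ∀ s t, (m s).k ≠ (m t).a ∧ (m s).k ≠ (m t).b) (ψ : Q ι) :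
    ∑ ω ∈ univ.erase (fun _ : τ => false), nsq (cmp ω (trial hk c δ ψ))
      ≤ Fintype.card τ * (16 / δ ^ 2) * nsq (trial hk c δ ψ) := by
  have h1 : ∑ ω ∈ univ.erase (fun _ : τ => false), nsq (cmp ω (trial hk c δ ψ))
      ≤ ∑ ω, ∑ t : τ, (if ω t = true then nsq (cmp ω (trial hk c δ ψ)) else 0) := by
    refine (Finset.sum_le_sum (g := fun ω => ∑ t : τ,
      (if ω t = true then nsq (cmp ω (trial hk c δ ψ)) else 0)) fun ω hω => ?_).trans
      (Finset.sum_le_univ_sum_of_nonneg fun ω => Finset.sum_nonneg fun t _ => ?_)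
    · have hne : ω ≠ fun _ => false := (Finset.mem_erase.1 hω).1
      obtain ⟨t, ht⟩ : ∃ t, ω t = true := by
        by_contra hcon
        push Not at hcon
        apply hne
        funext t
        simpa using hcon t
      have := Finset.single_le_sum (f := fun t : τ =>
        (if ω t = true then nsq (cmp ω (trial hk c δ ψ)) else 0))
        (fun t _ => by split_ifs; exacts [nsq_nonneg _, le_rfl]) (mem_univ t)
      simpa [ht] using this
    · split_ifs
      exacts [nsq_nonneg _, le_rfl]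
  refine h1.trans ?_
  rw [Finset.sum_comm]
  have h2 : ∀ t : τ, ∑ ω, (if ω t = true then nsq (cmp ω (trial hk c δ ψ)) else 0)
      ≤ 16 / δ ^ 2 * nsq (trial hk c δ ψ) := by
    intro t
    rw [sum_pair t]
    refine le_trans (le_of_eq ?_) (weight_one hδ hc hcδ hk ψ t)
    refine Finset.sum_congr rfl fun ω hω => ?_
    simp only [mem_filter, mem_univ, true_and] at hω
    simp [hω]
  refine (Finset.sum_le_sum fun t _ => h2 t).trans ?_
  simp [mul_assoc]

/-- UPPER BOUND of the mediator step -/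
theorem med_upper (hδ : 0 < δ) (hc : ∀ t, 0 ≤ c t) (hcδ : ∀ t, c t ≤ δ)
    (hk : ∀ s t, (m s).k ≠ (m t).a ∧ (m s).k ≠ (m t).b) {Λ e : ℝ} (hΛ : FB (H3 L m c) Λ)
    {ψ : Q ι} (hψ : nsq ψ = 1) (h : E (H3 L m c) ψ ≤ e) :
    ∃ Ψ : Q (ι ⊕ τ), nsq Ψ = 1 ∧
      E (H2 L m c δ) Ψ ≤ e + Fintype.card τ * (32 * Λ / δ ^ 2 + 96 / δ) := by
  set Ψ := trial hk c δ ψ with hΨ
  have hc0 : cmp (fun _ => false) Ψ = ψ := by
    rw [hΨ, trial, cmp_asm, pr_zero hk]; rfl
  have hsum : nsq Ψ = 1 + ∑ ω ∈ univ.erase (fun _ : τ => false), nsq (cmp ω Ψ) := by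
    rw [nsq_cmp, ← Finset.add_sum_erase univ _ (mem_univ (fun _ : τ => false)), hc0, hψ]
  set S := ∑ ω ∈ univ.erase (fun _ : τ => false), nsq (cmp ω Ψ) with hS
  have hS0 : 0 ≤ S := Finset.sum_nonneg fun _ _ => nsq_nonneg _
  have hSle : S ≤ Fintype.card τ * (16 / δ ^ 2) * nsq Ψ := weight_all hδ hc hcδ hk ψ
  have hpos : 0 < nsq Ψ := by rw [hsum]; linarith
  have hΛ0 : 0 ≤ Λ := by
    have := (abs_nonneg _).trans (hΛ ψ)
    rwa [hψ, mul_one] at this
  have heΛ : -Λ ≤ e := by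
    have := (abs_le.1 (hΛ ψ)).1
    rw [hψ, mul_one] at this
    linarith
  -- the energy of the three-local part
  have h3 : ∑ ω, E (H3 L m c) (cmp ω Ψ) ≤ e + Λ * S := by
    rw [← Finset.add_sum_erase univ _ (mem_univ (fun _ : τ => false)), hc0, hS, Finset.mul_sum]
    refine add_le_add h (Finset.sum_le_sum fun ω _ => ?_)
    exact (abs_le.1 (hΛ _)).2
  -- the mediator terms
  have h4 : ∀ t, E (med m c δ t) Ψ ≤ ∑ ω ∈ univ.filter (fun ω : τ → Bool => ω t = false),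
        (c t * E (m t).W (cmp ω Ψ) + c t * E (m t).W (cmp (flip t ω) Ψ))
        + 6 * δ * (16 / δ ^ 2 * nsq Ψ) := by
    intro t
    have hw := weight_one hδ hc hcδ hk ψ t
    have hw2 := mul_le_mul_of_nonneg_left hw (by positivity : 0 ≤ 6 * δ)
    refine le_trans ?_ (add_le_add_right hw2 _)
    rw [E_med, Finset.mul_sum, ← Finset.sum_add_distrib]
    refine Finset.sum_le_sum fun ω hω => ?_
    simp only [mem_filter, mem_univ, true_and] at hω
    rw [pairE_eq (m t) hδ (hc t) (hcδ t)]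
    have e1 : cmp (flip t ω) Ψ + (m t).R (c t) δ (cmp ω Ψ) = 0 := by
      rw [hΨ, cmp_trial_flip hk ψ ω t hω]; simp
    rw [e1]
    have a0 : E ((m t).D (c t) δ) (0 : Q ι) = 0 := by simp [E]
    have a2 := E_G_le (m t) hδ (hc t) (hcδ t) (cmp (flip t ω) Ψ)
    have a4 := E_G_nonneg (m t) hδ (hc t) (hcδ t) (cmp ω Ψ)
    have a5 := kap_ge hδ (hc t) (hcδ t)
    have a6 : 0 ≤ (kap (c t) δ - 1) * E ((m t).G (c t) δ) (cmp ω Ψ) :=
      mul_nonneg (by linarith) a4
    rw [a0]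
    linarith
  have h5 := Finset.sum_le_sum (s := (univ : Finset τ)) fun t _ => h4 t
  rw [Finset.sum_add_distrib, Finset.sum_const, Finset.card_univ, nsmul_eq_mul] at h5
  rw [E_H3_cmp] at h3
  have h6 : E (H2 L m c δ) Ψ ≤ e + Λ * S + Fintype.card τ * (6 * δ * (16 / δ ^ 2 * nsq Ψ)) := by
    rw [H2, E_add, E_lift, E_sum]
    linarith
  have h7 : E (H2 L m c δ) Ψ ≤ (e + Fintype.card τ * (32 * Λ / δ ^ 2 + 96 / δ)) * nsq Ψ := by
    have b1 : e = e * nsq Ψ - e * S := by rw [hsum]; ring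
    have b2 : -(e * S) ≤ Λ * S := by
      rw [← neg_mul]
      exact mul_le_mul_of_nonneg_right (by linarith) hS0
    have b3 : Λ * S ≤ Λ * (Fintype.card τ * (16 / δ ^ 2) * nsq Ψ) :=
      mul_le_mul_of_nonneg_left hSle hΛ0
    have b4 : (Fintype.card τ : ℝ) * (6 * δ * (16 / δ ^ 2 * nsq Ψ))
        = Fintype.card τ * (96 / δ) * nsq Ψ := by
      field_simp; ring
    have b5 : Λ * (Fintype.card τ * (16 / δ ^ 2) * nsq Ψ)
        = Fintype.card τ * (16 * Λ / δ ^ 2) * nsq Ψ := by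
      ring
    have b6 : (e + Fintype.card τ * (32 * Λ / δ ^ 2 + 96 / δ)) * nsq Ψ
        = e * nsq Ψ + 2 * (Fintype.card τ * (16 * Λ / δ ^ 2) * nsq Ψ)
          + Fintype.card τ * (96 / δ) * nsq Ψ := by ring
    rw [b6]
    linarith
  refine ⟨(Real.sqrt (nsq Ψ))⁻¹ • Ψ, ?_, ?_⟩
  · rw [nsq_smul, inv_pow, Real.sq_sqrt hpos.le, inv_mul_cancel₀ hpos.ne']
  · rw [E_smul_vec, inv_pow, Real.sq_sqrt hpos.le, inv_mul_le_iff₀ hpos, mul_comm]
    exact h7

end main

end Crest.Agent.R338.Med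

end
end

-- ▼ part R338/H2Def
section

/-!
# Row 338: the clock form `H_K` and the two-local form `H_2` as operators (definitions only)

Index types: wires `Fin M`, clock qubits `Fin T`, mediators `Fin T`.
`H_K` lives on `Fin M ⊕ Fin T`, `H_2` on `(Fin M ⊕ Fin T) ⊕ Fin T`. (helper896, node I.3, pair table)
-/

set_option autoImplicit false

namespace Crest.Agent.R338.PTab

open Crest.Agent.R338 RC

/-- clock data: gates `g t` (`t = 0` first), constrained wires, output wire, dummy wire -/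
structure CD where
  M : ℕ
  T : ℕ
  g : Fin T → EG (Fin M)
  con : Fin M → Bool
  out : Fin M
  D : Fin M

/-- standing hypotheses -/
structure CD.Ok (d : CD) : Prop where
  hT : 2 ≤ d.T
  wf : ∀ t, (d.g t).WF
  first : ∀ t : Fin d.T, (t : ℕ) = 0 → d.g t = EG.rot 2 d.D
  last : ∀ t : Fin d.T, (t : ℕ) + 1 = d.T → d.g t = EG.rot 2 d.D
  conD : d.con d.D = false
  outD : d.out ≠ d.D

/-- operator of a gate, wires embedded by `f` -/
noncomputable def gop {W ι : Type} [DecidableEq ι] (f : W → ι) : EG W → Op ι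
  | EG.rot k a => Real.cos (ang k) • Z (f a) + Real.sin (ang k) • X (f a)
  | EG.cz a b => (1 / 2 : ℝ) • (1 + Z (f a) + Z (f b) - Z (f a) * Z (f b))

/-- `1` if the gate is a `CZ` -/
def isCZ {W : Type} : EG W → Bool
  | EG.rot _ _ => false
  | EG.cz _ _ => true

/-- operator `Z_a - Z_b` of a `CZ` gate (zero for rotations) -/
noncomputable def dop {W ι : Type} (f : W → ι) : EG W → Op ι
  | EG.rot _ _ => 0
  | EG.cz a b => Z (f a) - Z (f b)

/-- operator `Z_a Z_b` of a `CZ` gate (zero for rotations) -/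
noncomputable def zzop {W ι : Type} (f : W → ι) : EG W → Op ι
  | EG.rot _ _ => 0
  | EG.cz a b => Z (f a) * Z (f b)

namespace CD

variable (d : CD) {ι : Type} [DecidableEq ι] (w : Fin d.M → ι) (c : Fin d.T → ι) (m : Fin d.T → ι)

/-- the part of the clock form without the propagation term:
`|0><0|_out c_T + J_in Σ_con |1><1|_a |0><0|_{c_1} + J_prop (1 + c_1 - c_T)/2 + J_clk Σ |0><0|_{c_t}|1><1|_{c_{t+1}}` -/
noncomputable def Hdiag (Jin Jp Jk : ℝ) : Op ι :=
  ∑ t : Fin d.T, (if (t : ℕ) + 1 = d.T then (1 - Nb (w d.out)) * Nb (c t) else 0)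
    + Jin • ∑ t : Fin d.T, (if (t : ℕ) = 0 then
        ∑ a : Fin d.M, (if d.con a then Nb (w a) * (1 - Nb (c t)) else 0) else 0)
    + (Jp / 2) • (1 + ∑ t : Fin d.T, (if (t : ℕ) = 0 then Nb (c t) else 0)
        - ∑ t : Fin d.T, (if (t : ℕ) + 1 = d.T then Nb (c t) else 0))
    + Jk • ∑ t : Fin d.T, ∑ t' : Fin d.T,
        (if (t' : ℕ) = (t : ℕ) + 1 then (1 - Nb (c t)) * Nb (c t') else 0)

/-- **the clock form** `H_K`: `Hdiag - (J_prop/2) Σ_t U_t X_{c_t}` -/
noncomputable def HK (Jin Jp Jk : ℝ) : Op ι :=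
  d.Hdiag w c Jin Jp Jk - (Jp / 2) • ∑ t : Fin d.T, gop w (d.g t) * X (c t)

/-- two-local part of `H_K`: `H_K = HL + Σ_{CZ} (J_prop/4) Z_a Z_b X_{c_t}` -/
noncomputable def HL (Jin Jp Jk : ℝ) : Op ι :=
  d.HK w c Jin Jp Jk - (Jp / 4) • ∑ t : Fin d.T, zzop w (d.g t) * X (c t)

/-- the gadget of time `t` with `c = J_prop/4` (for rotations only `δ³ |1><1|_w`):
`δ³ n_w + δ² (Z_a - Z_b) X_w - (c δ²/2) n_w X_{c_t} + 2 δ (1 - Z_a Z_b) + c X_{c_t}` -/
noncomputable def gadg (Jp δ : ℝ) (t : Fin d.T) : Op ι :=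
  δ ^ 3 • Nb (m t) + δ ^ 2 • (dop w (d.g t) * X (m t))
    + (if isCZ (d.g t) then
        -((Jp / 4) * δ ^ 2 / 2) • (Nb (m t) * X (c t)) + (2 * δ) • (1 - zzop w (d.g t))
          + (Jp / 4) • X (c t)
      else 0)

/-- **the two-local form** `H_2` -/
noncomputable def H2 (Jin Jp Jk δ : ℝ) : Op ι :=
  d.HL w c Jin Jp Jk + ∑ t : Fin d.T, d.gadg w c m Jp δ t

/-! ### relation with `Med` (helper18) and `Clock` (helper714) -/

/-- the mediated term of time `t` (trivial for rotations) -/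
def term (t : Fin d.T) : Med.Term (Fin d.M ⊕ Fin d.T) :=
  match d.g t with
  | EG.rot _ a => ⟨Sum.inl a, Sum.inl a, Sum.inr t, by simp, by simp⟩
  | EG.cz a b => ⟨Sum.inl a, Sum.inl b, Sum.inr t, by simp, by simp⟩

/-- strength of the mediated term: `J_prop/4` for `CZ`, `0` for rotations -/
noncomputable def cc (Jp : ℝ) (t : Fin d.T) : ℝ := if isCZ (d.g t) then Jp / 4 else 0

/-- rejection indicator -/
noncomputable def rej (w : Fin d.M → Bool) : ℝ := if w d.out then 0 else 1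

/-- number of constrained wires which are `1` -/
noncomputable def cnt (w : Fin d.M → Bool) : ℝ :=
  ∑ a : Fin d.M, if d.con a then (if w a then 1 else 0) else 0

/-- the gates as linear maps on the wire space -/
noncomputable def U (t : Fin d.T) : Q (Fin d.M) →ₗ[ℝ] Q (Fin d.M) := gop id (d.g t)

end CD

end Crest.Agent.R338.PTab
private theorem rz_d0ef555f8f : type_of% @_root_.Crest.Agent.R338.PTab.dop.eq_1 := @_root_.Crest.Agent.R338.PTab.dop.eq_1 -- L48
private theorem rz_2fad9a0375 : type_of% @_root_.Crest.Agent.R338.PTab.gop.eq_1 := @_root_.Crest.Agent.R338.PTab.gop.eq_1 -- L38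
private theorem rz_1cc674a435 : type_of% @_root_.Crest.Agent.R338.PTab.isCZ.eq_1 := @_root_.Crest.Agent.R338.PTab.isCZ.eq_1 -- L43
private theorem rz_4ed9a6fb98 : type_of% @_root_.Crest.Agent.R338.PTab.zzop.eq_1 := @_root_.Crest.Agent.R338.PTab.zzop.eq_1 -- L53
end

-- ▼ part R338/Br1
section

/-!
# Row 338: bridges of the common definition: algebra homomorphisms, `Med`, `Clock` (helper896)
-/

set_option autoImplicit false
set_option linter.unusedSectionVars false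
set_option linter.unusedSimpArgs false

namespace Crest.Agent.R338.PTab

open Crest.Agent.R338 RC

section hom

variable {ι κ : Type} [DecidableEq ι] [DecidableEq κ]

/-- compatible algebra homomorphisms -/
structure IsEmb (Φ : Op ι →ₐ[ℝ] Op κ) (f : ι → κ) : Prop where
  hX : ∀ i, Φ (X i) = X (f i)
  hZ : ∀ i, Φ (Z i) = Z (f i)

theorem IsEmb.hN {Φ : Op ι →ₐ[ℝ] Op κ} {f : ι → κ} (h : IsEmb Φ f) (i : ι) :
    Φ (Nb i) = Nb (f i) := by
  rw [Nb_eq, Nb_eq, map_smul, map_sub, map_one, h.hZ]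

variable {Φ : Op ι →ₐ[ℝ] Op κ} {f : ι → κ} (h : IsEmb Φ f)
include h

theorem gop_emb {W : Type} (w : W → ι) (g : EG W) : Φ (gop w g) = gop (f ∘ w) g := by
  cases g <;> simp [gop, h.hX, h.hZ]

theorem zzop_emb {W : Type} (w : W → ι) (g : EG W) : Φ (zzop w g) = zzop (f ∘ w) g := by
  cases g <;> simp [zzop, h.hX, h.hZ]

theorem dop_emb {W : Type} (w : W → ι) (g : EG W) : Φ (dop w g) = dop (f ∘ w) g := by
  cases g <;> simp [dop, h.hX, h.hZ]

theorem Hdiag_emb (d : CD) (w : Fin d.M → ι) (c : Fin d.T → ι) (Jin Jp Jk : ℝ) :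
    Φ (d.Hdiag w c Jin Jp Jk) = d.Hdiag (f ∘ w) (f ∘ c) Jin Jp Jk := by
  unfold CD.Hdiag
  simp only [map_add, map_sub, map_smul, map_sum, apply_ite Φ, map_zero, map_mul, map_one, h.hN,
    Function.comp_apply]

theorem HK_emb (d : CD) (w : Fin d.M → ι) (c : Fin d.T → ι) (Jin Jp Jk : ℝ) :
    Φ (d.HK w c Jin Jp Jk) = d.HK (f ∘ w) (f ∘ c) Jin Jp Jk := by
  unfold CD.HK
  simp only [map_sub, map_smul, map_sum, map_mul, Hdiag_emb h, gop_emb h, h.hX,
    Function.comp_apply]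

theorem HL_emb (d : CD) (w : Fin d.M → ι) (c : Fin d.T → ι) (Jin Jp Jk : ℝ) :
    Φ (d.HL w c Jin Jp Jk) = d.HL (f ∘ w) (f ∘ c) Jin Jp Jk := by
  unfold CD.HL
  simp only [map_sub, map_smul, map_sum, map_mul, HK_emb h, zzop_emb h, h.hX,
    Function.comp_apply]

theorem gadg_emb (d : CD) (w : Fin d.M → ι) (c m : Fin d.T → ι) (Jp δ : ℝ) (t : Fin d.T) :
    Φ (d.gadg w c m Jp δ t) = d.gadg (f ∘ w) (f ∘ c) (f ∘ m) Jp δ t := by
  unfold CD.gadg
  simp only [map_add, map_sub, map_smul, apply_ite Φ, map_zero, map_mul, map_one, h.hN, h.hX,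
    dop_emb h, zzop_emb h, Function.comp_apply]

theorem H2_emb (d : CD) (w : Fin d.M → ι) (c m : Fin d.T → ι) (Jin Jp Jk δ : ℝ) :
    Φ (d.H2 w c m Jin Jp Jk δ) = d.H2 (f ∘ w) (f ∘ c) (f ∘ m) Jin Jp Jk δ := by
  unfold CD.H2
  simp only [map_add, map_sum, HL_emb h, gadg_emb h]

end hom

section inst

variable {ι κ : Type} [DecidableEq ι] [DecidableEq κ]

/-- `lift` as an algebra homomorphism -/
noncomputable def liftA (ι τ : Type) : Op ι →ₐ[ℝ] Op (ι ⊕ τ) where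
  toFun := Med.lift
  map_one' := Med.lift_one
  map_mul' := Med.lift_mul
  map_zero' := Med.lift_zero
  map_add' := Med.lift_add
  commutes' r := by
    rw [Algebra.algebraMap_eq_smul_one, Algebra.algebraMap_eq_smul_one, Med.lift_smul,
      Med.lift_one]

theorem liftA_emb (ι τ : Type) [DecidableEq ι] [DecidableEq τ] :
    IsEmb (liftA ι τ) (Sum.inl : ι → ι ⊕ τ) :=
  ⟨fun i => Med.lift_X i, fun i => Med.lift_Z i⟩

/-- transport of states -/
def reQ (e : ι ≃ κ) : Q ι ≃ₗ[ℝ] Q κ where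
  toFun ψ := fun σ => ψ (σ ∘ e)
  invFun ψ := fun σ => ψ (σ ∘ e.symm)
  left_inv ψ := by funext σ; simp [Function.comp_assoc]
  right_inv ψ := by funext σ; simp [Function.comp_assoc]
  map_add' _ _ := rfl
  map_smul' _ _ := rfl

/-- transport of operators -/
noncomputable def reA (e : ι ≃ κ) : Op ι →ₐ[ℝ] Op κ := (reQ e).conjAlgEquiv ℝ

theorem reA_apply (e : ι ≃ κ) (A : Op ι) (ψ : Q κ) : reA e A ψ = reQ e (A ((reQ e).symm ψ)) := rfl

theorem reA_emb (e : ι ≃ κ) : IsEmb (reA e) e := by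
  constructor
  · intro i
    refine LinearMap.ext fun ψ => funext fun σ => ?_
    rw [reA_apply]
    change ψ ((flip i (σ ∘ e)) ∘ e.symm) = ψ (flip (e i) σ)
    congr 1
    funext j
    simp only [Function.comp_apply, flip_apply, Equiv.apply_symm_apply]
    by_cases hj : e.symm j = i
    · rw [if_pos hj, if_pos (by rw [← hj]; simp)]
    · rw [if_neg hj, if_neg (fun h => hj (by rw [h]; simp))]
  · intro i
    refine LinearMap.ext fun ψ => funext fun σ => ?_
    rw [reA_apply]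
    change sg ((σ ∘ e) i) * ψ ((σ ∘ e) ∘ e.symm) = sg (σ (e i)) * ψ σ
    simp [Function.comp_assoc]

variable [Fintype ι] [Fintype κ]

theorem dot_reQ (e : ι ≃ κ) (φ ψ : Q ι) : reQ e φ ⬝ᵥ reQ e ψ = φ ⬝ᵥ ψ := by
  simp only [dotProduct]
  exact Equiv.sum_comp (e.arrowCongr (Equiv.refl Bool)).symm (fun σ => φ σ * ψ σ)

theorem nsq_reQ (e : ι ≃ κ) (ψ : Q ι) : R338.nsq (reQ e ψ) = R338.nsq ψ := dot_reQ e ψ ψ

theorem E_reA (e : ι ≃ κ) (A : Op ι) (ψ : Q ι) : E (reA e A) (reQ e ψ) = E A ψ := by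
  unfold E
  rw [reA_apply, LinearEquiv.symm_apply_apply, dot_reQ]

end inst

/-! ### relation with `Med` -/

theorem CD.HK_eq_H3 (d : CD) (Jin Jp Jk : ℝ) :
    d.HK Sum.inl Sum.inr Jin Jp Jk =
      Med.H3 (d.HL Sum.inl Sum.inr Jin Jp Jk) d.term (d.cc Jp) := by
  unfold Med.H3 CD.HL
  rw [eq_comm, sub_add_eq_add_sub, add_sub_assoc, Finset.smul_sum, ← Finset.sum_sub_distrib]
  rw [Finset.sum_eq_zero, add_zero]
  intro t _
  unfold CD.cc CD.term Med.Term.W
  cases hg : d.g t <;> simp [isCZ, zzop]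

theorem CD.med_eq (d : CD) (Jp δ : ℝ) (t : Fin d.T) :
    Med.med d.term (d.cc Jp) δ t =
      d.gadg (Sum.inl ∘ Sum.inl) (Sum.inl ∘ Sum.inr) Sum.inr Jp δ t := by
  unfold Med.med CD.gadg CD.cc CD.term
  cases hg : d.g t
  · simp [isCZ, dop, zzop]
  · simp only [isCZ, dop, zzop, if_true, Function.comp_apply]
    module

theorem CD.H2_eq (d : CD) (Jin Jp Jk δ : ℝ) :
    Med.H2 (d.HL Sum.inl Sum.inr Jin Jp Jk) d.term (d.cc Jp) δ =
      d.H2 (Sum.inl ∘ Sum.inl) (Sum.inl ∘ Sum.inr) Sum.inr Jin Jp Jk δ := by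
  unfold Med.H2 CD.H2
  congr 1
  · exact HL_emb (liftA_emb _ _) d Sum.inl Sum.inr Jin Jp Jk
  · exact Finset.sum_congr rfl fun t _ => d.med_eq Jp δ t

end Crest.Agent.R338.PTab
end

-- ▼ part R338/Br2
section

/-!
# Row 338: bridge between the operator form of `H_K` and `Clock.HK` (helper896)
-/

set_option autoImplicit false
set_option linter.unusedSectionVars false
set_option linter.unusedSimpArgs false

namespace Crest.Agent.R338.PTab

open Crest.Agent.R338 RC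

/-- indicator of a bit -/
def bi (b : Bool) : ℝ := if b then 1 else 0

@[simp] theorem bi_true : bi true = 1 := rfl
@[simp] theorem bi_false : bi false = 0 := rfl

theorem Nb_apply' {ι : Type} (i : ι) (ψ : Q ι) (σ : ι → Bool) : Nb i ψ σ = bi (σ i) * ψ σ := by
  rw [Nb_apply]; cases σ i <;> simp


theorem gop_sym {W ι : Type} [DecidableEq ι] [Fintype ι] (f : W → ι) (g : EG W) :
    Sym (gop f g) := by
  cases g with
  | rot k a => exact ((sym_Z _).smul _).add ((sym_X _).smul _)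
  | cz a b =>
    exact (((Sym.one.add (sym_Z _)).add (sym_Z _)).sub
      ((sym_Z _).mul (sym_Z _) (Z_comm _ _))).smul _

theorem gop_mul_self {W ι : Type} [DecidableEq ι] (f : W → ι) (g : EG W) :
    gop f g * gop f g = 1 := by
  cases g with
  | rot k a =>
    have h := X_mul_Z (f a)
    have e : gop f (EG.rot k a) * gop f (EG.rot k a)
        = (Real.cos (ang k) ^ 2) • (Z (f a) * Z (f a)) + (Real.sin (ang k) ^ 2) • (X (f a) * X (f a))
          + (Real.cos (ang k) * Real.sin (ang k)) • (Z (f a) * X (f a) + X (f a) * Z (f a)) := by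
      simp only [gop, mul_add, add_mul, smul_mul_smul_comm, smul_add]
      rw [mul_comm (Real.sin (ang k)) (Real.cos (ang k)), sq, sq]
      abel
    rw [e, h, Z_mul_self, X_mul_self, add_neg_cancel, smul_zero, add_zero, ← add_smul,
      Real.cos_sq_add_sin_sq, one_smul]
  | cz a b =>
    have hc := (Z_comm (f a) (f b)).eq
    have h1 : Z (f a) * Z (f b) * Z (f a) = Z (f b) := by
      rw [hc, mul_assoc, Z_mul_self, mul_one]
    have h2 : Z (f a) * Z (f b) * Z (f b) = Z (f a) := by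
      rw [mul_assoc, Z_mul_self, mul_one]
    have h3 : Z (f a) * (Z (f a) * Z (f b)) = Z (f b) := by
      rw [← mul_assoc, Z_mul_self, one_mul]
    have h4 : Z (f b) * (Z (f a) * Z (f b)) = Z (f a) := by
      rw [hc, ← mul_assoc, Z_mul_self, one_mul]
    have h5 : Z (f a) * Z (f b) * (Z (f a) * Z (f b)) = 1 := by
      rw [← mul_assoc, h1, Z_mul_self]
    have e : (1 + Z (f a) + Z (f b) - Z (f a) * Z (f b)) *
        (1 + Z (f a) + Z (f b) - Z (f a) * Z (f b)) = (4 : ℝ) • (1 : Op ι) := by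
      simp only [mul_add, add_mul, mul_sub, sub_mul, mul_one, one_mul, h1, h2, h3, h4, h5,
        Z_mul_self]
      rw [← hc]
      module
    rw [gop, smul_mul_smul_comm, e, smul_smul]
    norm_num


section diag

variable (d : CD) {ι : Type} [DecidableEq ι] (w : Fin d.M → ι) (c : Fin d.T → ι)

/-- diagonal values of `Hdiag` -/
noncomputable def hd (Jin Jp Jk : ℝ) (first last : Fin d.T) (x : Fin d.M → Bool)
    (y : Fin d.T → Bool) : ℝ :=
  (if y last then d.rej x else 0) + Jin * (if y first then 0 else d.cnt x)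
    + Jp * Clock.wt first last y + Jk * Clock.viol y

theorem Hdiag_apply (Jin Jp Jk : ℝ) (first last : Fin d.T) (hf : (first : ℕ) = 0)
    (hl : (last : ℕ) + 1 = d.T) (ψ : Q ι) (σ : ι → Bool) :
    d.Hdiag w c Jin Jp Jk ψ σ = hd d Jin Jp Jk first last (σ ∘ w) (σ ∘ c) * ψ σ := by
  have e1 : ∀ t : Fin d.T, ((t : ℕ) + 1 = d.T ↔ t = last) := fun t =>
    ⟨fun h => Fin.ext (by omega), fun h => by rw [h]; exact hl⟩
  have e2 : ∀ t : Fin d.T, ((t : ℕ) = 0 ↔ t = first) := fun t =>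
    ⟨fun h => Fin.ext (by omega), fun h => by rw [h]; exact hf⟩
  unfold CD.Hdiag
  simp only [e1, e2, Finset.sum_ite_eq', Finset.mem_univ, if_true]
  have h1 : ((1 - Nb (w d.out)) * Nb (c last) : Op ι) ψ σ =
      (if (σ ∘ c) last then d.rej (σ ∘ w) else 0) * ψ σ := by
    simp only [Module.End.mul_apply, LinearMap.sub_apply, Module.End.one_apply, Pi.sub_apply,
      Nb_apply', CD.rej, Function.comp_apply]
    rcases Bool.eq_false_or_eq_true (σ (c last)) with h | h <;>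
      rcases Bool.eq_false_or_eq_true (σ (w d.out)) with h' | h' <;> simp [h, h']
  have h2 : (∑ a : Fin d.M, (if d.con a then Nb (w a) * (1 - Nb (c first)) else 0 : Op ι)) ψ σ =
      (if (σ ∘ c) first then 0 else d.cnt (σ ∘ w)) * ψ σ := by
    rw [LinearMap.sum_apply, Finset.sum_apply]
    have : ∀ a : Fin d.M, ((if d.con a then Nb (w a) * (1 - Nb (c first)) else 0 : Op ι)) ψ σ =
        (if σ (c first) then 0 else (if d.con a then (if σ (w a) then 1 else 0) else 0)) * ψ σ := by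
      intro a
      cases d.con a
      · simp
      · simp only [if_true, Module.End.mul_apply, LinearMap.sub_apply, Module.End.one_apply,
          Pi.sub_apply, Nb_apply']
        cases σ (c first) <;> cases σ (w a) <;> simp
    rw [Finset.sum_congr rfl fun a _ => this a, ← Finset.sum_mul]
    congr 1
    simp only [Function.comp_apply, CD.cnt]
    cases σ (c first) <;> simp
  have h3 : ((1 : Op ι) + Nb (c first) - Nb (c last)) ψ σ =
      (2 * Clock.wt first last (σ ∘ c)) * ψ σ := by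
    simp only [LinearMap.sub_apply, LinearMap.add_apply, Module.End.one_apply, Pi.sub_apply,
      Pi.add_apply, Nb_apply', Clock.wt, Function.comp_apply, bi]
    ring
  have h4 : (∑ t : Fin d.T, ∑ t' : Fin d.T,
        (if (t' : ℕ) = (t : ℕ) + 1 then (1 - Nb (c t)) * Nb (c t') else 0 : Op ι)) ψ σ =
      Clock.viol (σ ∘ c) * ψ σ := by
    rw [LinearMap.sum_apply, Finset.sum_apply, Clock.viol, Finset.sum_mul]
    refine Finset.sum_congr rfl fun t _ => ?_
    rw [LinearMap.sum_apply, Finset.sum_apply, Finset.sum_mul]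
    refine Finset.sum_congr rfl fun t' _ => ?_
    by_cases h : (t' : ℕ) = (t : ℕ) + 1
    · simp only [h, if_true, Module.End.mul_apply, LinearMap.sub_apply, Module.End.one_apply,
        Pi.sub_apply, Nb_apply', Function.comp_apply, true_and]
      cases σ (c t) <;> cases σ (c t') <;> simp
    · simp [h]
  simp only [LinearMap.add_apply, LinearMap.smul_apply, Pi.add_apply, Pi.smul_apply, smul_eq_mul,
    h1, h2, h3, h4, hd]
  ring

end diag

/-- **bridge with `Clock.HK`** -/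
theorem E_HK_eq (d : CD) (Jin Jp Jk : ℝ) (first last : Fin d.T) (hf : (first : ℕ) = 0)
    (hl : (last : ℕ) + 1 = d.T) (ψ : Q (Fin d.M ⊕ Fin d.T)) :
    E (d.HK Sum.inl Sum.inr Jin Jp Jk) ψ =
      Clock.HK first last d.rej d.cnt d.U Jin Jp Jk (fun c => Med.cmp c ψ) := by
  unfold CD.HK
  rw [E_sub, E_smul, E_sum]
  have h1 : E (d.Hdiag Sum.inl Sum.inr Jin Jp Jk) ψ =
      ∑ c : Fin d.T → Bool, ∑ x : Fin d.M → Bool,
        hd d Jin Jp Jk first last x c * (Med.cmp c ψ x) ^ 2 := by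
    unfold E
    rw [Med.dot_cmp]
    refine Finset.sum_congr rfl fun c _ => ?_
    simp only [dotProduct]
    refine Finset.sum_congr rfl fun x _ => ?_
    have : Med.cmp c (d.Hdiag Sum.inl Sum.inr Jin Jp Jk ψ) x =
        hd d Jin Jp Jk first last x c * Med.cmp c ψ x := by
      unfold Med.cmp
      rw [Hdiag_apply d Sum.inl Sum.inr Jin Jp Jk first last hf hl]
      rfl
    rw [this]; ring
  have h2 : ∀ t : Fin d.T, E (gop Sum.inl (d.g t) * X (Sum.inr t)) ψ =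
      ∑ c, Clock.ip (Med.cmp c ψ) (d.U t (Med.cmp (Clock.flip t c) ψ)) := by
    intro t
    unfold E
    rw [Med.dot_cmp]
    refine Finset.sum_congr rfl fun c _ => ?_
    have e : gop Sum.inl (d.g t) = Med.lift (gop id (d.g t)) :=
      (gop_emb (liftA_emb (Fin d.M) (Fin d.T)) id (d.g t)).symm
    rw [Module.End.mul_apply, e, Med.cmp_lift, Med.cmp_X_inr]
    rfl
  rw [h1, Finset.sum_congr rfl fun t _ => h2 t]
  unfold Clock.HK Clock.hProp
  have h3 : ∀ c : Fin d.T → Bool, ∑ x : Fin d.M → Bool,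
        hd d Jin Jp Jk first last x c * (Med.cmp c ψ x) ^ 2 =
      (if c last = true then Clock.wsq d.rej (Med.cmp c ψ) else 0)
      + Jin * (if c first = true then 0 else Clock.wsq d.cnt (Med.cmp c ψ))
      + Jp * (Clock.wt first last c * Clock.nsq (Med.cmp c ψ))
      + Jk * (Clock.viol c * Clock.nsq (Med.cmp c ψ)) := by
    intro c
    have e1 : (if c last = true then Clock.wsq d.rej (Med.cmp c ψ) else 0) =
        ∑ x, (if c last = true then d.rej x else 0) * (Med.cmp c ψ x) ^ 2 := by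
      unfold Clock.wsq; split_ifs <;> simp
    have e2 : (if c first = true then 0 else Clock.wsq d.cnt (Med.cmp c ψ)) =
        ∑ x, (if c first = true then 0 else d.cnt x) * (Med.cmp c ψ x) ^ 2 := by
      unfold Clock.wsq; split_ifs <;> simp
    rw [e1, e2, Clock.nsq, Finset.mul_sum, Finset.mul_sum, Finset.mul_sum, Finset.mul_sum,
      Finset.mul_sum, ← Finset.sum_add_distrib, ← Finset.sum_add_distrib,
      ← Finset.sum_add_distrib]
    refine Finset.sum_congr rfl fun x _ => ?_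
    unfold hd
    ring
  rw [Finset.sum_congr rfl fun c _ => h3 c, Finset.sum_add_distrib, Finset.sum_add_distrib,
    Finset.sum_add_distrib, ← Finset.mul_sum, ← Finset.mul_sum, ← Finset.mul_sum]
  ring


end Crest.Agent.R338.PTab
end

-- ▼ part R338/PTab1

/-!
# Row 338: the pair table, definitions of the arrays and block decomposition (helper896)

Sites of the XZ instance: `p < M` wires, `M ≤ p < M + T` clock qubits, `M + T ≤ p` mediators.
-/

set_option autoImplicit false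
set_option linter.unusedSectionVars false
set_option linter.unusedSimpArgs false

namespace Crest.Agent.R338.PTab

open Crest.Agent.R338 RC

/-- numerical data of the clock Hamiltonian -/
structure ND where
  M : ℕ
  T : ℕ
  /-- kind of the gate `t`: `0,1,2` rotation, `3` controlled sign -/
  kd : ℕ → ℕ
  /-- first wire of the gate `t` -/
  ga : ℕ → ℕ
  /-- second wire of the gate `t` (equal to the first one for rotations) -/
  gb : ℕ → ℕ
  /-- constrained wires -/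
  con : ℕ → Bool
  /-- number of constrained wires -/
  nc : ℕ
  out : ℕ

/-- cosine of the angle of kind `k` -/
noncomputable def cosN (k : ℕ) : ℝ :=
  if k = 0 then Real.cos (Real.pi / 8) else if k = 1 then Real.cos (Real.pi / 4) else
    Real.cos (Real.pi / 2)

/-- sine of the angle of kind `k` -/
noncomputable def sinN (k : ℕ) : ℝ :=
  if k = 0 then Real.sin (Real.pi / 8) else if k = 1 then Real.sin (Real.pi / 4) else
    Real.sin (Real.pi / 2)

theorem cosN_eq (k : Fin 3) : cosN (k : ℕ) = Real.cos (ang k) := by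
  unfold cosN ang
  fin_cases k <;> simp

theorem sinN_eq (k : Fin 3) : sinN (k : ℕ) = Real.sin (ang k) := by
  unfold sinN ang
  fin_cases k <;> simp

namespace ND

variable (N : ND)

/-- `X`-fields -/
noncomputable def fx (Jp δ : ℝ) (p : ℕ) : ℝ :=
  if N.M ≤ p ∧ p < N.M + N.T ∧ N.kd (p - N.M) = 3 then -(Jp * δ ^ 2 / 16) else 0

/-- `Z`-fields -/
noncomputable def fz (Jin Jp Jk δ : ℝ) (p : ℕ) : ℝ :=
  if p < N.M then (if p = N.out then 1 / 4 else 0) - (if N.con p then Jin / 4 else 0)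
  else if p < N.M + N.T then
    (if p = N.M then Jin / 4 * N.nc - Jp / 4 else 0)
      + (if p + 1 = N.M + N.T then Jp / 4 - 1 / 4 else 0)
      + (if p + 1 < N.M + N.T then Jk / 4 else 0) - (if N.M < p then Jk / 4 else 0)
  else -(δ ^ 3 / 2)

/-- the pair is (wire of a rotation gate, its clock qubit) -/
def isR (p q : ℕ) : Bool :=
  decide (p < N.M) && decide (N.M ≤ q) && decide (q < N.M + N.T) && decide (N.kd (q - N.M) ≠ 3)
    && decide (N.ga (q - N.M) = p)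

/-- the pair is (clock qubit, mediator) -/
def isCM (p q : ℕ) : Bool :=
  decide (N.M ≤ p) && decide (p < N.M + N.T) && decide (N.M + N.T ≤ q)

/-- `X`-coefficient of the first factor -/
noncomputable def ax (p q : ℕ) : ℝ :=
  if N.isR p q then sinN (N.kd (q - N.M)) else if N.isCM p q then 1 else 0

/-- `Z`-coefficient of the first factor -/
noncomputable def az (p q : ℕ) : ℝ :=
  if N.isR p q then cosN (N.kd (q - N.M)) else if N.isCM p q then 0 else 1

/-- `X`-coefficient of the second factor -/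
noncomputable def bx (Jp δ : ℝ) (p q : ℕ) : ℝ :=
  if p < N.M then
    if q < N.M then 0
    else if q < N.M + N.T then
      if N.kd (q - N.M) = 3 then
        (if N.ga (q - N.M) = p then -(Jp / 4) else 0) + (if N.gb (q - N.M) = p then -(Jp / 4) else 0)
      else if N.ga (q - N.M) = p then -(Jp / 2) else 0
    else
      (if N.ga (q - (N.M + N.T)) = p then δ ^ 2 else 0)
        - (if N.gb (q - (N.M + N.T)) = p then δ ^ 2 else 0)
  else 0

/-- number of `CZ` gates on the pair of wires -/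
noncomputable def ncz (p q : ℕ) : ℝ :=
  ∑ t ∈ Finset.range N.T, if N.kd t = 3 ∧
    ((N.ga t = p ∧ N.gb t = q) ∨ (N.ga t = q ∧ N.gb t = p)) then (1 : ℝ) else 0

/-- `Z`-coefficient of the second factor -/
noncomputable def bz (Jin Jp Jk δ : ℝ) (p q : ℕ) : ℝ :=
  if q < N.M then -(2 * δ) * N.ncz p q
  else if p < N.M then
    if q < N.M + N.T then
      (if q = N.M ∧ N.con p = true then -(Jin / 4) else 0)
        + (if q + 1 = N.M + N.T ∧ p = N.out then -(1 / 4) else 0)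
    else 0
  else if q < N.M + N.T then (if p + 1 = q then -(Jk / 4) else 0)
  else if p < N.M + N.T then (if q = p + N.T ∧ N.kd (p - N.M) = 3 then Jp * δ ^ 2 / 16 else 0)
  else 0

/-- the constant -/
noncomputable def c0 (Jin Jp Jk δ : ℝ) : ℝ :=
  1 / 4 + Jin / 4 * N.nc + Jp / 2 + Jk / 4 * (N.T - 1) + N.T * (δ ^ 3 / 2)
    + 2 * δ * ∑ t ∈ Finset.range N.T, if N.kd t = 3 then (1 : ℝ) else 0

end ND

/-- numerical code of a gate: kind, first wire, second wire -/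
def gnum {M : ℕ} (g : EG (Fin M)) : ℕ × ℕ × ℕ := (g.map fun a : Fin M => (a : ℕ)).num

@[simp] theorem gnum_rot {M : ℕ} (k : Fin 3) (a : Fin M) :
    gnum (EG.rot k a) = ((k : ℕ), (a : ℕ), (a : ℕ)) := rfl

@[simp] theorem gnum_cz {M : ℕ} (a b : Fin M) :
    gnum (EG.cz a b) = (3, (a : ℕ), (b : ℕ)) := rfl

/-- numerical data of `d` -/
def CD.nd (d : CD) : ND where
  M := d.M
  T := d.T
  kd t := if h : t < d.T then (gnum (d.g ⟨t, h⟩)).1 else 0
  ga t := if h : t < d.T then (gnum (d.g ⟨t, h⟩)).2.1 else 0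
  gb t := if h : t < d.T then (gnum (d.g ⟨t, h⟩)).2.2 else 0
  con a := if h : a < d.M then d.con ⟨a, h⟩ else false
  nc := (Finset.univ.filter fun a => d.con a = true).card
  out := d.out

section nd
variable (d : CD)

@[simp] theorem nd_M : d.nd.M = d.M := rfl
@[simp] theorem nd_T : d.nd.T = d.T := rfl
@[simp] theorem nd_out : d.nd.out = (d.out : ℕ) := rfl

@[simp] theorem nd_kd (t : Fin d.T) : d.nd.kd t = (gnum (d.g t)).1 := by simp [CD.nd]
@[simp] theorem nd_ga (t : Fin d.T) : d.nd.ga t = (gnum (d.g t)).2.1 := by simp [CD.nd]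
@[simp] theorem nd_gb (t : Fin d.T) : d.nd.gb t = (gnum (d.g t)).2.2 := by simp [CD.nd]
@[simp] theorem nd_con (a : Fin d.M) : d.nd.con a = d.con a := by simp [CD.nd]

end nd

/-- XZ operators on `Fin n` with coefficient arrays indexed by natural numbers -/
noncomputable def XZop {n : ℕ} (fx fz : ℕ → ℝ) (ax az bx bz : ℕ → ℕ → ℝ) : Op (Fin n) :=
  ∑ p : Fin n, (fx p • X p + fz p • Z p) +
    ∑ p : Fin n, ∑ q : Fin n, if p < q then
      (ax p q • X p + az p q • Z p) * (bx p q • X q + bz p q • Z q) else 0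

section blocks

variable (M T : ℕ)

/-- wire sites -/
def iw (a : Fin M) : Fin (M + T + T) := Fin.castAdd T (Fin.castAdd T a)
/-- clock sites -/
def ic (t : Fin T) : Fin (M + T + T) := Fin.castAdd T (Fin.natAdd M t)
/-- mediator sites -/
def im (s : Fin T) : Fin (M + T + T) := Fin.natAdd (M + T) s

@[simp] theorem iw_val (a : Fin M) : ((iw M T a : Fin (M + T + T)) : ℕ) = a := rfl
@[simp] theorem ic_val (t : Fin T) : ((ic M T t : Fin (M + T + T)) : ℕ) = M + t := rfl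
@[simp] theorem im_val (s : Fin T) : ((im M T s : Fin (M + T + T)) : ℕ) = M + T + s := rfl

/-- the layout -/
def lay : (Fin M ⊕ Fin T) ⊕ Fin T ≃ Fin (M + T + T) :=
  (Equiv.sumCongr finSumFinEquiv (Equiv.refl _)).trans finSumFinEquiv

@[simp] theorem lay_w (a : Fin M) : lay M T (Sum.inl (Sum.inl a)) = iw M T a := rfl
@[simp] theorem lay_c (t : Fin T) : lay M T (Sum.inl (Sum.inr t)) = ic M T t := rfl
@[simp] theorem lay_m (t : Fin T) : lay M T (Sum.inr t) = im M T t := rfl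

theorem sum3 {A : Type} [AddCommMonoid A] (f : Fin (M + T + T) → A) :
    ∑ p, f p = ∑ a, f (iw M T a) + ∑ t, f (ic M T t) + ∑ s, f (im M T s) := by
  rw [Fin.sum_univ_add, Fin.sum_univ_add]
  rfl

theorem pairs3 {A : Type} [AddCommMonoid A] (F : Fin (M + T + T) → Fin (M + T + T) → A) :
    ∑ p, ∑ q, (if p < q then F p q else 0) =
      (∑ a, ∑ b, if a < b then F (iw M T a) (iw M T b) else 0)
      + (∑ a, ∑ t, F (iw M T a) (ic M T t))
      + (∑ a, ∑ s, F (iw M T a) (im M T s))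
      + (∑ t, ∑ t', if t < t' then F (ic M T t) (ic M T t') else 0)
      + (∑ t, ∑ s, F (ic M T t) (im M T s))
      + (∑ s, ∑ s', if s < s' then F (im M T s) (im M T s') else 0) := by
  have h0 : ∀ p : Fin (M + T + T), ∑ q, (if p < q then F p q else 0) =
      ∑ b, (if p < iw M T b then F p (iw M T b) else 0)
      + ∑ t, (if p < ic M T t then F p (ic M T t) else 0)
      + ∑ s, (if p < im M T s then F p (im M T s) else 0) := fun p => sum3 M T _
  rw [sum3 M T]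
  simp only [h0]
  simp only [Fin.lt_def, iw_val, ic_val, im_val]
  have h1 : ∀ (a : Fin M) (t : Fin T), ((a : ℕ) < M + t) := fun a t => by omega
  have h2 : ∀ (a : Fin M) (t : Fin T), ((a : ℕ) < M + T + t) := fun a t => by omega
  have h3 : ∀ (a : Fin M) (t : Fin T), ¬ (M + (t : ℕ) < a) := fun a t => by omega
  have h4 : ∀ (a : Fin M) (t : Fin T), ¬ (M + T + (t : ℕ) < a) := fun a t => by omega
  have h5 : ∀ (s t : Fin T), (M + (s : ℕ) < M + T + t) := fun s t => by omega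
  have h6 : ∀ (s t : Fin T), ¬ (M + T + (s : ℕ) < M + t) := fun s t => by omega
  have h7 : ∀ (s t : Fin T), (M + (s : ℕ) < M + t) ↔ (s : ℕ) < t := fun s t => by omega
  have h8 : ∀ (s t : Fin T), (M + T + (s : ℕ) < M + T + t) ↔ (s : ℕ) < t := fun s t => by omega
  simp only [h1, h2, h3, h4, h5, h6, h7, h8, if_true, if_false, Finset.sum_add_distrib,
    Finset.sum_const_zero, zero_add]
  abel

end blocks

end Crest.Agent.R338.PTab
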