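import Crest.Agent.R338.RCDefs

-- ▼ part R338/RCSem
section

/-!
# Row 338, node I.1: real circuits — semantics of the words

`mact κ a` : a wire-`a` matrix depending on the other wires.  All words are such.
-/

set_option autoImplicit false

namespace Crest.Agent.R338.RC

open Function Crest.Quantum.GateCircuit Crest.Quantum.QMA

section mact

variable {W : Type} [DecidableEq W]

/-- `2×2` matrices -/
abbrev M2 : Type := Bool → Bool → ℝ

/-- product -/
def mmul (A B : M2) : M2 := fun x y => A x false * B false y + A x true * B true y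

/-- identity -/
def mone : M2 := fun x y => if x = y then 1 else 0

/-- `Z` -/
def mz : M2 := fun x y => if x = y then (if x = true then -1 else 1) else 0

/-- `X` -/
def mx : M2 := fun x y => if x = y then 0 else 1

/-- apply on wire `a` a matrix depending on the configuration -/
def mact (κ : (W → Bool) → M2) (a : W) (Ψ : RVec W) : RVec W :=
  fun σ => κ σ (σ a) false * Ψ (update σ a false) + κ σ (σ a) true * Ψ (update σ a true)

theorem mact_mact (κ κ' : (W → Bool) → M2) (a : W) (h : ∀ σ b, κ' (update σ a b) = κ' σ)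
    (Ψ : RVec W) : mact κ a (mact κ' a Ψ) = mact (fun σ => mmul (κ σ) (κ' σ)) a Ψ := by
  funext σ
  simp only [mact, mmul, update_self, update_idem, h]
  ring

theorem rot_act (k : Fin 3) (a : W) (Ψ : RVec W) :
    (EG.rot k a).act Ψ = mact (fun _ => rmat k) a Ψ := rfl

/-- control matrix -/
def cmat (b : Bool) : M2 := if b then mz else mone

theorem mone_act (a : W) (κ : (W → Bool) → M2) (Ψ : RVec W) (σ : W → Bool) (h : κ σ = mone) :
    mact κ a Ψ σ = Ψ σ := by
  simp only [mact, h, mone]
  rcases hb : σ a with _ | _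
  · simp only [if_true, one_mul]
    rw [show update σ a false = σ by rw [← hb, update_eq_self]]
    simp
  · simp only [if_true, one_mul]
    rw [show update σ a true = σ by rw [← hb, update_eq_self]]
    simp

theorem mz_act (a : W) (κ : (W → Bool) → M2) (Ψ : RVec W) (σ : W → Bool) (h : κ σ = mz) :
    mact κ a Ψ σ = if σ a = true then - Ψ σ else Ψ σ := by
  simp only [mact, h, mz]
  rcases hb : σ a with _ | _
  · rw [show update σ a false = σ by rw [← hb, update_eq_self]]
    simp
  · rw [show update σ a true = σ by rw [← hb, update_eq_self]]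
    simp

theorem cz_act (c a : W) (Ψ : RVec W) :
    (EG.cz c a).act Ψ = mact (fun σ => cmat (σ c)) a Ψ := by
  funext σ
  rcases hb : σ c with _ | _
  · rw [mone_act a _ Ψ σ (by simp [cmat, hb])]
    simp [EG.act, hb]
  · rw [mz_act a _ Ψ σ (by simp [cmat, hb])]
    simp [EG.act, hb]

theorem mact_congr {κ κ' : (W → Bool) → M2} (h : ∀ σ, κ σ = κ' σ) (a : W) (Ψ : RVec W) :
    mact κ a Ψ = mact κ' a Ψ := by rw [funext h]

theorem run_nil (Ψ : RVec W) : run [] Ψ = Ψ := rfl
theorem run_cons (g : EG W) (w : List (EG W)) (Ψ : RVec W) : run (g :: w) Ψ = run w (g.act Ψ) := rfl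
theorem run_append (w w' : List (EG W)) (Ψ : RVec W) : run (w ++ w') Ψ = run w' (run w Ψ) := by
  simp [run, List.foldl_append]

end mact

/-! ### matrix identities -/

theorem rmat_sq (k : Fin 3) : mmul (rmat k) (rmat k) = mone := by
  funext x y
  have h := Real.sin_sq_add_cos_sq (ang k)
  rcases x with _ | _ <;> rcases y with _ | _ <;> simp only [mmul, rmat, mone] <;> simp <;>
    nlinarith

theorem mmul_assoc (A B C : M2) : mmul (mmul A B) C = mmul A (mmul B C) := by
  funext x y
  simp only [mmul]; ring

theorem mmul_one (A : M2) : mmul A mone = A := by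
  funext x y
  rcases y with _ | _ <;> simp [mmul, mone]

theorem one_mmul (A : M2) : mmul mone A = A := by
  funext x y
  rcases x with _ | _ <;> simp [mmul, mone]

theorem mz_sq : mmul mz mz = mone := by
  funext x y
  rcases x with _ | _ <;> rcases y with _ | _ <;> simp [mmul, mz, mone]


theorem ang0 : ang 0 = Real.pi / 8 := by simp [ang]
theorem ang1 : ang 1 = Real.pi / 4 := by simp [ang]
theorem ang2 : ang 2 = Real.pi / 2 := by
  unfold ang
  rw [if_neg (by decide), if_neg (by decide)]

/-- the matrix `R(θ)` for any angle -/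
noncomputable def rm (θ : ℝ) : M2
  | false, false => Real.cos θ
  | false, true => Real.sin θ
  | true, false => Real.sin θ
  | true, true => -Real.cos θ

/-- rotation by `θ` -/
noncomputable def rotm (θ : ℝ) : M2
  | false, false => Real.cos θ
  | false, true => -Real.sin θ
  | true, false => Real.sin θ
  | true, true => Real.cos θ

theorem rmat_eq (k : Fin 3) : rmat k = rm (ang k) := by
  funext x y
  rcases x with _ | _ <;> rcases y with _ | _ <;> rfl

theorem rm_z_rm (θ : ℝ) : mmul (rm θ) (mmul mz (rm θ)) = rm (2 * θ) := by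
  funext x y
  rcases x with _ | _ <;> rcases y with _ | _ <;>
    simp [mmul, rm, mz, Real.cos_two_mul', Real.sin_two_mul] <;> ring


theorem rm_mz (θ : ℝ) : mmul (rm θ) mz = rotm θ := by
  funext x y
  rcases x with _ | _ <;> rcases y with _ | _ <;> simp [mmul, rm, rotm, mz]

theorem mz_rm (θ : ℝ) : mmul mz (rm θ) = rotm (-θ) := by
  funext x y
  rcases x with _ | _ <;> rcases y with _ | _ <;> simp [mmul, rm, rotm, mz]

theorem rm_half_pi : rm (Real.pi / 2) = mx := by
  funext x y
  rcases x with _ | _ <;> rcases y with _ | _ <;> simp [rm, mx]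

theorem rz0 : mmul (rmat 0) (mmul mz (rmat 0)) = rm (Real.pi / 4) := by
  rw [rmat_eq, rm_z_rm, ang0]; congr 1; ring

theorem rz1 : mmul (rmat 1) (mmul mz (rmat 1)) = mx := by
  rw [rmat_eq, rm_z_rm, ang1, ← rm_half_pi]; congr 1; ring

/-- the AND matrix -/
noncomputable def andm (a b : Bool) : M2 :=
  mmul (rmat 0) (mmul (cmat b) (mmul (rmat 0) (mmul (cmat a) (mmul (rmat 0)
    (mmul (cmat b) (rmat 0))))))

theorem andm_ff : andm false false = mone := by
  simp only [andm, cmat, Bool.false_eq_true, if_false, one_mmul]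
  rw [rmat_sq, mmul_one, rmat_sq]

theorem andm_tf : andm true false = mz := by
  simp only [andm, cmat, Bool.false_eq_true, if_false, if_true, one_mmul]
  rw [rmat_sq, mmul_one, ← mmul_assoc, rmat_sq, one_mmul]

theorem andm_ft : andm false true = mone := by
  simp only [andm, cmat, Bool.false_eq_true, if_false, if_true, one_mmul]
  rw [← mmul_assoc (rmat 0) (rmat 0), rmat_sq, one_mmul, ← mmul_assoc mz mz, mz_sq, one_mmul,
    rmat_sq]

theorem andm_tt : andm true true = mx := by
  have h : mmul (rmat 0) (mmul mz (mmul (rmat 0) (mmul mz (mmul (rmat 0) (mmul mz (rmat 0)))))) =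
      mmul (rm (Real.pi / 4)) (mmul mz (rm (Real.pi / 4))) := by
    rw [← rz0]
    simp only [mmul_assoc]
  simp only [andm, cmat, if_true]
  rw [h, rm_z_rm, ← rm_half_pi]
  congr 1
  ring

section words

variable {W : Type} [DecidableEq W]

theorem run_andW (a b c : W) (hac : a ≠ c) (hbc : b ≠ c) (Ψ : RVec W) :
    run (andW a b c) Ψ = mact (fun σ => andm (σ a) (σ b)) c Ψ := by
  have ha : ∀ (σ : W → Bool) x, cmat (update σ c x a) = cmat (σ a) := fun σ x => by
    rw [update_of_ne hac]
  have hb : ∀ (σ : W → Bool) x, cmat (update σ c x b) = cmat (σ b) := fun σ x => by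
    rw [update_of_ne hbc]
  simp only [andW, run_cons, run_nil, rot_act, cz_act]
  rw [mact_mact _ _ _ (fun σ x => by first | rfl | exact hb σ x | exact ha σ x),
    mact_mact _ _ _ (fun σ x => by first | rfl | exact hb σ x | exact ha σ x),
    mact_mact _ _ _ (fun σ x => by first | rfl | exact hb σ x | exact ha σ x),
    mact_mact _ _ _ (fun σ x => by first | rfl | exact hb σ x | exact ha σ x),
    mact_mact _ _ _ (fun σ x => by first | rfl | exact hb σ x | exact ha σ x),
    mact_mact _ _ _ (fun σ x => by first | rfl | exact hb σ x | exact ha σ x)]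
  refine mact_congr (fun σ => ?_) _ _
  simp only [mmul_assoc, andm]

/-- the effect of AND on states supported on `σ c = false` -/
theorem run_andW_apply (a b c : W) (hac : a ≠ c) (hbc : b ≠ c) (Ψ : RVec W)
    (h : ∀ σ : W → Bool, σ c = true → Ψ σ = 0) (σ : W → Bool) :
    run (andW a b c) Ψ σ = if σ c = (σ a && σ b) then Ψ (update σ c false) else 0 := by
  rw [run_andW a b c hac hbc]
  simp only [mact]
  rw [h (update σ c true) (by simp)]
  rcases ha : σ a with _ | _ <;> rcases hb : σ b with _ | _ <;> rcases hc : σ c with _ | _ <;>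
    simp [andm_ff, andm_ft, andm_tf, andm_tt, mone, mz, mx]

theorem run_three (k : Fin 3) (c t : W) (hct : c ≠ t) (Ψ : RVec W) :
    run [EG.rot k t, EG.cz c t, EG.rot k t] Ψ =
      mact (fun σ => mmul (rmat k) (mmul (cmat (σ c)) (rmat k))) t Ψ := by
  have hc : ∀ (σ : W → Bool) x, cmat (update σ t x c) = cmat (σ c) := fun σ x => by
    rw [update_of_ne hct]
  simp only [run_cons, run_nil, rot_act, cz_act]
  rw [mact_mact _ _ _ (fun σ x => by first | rfl | exact hc σ x),
    mact_mact _ _ _ (fun σ x => by first | rfl | exact hc σ x)]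
  refine mact_congr (fun σ => ?_) _ _
  simp only [mmul_assoc]

theorem run_phW (k : Fin 3) (y r : W) (h : y ≠ r) (Ψ : RVec W) :
    run (phW k y r) Ψ = mact (fun σ => if σ y = true then rotm (2 * ang k) else mone) r Ψ := by
  have hc : ∀ (σ : W → Bool) x, cmat (update σ r x y) = cmat (σ y) := fun σ x => by
    rw [update_of_ne h]
  simp only [phW, run_cons, run_nil, rot_act, cz_act]
  rw [mact_mact _ _ _ (fun σ x => by first | rfl | exact hc σ x),
    mact_mact _ _ _ (fun σ x => by first | rfl | exact hc σ x),
    mact_mact _ _ _ (fun σ x => by first | rfl | exact hc σ x)]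
  refine mact_congr (fun σ => ?_) _ _
  rcases hy : σ y with _ | _
  · simp [cmat, mmul_one, rmat_sq]
  · simp only [cmat, if_true]
    rw [rmat_eq, ← rm_mz, ← rm_z_rm]
    simp only [mmul_assoc]

theorem run_phW_rev (k : Fin 3) (y r : W) (h : y ≠ r) (Ψ : RVec W) :
    run (phW k y r).reverse Ψ =
      mact (fun σ => if σ y = true then rotm (-(2 * ang k)) else mone) r Ψ := by
  have hc : ∀ (σ : W → Bool) x, cmat (update σ r x y) = cmat (σ y) := fun σ x => by
    rw [update_of_ne h]
  simp only [phW, List.reverse_cons, List.reverse_nil, List.nil_append, List.cons_append,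
    run_cons, run_nil, rot_act, cz_act]
  rw [mact_mact _ _ _ (fun σ x => by first | rfl | exact hc σ x),
    mact_mact _ _ _ (fun σ x => by first | rfl | exact hc σ x),
    mact_mact _ _ _ (fun σ x => by first | rfl | exact hc σ x)]
  refine mact_congr (fun σ => ?_) _ _
  rcases hy : σ y with _ | _
  · simp [cmat, one_mmul, mmul_one, rmat_sq]
  · simp only [cmat, if_true]
    rw [rmat_eq, ← mz_rm, ← rm_z_rm]
    simp only [mmul_assoc]

/-! ### involutions, palindromes -/

theorem act_act (g : EG W) (hg : g.WF) (Ψ : RVec W) : g.act (g.act Ψ) = Ψ := by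
  rcases g with ⟨k, a⟩ | ⟨a, b⟩
  · rw [rot_act, rot_act, mact_mact _ _ _ (by intros; rfl)]
    funext σ
    exact mone_act a _ Ψ σ (rmat_sq k)
  · funext σ
    simp only [EG.act]
    split_ifs <;> simp

theorem run_reverse_run (w : List (EG W)) (hw : ∀ g ∈ w, g.WF) (Ψ : RVec W) :
    run w.reverse (run w Ψ) = Ψ := by
  induction w generalizing Ψ with
  | nil => rfl
  | cons g w ih =>
    rw [run_cons, List.reverse_cons, run_append, ih (fun g' h' => hw g' (List.mem_cons_of_mem _ h')),
      run_cons, run_nil, act_act g (hw g List.mem_cons_self)]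

omit [DecidableEq W] in
theorem andW_reverse (a b c : W) : (andW a b c).reverse = andW a b c := rfl

end words

end Crest.Agent.R338.RC
private theorem rz_a5f2544d4c : type_of% @_root_.Crest.Agent.R338.RC.rm.eq_1 := @_root_.Crest.Agent.R338.RC.rm.eq_1 -- L125
private theorem rz_acf822394a : type_of% @_root_.Crest.Agent.R338.RC.rotm.eq_1 := @_root_.Crest.Agent.R338.RC.rotm.eq_1 -- L132
end

-- ▼ part R338/RCGate

/-!
# Row 338, node I.1: the word of a controlled primitive simulates it
-/

set_option autoImplicit false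

namespace Crest.Agent.R338.RC

open Function Crest.Quantum.GateCircuit Crest.Quantum.QMA

/-- real or imaginary part -/
def part : Bool → ℂ → ℝ
  | false, z => z.re
  | true, z => z.im

theorem part_add (b : Bool) (z w : ℂ) : part b (z + w) = part b z + part b w := by
  rcases b with _ | _ <;> simp [part]

theorem part_ofReal_mul (b : Bool) (x : ℝ) (z : ℂ) : part b ((x : ℂ) * z) = x * part b z := by
  rcases b with _ | _ <;> simp [part]

theorem part_zero (b : Bool) : part b 0 = 0 := by
  rcases b with _ | _ <;> simp [part]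

/-- multiplication by `e^{iφ}` is a rotation of (re, im) -/
theorem part_rot (b : Bool) (φ : ℝ) (z : ℂ) :
    rotm φ b false * part false z + rotm φ b true * part true z =
      part b (Complex.exp (φ * Complex.I) * z) := by
  rw [Complex.exp_mul_I, ← Complex.ofReal_cos, ← Complex.ofReal_sin]
  rcases b with _ | _ <;> simp only [part, rotm, Complex.mul_re, Complex.mul_im, Complex.add_re,
    Complex.add_im, Complex.ofReal_re, Complex.ofReal_im, Complex.I_re, Complex.I_im] <;> ring

section layout

variable {N K : ℕ}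

/-- data part of a configuration -/
def dat (σ : Fin (N + K + 4) → Bool) : Fin N → Bool := fun i => σ (qw N K i)

/-- the ancilla pattern -/
def Anc (α : ℕ → (Fin N → Bool) → Bool) (β : (Fin N → Bool) → Bool)
    (σ : Fin (N + K + 4) → Bool) : Prop :=
  (∀ j, j ≤ K → σ (zw N K j) = α j (dat σ)) ∧ σ (yw N K) = β (dat σ)

open Classical in
/-- the state with data `Ψ` (indexed by the dummy bit) and ancilla pattern `α`, `β` -/
noncomputable def ES (K : ℕ) (α : ℕ → (Fin N → Bool) → Bool) (β : (Fin N → Bool) → Bool)
    (Ψ : Bool → QVec N) : RVec (Fin (N + K + 4)) :=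
  fun σ => if Anc α β σ then part (σ (rw' N K)) (Ψ (σ (dw N K)) (dat σ)) else 0

theorem zw_ne_qw (j : ℕ) (i : Fin N) : zw N K j ≠ qw N K i := by
  intro h; have := congrArg Fin.val h; simp [zw, qw] at this; omega
theorem zw_ne_yw (j : ℕ) : zw N K j ≠ yw N K := by
  intro h; have := congrArg Fin.val h; simp [zw, yw] at this; omega
theorem zw_ne_rw (j : ℕ) : zw N K j ≠ rw' N K := by
  intro h; have := congrArg Fin.val h; simp [zw, rw'] at this; omega
theorem zw_ne_dw (j : ℕ) : zw N K j ≠ dw N K := by
  intro h; have := congrArg Fin.val h; simp [zw, dw] at this; omega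
theorem zw_inj {j j' : ℕ} (hj : j ≤ K) (hj' : j' ≤ K) (h : zw N K j = zw N K j') : j = j' := by
  have := congrArg Fin.val h; simp [zw] at this; omega
theorem yw_ne_qw (i : Fin N) : yw N K ≠ qw N K i := by
  intro h; have := congrArg Fin.val h; simp [yw, qw] at this; omega
theorem rw_ne_qw (i : Fin N) : rw' N K ≠ qw N K i := by
  intro h; have := congrArg Fin.val h; simp [rw', qw] at this; omega
theorem dw_ne_qw (i : Fin N) : dw N K ≠ qw N K i := by
  intro h; have := congrArg Fin.val h; simp [dw, qw] at this; omega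
theorem yw_ne_rw : yw N K ≠ rw' N K := by
  intro h; have := congrArg Fin.val h; simp [yw, rw'] at this
theorem yw_ne_dw : yw N K ≠ dw N K := by
  intro h; have := congrArg Fin.val h; simp [yw, dw] at this
theorem rw_ne_dw : rw' N K ≠ dw N K := by
  intro h; have := congrArg Fin.val h; simp [rw', dw] at this
theorem qw_inj {i i' : Fin N} (h : qw N K i = qw N K i') : i = i' := by
  have := congrArg Fin.val h; simp [qw] at this; exact Fin.ext this

theorem dat_update_z (σ : Fin (N + K + 4) → Bool) (j : ℕ) (b : Bool) :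
    dat (update σ (zw N K j) b) = dat σ := by
  funext i; exact update_of_ne (zw_ne_qw j i).symm _ _
theorem dat_update_y (σ : Fin (N + K + 4) → Bool) (b : Bool) :
    dat (update σ (yw N K) b) = dat σ := by
  funext i; exact update_of_ne (yw_ne_qw i).symm _ _
theorem dat_update_r (σ : Fin (N + K + 4) → Bool) (b : Bool) :
    dat (update σ (rw' N K) b) = dat σ := by
  funext i; exact update_of_ne (rw_ne_qw i).symm _ _
theorem dat_update_d (σ : Fin (N + K + 4) → Bool) (b : Bool) :
    dat (update σ (dw N K) b) = dat σ := by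
  funext i; exact update_of_ne (dw_ne_qw i).symm _ _
theorem dat_update_q (σ : Fin (N + K + 4) → Bool) (t : Fin N) (b : Bool) :
    dat (update σ (qw N K t) b) = update (dat σ) t b := by
  funext i
  by_cases h : i = t
  · subst h; simp [dat]
  · rw [update_of_ne h]
    exact update_of_ne (fun e => h (qw_inj e)) _ _

theorem ES_of_anc {α : ℕ → (Fin N → Bool) → Bool} {β : (Fin N → Bool) → Bool}
    {σ : Fin (N + K + 4) → Bool} (h : Anc α β σ) (Ψ : Bool → QVec N) :
    ES K α β Ψ σ = part (σ (rw' N K)) (Ψ (σ (dw N K)) (dat σ)) := by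
  unfold ES; rw [if_pos h]

theorem ES_of_not {α : ℕ → (Fin N → Bool) → Bool} {β : (Fin N → Bool) → Bool}
    {σ : Fin (N + K + 4) → Bool} (h : ¬ Anc α β σ) (Ψ : Bool → QVec N) :
    ES K α β Ψ σ = 0 := by
  unfold ES; rw [if_neg h]

/-- one AND step on the `z` chain -/
theorem and_step (α : ℕ → (Fin N → Bool) → Bool) (β : (Fin N → Bool) → Bool) (Ψ : Bool → QVec N)
    (j : ℕ) (hj : j + 1 ≤ K) (h0 : α (j + 1) = fun _ => false) (i : Fin N) :
    run (andW (zw N K j) (qw N K i) (zw N K (j + 1))) (ES K α β Ψ) =
      ES K (update α (j + 1) (fun τ => α j τ && τ i)) β Ψ := by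
  have hzz : zw N K j ≠ zw N K (j + 1) := fun e => by
    have := zw_inj (by omega) hj e
    omega
  funext σ
  rw [run_andW_apply _ _ _ hzz (zw_ne_qw _ _).symm]
  swap
  · intro σ' h'
    refine ES_of_not (fun hA => ?_) _
    have := hA.1 (j + 1) hj
    rw [h', h0] at this
    exact Bool.noConfusion this
  have key : Anc (update α (j + 1) (fun τ => α j τ && τ i)) β σ ↔
      (σ (zw N K (j + 1)) = (σ (zw N K j) && σ (qw N K i)) ∧
        Anc α β (update σ (zw N K (j + 1)) false)) := by
    constructor
    · intro hA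
      have h1 := hA.1 (j + 1) hj
      rw [update_self] at h1
      have h2 := hA.1 j (by omega)
      rw [update_of_ne (by omega)] at h2
      refine ⟨by rw [h1, h2]; rfl, fun k hk => ?_, ?_⟩
      · rw [dat_update_z]
        by_cases hkj : k = j + 1
        · subst hkj
          rw [update_self, h0]
        · rw [update_of_ne (fun e => hkj (zw_inj hk hj e)), hA.1 k hk, update_of_ne hkj]
      · rw [dat_update_z, update_of_ne (zw_ne_yw _).symm]
        exact hA.2
    · rintro ⟨h1, hA⟩
      refine ⟨fun k hk => ?_, ?_⟩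
      · by_cases hkj : k = j + 1
        · subst hkj
          rw [update_self, h1]
          have h2 := hA.1 j (by omega)
          rw [dat_update_z, update_of_ne hzz] at h2
          rw [h2]; rfl
        · have := hA.1 k hk
          rw [dat_update_z, update_of_ne (fun e => hkj (zw_inj hk hj e))] at this
          rw [this, update_of_ne hkj]
      · have := hA.2
        rw [dat_update_z, update_of_ne (zw_ne_yw _).symm] at this
        exact this
  by_cases hA : Anc (update α (j + 1) (fun τ => α j τ && τ i)) β σ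
  · obtain ⟨h1, h2⟩ := key.1 hA
    rw [if_pos h1, ES_of_anc hA, ES_of_anc h2, dat_update_z, update_of_ne (zw_ne_rw _).symm,
      update_of_ne (zw_ne_dw _).symm]
  · rw [ES_of_not hA]
    split_ifs with h1
    · exact ES_of_not (fun h2 => hA (key.2 ⟨h1, h2⟩)) _
    · rfl

/-- the AND into `y` -/
theorem and_y (α : ℕ → (Fin N → Bool) → Bool) (Ψ : Bool → QVec N)
    (j : ℕ) (hj : j ≤ K) (i : Fin N) :
    run (andW (zw N K j) (qw N K i) (yw N K)) (ES K α (fun _ => false) Ψ) =
      ES K α (fun τ => α j τ && τ i) Ψ := by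
  funext σ
  rw [run_andW_apply _ _ _ (zw_ne_yw _) (yw_ne_qw _).symm]
  swap
  · intro σ' h'
    refine ES_of_not (fun hA => ?_) _
    have := hA.2
    rw [h'] at this
    exact Bool.noConfusion this
  have key : Anc α (fun τ => α j τ && τ i) σ ↔
      (σ (yw N K) = (σ (zw N K j) && σ (qw N K i)) ∧
        Anc α (fun _ => false) (update σ (yw N K) false)) := by
    constructor
    · intro hA
      refine ⟨by rw [hA.2, hA.1 j hj]; rfl, fun k hk => ?_, ?_⟩
      · rw [dat_update_y, update_of_ne (zw_ne_yw _)]
        exact hA.1 k hk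
      · rw [update_self]
    · rintro ⟨h1, hA⟩
      have h2 : ∀ k, k ≤ K → σ (zw N K k) = α k (dat σ) := fun k hk => by
        have := hA.1 k hk
        rwa [dat_update_y, update_of_ne (zw_ne_yw _)] at this
      refine ⟨h2, ?_⟩
      rw [h1, h2 j hj]; rfl
  by_cases hA : Anc α (fun τ => α j τ && τ i) σ
  · obtain ⟨h1, h2⟩ := key.1 hA
    rw [if_pos h1, ES_of_anc hA, ES_of_anc h2, dat_update_y, update_of_ne yw_ne_rw.symm,
      update_of_ne yw_ne_dw.symm]
  · rw [ES_of_not hA]
    split_ifs with h1
    · exact ES_of_not (fun h2 => hA (key.2 ⟨h1, h2⟩)) _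
    · rfl

theorem rot2_act {W : Type} [DecidableEq W] (a : W) (Ψ : RVec W) (σ : W → Bool) :
    (EG.rot 2 a).act Ψ σ = Ψ (update σ a (!σ a)) := by
  have h : rmat 2 = mx := by rw [rmat_eq, ang2, rm_half_pi]
  rw [rot_act, h]
  simp only [mact, mx]
  rcases hs : σ a with _ | _ <;> simp

theorem x_z0 (β : (Fin N → Bool) → Bool) (Ψ : Bool → QVec N) :
    (EG.rot 2 (zw N K 0)).act (ES K (fun _ _ => false) β Ψ) =
      ES K (fun j _ => decide (j = 0)) β Ψ := by
  funext σ
  rw [rot2_act]
  have key : Anc (fun _ _ => false) β (update σ (zw N K 0) (!σ (zw N K 0))) ↔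
      Anc (fun j _ => decide (j = 0)) β σ := by
    unfold Anc
    rw [dat_update_z, update_of_ne (zw_ne_yw _).symm]
    refine and_congr_left (fun _ => forall_congr' fun j => forall_congr' fun hj => ?_)
    by_cases h : j = 0
    · subst h
      rw [update_self]
      rcases σ (zw N K 0) with _ | _ <;> simp
    · rw [update_of_ne (fun e => h (zw_inj hj (Nat.zero_le _) e))]
      simp [h]
  by_cases hA : Anc (fun j _ => decide (j = 0)) β σ
  · rw [ES_of_anc hA, ES_of_anc (key.2 hA), dat_update_z, update_of_ne (zw_ne_rw _).symm,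
      update_of_ne (zw_ne_dw _).symm]
  · rw [ES_of_not hA, ES_of_not (fun h => hA (key.1 h))]

/-- pattern after the control computation -/
def αc (cs : List (Fin N)) : ℕ → (Fin N → Bool) → Bool :=
  fun i τ => decide (i ≤ cs.length) && (cs.take i).all τ

theorem αc_nil : (αc ([] : List (Fin N))) = fun j _ => decide (j = 0) := by
  funext i τ
  simp [αc]

theorem αc_snoc (p : List (Fin N)) (c : Fin N) :
    update (αc p) (p.length + 1) (fun τ => αc p p.length τ && τ c) = αc (p ++ [c]) := by
  funext i τ
  by_cases h : i = p.length + 1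
  · subst h
    rw [update_self]
    simp [αc, List.take_of_length_le]
  · rw [update_of_ne h]
    rcases Nat.lt_or_ge p.length i with h' | h'
    · have h1 : ¬ (i ≤ p.length) := by omega
      have h2 : ¬ (i ≤ p.length + 1) := by omega
      simp [αc, h1, h2]
    · have h2 : i ≤ p.length + 1 := by omega
      simp [αc, h', h2, List.take_append_of_le_length h']

theorem run_chain (β : (Fin N → Bool) → Bool) (Ψ : Bool → QVec N) (s p : List (Fin N))
    (h : (p ++ s).length ≤ K) :
    run (chainW (zw N K) p.length (s.map (qw N K))) (ES K (αc p) β Ψ) = ES K (αc (p ++ s)) β Ψ := by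
  induction s generalizing p with
  | nil => simp [chainW, run_nil]
  | cons c s ih =>
    simp only [List.length_append, List.length_cons] at h
    simp only [List.map_cons, chainW, run_append]
    rw [and_step _ _ _ _ (by omega) (by funext τ; simp [αc]), αc_snoc]
    have := ih (p ++ [c]) (by simp; omega)
    simp only [List.length_append, List.length_cons, List.length_nil, Nat.zero_add,
      List.append_assoc, List.cons_append, List.nil_append] at this
    exact this

theorem run_pre (β : (Fin N → Bool) → Bool) (Ψ : Bool → QVec N) (cs : List (Fin N))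
    (h : cs.length ≤ K) :
    run (preW (zw N K) (cs.map (qw N K))) (ES K (fun _ _ => false) β Ψ) = ES K (αc cs) β Ψ := by
  rw [preW, run_cons, x_z0, ← αc_nil]
  have := run_chain (K := K) β Ψ cs [] (by simpa using h)
  simpa using this

/-! ### well-formedness of the words -/

theorem andW_WF {W : Type} {a b c : W} (hac : a ≠ c) (hbc : b ≠ c) : ∀ g ∈ andW a b c, g.WF := by
  intro g hg
  simp only [andW, List.mem_cons, List.not_mem_nil, or_false] at hg
  rcases hg with h | h | h | h | h | h | h <;> subst h <;> simp [EG.WF, hac, hbc]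

theorem chain_WF (s : List (Fin N)) (j : ℕ) (h : j + s.length ≤ K) :
    ∀ g ∈ chainW (zw N K) j (s.map (qw N K)), g.WF := by
  induction s generalizing j with
  | nil => intro g hg; simp [chainW] at hg
  | cons c s ih =>
    intro g hg
    simp only [List.length_cons] at h
    simp only [List.map_cons, chainW, List.mem_append] at hg
    rcases hg with hg | hg
    · refine andW_WF ?_ (zw_ne_qw _ _).symm g hg
      intro e
      have := zw_inj (by omega) (by omega) e
      omega
    · exact ih (j + 1) (by omega) g hg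

theorem pre_WF (cs : List (Fin N)) (h : cs.length ≤ K) :
    ∀ g ∈ preW (zw N K) (cs.map (qw N K)), g.WF := by
  intro g hg
  simp only [preW, List.mem_cons] at hg
  rcases hg with hg | hg
  · subst hg; trivial
  · exact chain_WF cs 0 (by omega) g hg

theorem phW_WF {W : Type} (k : Fin 3) {y r : W} (h : y ≠ r) : ∀ g ∈ phW k y r, g.WF := by
  intro g hg
  simp only [phW, List.mem_cons, List.not_mem_nil, or_false] at hg
  rcases hg with h' | h' | h' | h' <;> subst h' <;> simp [EG.WF, h]

theorem primW_WF (g : Prim) (j : ℕ) (t : Fin N) :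
    ∀ e ∈ primW g (zw N K j) (qw N K t) (yw N K) (rw' N K), e.WF := by
  intro e he
  have hA := andW_WF (W := Fin (N + K + 4)) (zw_ne_yw j) (yw_ne_qw t).symm
  have hP := fun k => phW_WF (W := Fin (N + K + 4)) k (yw_ne_rw (N := N) (K := K))
  rcases g <;> simp only [primW, List.mem_append, List.mem_cons, List.not_mem_nil, or_false,
    List.mem_reverse] at he
  · rcases he with h | h | h <;> subst h <;> simp [EG.WF, zw_ne_qw]
  · rcases he with h | h | h <;> subst h <;> simp [EG.WF, zw_ne_qw]
  all_goals
    rcases he with (h | h) | h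
    · exact hA _ h
    · exact hP _ _ h
    · exact hA _ h

/-! ### the primitives -/

theorem anc_update_q {α : ℕ → (Fin N → Bool) → Bool} {β : (Fin N → Bool) → Bool} {t : Fin N}
    (hα : ∀ j τ b, α j (update τ t b) = α j τ) (hβ : ∀ τ b, β (update τ t b) = β τ)
    (σ : Fin (N + K + 4) → Bool) (b : Bool) :
    Anc α β (update σ (qw N K t) b) ↔ Anc α β σ := by
  unfold Anc
  rw [dat_update_q, update_of_ne (yw_ne_qw t), hβ]
  refine and_congr_left (fun _ => forall_congr' fun j => forall_congr' fun hj => ?_)
  rw [update_of_ne (zw_ne_qw j t), hα]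

theorem mact_q {α : ℕ → (Fin N → Bool) → Bool} {β : (Fin N → Bool) → Bool} {t : Fin N}
    (hα : ∀ j τ b, α j (update τ t b) = α j τ) (hβ : ∀ τ b, β (update τ t b) = β τ)
    (κ : (Fin (N + K + 4) → Bool) → M2) (Ψ Φ : Bool → QVec N)
    (h : ∀ σ : Fin (N + K + 4) → Bool, Anc α β σ → ∀ d r, κ σ (dat σ t) false * part r (Ψ d (update (dat σ) t false)) +
      κ σ (dat σ t) true * part r (Ψ d (update (dat σ) t true)) = part r (Φ d (dat σ))) :
    mact κ (qw N K t) (ES K α β Ψ) = ES K α β Φ := by
  funext σ
  by_cases hA : Anc α β σ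
  · rw [ES_of_anc hA, ← h σ hA]
    simp only [mact]
    rw [ES_of_anc ((anc_update_q hα hβ σ false).2 hA), ES_of_anc ((anc_update_q hα hβ σ true).2 hA)]
    simp only [dat_update_q, update_of_ne (rw_ne_qw t), update_of_ne (dw_ne_qw t)]
    rfl
  · rw [ES_of_not hA]
    simp only [mact]
    rw [ES_of_not (fun h => hA ((anc_update_q hα hβ σ false).1 h)),
      ES_of_not (fun h => hA ((anc_update_q hα hβ σ true).1 h))]
    ring

theorem αc_update {cs : List (Fin N)} {t : Fin N} (ht : t ∉ cs) (j : ℕ) (τ : Fin N → Bool) (b : Bool) :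
    αc cs j (update τ t b) = αc cs j τ := by
  unfold αc
  congr 1
  have hi : ∀ l : List (Fin N), t ∉ l → l.all (update τ t b) = l.all τ := by
    intro l
    induction l with
    | nil => intro _; rfl
    | cons c l ih =>
      intro h
      rw [List.mem_cons, not_or] at h
      rw [List.all_cons, List.all_cons, ih h.2, update_of_ne (Ne.symm h.1)]
  exact hi _ (fun h => ht (List.mem_of_mem_take h))

theorem αc_full (cs : List (Fin N)) (τ : Fin N → Bool) :
    αc cs cs.length τ = cs.all τ := by
  simp [αc]

theorem anc_z {cs : List (Fin N)} {β : (Fin N → Bool) → Bool} (hK : cs.length ≤ K)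
    {σ : Fin (N + K + 4) → Bool} (h : Anc (αc cs) β σ) :
    σ (zw N K cs.length) = cs.all (dat σ) := by
  rw [h.1 _ hK, αc_full]

theorem all_iff (cs : List (Fin N)) (τ : Fin N → Bool) :
    cs.all τ = true ↔ ∀ c ∈ cs, τ c = true := by
  rw [List.all_eq_true]

theorem sum_bool (f : Bool → ℂ) : ∑ b : Bool, f b = f false + f true := by
  rw [Fintype.sum_bool, add_comm]

/-- the real primitives -/
theorem run_real_prim (cs : List (Fin N)) (t : Fin N) (ht : t ∉ cs) (hK : cs.length ≤ K)
    (k : Fin 3) (A : M2) (hA : mmul (rmat k) (mmul mz (rmat k)) = A) (g : Prim)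
    (hg : ∀ a b, g.mat a b = ((A a b : ℝ) : ℂ)) (f : (Fin 0 → Bool) → Bool) (Ψ : Bool → QVec N) :
    run [EG.rot k (qw N K t), EG.cz (zw N K cs.length) (qw N K t), EG.rot k (qw N K t)]
      (ES K (αc cs) (fun _ => false) Ψ) =
      ES K (αc cs) (fun _ => false) (fun d => (Gate.ctrl g cs t).apply f (Ψ d)) := by
  rw [run_three _ _ _ (zw_ne_qw _ _)]
  refine mact_q (αc_update ht) (fun _ _ => rfl) _ _ _ (fun σ hσ d r => ?_)
  rw [anc_z hK hσ]
  simp only [Gate.apply]
  by_cases hc : cs.all (dat σ) = true
  · rw [if_pos ((all_iff _ _).1 hc), hc]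
    simp only [cmat, if_true]
    rw [hA, sum_bool, part_add, hg, hg, part_ofReal_mul, part_ofReal_mul]
  · rw [if_neg (fun h => hc ((all_iff _ _).2 h))]
    have hc' : cs.all (dat σ) = false := by simpa using hc
    rw [hc']
    simp only [cmat, Bool.false_eq_true, if_false, one_mmul, rmat_sq]
    rcases hs : dat σ t with _ | _
    · rw [show update (dat σ) t false = dat σ by rw [← hs, update_eq_self]]
      simp [mone]
    · rw [show update (dat σ) t true = dat σ by rw [← hs, update_eq_self]]
      simp [mone]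

theorem anc_update_r {α : ℕ → (Fin N → Bool) → Bool} {β : (Fin N → Bool) → Bool}
    (σ : Fin (N + K + 4) → Bool) (b : Bool) :
    Anc α β (update σ (rw' N K) b) ↔ Anc α β σ := by
  unfold Anc
  rw [dat_update_r, update_of_ne yw_ne_rw]
  refine and_congr_left (fun _ => forall_congr' fun j => forall_congr' fun hj => ?_)
  rw [update_of_ne (zw_ne_rw j)]

/-- the phase on `r` controlled by `y` -/
theorem mact_phase (α : ℕ → (Fin N → Bool) → Bool) (β : (Fin N → Bool) → Bool)
    (φ : ℝ) (Ψ : Bool → QVec N) :
    mact (fun σ => if σ (yw N K) = true then rotm φ else mone) (rw' N K) (ES K α β Ψ) =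
      ES K α β (fun d τ => (if β τ = true then Complex.exp (φ * Complex.I) else 1) * Ψ d τ) := by
  funext σ
  by_cases hA : Anc α β σ
  · rw [ES_of_anc hA]
    simp only [mact]
    rw [ES_of_anc ((anc_update_r σ false).2 hA), ES_of_anc ((anc_update_r σ true).2 hA)]
    simp only [dat_update_r, update_self, update_of_ne rw_ne_dw.symm]
    rw [hA.2]
    by_cases hb : β (dat σ) = true
    · rw [if_pos hb, if_pos hb, part_rot]
    · rw [if_neg hb, if_neg hb, one_mul]
      rcases σ (rw' N K) with _ | _ <;> simp [mone]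
  · rw [ES_of_not hA]
    simp only [mact]
    rw [ES_of_not (fun h => hA ((anc_update_r σ false).1 h)),
      ES_of_not (fun h => hA ((anc_update_r σ true).1 h))]
    ring

theorem run_palin {W : Type} [DecidableEq W] (w : List (EG W)) (h : w.reverse = w)
    (hw : ∀ g ∈ w, g.WF) (Ψ : RVec W) : run w (run w Ψ) = Ψ := by
  have := run_reverse_run w hw Ψ
  rwa [h] at this

/-- the phase primitives -/
theorem run_phase_prim (cs : List (Fin N)) (t : Fin N) (hK : cs.length ≤ K)
    (φ : ℝ) (w : List (EG (Fin (N + K + 4))))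
    (hw : ∀ Ψ, run w Ψ = mact (fun σ => if σ (yw N K) = true then rotm φ else mone) (rw' N K) Ψ)
    (g : Prim)
    (hg : ∀ a b, g.mat a b = if a = b then (if a = true then Complex.exp (φ * Complex.I) else 1) else 0)
    (f : (Fin 0 → Bool) → Bool) (Ψ : Bool → QVec N) :
    run (andW (zw N K cs.length) (qw N K t) (yw N K) ++ w ++
        andW (zw N K cs.length) (qw N K t) (yw N K)) (ES K (αc cs) (fun _ => false) Ψ) =
      ES K (αc cs) (fun _ => false) (fun d => (Gate.ctrl g cs t).apply f (Ψ d)) := by
  rw [run_append, run_append, and_y _ _ _ hK, hw, mact_phase, ← and_y _ _ _ hK]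
  rw [run_palin _ (andW_reverse _ _ _) (andW_WF (zw_ne_yw _) (yw_ne_qw t).symm)]
  congr 1
  funext d τ
  simp only [Gate.apply, αc_full]
  by_cases hc : cs.all τ = true
  · rw [if_pos ((all_iff _ _).1 hc), hc, sum_bool, hg, hg]
    rcases hs : τ t with _ | _
    · rw [show update τ t false = τ by rw [← hs, update_eq_self]]
      simp
    · rw [show update τ t true = τ by rw [← hs, update_eq_self]]
      simp
  · rw [if_neg (fun h => hc ((all_iff _ _).2 h))]
    have hc' : cs.all τ = false := by simpa using hc
    simp [hc']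

theorem run_prim (g : Prim) (cs : List (Fin N)) (t : Fin N) (ht : t ∉ cs) (hK : cs.length ≤ K)
    (f : (Fin 0 → Bool) → Bool) (Ψ : Bool → QVec N) :
    run (primW g (zw N K cs.length) (qw N K t) (yw N K) (rw' N K)) (ES K (αc cs) (fun _ => false) Ψ) =
      ES K (αc cs) (fun _ => false) (fun d => (Gate.ctrl g cs t).apply f (Ψ d)) := by
  rcases g
  · refine run_real_prim cs t ht hK 1 mx rz1 Prim.x (fun a b => ?_) f Ψ
    simp only [Prim.mat, Matrix.of_apply, mx]
    split_ifs <;> simp
  · refine run_real_prim cs t ht hK 0 _ rz0 Prim.h (fun a b => ?_) f Ψ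
    have h2 : ((Real.cos (Real.pi / 4) : ℝ)) = (Real.sqrt 2)⁻¹ := by
      rw [Real.cos_pi_div_four]
      have : Real.sqrt 2 * Real.sqrt 2 = 2 := Real.mul_self_sqrt (by norm_num)
      have h0 : Real.sqrt 2 ≠ 0 := by positivity
      field_simp
      nlinarith
    have h3 : ((Real.sin (Real.pi / 4) : ℝ)) = (Real.sqrt 2)⁻¹ := by
      rw [Real.sin_pi_div_four, ← Real.cos_pi_div_four, h2]
    simp only [Prim.mat, Matrix.of_apply]
    rcases a with _ | _ <;> rcases b with _ | _ <;> simp [rm, h2, h3, -Real.cos_pi_div_four,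
      -Real.sin_pi_div_four]
  · simp only [primW]
    refine run_phase_prim cs t hK (Real.pi / 2) _ (fun Ψ => ?_) Prim.s (fun a b => ?_) f Ψ
    · rw [run_phW _ _ _ yw_ne_rw, ang1]
      refine mact_congr (fun σ => ?_) _ _
      rw [show 2 * (Real.pi / 4) = Real.pi / 2 by ring]
    · simp only [Prim.mat, Matrix.of_apply]
      rw [show (((Real.pi / 2 : ℝ) : ℂ)) * Complex.I = (Real.pi : ℂ) / 2 * Complex.I by push_cast; ring,
        Complex.exp_pi_div_two_mul_I]
  · simp only [primW]
    refine run_phase_prim cs t hK (-(Real.pi / 2)) _ (fun Ψ => ?_) Prim.sdg (fun a b => ?_) f Ψ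
    · rw [run_phW_rev _ _ _ yw_ne_rw, ang1]
      refine mact_congr (fun σ => ?_) _ _
      rw [show 2 * (Real.pi / 4) = Real.pi / 2 by ring]
    · simp only [Prim.mat, Matrix.of_apply]
      rw [show (((-(Real.pi / 2) : ℝ) : ℂ)) * Complex.I = -(Real.pi : ℂ) / 2 * Complex.I by push_cast; ring,
        Complex.exp_neg_pi_div_two_mul_I]
  · simp only [primW]
    refine run_phase_prim cs t hK (Real.pi / 4) _ (fun Ψ => ?_) Prim.t (fun a b => ?_) f Ψ
    · rw [run_phW _ _ _ yw_ne_rw, ang0]
      refine mact_congr (fun σ => ?_) _ _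
      rw [show 2 * (Real.pi / 8) = Real.pi / 4 by ring]
    · simp only [Prim.mat, Matrix.of_apply]
      push_cast
      rfl
  · simp only [primW]
    refine run_phase_prim cs t hK (-(Real.pi / 4)) _ (fun Ψ => ?_) Prim.tdg (fun a b => ?_) f Ψ
    · rw [run_phW_rev _ _ _ yw_ne_rw, ang0]
      refine mact_congr (fun σ => ?_) _ _
      rw [show 2 * (Real.pi / 8) = Real.pi / 4 by ring]
    · simp only [Prim.mat, Matrix.of_apply]
      push_cast
      rfl

/-- the empty pattern -/
noncomputable def E0 (K : ℕ) (Ψ : Bool → QVec N) : RVec (Fin (N + K + 4)) :=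
  ES K (fun _ _ => false) (fun _ => false) Ψ

/-- the word of a gate simulates the gate -/
theorem run_gword (G : Gate N 0) (hG : IsCtrlGate G) (hK : ctrlLen G ≤ K)
    (f : (Fin 0 → Bool) → Bool) (Ψ : Bool → QVec N) :
    run (gword N K G) (E0 K Ψ) = E0 K (fun d => G.apply f (Ψ d)) := by
  rcases G with ⟨g, cs, t⟩ | ⟨q, t⟩
  · have ht : t ∉ cs := hG
    have hK' : cs.length ≤ K := hK
    simp only [gword, gateW, List.length_map]
    rw [run_append, run_append, E0, run_pre _ _ _ hK', run_prim g cs t ht hK' f,
      ← run_pre _ _ _ hK', run_reverse_run _ (pre_WF cs hK')]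
    rfl
  · exact absurd hG (fun h => h)

end layout

end Crest.Agent.R338.RC
private theorem rz_d761ce0351 : type_of% @_root_.Crest.Agent.R338.RC.part.eq_1 := @_root_.Crest.Agent.R338.RC.part.eq_1 -- L14
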