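import Crest.Agent.R338.Iface
import Crest.Agent.R338.GS8
import Crest.Agent.R338.LatC34
import Mathlib
import Crest.Agent.R338.Fm3
import Crest.Agent.R338.P2Defs
import Crest.Agent.R338.RCGate
import Crest.Agent.R338.RCParse
import Crest.Agent.R338.P1Round_Mg
import Crest.Agent.R338.PTab1
import Crest.Agent.R338.Clock
import Crest.Agent.R338.Pauli
import Crest.Agent.R338.RCDefs

-- ▼ part R338/Assembly
section

/-! # Row 338: top level assembly -/

set_option autoImplicit false

open Crest.Quantum.QMA Crest.MathPhysics.CoulombProblem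
open Crest.Agent.Lib.PT

namespace Crest.Agent.R338

/-- assembly of the two parts -/
theorem qmaHard_of (h1 : PartIStmt) (h2 : PartIIStmt) : QMAHard groundEnergyProblem := by
  intro P hP
  obtain ⟨g, hg, hv, hy, hn⟩ := h1 P hP
  obtain ⟨F, hF, hFy, hFn⟩ := h2
  refine ⟨fun x => (F (g ⟨x⟩)).val, ?_, ?_, ?_⟩
  · have h : PTF (fun x : Bits => F (g x)) := PTF.comp hF hg
    have h' : PT (fun x : List Bool => (F (g ⟨x⟩)).val) := by
      apply PTF.toPT
      exact h
    exact h'.polyTime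
  · intro x hx
    exact hFy _ (hv ⟨x⟩) (hy ⟨x⟩ hx)
  · intro x hx
    exact hFn _ (hv ⟨x⟩) (hn ⟨x⟩ hx)

end Crest.Agent.R338
end

-- ▼ part R338/GS9
section

/-!
Row 338, node II.C.3/II.C.4, file 9: `Lat.C34Stmt`.
-/

set_option autoImplicit false
open Real Finset
open scoped BigOperators

namespace Crest.Agent.R338.GS

noncomputable section

/-- comparison of the error terms -/
lemma err_le {C n : ℕ} {s K R L : ℝ} (hC : 64 * CG ≤ C) (hC6 : 6 ≤ C) (hs : 0 < s) (hs1 : s ≤ 1) (hR : 0 ≤ R)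
    (hL0 : 0 ≤ L) (hL : L ≤ 2 * R) (hRn : R ≤ n) :
    CG * (L^4/(s*n)^2 + L^6/s^4 * Real.exp (-(2*K^2))) ≤
      C * (R^4/((n:ℝ)*s)^2 + ((n:ℝ)+1)^C * Real.exp (-K^2) / s^C) := by
  have hCG : (0:ℝ) < CG := by unfold CG; norm_num
  have hC0 : (0:ℝ) ≤ C := by positivity
  have a1 : L^4 ≤ 64 * R^4 := by
    calc L^4 ≤ (2*R)^4 := pow_le_pow_left₀ hL0 hL 4
      _ = 16 * R^4 := by ring
      _ ≤ _ := by nlinarith [pow_nonneg hR 4]
  have a2 : L^6 ≤ 64 * ((n:ℝ)+1)^C := by
    calc L^6 ≤ (2*R)^6 := pow_le_pow_left₀ hL0 hL 6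
      _ = 64 * R^6 := by ring
      _ ≤ 64 * ((n:ℝ)+1)^6 := by
        apply mul_le_mul_of_nonneg_left _ (by norm_num)
        exact pow_le_pow_left₀ hR (by linarith) 6
      _ ≤ 64 * ((n:ℝ)+1)^C := by
        apply mul_le_mul_of_nonneg_left _ (by norm_num)
        exact pow_le_pow_right₀ (by have : (0:ℝ) ≤ n := Nat.cast_nonneg n; linarith) hC6
  have a3 : 1/s^4 ≤ 1/s^C := by
    apply one_div_le_one_div_of_le (by positivity)
    exact pow_le_pow_of_le_one hs.le hs1 (by omega)
  have a4 : Real.exp (-(2*K^2)) ≤ Real.exp (-K^2) := by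
    apply Real.exp_le_exp.mpr; nlinarith [sq_nonneg K]
  have e1 : CG * (L^4/(s*n)^2 + L^6/s^4 * Real.exp (-(2*K^2))) =
      CG * (L^4 * (1/(s*n)^2)) + CG * (L^6 * (1/s^4 * Real.exp (-(2*K^2)))) := by ring
  have e2 : C * (R^4/((n:ℝ)*s)^2 + ((n:ℝ)+1)^C * Real.exp (-K^2) / s^C) =
      C * (R^4 * (1/(s*n)^2)) + C * (((n:ℝ)+1)^C * (1/s^C * Real.exp (-K^2))) := by
    rw [mul_comm (n:ℝ) s]; ring
  rw [e1, e2]
  refine add_le_add ?_ ?_
  · calc CG * (L^4 * (1/(s*n)^2)) ≤ CG * ((64 * R^4) * (1/(s*n)^2)) := by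
          apply mul_le_mul_of_nonneg_left _ hCG.le
          exact mul_le_mul_of_nonneg_right a1 (by positivity)
      _ = (64 * CG) * (R^4 * (1/(s*n)^2)) := by ring
      _ ≤ C * (R^4 * (1/(s*n)^2)) := mul_le_mul_of_nonneg_right hC (by positivity)
  · calc CG * (L^6 * (1/s^4 * Real.exp (-(2*K^2)))) ≤ CG * ((64 * ((n:ℝ)+1)^C) * (1/s^C * Real.exp (-K^2))) := by
          apply mul_le_mul_of_nonneg_left _ hCG.le
          apply mul_le_mul a2 _ (by positivity) (by positivity)
          exact mul_le_mul a3 a4 (Real.exp_pos _).le (by positivity)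
      _ = (64 * CG) * (((n:ℝ)+1)^C * (1/s^C * Real.exp (-K^2))) := by ring
      _ ≤ _ := mul_le_mul_of_nonneg_right hC (by positivity)

theorem c34 : Lat.C34Stmt := by
  obtain ⟨C, hC⟩ : ∃ C : ℕ, 64 * CG ≤ C := exists_nat_ge _
  have hC100 : (100:ℝ) ≤ C := by
    refine le_trans ?_ hC
    unfold CG; norm_num
  have hC100' : 100 ≤ C := by exact_mod_cast hC100
  refine ⟨C, by omega, ?_⟩
  intro n lam s K R hlam _ hs hs1 hsl hCK hKs hCR hCRn
  have hlam' : lam = 3 * s^3/(4*Real.pi) := by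
    rw [hsl]; field_simp
  have hK : 1 ≤ K := by linarith
  have hR : 100 ≤ R := by linarith
  have hRn : 100 * R ≤ n * s := by
    refine le_trans ?_ hCRn
    exact mul_le_mul_of_nonneg_right hC100 (by linarith)
  have hn0 : (0:ℝ) ≤ n := Nat.cast_nonneg n
  have hns : (n:ℝ) * s ≤ n := by nlinarith
  have hRn' : R ≤ n := by linarith
  intro a E
  refine ⟨fun x hx => ?_, fun hE x hx => ?_⟩
  · refine (V0_near hlam' hs hK (by linarith) (by linarith) hx).trans ?_
    exact err_le hC (by omega) hs hs1 (by linarith) (by linarith) le_rfl hRn'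
  · have h := V0_far hlam' hs hK (r := R) (n := n) (by linarith) (by linarith) (by linarith) hx
    have h2 := err_le (C := C) (n := n) (K := K) (R := R) (L := R + s) hC (by omega) hs hs1 (by linarith) (by linarith) (by linarith) hRn'
    have h3 : CG * ((R+s)^4/(s*n)^2 + (R+s)^6/s^4 * Real.exp (-(2*K^2))) ≤ 1 := h2.trans hE
    have h4 : R^2 * (3/10) ≤ R^2/2 - 1 := by nlinarith
    linarith

end

end Crest.Agent.R338.GS
end

-- ▼ part R338/Fm5
section

/-!
# Row 338: `ScaleStmt` of P2Defs (helper271)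
-/

set_option autoImplicit false

open Crest.MathPhysics.ElectronicCoulomb

noncomputable section

namespace Crest.Agent.R338.Fm

theorem scaleStmt : Crest.Agent.R338.P2.ScaleStmt := by
  intro n K nuc lam hl a
  have e1 : (fun α => lam⁻¹ • lam • nuc α) = nuc := by
    funext α
    rw [smul_smul, inv_mul_cancel₀ hl.ne', one_smul]
  have e2 : lam ^ 2 * (a / lam ^ 2) = a := by field_simp
  have e3 : scaledPot (n := n) lam nuc = fun x => lam * unitNucleiPotential nuc x := by
    funext x; exact scaledPot_eq lam nuc x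
  constructor
  · intro h
    rw [infEnergyLE_scaled hl, e1, e2, e3]
    exact h
  · intro h
    rw [infEnergyGE_scaled hl, e1, e2, e3]
    exact h

end Crest.Agent.R338.Fm
end
end

-- ▼ part R338/RCMain
section

/-!
# Row 338, node I.1: acceptance transfer (`YesSpec`, `NoSpec`), isometry, well-formedness of the word
-/

set_option autoImplicit false

namespace Crest.Agent.R338.RC

open Function Crest.Quantum.GateCircuit Crest.Quantum.QMA

/-! ### gates are symmetric isometries -/

section iso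

variable {W : Type} [Fintype W] [DecidableEq W]

theorem rmat_symm (k : Fin 3) (x y : Bool) : rmat k x y = rmat k y x := by
  rcases x with _ | _ <;> rcases y with _ | _ <;> rfl

/-- the involution `(σ, b) ↦ (σ[a := b], σ a)` -/
def swp (a : W) (p : (W → Bool) × Bool) : (W → Bool) × Bool := (update p.1 a p.2, p.1 a)

theorem swp_swp (a : W) : Function.Involutive (swp a) := by
  rintro ⟨σ, b⟩
  simp [swp]

theorem ip_act (g : EG W) (Ψ Φ : RVec W) : ip (g.act Ψ) Φ = ip Ψ (g.act Φ) := by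
  rcases g with ⟨k, a⟩ | ⟨a, b⟩
  · have h1 : ∀ Ψ Φ : RVec W, ip ((EG.rot k a).act Ψ) Φ =
        ∑ p : (W → Bool) × Bool, rmat k (p.1 a) p.2 * Ψ (update p.1 a p.2) * Φ p.1 := by
      intro Ψ Φ
      rw [Fintype.sum_prod_type]
      refine Finset.sum_congr rfl fun σ _ => ?_
      rw [Fintype.sum_bool]
      simp only [EG.act]
      ring
    have h2 : ip Ψ ((EG.rot k a).act Φ) = ip ((EG.rot k a).act Φ) Ψ :=
      Finset.sum_congr rfl fun σ _ => mul_comm _ _
    rw [h2, h1, h1, ← Equiv.sum_comp (swp_swp a).toPerm]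
    refine Finset.sum_congr rfl fun p _ => ?_
    simp only [Function.Involutive.coe_toPerm, swp, update_self, update_idem, update_eq_self]
    rw [rmat_symm]
    ring
  · refine Finset.sum_congr rfl fun σ _ => ?_
    simp only [EG.act]
    split_ifs <;> ring

theorem nsq_eq_ip (Ψ : RVec W) : nsq Ψ = ip Ψ Ψ :=
  Finset.sum_congr rfl fun σ _ => sq _

theorem nsq_act (g : EG W) (hg : g.WF) (Ψ : RVec W) : nsq (g.act Ψ) = nsq Ψ := by
  rw [nsq_eq_ip, ip_act, act_act g hg, ← nsq_eq_ip]

theorem nsq_run (w : List (EG W)) (hw : ∀ g ∈ w, g.WF) (Ψ : RVec W) : nsq (run w Ψ) = nsq Ψ := by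
  induction w generalizing Ψ with
  | nil => rfl
  | cons g w ih =>
    rw [run_cons, ih (fun g' h' => hw g' (List.mem_cons_of_mem _ h')),
      nsq_act g (hw g List.mem_cons_self)]

theorem wt_add_wt (o : W) (Ψ : RVec W) : wt o false Ψ + wt o true Ψ = nsq Ψ := by
  rw [wt, wt, nsq, ← Finset.sum_add_distrib]
  refine Finset.sum_congr rfl fun σ _ => ?_
  rcases σ o with _ | _ <;> simp

end iso

/-! ### the sum over configurations -/

section sums

variable {N K : ℕ}

/-- configuration with data `τ`, re/im bit `r`, dummy bit `d`, no ancilla -/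
def cfg (K : ℕ) (τ : Fin N → Bool) (r d : Bool) : Fin (N + K + 4) → Bool := fun a =>
  if h : (a : ℕ) < N then τ ⟨a, h⟩ else if (a : ℕ) = N then r else if (a : ℕ) = N + 1 then d else false

theorem cfg_q (τ : Fin N → Bool) (r d : Bool) (i : Fin N) : cfg K τ r d (qw N K i) = τ i := by
  simp [cfg, qw]
theorem cfg_r (τ : Fin N → Bool) (r d : Bool) : cfg K τ r d (rw' N K) = r := by
  simp [cfg, rw']
theorem cfg_d (τ : Fin N → Bool) (r d : Bool) : cfg K τ r d (dw N K) = d := by
  simp [cfg, dw]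
theorem dat_cfg (τ : Fin N → Bool) (r d : Bool) : dat (cfg K τ r d) = τ := by
  funext i; exact cfg_q τ r d i
theorem cfg_y (τ : Fin N → Bool) (r d : Bool) : cfg K τ r d (yw N K) = false := by
  simp [cfg, yw]
theorem cfg_z (τ : Fin N → Bool) (r d : Bool) (j : ℕ) : cfg K τ r d (zw N K j) = false := by
  have h1 : ¬ (N + 3 + min j K < N) := by omega
  have h2 : ¬ (N + 3 + min j K = N) := by omega
  have h3 : ¬ (N + 3 + min j K = N + 1) := by omega
  simp only [cfg, zw, h1, h2, h3, dite_false, if_false]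

theorem anc_cfg (τ : Fin N → Bool) (r d : Bool) :
    Anc (K := K) (fun _ _ => false) (fun _ => false) (cfg K τ r d) :=
  ⟨fun j _ => cfg_z τ r d j, cfg_y τ r d⟩

theorem cfg_of_anc {σ : Fin (N + K + 4) → Bool}
    (h : Anc (K := K) (fun _ _ => false) (fun _ => false) σ) :
    cfg K (dat σ) (σ (rw' N K)) (σ (dw N K)) = σ := by
  funext a
  unfold cfg
  split_ifs with h1 h2 h3
  · rfl
  · congr 1; exact Fin.ext h2.symm
  · congr 1; exact Fin.ext h3.symm
  · by_cases h4 : (a : ℕ) = N + 2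
    · have : a = yw N K := Fin.ext h4
      rw [this, h.2]
    · have ha := a.2
      have : a = zw N K ((a : ℕ) - (N + 3)) := by
        apply Fin.ext
        simp only [zw]
        omega
      rw [this, h.1 _ (by omega)]

theorem sum_cfg (F : (Fin (N + K + 4) → Bool) → ℝ)
    (hF : ∀ σ, ¬ Anc (K := K) (fun _ _ => false) (fun _ => false) σ → F σ = 0) :
    ∑ σ, F σ = ∑ d : Bool, ∑ τ : Fin N → Bool, ∑ r : Bool, F (cfg K τ r d) := by
  rw [← Fintype.sum_prod_type', ← Fintype.sum_prod_type']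
  symm
  refine Finset.sum_of_injOn (fun p => cfg K p.1.2 p.2 p.1.1) ?_ ?_ ?_ ?_
  · rintro ⟨⟨d, τ⟩, r⟩ _ ⟨⟨d', τ'⟩, r'⟩ _ h
    simp only at h
    have h1 : τ = τ' := by rw [← dat_cfg (K := K) τ r d, h, dat_cfg]
    have h2 : r = r' := by rw [← cfg_r (K := K) τ r d, h, cfg_r]
    have h3 : d = d' := by rw [← cfg_d (K := K) τ r d, h, cfg_d]
    rw [h1, h2, h3]
  · intro _ _; simp
  · intro σ _ hσ
    refine hF σ (fun hA => hσ ⟨⟨⟨σ (dw N K), dat σ⟩, σ (rw' N K)⟩, by simp, cfg_of_anc hA⟩)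
  · intro _ _; rfl

theorem part_sq (z : ℂ) : part false z ^ 2 + part true z ^ 2 = ‖z‖ ^ 2 := by
  rw [Complex.sq_norm, Complex.normSq_apply]
  simp only [part]; ring

theorem E0_cfg (Φ : Bool → QVec N) (τ : Fin N → Bool) (r d : Bool) :
    E0 K Φ (cfg K τ r d) = part r (Φ d τ) := by
  rw [E0, ES_of_anc (anc_cfg τ r d), cfg_r, cfg_d, dat_cfg]

theorem wt_E0 (Φ : Bool → QVec N) (o : Fin N) (b : Bool) :
    wt (qw N K o) b (E0 K Φ) = ∑ d : Bool, ∑ τ : Fin N → Bool, if τ o = b then ‖Φ d τ‖ ^ 2 else 0 := by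
  rw [wt, sum_cfg (K := K)]
  · refine Finset.sum_congr rfl fun d _ => Finset.sum_congr rfl fun τ _ => ?_
    rw [Fintype.sum_bool, cfg_q, cfg_q, E0_cfg, E0_cfg, ← part_sq]
    split_ifs <;> ring
  · intro σ hσ
    rw [E0, ES_of_not hσ]
    simp

theorem nsq_E0 (Φ : Bool → QVec N) :
    nsq (E0 K Φ) = ∑ d : Bool, ∑ τ : Fin N → Bool, ‖Φ d τ‖ ^ 2 := by
  rw [nsq, sum_cfg (K := K)]
  · refine Finset.sum_congr rfl fun d _ => Finset.sum_congr rfl fun τ _ => ?_
    rw [Fintype.sum_bool, E0_cfg, E0_cfg, ← part_sq]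
    ring
  · intro σ hσ
    rw [E0, ES_of_not hσ]
    simp

end sums

/-! ### running the whole word -/

section whole

theorem rotD_E0 {N K : ℕ} (Ψ : Bool → QVec N) :
    (EG.rot 2 (dw N K)).act (E0 K Ψ) = E0 K (fun d => Ψ (!d)) := by
  funext σ
  rw [rot2_act]
  have key : Anc (fun _ _ => false) (fun _ => false) (update σ (dw N K) (!σ (dw N K))) ↔
      Anc (fun _ _ => false) (fun _ => false) σ := by
    unfold Anc
    rw [update_of_ne yw_ne_dw]
    refine and_congr_left (fun _ => forall_congr' fun j => forall_congr' fun hj => ?_)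
    rw [update_of_ne (zw_ne_dw j)]
  unfold E0
  by_cases hA : Anc (K := K) (fun _ _ => false) (fun _ => false) σ
  · rw [ES_of_anc hA, ES_of_anc (key.2 hA), dat_update_d, update_of_ne rw_ne_dw, update_self]
  · rw [ES_of_not hA, ES_of_not (fun h => hA (key.1 h))]

theorem run_flat {N K : ℕ} (gs : List (Gate N 0)) (h1 : ∀ g ∈ gs, IsCtrlGate g)
    (h2 : ∀ g ∈ gs, ctrlLen g ≤ K) (f : (Fin 0 → Bool) → Bool) (Ψ : Bool → QVec N) :
    run (gs.flatMap (gword N K)) (E0 K Ψ) = E0 K (fun d => runGates f gs (Ψ d)) := by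
  induction gs generalizing Ψ with
  | nil => rfl
  | cons g gs ih =>
    rw [List.flatMap_cons, run_append, run_gword g (h1 g List.mem_cons_self)
      (h2 g List.mem_cons_self) f, ih (fun g' h' => h1 g' (List.mem_cons_of_mem _ h'))
      (fun g' h' => h2 g' (List.mem_cons_of_mem _ h'))]
    rfl

theorem ctrlLen_le (V : VCirc) : ∀ g ∈ V.gates, ctrlLen g ≤ VK V := fun g hg =>
  List.single_le_sum (fun _ _ => Nat.zero_le _) _ (List.mem_map_of_mem hg)

theorem run_word (V : VCirc) (h : V.WellFormed) (f : (Fin 0 → Bool) → Bool)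
    (Ψ : Bool → QVec V.N) :
    run (word V) (E0 (VK V) Ψ) = E0 (VK V) (fun d => runGates f V.gates (Ψ d)) := by
  rw [word, run_cons, rotD_E0, run_append, run_flat V.gates h.2 (ctrlLen_le V) f, run_cons,
    rotD_E0, run_nil]
  simp only [Bool.not_not]

theorem wt_run_word (V : VCirc) (h : V.WellFormed) (ψ : Bool → QVec V.w) :
    wt (outW V) true (run (word V) (E0 (VK V) (fun d => startState V h.1 (ψ d)))) =
      ∑ d : Bool, acceptProb V h.1 (ψ d) := by
  rw [run_word V h (fun _ => false), outW, wt_E0]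
  rfl

/-! ### well-formedness of the compiled word -/

theorem gword_WF {N K : ℕ} (G : Gate N 0) (hK : ctrlLen G ≤ K) : ∀ g ∈ gword N K G, g.WF := by
  rcases G with ⟨g, cs, t⟩ | ⟨q, t⟩
  · have hK' : cs.length ≤ K := hK
    intro e he
    simp only [gword, gateW, List.mem_append, List.mem_reverse] at he
    rcases he with (he | he) | he
    · exact pre_WF cs hK' e he
    · exact primW_WF g _ t e he
    · exact pre_WF cs hK' e he
  · intro e he; simp [gword] at he

theorem word_WF (V : VCirc) : ∀ g ∈ word V, g.WF := by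
  intro g hg
  simp only [word, List.mem_cons, List.mem_append, List.mem_flatMap, List.not_mem_nil, or_false] at hg
  rcases hg with h | ⟨G, hG, h⟩ | h
  · subst h; trivial
  · exact gword_WF G (ctrlLen_le V G hG) g h
  · subst h; trivial

/-! ### start states -/

theorem sum_startState (V : VCirc) (h : V.w ≤ V.N) (ψ : QVec V.w) :
    ∑ σ : Fin V.N → Bool, ‖startState V h ψ σ‖ ^ 2 = ∑ τ : Fin V.w → Bool, ‖ψ τ‖ ^ 2 := by
  symm
  refine Finset.sum_of_injOn (fun τ : Fin V.w → Bool => fun i : Fin V.N =>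
    if h' : (i : ℕ) < V.w then τ ⟨i, h'⟩ else false) ?_ ?_ ?_ ?_
  · intro τ _ τ' _ e
    funext i
    have := congrFun e (Fin.castLE h i)
    simpa using this
  · intro _ _; simp
  · intro σ _ hσ
    rw [startState, if_neg, norm_zero, zero_pow two_ne_zero]
    intro h'
    refine hσ ⟨fun j => σ (Fin.castLE h j), by simp, ?_⟩
    funext i
    by_cases hi : (i : ℕ) < V.w
    · simp only [hi, dite_true]; rfl
    · simp only [hi, dite_false]
      exact (h' i (by omega)).symm
  · intro τ _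
    rw [startState, if_pos]
    · congr 2
      congr 1
      funext j
      simp
    · intro i hi
      simp only [dif_neg (Nat.not_lt.2 hi)]

theorem apply_smul {N : ℕ} (f : (Fin 0 → Bool) → Bool) (g : Gate N 0) (c : ℂ) (ψ : QVec N) :
    g.apply f (fun σ => c * ψ σ) = fun σ => c * g.apply f ψ σ := by
  rcases g with ⟨g, cs, t⟩ | ⟨q, t⟩
  · funext σ
    simp only [Gate.apply]
    split_ifs
    · rw [Finset.mul_sum]
      refine Finset.sum_congr rfl fun b _ => ?_
      ring
    · rfl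
  · rfl

theorem runGates_smul {N : ℕ} (f : (Fin 0 → Bool) → Bool) (gs : List (Gate N 0)) (c : ℂ)
    (ψ : QVec N) : runGates f gs (fun σ => c * ψ σ) = fun σ => c * runGates f gs ψ σ := by
  induction gs generalizing ψ with
  | nil => rfl
  | cons g gs ih =>
    simp only [runGates, List.foldl_cons] at ih ⊢
    rw [apply_smul, ih]

theorem acceptProb_smul (V : VCirc) (h : V.w ≤ V.N) (c : ℂ) (ψ : QVec V.w) :
    acceptProb V h (fun τ => c * ψ τ) = ‖c‖ ^ 2 * acceptProb V h ψ := by
  have h1 : startState V h (fun τ => c * ψ τ) = fun σ => c * startState V h ψ σ := by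
    funext σ
    simp only [startState]
    split_ifs <;> simp
  rw [acceptProb, acceptProb, h1, runGates_smul, Finset.mul_sum]
  refine Finset.sum_congr rfl fun σ _ => ?_
  split_ifs
  · rw [norm_mul, mul_pow]
  · rw [mul_zero]

theorem acceptProb_le (V : VCirc) (h : V.w ≤ V.N)
    (hno : ∀ ψ : QVec V.w, IsWitness ψ → acceptProb V h ψ ≤ 1 / 3) (ψ : QVec V.w) :
    acceptProb V h ψ ≤ 1 / 3 * ∑ τ, ‖ψ τ‖ ^ 2 := by
  set S := ∑ τ, ‖ψ τ‖ ^ 2 with hS
  have hS0 : 0 ≤ S := Finset.sum_nonneg fun _ _ => by positivity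
  rcases hS0.eq_or_lt with h0 | h0
  · have hz : ψ = fun τ => (0 : ℂ) * ψ τ := by
      funext τ
      have := (Finset.sum_eq_zero_iff_of_nonneg (fun τ _ => by positivity)).1 h0.symm τ
        (Finset.mem_univ _)
      rw [zero_mul]
      simpa using this
    rw [hz, acceptProb_smul]
    simp [← h0]
  · set c : ℂ := (((Real.sqrt S)⁻¹ : ℝ) : ℂ) with hc
    have hcn : ‖c‖ ^ 2 = S⁻¹ := by
      rw [hc, Complex.norm_real, Real.norm_eq_abs, sq_abs, inv_pow, Real.sq_sqrt hS0]
    have h1 := hno (fun τ => c * ψ τ) (by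
      unfold IsWitness
      simp only [norm_mul, mul_pow]
      rw [← Finset.mul_sum, hcn, ← hS, inv_mul_cancel₀ h0.ne'])
    rw [acceptProb_smul, hcn] at h1
    rw [inv_mul_le_iff₀ h0] at h1
    linarith

/-- configuration of a witness string -/
theorem valid_eq (V : VCirc) (h : V.w ≤ V.N) (χ : RVec (Fin (VM V))) (hχ : Valid V χ) :
    ∃ ψ : Bool → QVec V.w, χ = E0 (VK V) (fun d => startState V h (ψ d)) := by
  refine ⟨fun d τ => ⟨χ (cfg (VK V) (fun i => if h' : (i : ℕ) < V.w then τ ⟨i, h'⟩ else false) false d),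
    χ (cfg (VK V) (fun i => if h' : (i : ℕ) < V.w then τ ⟨i, h'⟩ else false) true d)⟩, ?_⟩
  funext σ
  by_cases hA : Anc (K := VK V) (fun _ _ => false) (fun _ => false) σ
  · rw [E0, ES_of_anc hA]
    by_cases hs : ∀ i : Fin V.N, V.w ≤ (i : ℕ) → dat σ i = false
    · have h1 : (fun i : Fin V.N => if h' : (i : ℕ) < V.w then dat σ (Fin.castLE h ⟨i, h'⟩) else false) =
          dat σ := by
        funext i
        by_cases hi : (i : ℕ) < V.w
        · simp only [hi, dite_true]; rfl
        · simp only [hi, dite_false]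
          exact (hs i (by omega)).symm
      simp only [startState]
      rw [if_pos hs]
      simp only [h1]
      have h2 := cfg_of_anc hA
      conv_lhs => rw [← h2]
      rcases σ (rw' V.N (VK V)) with _ | _ <;> rfl
    · simp only [startState]
      rw [if_neg hs, part_zero]
      push Not at hs
      obtain ⟨i, hi, hi'⟩ := hs
      refine hχ σ ⟨qw V.N (VK V) i, Or.inl ⟨hi, i.2⟩, ?_⟩
      have h3 : dat σ i = true := by simpa using hi'
      exact h3
  · rw [E0, ES_of_not hA]
    unfold Anc at hA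
    rw [not_and_or] at hA
    rcases hA with hA | hA
    · push Not at hA
      obtain ⟨j, hj, hj'⟩ := hA
      exact hχ σ ⟨zw V.N (VK V) j, Or.inr (by simp [zw]; omega), by simpa using hj'⟩
    · exact hχ σ ⟨yw V.N (VK V), Or.inr (by simp [yw]), by simpa using hA⟩

theorem valid_E0 (V : VCirc) (h : V.w ≤ V.N) (ψ : Bool → QVec V.w) :
    Valid V (E0 (VK V) (fun d => startState V h (ψ d))) := by
  rintro σ ⟨a, ha, ha'⟩
  by_cases hA : Anc (K := VK V) (fun _ _ => false) (fun _ => false) σ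
  · rw [E0, ES_of_anc hA]
    simp only [startState]
    rw [if_neg, part_zero]
    intro hs
    rcases ha with ha | ha
    · have := hs ⟨a, ha.2⟩ ha.1
      have h2 : σ a = false := this
      rw [ha'] at h2
      exact Bool.noConfusion h2
    · have h2 : σ a = false := by
        by_cases h4 : (a : ℕ) = V.N + 2
        · have : a = yw V.N (VK V) := Fin.ext h4
          rw [this, hA.2]
        · have ha2 : (a : ℕ) < V.N + VK V + 4 := a.2
          have : a = zw V.N (VK V) ((a : ℕ) - (V.N + 3)) := by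
            apply Fin.ext
            simp only [zw]
            omega
          rw [this, hA.1 _ (by omega)]
      rw [ha'] at h2
      exact Bool.noConfusion h2
  · rw [E0, ES_of_not hA]

theorem nsq_start (V : VCirc) (h : V.w ≤ V.N) (ψ : Bool → QVec V.w) :
    nsq (E0 (VK V) (fun d => startState V h (ψ d))) = ∑ d, ∑ τ, ‖ψ d τ‖ ^ 2 := by
  rw [nsq_E0]
  exact Finset.sum_congr rfl fun d _ => sum_startState V h (ψ d)

theorem yesSpec : YesSpec := by
  intro V h ⟨ψ, hψ, hacc⟩
  set Ψ : Bool → QVec V.w := fun d τ => (if d = true then (0 : ℂ) else 1) * ψ τ with hΨ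
  have hT : Ψ true = fun τ => (0 : ℂ) * ψ τ := by funext τ; simp [hΨ]
  have hF : Ψ false = fun τ => (1 : ℂ) * ψ τ := by funext τ; simp [hΨ]
  have hn : nsq (E0 (VK V) (fun d => startState V h.1 (Ψ d))) = 1 := by
    rw [nsq_start, Fintype.sum_bool, hT, hF]
    simp only [zero_mul, norm_zero, one_mul]
    rw [show ∑ τ, ‖ψ τ‖ ^ 2 = 1 from hψ]
    simp
  refine ⟨_, hn, valid_E0 V h.1 Ψ, ?_⟩
  have h1 := wt_add_wt (outW V) (run (word V) (E0 (VK V) (fun d => startState V h.1 (Ψ d))))
  rw [nsq_run _ (word_WF V), hn, wt_run_word V h, Fintype.sum_bool, hT, hF, acceptProb_smul,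
    acceptProb_smul] at h1
  simp only [norm_zero, norm_one, one_pow, one_mul, zero_mul, zero_add, ne_eq, OfNat.ofNat_ne_zero,
    not_false_eq_true, zero_pow] at h1
  linarith

theorem noSpec : NoSpec := by
  intro V h hno χ hn hχ
  obtain ⟨ψ, rfl⟩ := valid_eq V h.1 χ hχ
  have h1 := wt_add_wt (outW V) (run (word V) (E0 (VK V) (fun d => startState V h.1 (ψ d))))
  rw [nsq_run _ (word_WF V), hn, wt_run_word V h, Fintype.sum_bool] at h1
  rw [nsq_start, Fintype.sum_bool] at hn
  have h2 := acceptProb_le V h.1 hno (ψ true)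
  have h3 := acceptProb_le V h.1 hno (ψ false)
  linarith

end whole

end Crest.Agent.R338.RC
end

-- ▼ part R338/RCPT
section

/-!
# Row 338, node I.5a: the compiled word is poly-time (`PTSpec`)
-/

set_option autoImplicit false

namespace Crest.Agent.R338.RC

open Function Crest.Quantum.GateCircuit Crest.Quantum.QMA Crest.Agent.Lib.PT RCP

/-! ### the words on natural numbers -/

/-- numerical AND -/
def andN (a b c : ℕ) : List (ℕ × ℕ × ℕ) :=
  [(0, c, c), (3, b, c), (0, c, c), (3, a, c), (0, c, c), (3, b, c), (0, c, c)]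

/-- ancilla wire -/
def zN (N K j : ℕ) : ℕ := N + 3 + min j K

/-- chain of ANDs -/
def chainN (N K : ℕ) (cs : List ℕ) : List (ℕ × ℕ × ℕ) :=
  ((List.range cs.length).zip cs).flatMap fun p => andN (zN N K p.1) p.2 (zN N K (p.1 + 1))

/-- phase word -/
def phN (k y r : ℕ) : List (ℕ × ℕ × ℕ) := [(3, y, r), (k, r, r), (3, y, r), (k, r, r)]

/-- reversed phase word -/
def phN' (k y r : ℕ) : List (ℕ × ℕ × ℕ) := [(k, r, r), (3, y, r), (k, r, r), (3, y, r)]

/-- primitive -/
def primN (g c t y r : ℕ) : List (ℕ × ℕ × ℕ) :=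
  if g = 0 then [(1, t, t), (3, c, t), (1, t, t)] else
  if g = 1 then [(0, t, t), (3, c, t), (0, t, t)] else
  if g = 2 then andN c t y ++ phN 1 y r ++ andN c t y else
  if g = 3 then andN c t y ++ phN' 1 y r ++ andN c t y else
  if g = 4 then andN c t y ++ phN 0 y r ++ andN c t y else
  andN c t y ++ phN' 0 y r ++ andN c t y

/-- control computation -/
def preN (N K : ℕ) (cs : List ℕ) : List (ℕ × ℕ × ℕ) := (2, zN N K 0, zN N K 0) :: chainN N K cs

/-- word of a gate -/
def gwordN (N K : ℕ) (g : GD) : List (ℕ × ℕ × ℕ) :=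
  preN N K g.2.1 ++ primN g.1 (zN N K g.2.1.length) g.2.2 (N + 2) N ++ (preN N K g.2.1).reverse

/-- word of a gate list -/
def wordNN (N K : ℕ) (gs : List GD) : List (ℕ × ℕ × ℕ) :=
  (2, N + 1, N + 1) :: (gs.flatMap (gwordN N K) ++ [(2, N + 1, N + 1)])

/-- numerical form of a gate on `Fin M` -/
def nm {M : ℕ} (g : EG (Fin M)) : ℕ × ℕ × ℕ := (g.map fun a : Fin M => (a : ℕ)).num

theorem nm_cz {M : ℕ} (a b : Fin M) : nm (EG.cz a b) = (3, (a : ℕ), (b : ℕ)) := rfl

theorem map_andW {M : ℕ} (a b c : Fin M) : (andW a b c).map nm = andN a b c := rfl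


theorem map_chainW (N K : ℕ) (cs : List (Fin N)) (j : ℕ) :
    (chainW (zw N K) j (cs.map (qw N K))).map nm =
      ((List.range' j cs.length).zip (cs.map (fun c : Fin N => (c : ℕ)))).flatMap
        fun p => andN (zN N K p.1) p.2 (zN N K (p.1 + 1)) := by
  induction cs generalizing j with
  | nil => rfl
  | cons c cs ih =>
    simp only [List.map_cons, chainW, List.map_append, List.length_cons, List.range'_succ,
      List.zip_cons_cons, List.flatMap_cons, map_andW]
    rw [ih]
    rfl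

theorem map_preW (N K : ℕ) (cs : List (Fin N)) :
    (preW (zw N K) (cs.map (qw N K))).map nm = preN N K (cs.map (fun c : Fin N => (c : ℕ))) := by
  simp only [preW, List.map_cons, map_chainW, preN, chainN, List.length_map, List.range_eq_range']
  rfl

theorem map_primW (N K : ℕ) (g : Prim) (j : ℕ) (t : Fin N) :
    (primW g (zw N K j) (qw N K t) (yw N K) (rw' N K)).map nm =
      primN (primIdx g) (zN N K j) t (N + 2) N := by
  cases g <;> rfl

theorem map_gword (N K : ℕ) (G : Gate N 0) (hG : IsCtrlGate G) :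
    (gword N K G).map nm = gwordN N K (gdat G) := by
  rcases G with ⟨g, cs, t⟩ | ⟨q, t⟩
  · simp only [gword, gateW, List.map_append, List.map_reverse, map_preW, map_primW, gwordN, gdat,
      List.length_map]
  · exact absurd hG (fun h => h)

theorem wordN_eq (V : VCirc) (hV : ∀ g ∈ V.gates, IsCtrlGate g) :
    wordN V = wordNN V.N (VK V) (V.gates.map gdat) := by
  have h : ∀ gs : List (Gate V.N 0), (∀ g ∈ gs, IsCtrlGate g) →
      (gs.flatMap (gword V.N (VK V))).map nm = (gs.map gdat).flatMap (gwordN V.N (VK V)) := by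
    intro gs
    induction gs with
    | nil => intro _; rfl
    | cons g gs ih =>
      intro h
      simp only [List.flatMap_cons, List.map_append, List.map_cons]
      rw [map_gword _ _ g (h g (by simp)), ih (fun g' h' => h g' (by simp [h']))]
  show (word V).map nm = _
  simp only [word, List.map_cons, List.map_append, List.map_nil, wordNN]
  rw [h V.gates hV]
  rfl

theorem VK_eq (V : VCirc) : VK V = ((V.gates.map gdat).flatMap fun g => g.2.1).length := by
  unfold VK
  generalize V.gates = gs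
  induction gs with
  | nil => rfl
  | cons g gs ih =>
    simp only [List.map_cons, List.sum_cons, ih, List.flatMap_cons, List.length_append]
    congr 1
    rcases g with ⟨g, cs, t⟩ | ⟨q, t⟩
    · simp [ctrlLen, gdat]
    · simp [ctrlLen, gdat]

/-! ### poly-time -/

section ptf

variable {γ : Type} [PTCode γ]

theorem ptf_zN {N K j : γ → ℕ} (hN : PTF N) (hK : PTF K) (hj : PTF j) :
    PTF (fun c => zN (N c) (K c) (j c)) := by
  unfold zN; fun_prop

theorem ptf_andN {a b c : γ → ℕ} (ha : PTF a) (hb : PTF b) (hc : PTF c) :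
    PTF (fun x => andN (a x) (b x) (c x)) := by
  unfold andN; fun_prop

theorem ptf_phN (k : ℕ) {y r : γ → ℕ} (hy : PTF y) (hr : PTF r) :
    PTF (fun x => phN k (y x) (r x)) := by
  unfold phN; fun_prop

theorem ptf_phN' (k : ℕ) {y r : γ → ℕ} (hy : PTF y) (hr : PTF r) :
    PTF (fun x => phN' k (y x) (r x)) := by
  unfold phN'; fun_prop

theorem ptf_primN {g c t y r : γ → ℕ} (hg : PTF g) (hc : PTF c) (ht : PTF t) (hy : PTF y)
    (hr : PTF r) : PTF (fun x => primN (g x) (c x) (t x) (y x) (r x)) := by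
  have h1 := ptf_andN hc ht hy
  have hp := fun k => ptf_phN k hy hr
  have hp' := fun k => ptf_phN' k hy hr
  have e : ∀ n : ℕ, PTPred (fun x => g x = n) := fun n => PTPred.natEq hg (PTF.const n)
  unfold primN
  refine PTF.ite (e 0) (by fun_prop) (PTF.ite (e 1) (by fun_prop) (PTF.ite (e 2) ?_ (PTF.ite (e 3) ?_
    (PTF.ite (e 4) ?_ ?_))))
  · exact PTF.append (PTF.append h1 (hp 1)) h1
  · exact PTF.append (PTF.append h1 (hp' 1)) h1
  · exact PTF.append (PTF.append h1 (hp 0)) h1
  · exact PTF.append (PTF.append h1 (hp' 0)) h1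

theorem ptf_chainN {N K : γ → ℕ} {cs : γ → List ℕ} (hN : PTF N) (hK : PTF K) (hcs : PTF cs) :
    PTF (fun c => chainN (N c) (K c) (cs c)) := by
  unfold chainN
  refine PTF.flatMap (f := fun c (p : ℕ × ℕ) => andN (zN (N c) (K c) p.1) p.2 (zN (N c) (K c) (p.1 + 1)))
    (PTF.zip (PTF.range (PTU.length hcs)) hcs) ?_
  have h1 : PTF (fun q : γ × ℕ × ℕ => N q.1) := PTF.comp hN PTF.fst
  have h2 : PTF (fun q : γ × ℕ × ℕ => K q.1) := PTF.comp hK PTF.fst
  exact ptf_andN (ptf_zN h1 h2 (by fun_prop)) (by fun_prop) (ptf_zN h1 h2 (by fun_prop))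

theorem ptf_preN {N K : γ → ℕ} {cs : γ → List ℕ} (hN : PTF N) (hK : PTF K) (hcs : PTF cs) :
    PTF (fun c => preN (N c) (K c) (cs c)) := by
  have h1 := ptf_chainN hN hK hcs
  have h2 := ptf_zN hN hK (PTF.const 0)
  unfold preN
  fun_prop

theorem ptf_gwordN {N K : γ → ℕ} {g : γ → GD} (hN : PTF N) (hK : PTF K) (hg : PTF g) :
    PTF (fun c => gwordN (N c) (K c) (g c)) := by
  have h1 : PTF (fun c => (g c).2.1) := by fun_prop
  have h2 := ptf_preN hN hK h1
  have h3 : PTF (fun c => (g c).2.1.length) := (PTU.length h1).toPTF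
  have h4 : PTF (fun c => primN (g c).1 (zN (N c) (K c) (g c).2.1.length) (g c).2.2 (N c + 2) (N c)) :=
    ptf_primN (by fun_prop) (ptf_zN hN hK h3) (by fun_prop) (by fun_prop) hN
  unfold gwordN
  exact PTF.append (PTF.append h2 h4) (PTF.reverse h2)

theorem ptf_wordNN {N K : γ → ℕ} {gs : γ → List GD} (hN : PTF N) (hK : PTF K) (hg : PTF gs) :
    PTF (fun c => wordNN (N c) (K c) (gs c)) := by
  have h1 : PTF (fun c => (gs c).flatMap (gwordN (N c) (K c))) :=
    PTF.flatMap (f := fun c g => gwordN (N c) (K c) g) hg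
      (ptf_gwordN (PTF.comp hN PTF.fst) (PTF.comp hK PTF.fst) PTF.snd)
  unfold wordNN
  fun_prop

theorem ptf_conNat {N w K : γ → ℕ} (hN : PTU N) (hw : PTF w) (hK : PTU K) :
    PTF (fun c => conNat (N c) (w c) (K c)) := by
  unfold conNat
  refine PTF.filter (l := fun c => List.range (N c + K c + 4))
    (p := fun c a => decide ((w c ≤ a ∧ a < N c) ∨ N c + 2 ≤ a))
    (PTF.range (by fun_prop)) ?_
  have h1 : PTF (fun q : γ × ℕ => N q.1) := PTF.comp hN.toPTF PTF.fst
  have h2 : PTF (fun q : γ × ℕ => w q.1) := PTF.comp hw PTF.fst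
  have : PTPred (fun q : γ × ℕ => (w q.1 ≤ q.2 ∧ q.2 < N q.1) ∨ N q.1 + 2 ≤ q.2) := by
    refine PTPred.or (PTPred.and (PTPred.natLe h2 PTF.snd) (PTPred.natLt PTF.snd h1))
      (PTPred.natLe (PTF.natAdd h1 (PTF.const 2)) PTF.snd)
  exact this.toPTF

end ptf

theorem ptSpec' (V : List Bool → VCirc) (hV : ∀ x, (V x).WellFormed)
    (gen : List Bool → List Bool) (hgen : Crest.Complexity.PolyTime gen)
    (h : ∀ x, gen x = vcode (V x))
    (hp : ∃ p : Polynomial ℕ, ∀ x, (V x).N + (V x).gates.length ≤ p.eval x.length) :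
    PTF (fun x : Bits => (Un.mk (VM (V x.val)), wordN (V x.val), conN (V x.val),
      ((outW (V x.val) : ℕ), (dumW (V x.val) : ℕ)))) := by
  have hd : PTF (fun x : Bits => vdat (V x.val)) := ptf_vdat V (fun x => (hV x).2) gen hgen h
  have hN : PTF (fun x : Bits => (V x.val).N) := PTF.comp (g := fun d : VD => d.1) (by fun_prop) hd
  have hw : PTF (fun x : Bits => (V x.val).w) := PTF.comp (g := fun d : VD => d.2.1) (by fun_prop) hd
  have hgs : PTF (fun x : Bits => (V x.val).gates.map gdat) :=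
    PTF.comp (g := fun d : VD => d.2.2.1) (by fun_prop) hd
  have ho : PTF (fun x : Bits => ((V x.val).out : ℕ)) :=
    PTF.comp (g := fun d : VD => d.2.2.2) (by fun_prop) hd
  have hNU : PTU (fun x : Bits => (V x.val).N) := by
    refine PTF.toPTU hN ?_
    obtain ⟨p, hp⟩ := hp
    refine ⟨p, fun x => ?_⟩
    have := hp x.val
    have h2 : sz x = x.val.length := rfl
    rw [h2]
    show (V x.val).N ≤ _
    omega
  have hKU : PTU (fun x : Bits => VK (V x.val)) := by
    refine PTU.of_eq (PTU.length (PTF.flatMap (f := fun (_ : Bits) (g : GD) => g.2.1) hgs ?_))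
      (fun x => (VK_eq _).symm)
    pt_prop
  have h1 : PTF (fun x : Bits => Un.mk (VM (V x.val))) := by
    have : PTU (fun x : Bits => (V x.val).N + VK (V x.val) + 4) := by fun_prop
    exact this
  have h2 : PTF (fun x : Bits => wordN (V x.val)) :=
    PTF.of_eq (ptf_wordNN hN hKU.toPTF hgs) (fun x => (wordN_eq _ (hV x.val).2).symm)
  have h3 : PTF (fun x : Bits => conN (V x.val)) := ptf_conNat hNU hw hKU
  have h4 : PTF (fun x : Bits => (dumW (V x.val) : ℕ)) := by
    have : PTF (fun x : Bits => (V x.val).N + 1) := by fun_prop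
    exact this
  exact PTF.prodMk h1 (PTF.prodMk h2 (PTF.prodMk h3 (PTF.prodMk ho h4)))

theorem ptSpec : PTSpec := ptSpec'

/-! ### shape of the word -/

theorem andW_avoids {W : Type} {a b c d : W} (ha : a ≠ d) (hb : b ≠ d) (hc : c ≠ d) :
    ∀ g ∈ andW a b c, g.Avoids d := by
  intro g hg
  simp only [andW, List.mem_cons, List.not_mem_nil, or_false] at hg
  rcases hg with h | h | h | h | h | h | h <;> subst h <;> simp [EG.Avoids, ha, hb, hc]

theorem chain_avoids {N K : ℕ} (cs : List (Fin N)) (j : ℕ) :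
    ∀ g ∈ chainW (zw N K) j (cs.map (qw N K)), g.Avoids (dw N K) := by
  induction cs generalizing j with
  | nil => intro g hg; simp [chainW] at hg
  | cons c cs ih =>
    intro g hg
    simp only [List.map_cons, chainW, List.mem_append] at hg
    rcases hg with hg | hg
    · exact andW_avoids (zw_ne_dw _) (dw_ne_qw _).symm (zw_ne_dw _) g hg
    · exact ih (j + 1) g hg

theorem pre_avoids {N K : ℕ} (cs : List (Fin N)) :
    ∀ g ∈ preW (zw N K) (cs.map (qw N K)), g.Avoids (dw N K) := by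
  intro g hg
  simp only [preW, List.mem_cons] at hg
  rcases hg with hg | hg
  · subst hg; exact zw_ne_dw _
  · exact chain_avoids cs 0 g hg

theorem phW_avoids {W : Type} (k : Fin 3) {y r d : W} (hy : y ≠ d) (hr : r ≠ d) :
    ∀ g ∈ phW k y r, g.Avoids d := by
  intro g hg
  simp only [phW, List.mem_cons, List.not_mem_nil, or_false] at hg
  rcases hg with h' | h' | h' | h' <;> subst h' <;> simp [EG.Avoids, hy, hr]

theorem primW_avoids {N K : ℕ} (g : Prim) (j : ℕ) (t : Fin N) :
    ∀ e ∈ primW g (zw N K j) (qw N K t) (yw N K) (rw' N K), e.Avoids (dw N K) := by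
  intro e he
  have hq : qw N K t ≠ dw N K := (dw_ne_qw t).symm
  have hz : zw N K j ≠ dw N K := zw_ne_dw j
  have hA := andW_avoids (W := Fin (N + K + 4)) hz hq (yw_ne_dw (N := N) (K := K))
  have hP := fun k => phW_avoids (W := Fin (N + K + 4)) k (yw_ne_dw (N := N) (K := K))
    (rw_ne_dw (N := N) (K := K))
  rcases g <;> simp only [primW, List.mem_append, List.mem_cons, List.not_mem_nil, or_false,
    List.mem_reverse] at he
  · rcases he with h | h | h <;> subst h <;> simp [EG.Avoids, hq, hz]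
  · rcases he with h | h | h <;> subst h <;> simp [EG.Avoids, hq, hz]
  all_goals
    rcases he with (h | h) | h
    · exact hA _ h
    · exact hP _ _ h
    · exact hA _ h

theorem gword_avoids {N K : ℕ} (G : Gate N 0) : ∀ g ∈ gword N K G, g.Avoids (dw N K) := by
  rcases G with ⟨g, cs, t⟩ | ⟨q, t⟩
  · intro e he
    simp only [gword, gateW, List.mem_append, List.mem_reverse] at he
    rcases he with (he | he) | he
    · exact pre_avoids cs e he
    · exact primW_avoids g _ t e he
    · exact pre_avoids cs e he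
  · intro e he; simp [gword] at he

/-- the word starts and ends with the flip of the dummy wire and avoids it in between -/
theorem word_shape (V : VCirc) : ∃ inner : List (EG (Fin (VM V))),
    word V = EG.rot 2 (dumW V) :: (inner ++ [EG.rot 2 (dumW V)]) ∧
    ∀ g ∈ inner, g.Avoids (dumW V) := by
  refine ⟨V.gates.flatMap (gword V.N (VK V)), rfl, ?_⟩
  intro g hg
  obtain ⟨G, _, h⟩ := List.mem_flatMap.1 hg
  exact gword_avoids G g h

theorem two_le_length_word (V : VCirc) : 2 ≤ (word V).length := by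
  obtain ⟨inner, h, _⟩ := word_shape V
  rw [h]
  simp

theorem dumW_ne_outW (V : VCirc) : dumW V ≠ outW V := dw_ne_qw _

theorem not_isCon_dumW (V : VCirc) : ¬ IsCon V (dumW V) := by
  unfold IsCon dumW dw
  simp

/-- the numerical list of constrained wires is the set of constrained wires -/
theorem mem_conN (V : VCirc) (a : ℕ) :
    a ∈ conN V ↔ ∃ h : a < VM V, IsCon V ⟨a, h⟩ := by
  simp only [conN, conNat, List.mem_filter, List.mem_range, decide_eq_true_eq, IsCon]
  constructor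
  · rintro ⟨h1, h2⟩; exact ⟨h1, h2⟩
  · rintro ⟨h1, h2⟩; exact ⟨h1, h2⟩

theorem nodup_conN (V : VCirc) : (conN V).Nodup := (List.nodup_range).filter _

end Crest.Agent.R338.RC
end

-- ▼ part R338/P1PTc
section

/-!
# Row 338: numerical data of a verifier (poly-time), bounds of the arrays, and the composition
`QMA → XInst` from the analytic part (helper18)
-/

set_option autoImplicit false

noncomputable section

open Crest.Agent.Lib.PT

namespace Crest.Agent.R338.P1

open Crest.Agent.R338 PTab Nu RC Crest.Quantum.QMA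

variable {α β γ : Type} [PTCode α] [PTCode β] [PTCode γ]

/-- numerical data from lists -/
def ndL (M : ℕ) (w : List (ℕ × ℕ × ℕ)) (cn : List ℕ) (out : ℕ) : ND where
  M := M
  T := w.length
  kd t := (w.getD t (0, 0, 0)).1
  ga t := (w.getD t (0, 0, 0)).2.1
  gb t := (w.getD t (0, 0, 0)).2.2
  con a := decide (a ∈ cn)
  nc := cn.length
  out := out

theorem getD_min {δ : Type} (l : List δ) (t : ℕ) (d : δ) :
    l.getD (Min.min t l.length) d = l.getD t d := by
  rcases le_total t l.length with h | h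
  · rw [min_eq_left h]
  · rw [min_eq_right h, List.getD_eq_default _ _ le_rfl, List.getD_eq_default _ _ h]

theorem ndp_ndL {M : γ → ℕ} {w : γ → List (ℕ × ℕ × ℕ)} {cn : γ → List ℕ} {out : γ → ℕ}
    (hM : PTF M) (hw : PTF w) (hc : PTF cn) (ho : PTF out) :
    NDP (fun c => ndL (M c) (w c) (cn c) (out c)) := by
  have hlen : PTU (fun c => (w c).length) := by
    have : PTU (fun c => (w c).length) := by fun_prop
    exact this
  have hg : PTF (fun p : γ × ℕ => (w p.1).getD p.2 (0, 0, 0)) := by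
    have h1 : PTU (fun p : γ × ℕ => Min.min p.2 (w p.1).length) :=
      PTF.natMinUn PTF.snd (PTU.comp (n := fun c => (w c).length) hlen PTF.fst)
    exact (PTF.getD (d := fun _ => (0, 0, 0)) h1 (PTF.comp hw PTF.fst) (PTF.const _)).of_eq
      fun p => getD_min _ _ _
  refine ⟨hM, hlen, ?_, ?_, ?_, ?_, ?_, ho⟩
  · exact PTF.comp (g := fun x : ℕ × ℕ × ℕ => x.1) PTF.fst hg
  · exact PTF.comp (g := fun x : ℕ × ℕ × ℕ => x.2.1) (by fun_prop) hg
  · exact PTF.comp (g := fun x : ℕ × ℕ × ℕ => x.2.2) (by fun_prop) hg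
  · exact (PTPred.mem PTF.snd (PTF.comp hc PTF.fst)).toPTF
  · have : PTU (fun c => (cn c).length) := by fun_prop
    exact this.toPTF

/-! ### bounds -/

/-- common bound of all entries -/
def bd (nc T Jin Jp Jk δ : ℕ) : ℕ :=
  1 + Jin * (1 + nc) + Jp * (1 + δ ^ 2) + Jk + δ ^ 3 + δ ^ 2 + 2 * δ * T

section
variable (N : ND) (Jin Jp Jk δ : ℕ)












end


end Crest.Agent.R338.P1

end
end

-- ▼ part R338/PTab2
section

/-!
# Row 338: the pair table, expansion of `H_2` (helper896)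
-/

set_option autoImplicit false
set_option linter.unusedSectionVars false
set_option linter.unusedSimpArgs false

namespace Crest.Agent.R338.PTab

open Crest.Agent.R338 RC

section basic
variable {ι : Type} [DecidableEq ι]

theorem proj1 (i j : ι) : (1 - Nb i) * Nb j = (1 / 4 : ℝ) • (1 + Z i - Z j - Z i * Z j : Op ι) := by
  rw [Nb_eq, Nb_eq]
  simp only [sub_mul, mul_sub, smul_sub, one_mul, mul_one, smul_mul_assoc, mul_smul_comm]
  module

theorem proj2 (i j : ι) : Nb i * (1 - Nb j) = (1 / 4 : ℝ) • (1 - Z i + Z j - Z i * Z j : Op ι) := by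
  rw [Nb_eq, Nb_eq]
  simp only [sub_mul, mul_sub, smul_sub, one_mul, mul_one, smul_mul_assoc, mul_smul_comm]
  module


variable {W : Type}

/-- one- and two-local part of the propagation term of time `t`, without the `X`-field -/
noncomputable def gt (w : W → ι) (x : Op ι) (Jp : ℝ) : EG W → Op ι
  | EG.rot k a => (-(Jp / 2)) • ((Real.cos (ang k) • Z (w a) + Real.sin (ang k) • X (w a)) * x)
  | EG.cz a b => (-(Jp / 4)) • ((Z (w a) + Z (w b)) * x)

theorem gt_eq (w : W → ι) (x : Op ι) (Jp : ℝ) (g : EG W) :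
    (-(Jp / 2)) • (gop w g * x) - (Jp / 4) • (zzop w g * x) =
      gt w x Jp g - (if isCZ g then (Jp / 4) • x else 0) := by
  cases g with
  | rot k a => simp [gop, zzop, gt, isCZ]
  | cz a b =>
    simp only [gop, zzop, gt, isCZ, if_true, smul_mul_assoc, sub_mul, add_mul, one_mul]
    module

end basic

variable (d : CD) {ι : Type} [DecidableEq ι] (w : Fin d.M → ι) (c m : Fin d.T → ι)

/-- number of constrained wires, as a real number -/
noncomputable def ncR (d : CD) : ℝ := ∑ a : Fin d.M, if d.con a then (1 : ℝ) else 0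

theorem ncR_eq (d : CD) : ncR d = d.nd.nc := by
  unfold ncR CD.nd
  simp

/-- number of `CZ` gates -/
noncomputable def nczR (d : CD) : ℝ := ∑ t : Fin d.T, if isCZ (d.g t) then (1 : ℝ) else 0

/-- expansion of `H_2` -/
theorem H2_expand (Jin Jp Jk δ : ℝ) (first last : Fin d.T) (hf : (first : ℕ) = 0)
    (hl : (last : ℕ) + 1 = d.T) :
    d.H2 w c m Jin Jp Jk δ =
      (1 / 4 + Jin / 4 * ncR d + Jp / 2 + Jk / 4 * (d.T - 1) + d.T * (δ ^ 3 / 2)
        + 2 * δ * nczR d) • (1 : Op ι)
      + (1 / 4 : ℝ) • Z (w d.out) - (Jin / 4) • (∑ a : Fin d.M, if d.con a then Z (w a) else 0)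
      + (Jin / 4 * ncR d - Jp / 4) • Z (c first) + (Jp / 4 - 1 / 4) • Z (c last)
      + (Jk / 4) • (∑ t : Fin d.T, if (t : ℕ) + 1 < d.T then Z (c t) else 0)
      - (Jk / 4) • (∑ t : Fin d.T, if 0 < (t : ℕ) then Z (c t) else 0)
      - (Jp * δ ^ 2 / 16) • (∑ t : Fin d.T, if isCZ (d.g t) then X (c t) else 0)
      - (δ ^ 3 / 2) • (∑ t : Fin d.T, Z (m t))
      - (1 / 4 : ℝ) • (Z (w d.out) * Z (c last))
      - (Jin / 4) • (∑ a : Fin d.M, if d.con a then Z (w a) * Z (c first) else 0)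
      - (Jk / 4) • (∑ t : Fin d.T, ∑ t' : Fin d.T,
          if (t' : ℕ) = (t : ℕ) + 1 then Z (c t) * Z (c t') else 0)
      + ∑ t : Fin d.T, gt w (X (c t)) Jp (d.g t)
      + (δ ^ 2) • (∑ t : Fin d.T, dop w (d.g t) * X (m t))
      + (Jp * δ ^ 2 / 16) • (∑ t : Fin d.T, if isCZ (d.g t) then Z (m t) * X (c t) else 0)
      - (2 * δ) • (∑ t : Fin d.T, zzop w (d.g t)) := by
  have e1 : ∀ t : Fin d.T, ((t : ℕ) + 1 = d.T ↔ t = last) := fun t =>
    ⟨fun h => Fin.ext (by omega), fun h => by rw [h]; exact hl⟩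
  have e2 : ∀ t : Fin d.T, ((t : ℕ) = 0 ↔ t = first) := fun t =>
    ⟨fun h => Fin.ext (by omega), fun h => by rw [h]; exact hf⟩
  have hT : 1 ≤ d.T := by omega
  -- clock term
  have k1 : (∑ t : Fin d.T, ∑ t' : Fin d.T,
        (if (t' : ℕ) = (t : ℕ) + 1 then (1 - Nb (c t)) * Nb (c t') else 0) : Op ι) =
      (1 / 4 : ℝ) • (((d.T : ℝ) - 1) • (1 : Op ι)
        + (∑ t : Fin d.T, if (t : ℕ) + 1 < d.T then Z (c t) else 0)
        - (∑ t : Fin d.T, if 0 < (t : ℕ) then Z (c t) else 0)
        - (∑ t : Fin d.T, ∑ t' : Fin d.T,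
          if (t' : ℕ) = (t : ℕ) + 1 then Z (c t) * Z (c t') else 0)) := by
    have s1 : ∀ (f : Fin d.T → Op ι), (∑ t : Fin d.T, ∑ t' : Fin d.T,
        (if (t' : ℕ) = (t : ℕ) + 1 then f t else 0)) =
        ∑ t : Fin d.T, if (t : ℕ) + 1 < d.T then f t else 0 := by
      intro f
      refine Finset.sum_congr rfl fun t _ => ?_
      by_cases h : (t : ℕ) + 1 < d.T
      · rw [if_pos h, Finset.sum_eq_single ⟨(t : ℕ) + 1, h⟩]
        · simp
        · intro b _ hb
          rw [if_neg]
          intro hb'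
          exact hb (Fin.ext hb')
        · intro h'; exact absurd (Finset.mem_univ _) h'
      · rw [if_neg h]
        refine Finset.sum_eq_zero fun t' _ => ?_
        rw [if_neg]
        have := t'.2
        omega
    have s2 : ∀ (f : Fin d.T → Op ι), (∑ t : Fin d.T, ∑ t' : Fin d.T,
        (if (t' : ℕ) = (t : ℕ) + 1 then f t' else 0)) =
        ∑ t : Fin d.T, if 0 < (t : ℕ) then f t else 0 := by
      intro f
      rw [Finset.sum_comm]
      refine Finset.sum_congr rfl fun t' _ => ?_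
      by_cases h : 0 < (t' : ℕ)
      · rw [if_pos h, Finset.sum_eq_single ⟨(t' : ℕ) - 1, by have := t'.2; omega⟩]
        · rw [if_pos]; simp; omega
        · intro b _ hb
          rw [if_neg]
          intro hb'
          apply hb
          apply Fin.ext
          simp
          omega
        · intro h'; exact absurd (Finset.mem_univ _) h'
      · rw [if_neg h]
        refine Finset.sum_eq_zero fun t _ => ?_
        rw [if_neg]
        omega
    have s3 : (∑ t : Fin d.T, if (t : ℕ) + 1 < d.T then (1 : Op ι) else 0) =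
        ((d.T : ℝ) - 1) • (1 : Op ι) := by
      have : ∀ t : Fin d.T, (if (t : ℕ) + 1 < d.T then (1 : Op ι) else 0) =
          (1 : Op ι) - (if t = last then (1 : Op ι) else 0) := by
        intro t
        by_cases h : t = last
        · rw [if_pos h, if_neg, sub_self]; rw [h]; omega
        · rw [if_neg h, if_pos, sub_zero]
          have h1 := t.2
          have h2 : ¬ ((t : ℕ) + 1 = d.T) := fun h' => h ((e1 t).1 h')
          omega
      rw [Finset.sum_congr rfl fun t _ => this t, Finset.sum_sub_distrib, Finset.sum_ite_eq',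
        if_pos (Finset.mem_univ _), Finset.sum_const, Finset.card_univ, Fintype.card_fin]
      rw [← Nat.cast_smul_eq_nsmul ℝ]
      module
    have s4 : ∀ t t' : Fin d.T,
        (if (t' : ℕ) = (t : ℕ) + 1 then (1 - Nb (c t)) * Nb (c t') else 0 : Op ι) =
        (1 / 4 : ℝ) • ((if (t' : ℕ) = (t : ℕ) + 1 then (1 : Op ι) else 0)
          + (if (t' : ℕ) = (t : ℕ) + 1 then Z (c t) else 0)
          - (if (t' : ℕ) = (t : ℕ) + 1 then Z (c t') else 0)
          - (if (t' : ℕ) = (t : ℕ) + 1 then Z (c t) * Z (c t') else 0)) := by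
      intro t t'
      by_cases h : (t' : ℕ) = (t : ℕ) + 1
      · simp only [if_pos h, proj1]
      · simp only [if_neg h]; simp
    rw [Finset.sum_congr rfl fun t _ => Finset.sum_congr rfl fun t' _ => s4 t t']
    simp only [← Finset.smul_sum, Finset.sum_sub_distrib, Finset.sum_add_distrib]
    rw [s1 (fun _ => 1), s1 (fun t => Z (c t)), s2 (fun t => Z (c t)), s3]
  have k2 : (∑ a : Fin d.M, (if d.con a then Nb (w a) * (1 - Nb (c first)) else 0) : Op ι) =
      (1 / 4 : ℝ) • ((ncR d) • (1 : Op ι) - (∑ a : Fin d.M, if d.con a then Z (w a) else 0)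
        + (ncR d) • Z (c first)
        - (∑ a : Fin d.M, if d.con a then Z (w a) * Z (c first) else 0)) := by
    have s4 : ∀ a : Fin d.M,
        (if d.con a then Nb (w a) * (1 - Nb (c first)) else 0 : Op ι) =
        (1 / 4 : ℝ) • ((if d.con a then (1 : ℝ) else 0) • (1 : Op ι)
          - (if d.con a then Z (w a) else 0)
          + (if d.con a then (1 : ℝ) else 0) • Z (c first)
          - (if d.con a then Z (w a) * Z (c first) else 0)) := by
      intro a
      cases h : d.con a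
      · simp
      · simp only [if_true, proj2, one_smul]
    rw [Finset.sum_congr rfl fun a _ => s4 a]
    simp only [← Finset.smul_sum, Finset.sum_sub_distrib, Finset.sum_add_distrib,
      ← Finset.sum_smul]
    rfl
  have k3 : ∀ t : Fin d.T, (-(Jp / 2)) • (gop w (d.g t) * X (c t)) - (Jp / 4) • (zzop w (d.g t) * X (c t))
      + d.gadg w c m Jp δ t =
      gt w (X (c t)) Jp (d.g t) + (δ ^ 3 / 2) • (1 : Op ι) - (δ ^ 3 / 2) • Z (m t)
      + (δ ^ 2) • (dop w (d.g t) * X (m t))
      - (Jp * δ ^ 2 / 16) • (if isCZ (d.g t) then X (c t) else 0)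
      + (Jp * δ ^ 2 / 16) • (if isCZ (d.g t) then Z (m t) * X (c t) else 0)
      + (2 * δ * (if isCZ (d.g t) then (1 : ℝ) else 0)) • (1 : Op ι)
      - (2 * δ) • zzop w (d.g t) := by
    intro t
    rw [gt_eq, CD.gadg, Nb_eq]
    cases hg : d.g t with
    | rot k a =>
      simp only [isCZ, Bool.false_eq_true, if_false, zzop]
      module
    | cz a b =>
      simp only [isCZ, if_true, smul_mul_assoc, sub_mul, one_mul]
      module
  have k4 : d.H2 w c m Jin Jp Jk δ = d.Hdiag w c Jin Jp Jk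
      + ∑ t : Fin d.T, ((-(Jp / 2)) • (gop w (d.g t) * X (c t))
        - (Jp / 4) • (zzop w (d.g t) * X (c t)) + d.gadg w c m Jp δ t) := by
    unfold CD.H2 CD.HL CD.HK
    simp only [Finset.sum_add_distrib, Finset.sum_sub_distrib, ← Finset.smul_sum]
    module
  rw [k4, Finset.sum_congr rfl fun t _ => k3 t]
  unfold CD.Hdiag
  simp only [e1, e2, Finset.sum_ite_eq', Finset.mem_univ, if_true]
  rw [k1, k2, proj1]
  simp only [Finset.sum_add_distrib, Finset.sum_sub_distrib, ← Finset.smul_sum,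
    ← Finset.sum_smul, ← Finset.mul_sum, Finset.sum_const, Finset.card_univ, Fintype.card_fin]
  rw [Nb_eq, Nb_eq, ← Nat.cast_smul_eq_nsmul ℝ]
  unfold nczR
  module

end Crest.Agent.R338.PTab
private theorem rz_6ca24948cb : type_of% @_root_.Crest.Agent.R338.PTab.gt.eq_1 := @_root_.Crest.Agent.R338.PTab.gt.eq_1 -- L35
end

-- ▼ part R338/PTab3
section

/-!
# Row 338: the pair table, `H_2` as an XZ operator (helper896)
-/

set_option autoImplicit false
set_option linter.unusedSectionVars false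
set_option linter.unusedSimpArgs false
set_option maxHeartbeats 1000000

namespace Crest.Agent.R338.PTab

open Crest.Agent.R338 RC

theorem osub {ι : Type} (a b : ℝ) (A : Op ι) : (a - b) • A = a • A - b • A := sub_smul a b A


section
variable (d : CD) (Jin Jp Jk δ : ℝ)

theorem kd3_iff (t : Fin d.T) : (gnum (d.g t)).1 = 3 ↔ isCZ (d.g t) = true := by
  cases d.g t with
  | rot k a => simp [isCZ]; omega
  | cz a b => simp [isCZ]

theorem fx_w (a : Fin d.M) : d.nd.fx Jp δ (a : ℕ) = 0 := by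
  unfold ND.fx
  rw [if_neg]
  rintro ⟨h, _⟩
  simp at h
  omega

theorem fx_c (t : Fin d.T) : d.nd.fx Jp δ (d.M + t) =
    if isCZ (d.g t) then -(Jp * δ ^ 2 / 16) else 0 := by
  unfold ND.fx
  have h : (d.nd.M ≤ d.M + (t : ℕ) ∧ d.M + (t : ℕ) < d.nd.M + d.nd.T
      ∧ d.nd.kd (d.M + t - d.nd.M) = 3) ↔ isCZ (d.g t) = true := by
    have e : d.M + (t : ℕ) - d.nd.M = t := by simp
    rw [e, nd_kd, kd3_iff]
    simp
  simp only [h]

theorem fx_m (s : Fin d.T) : d.nd.fx Jp δ (d.M + d.T + s) = 0 := by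
  unfold ND.fx
  rw [if_neg]
  rintro ⟨_, h, _⟩
  simp only [nd_M, nd_T] at h
  omega

theorem fz_w (a : Fin d.M) : d.nd.fz Jin Jp Jk δ (a : ℕ) =
    (if a = d.out then 1 / 4 else 0) - (if d.con a then Jin / 4 else 0) := by
  unfold ND.fz
  rw [if_pos (by simp), nd_con, nd_out]
  simp only [Fin.ext_iff]

theorem fz_c (t : Fin d.T) : d.nd.fz Jin Jp Jk δ (d.M + t) =
    (if (t : ℕ) = 0 then Jin / 4 * d.nd.nc - Jp / 4 else 0)
      + (if (t : ℕ) + 1 = d.T then Jp / 4 - 1 / 4 else 0)
      + (if (t : ℕ) + 1 < d.T then Jk / 4 else 0) - (if 0 < (t : ℕ) then Jk / 4 else 0) := by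
  unfold ND.fz
  rw [if_neg (by simp), if_pos (by simp)]
  have h1 : (d.M + (t : ℕ) = d.nd.M) ↔ (t : ℕ) = 0 := by simp
  have h2 : (d.M + (t : ℕ) + 1 = d.nd.M + d.nd.T) ↔ (t : ℕ) + 1 = d.T := by
    simp only [nd_M, nd_T]; omega
  have h3 : (d.M + (t : ℕ) + 1 < d.nd.M + d.nd.T) ↔ (t : ℕ) + 1 < d.T := by
    simp only [nd_M, nd_T]; omega
  have h4 : (d.nd.M < d.M + (t : ℕ)) ↔ 0 < (t : ℕ) := by simp
  simp only [h1, h2, h3, h4]

theorem fz_m (s : Fin d.T) : d.nd.fz Jin Jp Jk δ (d.M + d.T + s) = -(δ ^ 3 / 2) := by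
  unfold ND.fz
  rw [if_neg (by simp only [nd_M]; omega), if_neg (by simp only [nd_M, nd_T]; omega)]

/-- the pair term -/
noncomputable def P (p q : Fin (d.M + d.T + d.T)) : Op (Fin (d.M + d.T + d.T)) :=
  (d.nd.ax p q • X p + d.nd.az p q • Z p) *
    (d.nd.bx Jp δ p q • X q + d.nd.bz Jin Jp Jk δ p q • Z q)

theorem isR_ww (a b : Fin d.M) : d.nd.isR a b = false := by
  have : ¬ d.M ≤ (b : ℕ) := by omega
  unfold ND.isR; simp [this]

theorem isCM_w (a : Fin d.M) (q : ℕ) : d.nd.isCM a q = false := by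
  have : ¬ d.M ≤ (a : ℕ) := by omega
  unfold ND.isCM; simp [this]

theorem ax_ff {N : ND} {p q : ℕ} (h1 : N.isR p q = false) (h2 : N.isCM p q = false) :
    N.ax p q = 0 := by simp [ND.ax, h1, h2]

theorem az_ff {N : ND} {p q : ℕ} (h1 : N.isR p q = false) (h2 : N.isCM p q = false) :
    N.az p q = 1 := by simp [ND.az, h1, h2]

theorem ax_ft {N : ND} {p q : ℕ} (h1 : N.isR p q = false) (h2 : N.isCM p q = true) :
    N.ax p q = 1 := by simp [ND.ax, h1, h2]

theorem az_ft {N : ND} {p q : ℕ} (h1 : N.isR p q = false) (h2 : N.isCM p q = true) :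
    N.az p q = 0 := by simp [ND.az, h1, h2]

theorem ax_t {N : ND} {p q : ℕ} (h1 : N.isR p q = true) :
    N.ax p q = sinN (N.kd (q - N.M)) := by simp [ND.ax, h1]

theorem az_t {N : ND} {p q : ℕ} (h1 : N.isR p q = true) :
    N.az p q = cosN (N.kd (q - N.M)) := by simp [ND.az, h1]

theorem P_ww (a b : Fin d.M) : P d Jin Jp Jk δ (iw _ _ a) (iw _ _ b) =
    (-(2 * δ) * d.nd.ncz a b) • (Z (iw _ _ a) * Z (iw _ _ b)) := by
  unfold P
  simp only [iw_val]
  rw [ax_ff (isR_ww d a b) (isCM_w d a b), az_ff (isR_ww d a b) (isCM_w d a b)]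
  have h1 : d.nd.bx Jp δ a b = 0 := by
    unfold ND.bx; rw [if_pos (by simp), if_pos (by simp)]
  have h2 : d.nd.bz Jin Jp Jk δ a b = -(2 * δ) * d.nd.ncz a b := by
    unfold ND.bz; rw [if_pos (by simp)]
  rw [h1, h2]
  simp only [zero_smul, zero_add, one_smul, mul_smul_comm]

/-- sum over the pairs of wires -/
theorem sum_ww (hd : d.Ok) : (∑ a : Fin d.M, ∑ b : Fin d.M,
      if a < b then P d Jin Jp Jk δ (iw _ _ a) (iw _ _ b) else 0) =
    (-(2 * δ)) • ∑ t : Fin d.T, zzop (iw d.M d.T) (d.g t) := by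
  have e1 : ∀ a b : Fin d.M, (if a < b then P d Jin Jp Jk δ (iw _ _ a) (iw _ _ b) else 0) =
      (-(2 * δ)) • ∑ t : Fin d.T, (if a < b ∧ (gnum (d.g t)).1 = 3 ∧
        (((gnum (d.g t)).2.1 = a ∧ (gnum (d.g t)).2.2 = b) ∨
         ((gnum (d.g t)).2.1 = b ∧ (gnum (d.g t)).2.2 = a)) then
          Z (iw d.M d.T a) * Z (iw d.M d.T b) else 0) := by
    intro a b
    by_cases h : a < b
    · rw [if_pos h, P_ww, ND.ncz, nd_T, Finset.sum_range, mul_smul, Finset.sum_smul]
      congr 1
      refine Finset.sum_congr rfl fun t _ => ?_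
      simp only [nd_kd, nd_ga, nd_gb, h, true_and]
      split_ifs <;> simp
    · rw [if_neg h]
      simp [h]
  rw [Finset.sum_congr rfl fun a _ => Finset.sum_congr rfl fun b _ => e1 a b]
  simp only [← Finset.smul_sum]
  congr 1
  have e2 : (∑ a : Fin d.M, ∑ b : Fin d.M, ∑ t : Fin d.T, (if a < b ∧ (gnum (d.g t)).1 = 3 ∧
        (((gnum (d.g t)).2.1 = a ∧ (gnum (d.g t)).2.2 = b) ∨
         ((gnum (d.g t)).2.1 = b ∧ (gnum (d.g t)).2.2 = a)) then
          Z (iw d.M d.T a) * Z (iw d.M d.T b) else 0 : Op (Fin (d.M + d.T + d.T)))) =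
      ∑ t : Fin d.T, ∑ a : Fin d.M, ∑ b : Fin d.M, (if a < b ∧ (gnum (d.g t)).1 = 3 ∧
        (((gnum (d.g t)).2.1 = a ∧ (gnum (d.g t)).2.2 = b) ∨
         ((gnum (d.g t)).2.1 = b ∧ (gnum (d.g t)).2.2 = a)) then
          Z (iw d.M d.T a) * Z (iw d.M d.T b) else 0) := by
    rw [Finset.sum_comm' (s := Finset.univ) (t := fun _ => Finset.univ) (t' := Finset.univ)
      (s' := fun _ => Finset.univ) (by simp)]
    rw [Finset.sum_congr rfl fun b _ => Finset.sum_comm]
    rw [Finset.sum_comm]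
    refine Finset.sum_congr rfl fun t _ => ?_
    rw [Finset.sum_comm]
  rw [e2]
  refine Finset.sum_congr rfl fun t _ => ?_
  have hw := hd.wf t
  cases hg : d.g t with
  | rot k a =>
    have : ¬ ((k : ℕ) = 3) := by omega
    simp [zzop, this]
  | cz x y =>
    rw [hg] at hw
    have hxy : x ≠ y := hw
    simp only [gnum_cz, true_and, zzop]
    rcases lt_or_gt_of_ne hxy with h | h
    · rw [Finset.sum_eq_single x, Finset.sum_eq_single y]
      · rw [if_pos]; exact ⟨h, Or.inl ⟨rfl, rfl⟩⟩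
      · intro b _ hb
        rw [if_neg]
        rintro ⟨h1, h2 | h2⟩
        · exact hb (Fin.ext h2.2.symm)
        · exact hxy (Fin.ext h2.2.symm)
      · intro h'; exact absurd (Finset.mem_univ _) h'
      · intro a _ ha
        refine Finset.sum_eq_zero fun b _ => ?_
        rw [if_neg]
        rintro ⟨h1, h2 | h2⟩
        · exact ha (Fin.ext h2.1.symm)
        · have h3 : x = b := Fin.ext h2.1
          have h4 : y = a := Fin.ext h2.2
          rw [← h3, ← h4] at h1
          exact absurd h1 (not_lt_of_gt h)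
      · intro h'; exact absurd (Finset.mem_univ _) h'
    · rw [Finset.sum_eq_single y, Finset.sum_eq_single x]
      · rw [if_pos ⟨h, Or.inr ⟨rfl, rfl⟩⟩]
        exact (Z_comm _ _).eq
      · intro b _ hb
        rw [if_neg]
        rintro ⟨h1, h2 | h2⟩
        · exact hxy (Fin.ext h2.1)
        · exact hb (Fin.ext h2.1.symm)
      · intro h'; exact absurd (Finset.mem_univ _) h'
      · intro a _ ha
        refine Finset.sum_eq_zero fun b _ => ?_
        rw [if_neg]
        rintro ⟨h1, h2 | h2⟩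
        · have h3 : x = a := Fin.ext h2.1
          have h4 : y = b := Fin.ext h2.2
          rw [← h3, ← h4] at h1
          exact absurd h1 (not_lt_of_gt h)
        · exact ha (Fin.ext h2.2.symm)
      · intro h'; exact absurd (Finset.mem_univ _) h'

/-- gate part of the wire-clock pair -/
noncomputable def gtA {ι : Type} [DecidableEq ι] (w : Fin d.M → ι) (x : Op ι) (Jp : ℝ)
    (a : Fin d.M) : EG (Fin d.M) → Op ι
  | EG.rot k a' => if a = a' then
      (-(Jp / 2)) • ((Real.cos (ang k) • Z (w a) + Real.sin (ang k) • X (w a)) * x) else 0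
  | EG.cz a' b' => (if a = a' then (-(Jp / 4)) • (Z (w a) * x) else 0)
      + (if a = b' then (-(Jp / 4)) • (Z (w a) * x) else 0)

theorem sum_gtA {ι : Type} [DecidableEq ι] (w : Fin d.M → ι) (x : Op ι) (g : EG (Fin d.M)) :
    ∑ a : Fin d.M, gtA d w x Jp a g = gt w x Jp g := by
  cases g with
  | rot k a' => simp only [gtA, gt, Finset.sum_ite_eq', Finset.mem_univ, if_true]
  | cz a' b' =>
    simp only [gtA, gt, Finset.sum_add_distrib, Finset.sum_ite_eq', Finset.mem_univ, if_true,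
      add_mul, smul_add]

theorem P_wc (hd : d.Ok) (a : Fin d.M) (t : Fin d.T) :
    P d Jin Jp Jk δ (iw _ _ a) (ic _ _ t) =
      gtA d (iw _ _) (X (ic _ _ t)) Jp a (d.g t)
      + (if (t : ℕ) = 0 ∧ d.con a = true then
          (-(Jin / 4)) • (Z (iw _ _ a) * Z (ic _ _ t)) else 0)
      + (if (t : ℕ) + 1 = d.T ∧ a = d.out then
          (-(1 / 4 : ℝ)) • (Z (iw _ _ a) * Z (ic _ _ t)) else 0) := by
  unfold P
  simp only [iw_val, ic_val]
  have hbz : d.nd.bz Jin Jp Jk δ a (d.M + t) =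
      (if (t : ℕ) = 0 ∧ d.con a = true then (-(Jin / 4)) else 0)
        + (if (t : ℕ) + 1 = d.T ∧ a = d.out then -(1 / 4 : ℝ) else 0) := by
    unfold ND.bz
    rw [if_neg (by simp), if_pos (by simp), if_pos (by simp), nd_con]
    have h1 : (d.M + (t : ℕ) = d.nd.M ∧ d.con a = true) ↔ ((t : ℕ) = 0 ∧ d.con a = true) := by
      simp
    have h2 : (d.M + (t : ℕ) + 1 = d.nd.M + d.nd.T ∧ (a : ℕ) = d.nd.out) ↔
        ((t : ℕ) + 1 = d.T ∧ a = d.out) := by
      simp only [nd_M, nd_T, nd_out, Fin.ext_iff]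
      constructor
      · rintro ⟨h, h'⟩; exact ⟨by omega, h'⟩
      · rintro ⟨h, h'⟩; exact ⟨by omega, h'⟩
    simp only [h1, h2]
  have hbx : d.nd.bx Jp δ a (d.M + t) =
      if (gnum (d.g t)).1 = 3 then
        (if (gnum (d.g t)).2.1 = a then -(Jp / 4) else 0)
          + (if (gnum (d.g t)).2.2 = a then -(Jp / 4) else 0)
      else if (gnum (d.g t)).2.1 = a then -(Jp / 2) else 0 := by
    unfold ND.bx
    rw [if_pos (by simp), if_neg (by simp), if_pos (by simp)]
    have e : d.M + (t : ℕ) - d.nd.M = t := by simp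
    rw [e, nd_kd, nd_ga, nd_gb]
  have hR : d.nd.isR a (d.M + t) = (decide ((gnum (d.g t)).1 ≠ 3)
      && decide ((gnum (d.g t)).2.1 = a)) := by
    unfold ND.isR
    have e : d.M + (t : ℕ) - d.nd.M = t := by simp
    rw [e, nd_kd, nd_ga]
    simp
  have ekd : d.M + (t : ℕ) - d.nd.M = t := by simp
  rw [hbz, hbx]
  cases hg : d.g t with
  | rot k a' =>
    have hk : ¬ ((k : ℕ) = 3) := by omega
    by_cases h : a = a'
    · subst h
      have h1 : ¬ ((t : ℕ) = 0 ∧ d.con a = true) := by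
          rintro ⟨h1, h2⟩
          have := hd.first t h1
          rw [hg] at this
          injection this with _ h3
          rw [h3, hd.conD] at h2
          exact absurd h2 (by decide)
      have h2 : ¬ ((t : ℕ) + 1 = d.T ∧ a = d.out) := by
          rintro ⟨h1, h2⟩
          have := hd.last t h1
          rw [hg] at this
          injection this with _ h3
          exact hd.outD (by rw [← h2, h3])
      have hR' : d.nd.isR a (d.M + t) = true := by
        rw [hR, hg]; simp [hk]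
      rw [ax_t hR', az_t hR', ekd, nd_kd, hg, if_neg h1, if_neg h2, if_neg h1, if_neg h2]
      simp only [gnum_rot, hk, if_false, if_true, cosN_eq, sinN_eq, add_zero, zero_smul, gtA]
      rw [mul_smul_comm, add_comm (Real.sin (ang k) • X (iw d.M d.T a))]
    · have h' : ¬ ((a' : ℕ) = a) := fun h'' => h (Fin.ext h''.symm)
      have hR' : d.nd.isR a (d.M + t) = false := by
        rw [hR, hg]; simp [h']
      rw [ax_ff hR' (isCM_w d a _), az_ff hR' (isCM_w d a _)]
      simp only [gnum_rot, hk, h, h', if_false, zero_smul, zero_add, one_smul, gtA]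
      rw [mul_smul_comm]
      split_ifs <;> simp only [add_smul, zero_smul, zero_add, add_zero]
  | cz a' b' =>
    have hR' : d.nd.isR a (d.M + t) = false := by
      rw [hR, hg]; simp
    rw [ax_ff hR' (isCM_w d a _), az_ff hR' (isCM_w d a _)]
    simp only [gnum_cz, if_true, gtA, zero_smul, zero_add, one_smul]
    have h1 : ((a' : ℕ) = a) ↔ a = a' := ⟨fun h => Fin.ext h.symm, fun h => by rw [h]⟩
    have h2 : ((b' : ℕ) = a) ↔ a = b' := ⟨fun h => Fin.ext h.symm, fun h => by rw [h]⟩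
    simp only [h1, h2, mul_add, mul_smul_comm, add_smul, ite_smul, zero_smul, mul_ite, mul_zero]
    abel

/-- sum over the wire-clock pairs -/
theorem sum_wc (hd : d.Ok) (first last : Fin d.T) (hf : (first : ℕ) = 0)
    (hl : (last : ℕ) + 1 = d.T) :
    (∑ a : Fin d.M, ∑ t : Fin d.T, P d Jin Jp Jk δ (iw _ _ a) (ic _ _ t)) =
      ∑ t : Fin d.T, gt (iw d.M d.T) (X (ic _ _ t)) Jp (d.g t)
      - (Jin / 4) • (∑ a : Fin d.M, if d.con a then Z (iw d.M d.T a) * Z (ic _ _ first) else 0)
      - (1 / 4 : ℝ) • (Z (iw _ _ d.out) * Z (ic _ _ last)) := by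
  have e1 : ∀ t : Fin d.T, ((t : ℕ) + 1 = d.T ↔ t = last) := fun t =>
    ⟨fun h => Fin.ext (by omega), fun h => by rw [h]; exact hl⟩
  have e2 : ∀ t : Fin d.T, ((t : ℕ) = 0 ↔ t = first) := fun t =>
    ⟨fun h => Fin.ext (by omega), fun h => by rw [h]; exact hf⟩
  rw [Finset.sum_congr rfl fun a _ => Finset.sum_congr rfl fun t _ => P_wc d Jin Jp Jk δ hd a t]
  simp only [Finset.sum_add_distrib]
  have s1 : (∑ a : Fin d.M, ∑ t : Fin d.T, gtA d (iw d.M d.T) (X (ic _ _ t)) Jp a (d.g t)) =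
      ∑ t : Fin d.T, gt (iw d.M d.T) (X (ic _ _ t)) Jp (d.g t) := by
    rw [Finset.sum_comm]
    exact Finset.sum_congr rfl fun t _ => sum_gtA d Jp _ _ _
  have s2 : (∑ a : Fin d.M, ∑ t : Fin d.T, (if (t : ℕ) = 0 ∧ d.con a = true then
          (-(Jin / 4)) • (Z (iw _ _ a) * Z (ic _ _ t)) else 0 : Op (Fin (d.M + d.T + d.T)))) =
      (-(Jin / 4)) • (∑ a : Fin d.M, if d.con a then Z (iw d.M d.T a) * Z (ic _ _ first) else 0) := by
    rw [Finset.smul_sum]
    refine Finset.sum_congr rfl fun a _ => ?_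
    simp only [e2, ite_and, Finset.sum_ite_eq', Finset.mem_univ, if_true]
    split_ifs
    · rfl
    · rw [smul_zero]
  have s3 : (∑ a : Fin d.M, ∑ t : Fin d.T, (if (t : ℕ) + 1 = d.T ∧ a = d.out then
          (-(1 / 4 : ℝ)) • (Z (iw _ _ a) * Z (ic _ _ t)) else 0 : Op (Fin (d.M + d.T + d.T)))) =
      (-(1 / 4 : ℝ)) • (Z (iw _ _ d.out) * Z (ic _ _ last)) := by
    simp only [e1, ite_and, Finset.sum_ite_eq', Finset.mem_univ, if_true]
  rw [s1, s2, s3]
  module

theorem P_wm (a : Fin d.M) (s : Fin d.T) :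
    P d Jin Jp Jk δ (iw _ _ a) (im _ _ s) =
      ((if (gnum (d.g s)).2.1 = a then δ ^ 2 else 0) - (if (gnum (d.g s)).2.2 = a then δ ^ 2 else 0))
        • (Z (iw _ _ a) * X (im _ _ s)) := by
  unfold P
  simp only [iw_val, im_val]
  have hR : d.nd.isR a (d.M + d.T + s) = false := by
    have : ¬ (d.M + d.T + (s : ℕ) < d.M + d.T) := by omega
    unfold ND.isR
    simp [this]
  have hbz : d.nd.bz Jin Jp Jk δ a (d.M + d.T + s) = 0 := by
    unfold ND.bz
    rw [if_neg (by simp only [nd_M]; omega), if_pos (by simp),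
      if_neg (by simp only [nd_M, nd_T]; omega)]
  have hbx : d.nd.bx Jp δ a (d.M + d.T + s) =
      (if (gnum (d.g s)).2.1 = a then δ ^ 2 else 0)
        - (if (gnum (d.g s)).2.2 = a then δ ^ 2 else 0) := by
    unfold ND.bx
    rw [if_pos (by simp), if_neg (by simp only [nd_M]; omega),
      if_neg (by simp only [nd_M, nd_T]; omega)]
    have e : d.M + d.T + (s : ℕ) - (d.nd.M + d.nd.T) = s := by simp
    rw [e, nd_ga, nd_gb]
  rw [ax_ff hR (isCM_w d a _), az_ff hR (isCM_w d a _), hbz, hbx]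
  simp only [zero_smul, zero_add, one_smul, add_zero, mul_smul_comm]

theorem sum_wm : (∑ a : Fin d.M, ∑ s : Fin d.T, P d Jin Jp Jk δ (iw _ _ a) (im _ _ s)) =
    (δ ^ 2) • (∑ s : Fin d.T, dop (iw d.M d.T) (d.g s) * X (im _ _ s)) := by
  rw [Finset.sum_congr rfl fun a _ => Finset.sum_congr rfl fun t _ => P_wm d Jin Jp Jk δ a t]
  rw [Finset.sum_comm, Finset.smul_sum]
  refine Finset.sum_congr rfl fun s _ => ?_
  cases d.g s with
  | rot k a' =>
    rw [dop, zero_mul, smul_zero]
    refine Finset.sum_eq_zero fun x _ => ?_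
    rw [gnum_rot]
    by_cases h : (a' : ℕ) = x <;> simp [h]
  | cz x y =>
    have h1 : ∀ a : Fin d.M, (if (gnum (EG.cz x y)).2.1 = a then δ ^ 2 else 0) =
        if a = x then δ ^ 2 else 0 := by
      intro a
      by_cases h : a = x
      · subst h; simp
      · rw [if_neg h, if_neg]; intro h'; exact h (Fin.ext h'.symm)
    have h2 : ∀ a : Fin d.M, (if (gnum (EG.cz x y)).2.2 = a then δ ^ 2 else 0) =
        if a = y then δ ^ 2 else 0 := by
      intro a
      by_cases h : a = y
      · subst h; simp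
      · rw [if_neg h, if_neg]; intro h'; exact h (Fin.ext h'.symm)
    simp only [h1, h2, dop, osub, ite_smul, zero_smul, Finset.sum_sub_distrib,
      Finset.sum_ite_eq', Finset.mem_univ, if_true, sub_mul, smul_sub]

theorem P_cc (t t' : Fin d.T) :
    P d Jin Jp Jk δ (ic _ _ t) (ic _ _ t') =
      (if (t' : ℕ) = (t : ℕ) + 1 then -(Jk / 4) else 0) • (Z (ic _ _ t) * Z (ic _ _ t')) := by
  unfold P
  simp only [ic_val]
  have hR : d.nd.isR (d.M + t) (d.M + t') = false := by
    unfold ND.isR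
    simp
  have hCM : d.nd.isCM (d.M + t) (d.M + t') = false := by
    unfold ND.isCM
    simp
  have hbz : d.nd.bz Jin Jp Jk δ (d.M + t) (d.M + t') =
      (if (t' : ℕ) = (t : ℕ) + 1 then -(Jk / 4) else 0) := by
    unfold ND.bz
    rw [if_neg (by simp), if_neg (by simp), if_pos (by simp)]
    have h : (d.M + (t : ℕ) + 1 = d.M + t') ↔ (t' : ℕ) = (t : ℕ) + 1 := by omega
    simp only [h]
  have hbx : d.nd.bx Jp δ (d.M + t) (d.M + t') = 0 := by
    unfold ND.bx
    rw [if_neg (by simp)]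
  rw [ax_ff hR hCM, az_ff hR hCM, hbz, hbx]
  simp only [zero_smul, zero_add, one_smul, add_zero, mul_smul_comm]

theorem sum_cc : (∑ t : Fin d.T, ∑ t' : Fin d.T,
      if t < t' then P d Jin Jp Jk δ (ic _ _ t) (ic _ _ t') else 0) =
    (-(Jk / 4)) • (∑ t : Fin d.T, ∑ t' : Fin d.T,
          if (t' : ℕ) = (t : ℕ) + 1 then Z (ic d.M d.T t) * Z (ic d.M d.T t') else 0) := by
  simp only [Finset.smul_sum]
  refine Finset.sum_congr rfl fun t _ => Finset.sum_congr rfl fun t' _ => ?_
  rw [P_cc]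
  by_cases h : (t' : ℕ) = (t : ℕ) + 1
  · have : t < t' := by rw [Fin.lt_def]; omega
    simp only [if_pos h, if_pos this]
  · simp only [if_neg h, zero_smul, ite_self, smul_zero]

theorem P_cm (t s : Fin d.T) :
    P d Jin Jp Jk δ (ic _ _ t) (im _ _ s) =
      (if s = t ∧ isCZ (d.g t) = true then Jp * δ ^ 2 / 16 else 0) •
        (X (ic _ _ t) * Z (im _ _ s)) := by
  unfold P
  simp only [ic_val, im_val]
  have hR : d.nd.isR (d.M + t) (d.M + d.T + s) = false := by
    unfold ND.isR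
    simp
  have hCM : d.nd.isCM (d.M + t) (d.M + d.T + s) = true := by
    unfold ND.isCM
    simp
  have hbz : d.nd.bz Jin Jp Jk δ (d.M + t) (d.M + d.T + s) =
      (if s = t ∧ isCZ (d.g t) = true then Jp * δ ^ 2 / 16 else 0) := by
    unfold ND.bz
    rw [if_neg (by simp only [nd_M]; omega), if_neg (by simp),
      if_neg (by simp only [nd_M, nd_T]; omega), if_pos (by simp)]
    have e : d.M + (t : ℕ) - d.nd.M = t := by simp
    rw [e, nd_kd]
    have h : (d.M + d.T + (s : ℕ) = d.M + t + d.nd.T) ↔ s = t := by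
      rw [Fin.ext_iff, nd_T]; omega
    simp only [h, kd3_iff]
  have hbx : d.nd.bx Jp δ (d.M + t) (d.M + d.T + s) = 0 := by
    unfold ND.bx
    rw [if_neg (by simp)]
  rw [ax_ft hR hCM, az_ft hR hCM, hbz, hbx]
  simp only [zero_smul, zero_add, one_smul, add_zero, mul_smul_comm]

theorem sum_cm : (∑ t : Fin d.T, ∑ s : Fin d.T, P d Jin Jp Jk δ (ic _ _ t) (im _ _ s)) =
    (Jp * δ ^ 2 / 16) • (∑ t : Fin d.T,
      if isCZ (d.g t) then Z (im d.M d.T t) * X (ic d.M d.T t) else 0) := by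
  rw [Finset.smul_sum]
  refine Finset.sum_congr rfl fun t _ => ?_
  rw [Finset.sum_congr rfl fun s _ => P_cm d Jin Jp Jk δ t s]
  simp only [ite_and, ite_smul, zero_smul, Finset.sum_ite_eq', Finset.mem_univ, if_true]
  have hne : ic d.M d.T t ≠ im d.M d.T t := by
    intro h
    have := congrArg Fin.val h
    simp at this
    have h2 := t.2
    omega
  rw [(X_Z_comm hne).eq]
  split_ifs <;> simp

theorem P_mm (s s' : Fin d.T) : P d Jin Jp Jk δ (im _ _ s) (im _ _ s') = 0 := by
  unfold P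
  simp only [im_val]
  have hbz : d.nd.bz Jin Jp Jk δ (d.M + d.T + s) (d.M + d.T + s') = 0 := by
    unfold ND.bz
    rw [if_neg (by simp only [nd_M]; omega), if_neg (by simp only [nd_M]; omega),
      if_neg (by simp only [nd_M, nd_T]; omega), if_neg (by simp only [nd_M, nd_T]; omega)]
  have hbx : d.nd.bx Jp δ (d.M + d.T + s) (d.M + d.T + s') = 0 := by
    unfold ND.bx
    rw [if_neg (by simp only [nd_M]; omega)]
  rw [hbz, hbx]
  simp

/-- **the two-local form is an XZ operator** -/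
theorem H2_eq_XZ (hd : d.Ok) :
    d.H2 (iw _ _) (ic _ _) (im _ _) Jin Jp Jk δ =
      (d.nd.c0 Jin Jp Jk δ) • (1 : Op (Fin (d.M + d.T + d.T))) +
        XZop (d.nd.fx Jp δ) (d.nd.fz Jin Jp Jk δ) d.nd.ax d.nd.az (d.nd.bx Jp δ)
          (d.nd.bz Jin Jp Jk δ) := by
  have hT := hd.hT
  let first : Fin d.T := ⟨0, by omega⟩
  let last : Fin d.T := ⟨d.T - 1, by omega⟩
  have hf : (first : ℕ) = 0 := rfl
  have hl : (last : ℕ) + 1 = d.T := by change d.T - 1 + 1 = d.T; omega
  have e1 : ∀ t : Fin d.T, ((t : ℕ) + 1 = d.T ↔ t = last) := fun t =>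
    ⟨fun h => Fin.ext (by omega), fun h => by rw [h]; exact hl⟩
  have e2 : ∀ t : Fin d.T, ((t : ℕ) = 0 ↔ t = first) := fun t =>
    ⟨fun h => Fin.ext (by omega), fun h => by rw [h]⟩
  rw [H2_expand d (iw _ _) (ic _ _) (im _ _) Jin Jp Jk δ first last hf hl]
  unfold XZop
  have hpair := pairs3 d.M d.T (P d Jin Jp Jk δ)
  have hP : (∑ p : Fin (d.M + d.T + d.T), ∑ q : Fin (d.M + d.T + d.T), if p < q then
      (d.nd.ax p q • X p + d.nd.az p q • Z p) *
        (d.nd.bx Jp δ p q • X q + d.nd.bz Jin Jp Jk δ p q • Z q) else 0) =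
      ∑ p, ∑ q, (if p < q then P d Jin Jp Jk δ p q else 0) := rfl
  rw [hP, hpair, sum_ww d Jin Jp Jk δ hd, sum_wc d Jin Jp Jk δ hd first last hf hl, sum_wm, sum_cc,
    sum_cm]
  simp only [P_mm, ite_self, Finset.sum_const_zero, add_zero]
  rw [sum3 d.M d.T]
  simp only [iw_val, ic_val, im_val, fx_w, fx_c, fx_m, fz_w, fz_c, fz_m, zero_smul, zero_add]
  have s1 : (∑ a : Fin d.M, ((if a = d.out then (1 / 4 : ℝ) else 0)
      - (if d.con a then Jin / 4 else 0)) • Z (iw d.M d.T a)) =
      (1 / 4 : ℝ) • Z (iw _ _ d.out)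
        - (Jin / 4) • (∑ a : Fin d.M, if d.con a then Z (iw d.M d.T a) else 0) := by
    simp only [osub, Finset.sum_sub_distrib, ite_smul, zero_smul, Finset.sum_ite_eq',
      Finset.mem_univ, if_true]
    rw [Finset.smul_sum]
    congr 1
    refine Finset.sum_congr rfl fun a _ => ?_
    split_ifs <;> simp
  have s2 : (∑ t : Fin d.T, ((if isCZ (d.g t) = true then -(Jp * δ ^ 2 / 16) else 0)
        • X (ic d.M d.T t)
      + ((if (t : ℕ) = 0 then Jin / 4 * d.nd.nc - Jp / 4 else 0)
      + (if (t : ℕ) + 1 = d.T then Jp / 4 - 1 / 4 else 0)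
      + (if (t : ℕ) + 1 < d.T then Jk / 4 else 0) - (if 0 < (t : ℕ) then Jk / 4 else 0))
        • Z (ic d.M d.T t))) =
      (-(Jp * δ ^ 2 / 16)) • (∑ t : Fin d.T, if isCZ (d.g t) then X (ic d.M d.T t) else 0)
      + (Jin / 4 * ncR d - Jp / 4) • Z (ic _ _ first) + (Jp / 4 - 1 / 4) • Z (ic _ _ last)
      + (Jk / 4) • (∑ t : Fin d.T, if (t : ℕ) + 1 < d.T then Z (ic d.M d.T t) else 0)
      - (Jk / 4) • (∑ t : Fin d.T, if 0 < (t : ℕ) then Z (ic d.M d.T t) else 0) := by
    simp only [osub, add_smul, Finset.sum_sub_distrib, Finset.sum_add_distrib, ite_smul,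
      zero_smul, e1, e2, Finset.sum_ite_eq', Finset.mem_univ, if_true, ncR_eq]
    simp only [Finset.smul_sum, smul_ite, smul_zero]
    abel
  rw [s1, s2]
  have hc0 : d.nd.c0 Jin Jp Jk δ = (1 / 4 + Jin / 4 * ncR d + Jp / 2 + Jk / 4 * (d.T - 1)
      + d.T * (δ ^ 3 / 2) + 2 * δ * nczR d) := by
    unfold ND.c0 nczR
    rw [ncR_eq, nd_T, Finset.sum_range]
    simp only [nd_kd, kd3_iff]
  rw [hc0, ← Finset.smul_sum]
  module

end

end Crest.Agent.R338.PTab
private theorem rz_5ff995c724 : type_of% @_root_.Crest.Agent.R338.PTab.gtA.eq_1 := @_root_.Crest.Agent.R338.PTab.gtA.eq_1 -- L205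
end

-- ▼ part R338/ClockOp
section

/-!
# Row 338, node I.2: the clock Hamiltonian as a Pauli operator on `W ⊕ Fin T`

`W` = wires, `Fin T` = clock qubits, for a word of elementary gates (`RC.EG W`).
-/

set_option autoImplicit false
set_option linter.unusedSectionVars false
set_option maxHeartbeats 1000000

namespace Crest.Agent.R338.CK

open Finset Crest.Agent.R338 Crest.Agent.R338.RC

section GateOp

variable {ι : Type*} [DecidableEq ι]

/-- `cos θ_k Z_a + sin θ_k X_a` -/
noncomputable def rotOp (k : Fin 3) (a : ι) : Op ι :=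
  Real.cos (ang k) • Z a + Real.sin (ang k) • X a

/-- `(1 + Z_a + Z_b - Z_a Z_b)/2` -/
noncomputable def czOp (a b : ι) : Op ι := (1 / 2 : ℝ) • (1 + Z a + Z b - Z a * Z b)

/-- the operator of an elementary gate, wires relabelled by `f` -/
noncomputable def gOp {W : Type} (f : W → ι) : EG W → Op ι
  | EG.rot k a => rotOp k (f a)
  | EG.cz a b => czOp (f a) (f b)

lemma rotOp_mul_self (k : Fin 3) (a : ι) : rotOp k a * rotOp k a = 1 := by
  refine LinearMap.ext fun ψ => funext fun σ => ?_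
  have h : Real.cos (ang k) * Real.cos (ang k) + Real.sin (ang k) * Real.sin (ang k) = 1 := by
    have := Real.cos_sq_add_sin_sq (ang k)
    nlinarith
  simp only [rotOp, Module.End.mul_apply, LinearMap.add_apply, LinearMap.smul_apply, Pi.add_apply,
    Pi.smul_apply, Z_apply, X_apply, smul_eq_mul, flip_same, sg_not, Module.End.one_apply,
    R338.flip_flip]
  have h2 := sg_mul_self (σ a)
  linear_combination (ψ σ) * h + (Real.cos (ang k) * Real.cos (ang k) * ψ σ) * h2

lemma czOp_apply (a b : ι) (ψ : Q ι) (σ : ι → Bool) :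
    czOp a b ψ σ = if σ a = true ∧ σ b = true then -ψ σ else ψ σ := by
  unfold czOp
  simp only [LinearMap.smul_apply, LinearMap.sub_apply, LinearMap.add_apply, Module.End.one_apply,
    Module.End.mul_apply, Pi.smul_apply, Pi.sub_apply, Pi.add_apply, Z_apply, smul_eq_mul]
  cases h1 : σ a <;> cases h2 : σ b <;> simp <;> ring

lemma czOp_mul_self (a b : ι) : czOp a b * czOp a b = (1 : Op ι) := by
  refine LinearMap.ext fun ψ => funext fun σ => ?_
  rw [Module.End.mul_apply, czOp_apply, czOp_apply]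
  split_ifs <;> simp

lemma gOp_mul_self {W : Type} (f : W → ι) (g : EG W) : gOp f g * gOp f g = 1 := by
  cases g with
  | rot k a => exact rotOp_mul_self k (f a)
  | cz a b => exact czOp_mul_self (f a) (f b)

variable [Fintype ι]

lemma sym_rotOp (k : Fin 3) (a : ι) : Sym (rotOp k a) :=
  ((sym_Z a).smul _).add ((sym_X a).smul _)

lemma sym_czOp (a b : ι) : Sym (czOp a b : Op ι) := by
  intro φ ψ
  simp only [dotProduct, czOp_apply]
  refine Finset.sum_congr rfl fun σ _ => ?_
  split_ifs <;> ring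

lemma sym_gOp {W : Type} (f : W → ι) (g : EG W) : Sym (gOp f g) := by
  cases g with
  | rot k a => exact sym_rotOp k (f a)
  | cz a b => exact sym_czOp (f a) (f b)

end GateOp

section Wires

variable {W : Type} [DecidableEq W]

/-- the operator form of an elementary gate is `EG.act` -/
lemma gOp_eq_act (g : EG W) (ψ : RVec W) : gOp id g ψ = g.act ψ := by
  funext σ
  cases g with
  | rot k a =>
    simp only [gOp, rotOp, id, EG.act, LinearMap.add_apply, LinearMap.smul_apply, Pi.add_apply,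
      Pi.smul_apply, Z_apply, X_apply, smul_eq_mul, R338.flip]
    cases h : σ a
    · have e : Function.update σ a false = σ := by rw [← h]; exact Function.update_eq_self a σ
      rw [e]; simp [rmat]
    · have e : Function.update σ a true = σ := by rw [← h]; exact Function.update_eq_self a σ
      rw [e]; simp [rmat]; ring
  | cz a b =>
    simp only [gOp, id, EG.act, czOp_apply]

variable [Fintype W]

lemma isGate_gOp (g : EG W) : Clock.IsGate (gOp id g : Op W) where
  symm f h := by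
    have := sym_gOp id g f h
    simp only [dotProduct] at this
    unfold Clock.ip
    exact this.symm
  invol f := by
    have := gOp_mul_self id g
    rw [← Module.End.mul_apply, this, Module.End.one_apply]

end Wires

section Curry

variable {W : Type} {κ : Type}

/-- clock configuration first -/
def cur (ψ : Q (W ⊕ κ)) : (κ → Bool) → (W → Bool) → ℝ := fun c w => ψ (Sum.elim w c)

/-- inverse of `cur` -/
def unc (Ψ : (κ → Bool) → (W → Bool) → ℝ) : Q (W ⊕ κ) :=
  fun σ => Ψ (fun k => σ (Sum.inr k)) (fun a => σ (Sum.inl a))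

@[simp] lemma cur_unc (Ψ : (κ → Bool) → (W → Bool) → ℝ) : cur (unc Ψ) = Ψ := by
  funext c w; simp [cur, unc]

lemma elim_surj (σ : W ⊕ κ → Bool) :
    Sum.elim (fun a => σ (Sum.inl a)) (fun k => σ (Sum.inr k)) = σ := by
  funext x; cases x <;> rfl

variable [DecidableEq W] [DecidableEq κ]

lemma flip_inl (a : W) (w : W → Bool) (c : κ → Bool) :
    R338.flip (Sum.inl a) (Sum.elim w c) = Sum.elim (R338.flip a w) c := by
  funext x
  cases x with
  | inl b => simp only [flip_apply, Sum.elim_inl, Sum.inl.injEq]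
  | inr k => simp

lemma flip_inr (k : κ) (w : W → Bool) (c : κ → Bool) :
    R338.flip (Sum.inr k) (Sum.elim w c) = Sum.elim w (R338.flip k c) := by
  funext x
  cases x with
  | inl b => simp
  | inr j => simp only [flip_apply, Sum.elim_inr, Sum.inr.injEq]

lemma cur_gOp (g : EG W) (ψ : Q (W ⊕ κ)) (c : κ → Bool) :
    cur (gOp (Sum.inl : W → W ⊕ κ) g ψ) c = gOp id g (cur ψ c) := by
  funext w
  cases g with
  | rot k a =>
    simp only [cur, gOp, rotOp, id, LinearMap.add_apply, LinearMap.smul_apply, Pi.add_apply,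
      Pi.smul_apply, Z_apply, X_apply, smul_eq_mul, flip_inl, Sum.elim_inl]
  | cz a b =>
    simp only [cur, gOp, id, czOp_apply, Sum.elim_inl]
    exact if_congr Iff.rfl rfl rfl

lemma cur_X (k : κ) (ψ : Q (W ⊕ κ)) (c : κ → Bool) :
    cur (X (Sum.inr k) ψ) c = cur ψ (R338.flip k c) := by
  funext w
  simp only [cur, X_apply, flip_inr]

variable [Fintype W] [Fintype κ]

/-- configurations of the sum -/
def cfg : (κ → Bool) × (W → Bool) ≃ (W ⊕ κ → Bool) where
  toFun p := Sum.elim p.2 p.1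
  invFun σ := (fun k => σ (Sum.inr k), fun a => σ (Sum.inl a))
  left_inv p := by simp
  right_inv σ := elim_surj σ

lemma sum_cfg (F : (W ⊕ κ → Bool) → ℝ) : ∑ σ, F σ = ∑ c : κ → Bool, ∑ w : W → Bool, F (Sum.elim w c) := by
  rw [← Equiv.sum_comp cfg, Fintype.sum_prod_type]
  rfl

lemma dot_cur (φ ψ : Q (W ⊕ κ)) : φ ⬝ᵥ ψ = ∑ c, Clock.ip (cur φ c) (cur ψ c) := by
  unfold dotProduct Clock.ip
  rw [sum_cfg]
  rfl

lemma nsq_cur (ψ : Q (W ⊕ κ)) : R338.nsq ψ = ∑ c, Clock.nsq (cur ψ c) := by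
  unfold R338.nsq
  rw [dot_cur]
  exact Finset.sum_congr rfl fun c _ => (Clock.nsq_eq_ip _).symm

end Curry

section HK

variable {W : Type} [DecidableEq W] [Fintype W] {T : ℕ}

/-- the clock Hamiltonian `H_K` as a Pauli operator. `con` is the set of constrained wires. -/
noncomputable def HKop (g : Fin T → EG W) (first last : Fin T) (out : W) (con : Finset W)
    (Jin Jprop Jclk : ℝ) : Op (W ⊕ Fin T) :=
  (1 - Nb (Sum.inl out)) * Nb (Sum.inr last)
  + Jin • ∑ a ∈ con, Nb (Sum.inl a) * (1 - Nb (Sum.inr first))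
  + Jprop • ((1 / 2 : ℝ) • (1 + Nb (Sum.inr first) - Nb (Sum.inr last))
      - (1 / 2 : ℝ) • ∑ t : Fin T, gOp Sum.inl (g t) * X (Sum.inr t))
  + Jclk • ∑ i : Fin T, ∑ j : Fin T, if (j : ℕ) = i + 1 then
      (1 - Nb (Sum.inr i)) * Nb (Sum.inr j) else 0

/-- rejection indicator -/
def rejF (out : W) : (W → Bool) → ℝ := fun w => if w out then 0 else 1

/-- number of violated constraints -/
def cntF (con : Finset W) : (W → Bool) → ℝ := fun w => ∑ a ∈ con, if w a then 1 else 0

theorem E_HKop (g : Fin T → EG W) (first last : Fin T) (out : W) (con : Finset W)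
    (Jin Jprop Jclk : ℝ) (ψ : Q (W ⊕ Fin T)) :
    E (HKop g first last out con Jin Jprop Jclk) ψ =
      Clock.HK first last (rejF out) (cntF con) (fun t => gOp id (g t)) Jin Jprop Jclk (cur ψ) := by
  unfold HKop Clock.HK
  rw [E_add, E_add, E_add, E_smul, E_smul, E_smul]
  congr 1
  · congr 1
    · congr 1
      · -- output
        unfold E
        rw [dot_cur]
        refine Finset.sum_congr rfl fun c _ => ?_
        unfold Clock.ip Clock.wsq rejF cur
        cases hc : c last
        · simp only [Bool.false_eq_true, if_false]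
          refine Finset.sum_eq_zero fun w _ => ?_
          simp [Module.End.mul_apply, Nb_apply, hc]
        · simp only [if_true]
          refine Finset.sum_congr rfl fun w _ => ?_
          cases hw : w out <;> simp [Module.End.mul_apply, Nb_apply, hc, hw, sq]
      · -- input
        congr 1
        rw [E_sum]
        have h1 : ∀ a ∈ con, E (Nb (Sum.inl a) * (1 - Nb (Sum.inr first))) ψ =
            ∑ c : Fin T → Bool, if c first = true then 0 else
              ∑ w : W → Bool, (if w a then (1 : ℝ) else 0) * cur ψ c w ^ 2 := by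
          intro a _
          unfold E
          rw [dot_cur]
          refine Finset.sum_congr rfl fun c _ => ?_
          unfold Clock.ip cur
          cases hc : c first
          · simp only [Bool.false_eq_true, if_false]
            refine Finset.sum_congr rfl fun w _ => ?_
            cases hw : w a <;> simp [Module.End.mul_apply, Nb_apply, hc, hw, sq]
          · simp only [if_true]
            refine Finset.sum_eq_zero fun w _ => ?_
            cases hw : w a <;> simp [Module.End.mul_apply, Nb_apply, hc, hw]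
        rw [Finset.sum_congr rfl h1, Finset.sum_comm]
        refine Finset.sum_congr rfl fun c _ => ?_
        by_cases hc : c first = true
        · simp [hc]
        · simp only [hc, Bool.false_eq_true, if_false]
          unfold Clock.wsq cntF
          rw [Finset.sum_comm]
          refine Finset.sum_congr rfl fun w _ => ?_
          rw [Finset.sum_mul]
    · -- propagation
      congr 1
      unfold Clock.hProp
      rw [E_sub, E_smul, E_smul]
      congr 1
      · rw [E_sub, E_add, E_one]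
        have h1 : ∀ k : Fin T, E (Nb (Sum.inr k)) ψ =
            ∑ c : Fin T → Bool, (if c k = true then (1 : ℝ) else 0) * Clock.nsq (cur ψ c) := by
          intro k
          unfold E
          rw [dot_cur]
          refine Finset.sum_congr rfl fun c _ => ?_
          unfold Clock.ip Clock.nsq cur
          rw [Finset.mul_sum]
          refine Finset.sum_congr rfl fun w _ => ?_
          cases hk : c k <;> simp [Nb_apply, hk, sq]
        rw [h1, h1, nsq_cur, ← Finset.sum_add_distrib, ← Finset.sum_sub_distrib, Finset.mul_sum]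
        refine Finset.sum_congr rfl fun c _ => ?_
        unfold Clock.wt
        ring
      · congr 1
        rw [E_sum]
        refine Finset.sum_congr rfl fun t _ => ?_
        unfold E
        rw [dot_cur]
        refine Finset.sum_congr rfl fun c _ => ?_
        rw [Module.End.mul_apply, cur_gOp, cur_X]
        rfl
  · -- clock
    congr 1
    rw [E_sum]
    have h1 : ∀ i : Fin T, E (∑ j : Fin T, if (j : ℕ) = i + 1 then
        (1 - Nb (Sum.inr i)) * Nb (Sum.inr j) else (0 : Op (W ⊕ Fin T))) ψ =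
        ∑ c : Fin T → Bool, (∑ j : Fin T, if (j : ℕ) = i + 1 ∧ c i = false ∧ c j = true
          then (1 : ℝ) else 0) * Clock.nsq (cur ψ c) := by
      intro i
      rw [E_sum]
      have h2 : ∀ j : Fin T, E (if (j : ℕ) = i + 1 then
          (1 - Nb (Sum.inr i)) * Nb (Sum.inr j) else (0 : Op (W ⊕ Fin T))) ψ =
          ∑ c : Fin T → Bool, (if (j : ℕ) = i + 1 ∧ c i = false ∧ c j = true
            then (1 : ℝ) else 0) * Clock.nsq (cur ψ c) := by
        intro j
        by_cases hj : (j : ℕ) = i + 1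
        · rw [if_pos hj]
          unfold E
          rw [dot_cur]
          refine Finset.sum_congr rfl fun c _ => ?_
          unfold Clock.ip Clock.nsq cur
          rw [Finset.mul_sum]
          refine Finset.sum_congr rfl fun w _ => ?_
          cases hi' : c i <;> cases hj' : c j <;>
            simp [Module.End.mul_apply, Nb_apply, hi', hj', hj, sq]
        · rw [if_neg hj, E_zero]
          symm
          refine Finset.sum_eq_zero fun c _ => ?_
          rw [if_neg (fun h => hj h.1), zero_mul]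
      rw [Finset.sum_congr rfl fun j _ => h2 j, Finset.sum_comm]
      refine Finset.sum_congr rfl fun c _ => ?_
      rw [Finset.sum_mul]
    rw [Finset.sum_congr rfl fun i _ => h1 i, Finset.sum_comm]
    refine Finset.sum_congr rfl fun c _ => ?_
    unfold Clock.viol
    rw [Finset.sum_mul]

/-- the word as a family of gates -/
def gfam (w : List (EG W)) : Fin w.length → EG W := fun t => w.get t

/-- running the word is `W_T` -/
lemma Wt_eq_run (w : List (EG W)) (χ : RVec W) :
    Clock.Wt (fun t : Fin w.length => (gOp id (gfam w t) : Op W)) w.length χ = run w χ := by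
  have key : ∀ n ≤ w.length,
      Clock.Wt (fun t : Fin w.length => (gOp id (gfam w t) : Op W)) n χ = run (w.take n) χ := by
    intro n
    induction n with
    | zero => intro _; simp [Clock.Wt, run]
    | succ n ih =>
      intro hn
      have hn' : n < w.length := by omega
      have h1 := Clock.Wt_succ (U := fun t : Fin w.length => (gOp id (gfam w t) : Op W)) ⟨n, hn'⟩ χ
      simp only at h1
      rw [h1, ih hn'.le, gOp_eq_act]
      unfold run
      rw [List.take_succ_eq_append_getElem hn', List.foldl_append]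
      rfl
  have := key w.length le_rfl
  rwa [List.take_length] at this

/-- the counts are `0` or `≥ 1` -/
lemma cntF_zero_or (con : Finset W) (w : W → Bool) : cntF con w = 0 ∨ 1 ≤ cntF con w := by
  unfold cntF
  by_cases h : ∃ a ∈ con, w a = true
  · obtain ⟨a, ha, hw⟩ := h
    right
    calc (1 : ℝ) = (if w a then (1 : ℝ) else 0) := by rw [hw]; rfl
      _ ≤ _ := Finset.single_le_sum (f := fun a => if w a then (1 : ℝ) else 0)
          (fun a _ => by split_ifs <;> norm_num) ha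
  · push Not at h
    left
    exact Finset.sum_eq_zero fun a ha => by simp [h a ha]

lemma cntF_ne_zero (con : Finset W) (w : W → Bool) :
    cntF con w ≠ 0 ↔ ∃ a ∈ con, w a = true := by
  constructor
  · intro h
    by_contra h'
    push Not at h'
    exact h (Finset.sum_eq_zero fun a ha => by simp [h' a ha])
  · rintro ⟨a, ha, hw⟩
    have : (1 : ℝ) ≤ cntF con w := by
      calc (1 : ℝ) = (if w a then (1 : ℝ) else 0) := by rw [hw]; rfl
        _ ≤ _ := Finset.single_le_sum (f := fun a => if w a then (1 : ℝ) else 0)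
            (fun a _ => by split_ifs <;> norm_num) ha
    linarith

lemma wsq_rejF (out : W) (χ : RVec W) : Clock.wsq (rejF out) χ = RC.wt out false χ := by
  unfold Clock.wsq rejF RC.wt
  refine Finset.sum_congr rfl fun w _ => ?_
  cases w out <;> simp

/-- the parameters of the clock Hamiltonian -/
structure Params (T : ℕ) (Jin Jprop Jclk : ℝ) : Prop where
  hin : 64 ≤ Jin
  hprop : 128 * (T : ℝ) ≤ Jprop
  hclk : 13 * Jprop ^ 2 * (T : ℝ) ^ 2 * (T + 1) + 1 ≤ Jclk

/-- the standard choice `J_in = 64`, `J_prop = 128 T`, `J_clk = 2^19 T^5` -/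
lemma params_std {T : ℕ} (hT : 1 ≤ T) : Params T 64 (128 * T) (524288 * (T : ℝ) ^ 5) where
  hin := le_rfl
  hprop := le_rfl
  hclk := by
    have h : (1 : ℝ) ≤ T := by exact_mod_cast hT
    have h4 : (1 : ℝ) ≤ (T : ℝ) ^ 4 := one_le_pow₀ h
    have h5 : (T : ℝ) ^ 4 ≤ (T : ℝ) ^ 5 := pow_le_pow_right₀ h (by norm_num)
    have e : 13 * (128 * (T : ℝ)) ^ 2 * (T : ℝ) ^ 2 * (T + 1) + 1 =
        212992 * (T : ℝ) ^ 5 + 212992 * (T : ℝ) ^ 4 + 1 := by ring
    rw [e]; linarith

variable {w : List (EG W)} {first last : Fin w.length} {out : W} {con : Finset W}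
  {Jin Jprop Jclk : ℝ}

/-- **Node I.2, YES side.** -/
theorem clock_yes (hf : (first : ℕ) = 0) (hl : (last : ℕ) + 1 = w.length)
    (hyes : ∃ χ : RVec W, RC.nsq χ = 1 ∧ (∀ σ, (∃ a ∈ con, σ a = true) → χ σ = 0) ∧
      RC.wt out false (run w χ) ≤ 1 / 3) :
    ∃ ψ : Q (W ⊕ Fin w.length), R338.nsq ψ = 1 ∧
      E (HKop (gfam w) first last out con Jin Jprop Jclk) ψ ≤ 1 / 3 / ((w.length : ℝ) + 1) := by
  obtain ⟨χ, hn, hv, hr⟩ := hyes
  obtain ⟨Ψ, h1, h2⟩ := Clock.HK_history (rej := rejF out) (cnt := cntF con) hf hl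
    (fun t => isGate_gOp (gfam w t)) Jin Jprop Jclk χ
    (fun σ hσ => hv σ ((cntF_ne_zero con σ).1 hσ))
  have hT : (0 : ℝ) < (w.length : ℝ) + 1 := by positivity
  rw [Wt_eq_run, wsq_rejF] at h2
  have hχ : Clock.nsq χ = 1 := hn
  rw [hχ, mul_one] at h1
  -- normalise
  set c : ℝ := (Real.sqrt ((w.length : ℝ) + 1))⁻¹ with hc
  have hc2 : c ^ 2 = 1 / ((w.length : ℝ) + 1) := by
    rw [hc, inv_pow, Real.sq_sqrt hT.le, one_div]
  refine ⟨c • unc Ψ, ?_, ?_⟩
  · rw [nsq_smul, nsq_cur, cur_unc, hc2]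
    have : ∑ c, Clock.nsq (Ψ c) = Clock.tsq Ψ := rfl
    rw [this, h1]; field_simp
  · rw [E_smul_vec, E_HKop, cur_unc, h2, hc2]
    calc 1 / ((w.length : ℝ) + 1) * RC.wt out false (run w χ)
        ≤ 1 / ((w.length : ℝ) + 1) * (1 / 3) := mul_le_mul_of_nonneg_left hr (by positivity)
      _ = 1 / 3 / ((w.length : ℝ) + 1) := by ring

/-- **Node I.2, NO side.** -/
theorem clock_no (hf : (first : ℕ) = 0) (hl : (last : ℕ) + 1 = w.length)
    (hJ : Params w.length Jin Jprop Jclk)
    (hno : ∀ χ : RVec W, RC.nsq χ = 1 → (∀ σ, (∃ a ∈ con, σ a = true) → χ σ = 0) →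
      2 / 3 ≤ RC.wt out false (run w χ))
    (ψ : Q (W ⊕ Fin w.length)) :
    7 / 12 / ((w.length : ℝ) + 1) * R338.nsq ψ ≤
      E (HKop (gfam w) first last out con Jin Jprop Jclk) ψ := by
  rw [E_HKop, nsq_cur]
  refine Clock.HK_ge hf hl (fun w => by unfold rejF; split_ifs <;> norm_num)
    (fun w => by unfold rejF; split_ifs <;> norm_num) (cntF_zero_or con)
    (fun t => isGate_gOp (gfam w t)) hJ.hin hJ.hprop hJ.hclk ?_ (cur ψ)
  intro χ hχ
  rw [Wt_eq_run, wsq_rejF]
  by_cases h0 : Clock.nsq χ = 0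
  · rw [h0, mul_zero]
    unfold RC.wt
    exact Finset.sum_nonneg fun σ _ => by split_ifs <;> positivity
  · have hpos : 0 < Clock.nsq χ := lt_of_le_of_ne (Clock.nsq_nonneg χ) (Ne.symm h0)
    set c : ℝ := (Real.sqrt (Clock.nsq χ))⁻¹ with hc
    have hc2 : c ^ 2 = (Clock.nsq χ)⁻¹ := by
      rw [hc, inv_pow, Real.sq_sqrt hpos.le]
    have hlin : run w (c • χ) = c • run w χ := by
      rw [← Wt_eq_run, ← Wt_eq_run]
      have key : ∀ n, Clock.Wt (fun t : Fin w.length => (gOp id (gfam w t) : Op W)) n (c • χ) =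
          c • Clock.Wt (fun t : Fin w.length => (gOp id (gfam w t) : Op W)) n χ := by
        intro n
        induction n with
        | zero => rfl
        | succ n ih =>
          unfold Clock.Wt
          by_cases h : n < w.length
          · rw [dif_pos h, dif_pos h, ih, map_smul]
          · rw [dif_neg h, dif_neg h, ih]
      exact key _
    have h1 := hno (c • χ) (by
      have : RC.nsq (c • χ) = c ^ 2 * Clock.nsq χ := by
        unfold RC.nsq Clock.nsq
        rw [Finset.mul_sum]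
        exact Finset.sum_congr rfl fun σ _ => by simp only [Pi.smul_apply, smul_eq_mul]; ring
      rw [this, hc2]; exact inv_mul_cancel₀ h0)
      (fun σ hσ => by
        have : χ σ = 0 := hχ σ ((cntF_ne_zero con σ).2 hσ)
        simp [this])
    rw [hlin] at h1
    have h2 : RC.wt out false (c • run w χ) = c ^ 2 * RC.wt out false (run w χ) := by
      unfold RC.wt
      rw [Finset.mul_sum]
      refine Finset.sum_congr rfl fun σ _ => ?_
      split_ifs
      · simp only [Pi.smul_apply, smul_eq_mul]; ring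
      · ring
    rw [h2, hc2, inv_mul_eq_div, le_div_iff₀ hpos] at h1
    exact h1

end HK

end Crest.Agent.R338.CK
private theorem rz_27124ec4a2 : type_of% @_root_.Crest.Agent.R338.CK.gOp.eq_1 := @_root_.Crest.Agent.R338.CK.gOp.eq_1 -- L31
end

-- ▼ part R338/I123
section

/-!
# Row 338: composition I.1 + I.2 + I.3: verifier circuit to XZ instance (exact real arrays)
(helper896)
-/

set_option autoImplicit false
set_option linter.unusedSectionVars false
set_option linter.unusedSimpArgs false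

namespace Crest.Agent.R338.PTab

open Crest.Agent.R338 RC Crest.Quantum.QMA

/-! ### parameters -/

/-- `J_prop = 128 T` -/
def JpN (T : ℕ) : ℕ := 128 * T
/-- `J_clk = 2^19 T^5` -/
def JkN (T : ℕ) : ℕ := 524288 * T ^ 5
/-- form bound of `H_K` -/
def LamN (M T : ℕ) : ℕ := 1 + 64 * M + 128 * T + 524288 * T ^ 5 * T ^ 2 + 64 * T * T
/-- the mediator scale -/
def delN (M T : ℕ) : ℕ :=
  32 * LamN M T + 2 * T * (T + 1) * (128 * T) ^ 2 + 1552 * T * (T + 1)

/-! ### form bound of `H_K` -/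

section bound

variable {ι : Type} [DecidableEq ι] [Fintype ι]

theorem FB_mul_invol' {A B : Op ι} (hA : Sym A) (hB : Sym B) (hA2 : A * A = 1) (hB2 : B * B = 1)
    (hc : Commute A B) : FB (A * B) 1 := by
  refine FB_invol (hA.mul hB hc) ?_
  rw [mul_assoc, ← mul_assoc B A B, ← hc.eq, mul_assoc A B B, hB2, mul_one, hA2]

theorem comm_gop_X {W : Type} (f : W → ι) (g : EG W) (x : ι) (hx : ∀ a, x ≠ f a) :
    Commute (gop f g) (X x) := by
  have hZ : ∀ a, Commute (Z (f a)) (X x) := fun a => (X_Z_comm (hx a)).symm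
  cases g with
  | rot k a =>
    exact ((hZ a).smul_left _).add_left ((X_comm _ _).smul_left _)
  | cz a b =>
    exact ((((Commute.one_left _).add_left (hZ a)).add_left (hZ b)).sub_left
      ((hZ a).mul_left (hZ b))).smul_left _

theorem rej_mem (d : CD) (x : Fin d.M → Bool) : 0 ≤ d.rej x ∧ d.rej x ≤ 1 := by
  unfold CD.rej; split_ifs <;> norm_num

theorem cnt_mem (d : CD) (x : Fin d.M → Bool) : 0 ≤ d.cnt x ∧ d.cnt x ≤ d.M := by
  unfold CD.cnt
  constructor
  · exact Finset.sum_nonneg fun a _ => by split_ifs <;> norm_num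
  · calc (∑ a : Fin d.M, if d.con a = true then (if x a = true then (1 : ℝ) else 0) else 0)
        ≤ ∑ _a : Fin d.M, (1 : ℝ) := Finset.sum_le_sum fun a _ => by split_ifs <;> norm_num
      _ = d.M := by simp

theorem viol_le {T : ℕ} (y : Fin T → Bool) : Clock.viol y ≤ (T : ℝ) ^ 2 := by
  unfold Clock.viol
  calc (∑ i : Fin T, ∑ j : Fin T,
        if (j : ℕ) = i + 1 ∧ y i = false ∧ y j = true then (1 : ℝ) else 0)
      ≤ ∑ _i : Fin T, ∑ _j : Fin T, (1 : ℝ) :=
        Finset.sum_le_sum fun i _ => Finset.sum_le_sum fun j _ => by split_ifs <;> norm_num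
    _ = (T : ℝ) ^ 2 := by simp [sq]

theorem abs_hd_le (d : CD) {Jin Jp Jk : ℝ} (h1 : 0 ≤ Jin) (h2 : 0 ≤ Jp) (h3 : 0 ≤ Jk)
    (first last : Fin d.T) (x : Fin d.M → Bool) (y : Fin d.T → Bool) :
    |hd d Jin Jp Jk first last x y| ≤ 1 + Jin * d.M + Jp + Jk * (d.T : ℝ) ^ 2 := by
  have a1 := rej_mem d x
  have a2 := cnt_mem d x
  have a3 := Clock.wt_nonneg first last y
  have a4 : Clock.wt first last y ≤ 1 := by unfold Clock.wt; split_ifs <;> norm_num
  have a5 := Clock.viol_nonneg y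
  have a6 := viol_le y
  have b1 : 0 ≤ (if y last then d.rej x else 0) ∧ (if y last then d.rej x else 0) ≤ 1 := by
    split_ifs
    · exact a1
    · norm_num
  have b2 : 0 ≤ (if y first then 0 else d.cnt x) ∧ (if y first then 0 else d.cnt x) ≤ d.M := by
    split_ifs
    · exact ⟨le_rfl, Nat.cast_nonneg _⟩
    · exact a2
  have c1 : 0 ≤ Jin * (if y first then 0 else d.cnt x) := mul_nonneg h1 b2.1
  have c2 : Jin * (if y first then 0 else d.cnt x) ≤ Jin * d.M := mul_le_mul_of_nonneg_left b2.2 h1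
  have c3 : 0 ≤ Jp * Clock.wt first last y := mul_nonneg h2 a3
  have c4 : Jp * Clock.wt first last y ≤ Jp * 1 := mul_le_mul_of_nonneg_left a4 h2
  have c5 : 0 ≤ Jk * Clock.viol y := mul_nonneg h3 a5
  have c6 : Jk * Clock.viol y ≤ Jk * (d.T : ℝ) ^ 2 := mul_le_mul_of_nonneg_left a6 h3
  unfold hd
  rw [abs_le]
  constructor
  · linarith [b1.1]
  · linarith [b1.2]

theorem FB_HK (d : CD) (hT : 1 ≤ d.T) {Jin Jp Jk : ℝ} (h1 : 0 ≤ Jin) (h2 : 0 ≤ Jp) (h3 : 0 ≤ Jk)
    (w : Fin d.M → ι) (c : Fin d.T → ι) (hwc : ∀ a t, c t ≠ w a) :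
    FB (d.HK w c Jin Jp Jk) (1 + Jin * d.M + Jp + Jk * (d.T : ℝ) ^ 2 + Jp / 2 * d.T) := by
  unfold CD.HK
  refine FB.sub ?_ ?_
  · intro ψ
    let first : Fin d.T := ⟨0, by omega⟩
    let last : Fin d.T := ⟨d.T - 1, by omega⟩
    have hf : (first : ℕ) = 0 := rfl
    have hl : (last : ℕ) + 1 = d.T := by change d.T - 1 + 1 = d.T; omega
    have e : E (d.Hdiag w c Jin Jp Jk) ψ =
        ∑ σ, hd d Jin Jp Jk first last (σ ∘ w) (σ ∘ c) * ψ σ ^ 2 := by
      unfold E
      simp only [dotProduct]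
      refine Finset.sum_congr rfl fun σ _ => ?_
      rw [Hdiag_apply d w c Jin Jp Jk first last hf hl]; ring
    rw [e, nsq_eq_sum, Finset.mul_sum]
    refine (Finset.abs_sum_le_sum_abs _ _).trans (Finset.sum_le_sum fun σ _ => ?_)
    rw [abs_mul, abs_of_nonneg (sq_nonneg (ψ σ))]
    exact mul_le_mul_of_nonneg_right (abs_hd_le d h1 h2 h3 first last _ _) (sq_nonneg _)
  · have h := FB.smul (Jp / 2) (FB.sum (s := Finset.univ) (A := fun t : Fin d.T =>
      gop w (d.g t) * X (c t)) (a := fun _ => (1 : ℝ)) (fun t _ =>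
        FB_mul_invol' (gop_sym w (d.g t)) (sym_X (c t)) (gop_mul_self w (d.g t)) (X_mul_self (c t))
          (comm_gop_X w (d.g t) (c t) (fun a => hwc a t))))
    refine h.mono ?_
    rw [abs_of_nonneg (by linarith)]
    simp

end bound

/-! ### the reindexed form -/

section reindex

variable (d : CD) (Jin Jp Jk δ : ℝ)

/-- the XZ operator of `d` -/
noncomputable def CD.xz : Op (Fin (d.M + d.T + d.T)) :=
  XZop (d.nd.fx Jp δ) (d.nd.fz Jin Jp Jk δ) d.nd.ax d.nd.az (d.nd.bx Jp δ) (d.nd.bz Jin Jp Jk δ)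

theorem E_xz (hd : d.Ok) (Ψ : Q ((Fin d.M ⊕ Fin d.T) ⊕ Fin d.T)) :
    E (d.xz Jin Jp Jk δ) (reQ (lay d.M d.T) Ψ) =
      E (Med.H2 (d.HL Sum.inl Sum.inr Jin Jp Jk) d.term (d.cc Jp) δ) Ψ
        - d.nd.c0 Jin Jp Jk δ * R338.nsq Ψ := by
  have h1 := E_reA (lay d.M d.T)
    (Med.H2 (d.HL Sum.inl Sum.inr Jin Jp Jk) d.term (d.cc Jp) δ) Ψ
  rw [CD.H2_eq, H2_emb (reA_emb (lay d.M d.T))] at h1
  have e1 : (⇑(lay d.M d.T) ∘ Sum.inl ∘ Sum.inl : Fin d.M → _) = iw d.M d.T := rfl
  have e2 : (⇑(lay d.M d.T) ∘ Sum.inl ∘ Sum.inr : Fin d.T → _) = ic d.M d.T := rfl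
  have e3 : (⇑(lay d.M d.T) ∘ Sum.inr : Fin d.T → _) = im d.M d.T := rfl
  rw [e1, e2, e3, H2_eq_XZ d Jin Jp Jk δ hd, E_add, E_smul, E_one, nsq_reQ] at h1
  rw [CD.H2_eq, ← h1]
  unfold CD.xz
  ring

/-- YES side of the mediator step, reindexed -/
theorem xz_upper (hd : d.Ok) {Jin Jp Jk δ Λ e : ℝ} (hδ : 0 < δ) (hJp : 0 ≤ Jp) (hJδ : Jp / 4 ≤ δ)
    (hΛ : FB (d.HK Sum.inl Sum.inr Jin Jp Jk) Λ) {ψ : Q (Fin d.M ⊕ Fin d.T)}
    (hψ : R338.nsq ψ = 1) (h : E (d.HK Sum.inl Sum.inr Jin Jp Jk) ψ ≤ e) :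
    ∃ φ : Q (Fin (d.M + d.T + d.T)), R338.nsq φ = 1 ∧
      E (d.xz Jin Jp Jk δ) φ ≤
        e + d.T * (32 * Λ / δ ^ 2 + 96 / δ) - d.nd.c0 Jin Jp Jk δ := by
  rw [CD.HK_eq_H3] at hΛ h
  have hc0 : ∀ t, 0 ≤ d.cc Jp t := fun t => by
    unfold CD.cc; split_ifs
    · linarith
    · exact le_rfl
  have hcδ : ∀ t, d.cc Jp t ≤ δ := fun t => by
    unfold CD.cc; split_ifs
    · exact hJδ
    · exact hδ.le
  have hk : ∀ s t, (d.term s).k ≠ (d.term t).a ∧ (d.term s).k ≠ (d.term t).b := by
    intro s t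
    unfold CD.term
    cases d.g s <;> cases d.g t <;> simp
  obtain ⟨Ψ, h1, h2⟩ := Med.med_upper hδ hc0 hcδ hk hΛ hψ h
  refine ⟨reQ (lay d.M d.T) Ψ, by rw [nsq_reQ, h1], ?_⟩
  rw [E_xz d Jin Jp Jk δ hd, h1, mul_one]
  rw [Fintype.card_fin] at h2
  linarith

/-- NO side of the mediator step, reindexed -/
theorem xz_lower (hd : d.Ok) {Jin Jp Jk δ μ : ℝ} (hδ : 0 < δ) (hJp : 0 ≤ Jp) (hJδ : Jp / 4 ≤ δ)
    (h : ∀ ψ, μ * R338.nsq ψ ≤ E (d.HK Sum.inl Sum.inr Jin Jp Jk) ψ)
    (φ : Q (Fin (d.M + d.T + d.T))) :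
    (μ - d.T * Jp ^ 2 / (8 * δ) - d.nd.c0 Jin Jp Jk δ) * R338.nsq φ ≤ E (d.xz Jin Jp Jk δ) φ := by
  rw [CD.HK_eq_H3] at h
  have hc0 : ∀ t, 0 ≤ d.cc Jp t := fun t => by
    unfold CD.cc; split_ifs
    · linarith
    · exact le_rfl
  have hcδ : ∀ t, d.cc Jp t ≤ δ := fun t => by
    unfold CD.cc; split_ifs
    · exact hJδ
    · exact hδ.le
  obtain ⟨Ψ, rfl⟩ := (reQ (lay d.M d.T)).surjective φ
  have h2 := Med.med_lower hδ hc0 hcδ h Ψ
  rw [E_xz d Jin Jp Jk δ hd, nsq_reQ]
  have h3 : ∑ t, d.cc Jp t ^ 2 ≤ d.T * (Jp / 4) ^ 2 := by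
    calc ∑ t, d.cc Jp t ^ 2 ≤ ∑ _t : Fin d.T, (Jp / 4) ^ 2 := Finset.sum_le_sum fun t _ => by
          unfold CD.cc; split_ifs
          · exact le_rfl
          · rw [zero_pow two_ne_zero]; positivity
      _ = d.T * (Jp / 4) ^ 2 := by simp
  have h4 : 2 * (∑ t, d.cc Jp t ^ 2) / δ ≤ d.T * Jp ^ 2 / (8 * δ) := by
    have : d.T * Jp ^ 2 / (8 * δ) = 2 * (d.T * (Jp / 4) ^ 2) / δ := by
      field_simp; ring
    rw [this]
    gcongr
  have h5 : (2 * (∑ t, d.cc Jp t ^ 2) / δ) * R338.nsq Ψ ≤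
      (d.T * Jp ^ 2 / (8 * δ)) * R338.nsq Ψ :=
    mul_le_mul_of_nonneg_right h4 (nsq_nonneg Ψ)
  linarith

end reindex

/-! ### the clock data of a verifier -/

/-- clock data of a verifier -/
def cdV (V : VCirc) : CD where
  M := VM V
  T := (word V).length
  g t := (word V).get t
  con a := decide (IsCon V a)
  out := outW V
  D := dumW V

theorem get_first' {α : Type} {l inner : List α} {x : α} (h : l = x :: (inner ++ [x])) (i : ℕ)
    (hi : i < l.length) (h0 : i = 0) : l.get ⟨i, hi⟩ = x := by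
  subst h; subst h0; rfl

theorem get_last' {α : Type} {l inner : List α} {x : α} (h : l = x :: (inner ++ [x])) (i : ℕ)
    (hi : i < l.length) (h0 : i + 1 = l.length) : l.get ⟨i, hi⟩ = x := by
  subst h
  have ht : i = inner.length + 1 := by simp at h0; omega
  subst ht
  simp

theorem cdV_ok (V : VCirc) : (cdV V).Ok where
  hT := two_le_length_word V
  wf t := word_WF V _ (List.get_mem _ _)
  first t ht := by
    obtain ⟨inner, h, _⟩ := word_shape V
    exact get_first' h t t.2 ht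
  last t ht := by
    obtain ⟨inner, h, _⟩ := word_shape V
    exact get_last' h t t.2 ht
  conD := by
    change decide (IsCon V (dumW V)) = false
    exact decide_eq_false (not_isCon_dumW V)
  outD := (dumW_ne_outW V).symm

/-- numerical data of a verifier -/
def ndV (V : VCirc) : ND where
  M := VM V
  T := (wordN V).length
  kd t := ((wordN V).getD t (0, 0, 0)).1
  ga t := ((wordN V).getD t (0, 0, 0)).2.1
  gb t := ((wordN V).getD t (0, 0, 0)).2.2
  con a := decide (a ∈ conN V)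
  nc := (conN V).length
  out := outW V

theorem length_wordN (V : VCirc) : (wordN V).length = (word V).length := by
  unfold wordN; simp

theorem wordN_getD (V : VCirc) (t : ℕ) : (wordN V).getD t (0, 0, 0) =
    if h : t < (word V).length then gnum ((word V).get ⟨t, h⟩) else (0, 0, 0) := by
  by_cases h : t < (word V).length
  · rw [dif_pos h, List.getD_eq_getElem _ _ (by rw [length_wordN]; exact h)]
    unfold wordN gnum
    simp
  · rw [dif_neg h, List.getD_eq_default]
    rw [length_wordN]; omega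

theorem nd_eq (V : VCirc) : (cdV V).nd = ndV V := by
  have h1 : (fun t => if h : t < (cdV V).T then (gnum ((cdV V).g ⟨t, h⟩)).1 else 0) =
      fun t => ((wordN V).getD t (0, 0, 0)).1 := by
    funext t
    rw [wordN_getD]
    by_cases h : t < (word V).length
    · rw [dif_pos h, dif_pos (show t < (cdV V).T from h)]; rfl
    · rw [dif_neg h, dif_neg (show ¬ t < (cdV V).T from h)]
  have h2 : (fun t => if h : t < (cdV V).T then (gnum ((cdV V).g ⟨t, h⟩)).2.1 else 0) =
      fun t => ((wordN V).getD t (0, 0, 0)).2.1 := by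
    funext t
    rw [wordN_getD]
    by_cases h : t < (word V).length
    · rw [dif_pos h, dif_pos (show t < (cdV V).T from h)]; rfl
    · rw [dif_neg h, dif_neg (show ¬ t < (cdV V).T from h)]
  have h3 : (fun t => if h : t < (cdV V).T then (gnum ((cdV V).g ⟨t, h⟩)).2.2 else 0) =
      fun t => ((wordN V).getD t (0, 0, 0)).2.2 := by
    funext t
    rw [wordN_getD]
    by_cases h : t < (word V).length
    · rw [dif_pos h, dif_pos (show t < (cdV V).T from h)]; rfl
    · rw [dif_neg h, dif_neg (show ¬ t < (cdV V).T from h)]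
  have h4 : (fun a => if h : a < (cdV V).M then (cdV V).con ⟨a, h⟩ else false) =
      fun a => decide (a ∈ conN V) := by
    funext a
    by_cases h : a < VM V
    · rw [dif_pos (show a < (cdV V).M from h)]
      change decide (IsCon V ⟨a, h⟩) = _
      rw [decide_eq_decide, mem_conN]
      exact ⟨fun h' => ⟨h, h'⟩, fun ⟨_, h'⟩ => h'⟩
    · rw [dif_neg (show ¬ a < (cdV V).M from h)]
      symm
      rw [decide_eq_false_iff_not, mem_conN]
      rintro ⟨h', _⟩
      exact h h'
  have h5 : (Finset.univ.filter fun a => (cdV V).con a = true).card = (conN V).length := by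
    rw [← List.toFinset_card_of_nodup (nodup_conN V)]
    refine Finset.card_bij (fun a _ => (a : ℕ)) ?_ ?_ ?_
    · intro a ha
      rw [List.mem_toFinset, mem_conN]
      refine ⟨a.2, ?_⟩
      have := (Finset.mem_filter.1 ha).2
      exact of_decide_eq_true this
    · intro a _ b _ h
      exact Fin.ext h
    · intro b hb
      rw [List.mem_toFinset, mem_conN] at hb
      obtain ⟨h, h'⟩ := hb
      have h'' : decide (IsCon V (⟨b, h⟩ : Fin (VM V))) = true := decide_eq_true h'
      exact ⟨⟨b, h⟩, Finset.mem_filter.2 ⟨Finset.mem_univ _, h''⟩, rfl⟩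
  have h6 : (cdV V).T = (wordN V).length := (length_wordN V).symm
  unfold CD.nd ndV
  rw [h1, h2, h3, h4, h5, h6]
  rfl

end Crest.Agent.R338.PTab
end

-- ▼ part R338/I123b
section

/-!
# Row 338: composition I.1 + I.2 + I.3: the theorem, and bounds of the arrays (helper896)
-/

set_option autoImplicit false
set_option linter.unusedSectionVars false
set_option linter.unusedSimpArgs false

namespace Crest.Agent.R338.PTab

open Crest.Agent.R338 RC Crest.Quantum.QMA Crest.Quantum.GateCircuit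

/-! ### `H_K` in the form of `ClockOp` -/

theorem gop_eq_gOp {W : Type} [DecidableEq W] (g : EG W) : gop id g = (CK.gOp id g : Op W) := by
  cases g <;> rfl

/-- the constrained wires -/
def conS (V : VCirc) : Finset (Fin (VM V)) := Finset.univ.filter fun a => IsCon V a

theorem cnt_eq_aux (V : VCirc) (w : Fin (VM V) → Bool) :
    (∑ a : Fin (VM V), if decide (IsCon V a) = true then (if w a = true then (1 : ℝ) else 0) else 0)
      = ∑ a ∈ conS V, if w a = true then (1 : ℝ) else 0 := by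
  unfold conS
  rw [Finset.sum_filter]
  refine Finset.sum_congr rfl fun a _ => ?_
  by_cases h : IsCon V a
  · rw [if_pos h, if_pos (decide_eq_true h)]
  · rw [if_neg h, if_neg (by rw [decide_eq_false h]; decide)]

theorem cnt_eq (V : VCirc) : (cdV V).cnt = CK.cntF (conS V) := by
  funext w
  exact cnt_eq_aux V w

theorem E_HK_CK (V : VCirc) (Jin Jp Jk : ℝ) (first last : Fin (word V).length)
    (hf : (first : ℕ) = 0) (hl : (last : ℕ) + 1 = (word V).length)
    (ψ : Q (Fin (VM V) ⊕ Fin (word V).length)) :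
    E ((cdV V).HK Sum.inl Sum.inr Jin Jp Jk) ψ =
      E (CK.HKop (CK.gfam (word V)) first last (outW V) (conS V) Jin Jp Jk) ψ := by
  rw [E_HK_eq (cdV V) Jin Jp Jk first last hf hl ψ, CK.E_HKop]
  have h1 : (cdV V).rej = CK.rejF (outW V) := rfl
  have h3 : (cdV V).U = fun t => (CK.gOp id (CK.gfam (word V) t) : Op (Fin (VM V))) := by
    funext t
    exact gop_eq_gOp _
  rw [h1, cnt_eq, h3]
  rfl

/-! ### the XZ instance of a verifier -/

/-- number of sites -/
def nV (V : VCirc) : ℕ := VM V + (word V).length + (word V).length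

/-- `J_prop` -/
def JpV (V : VCirc) : ℕ := JpN (word V).length
/-- `J_clk` -/
def JkV (V : VCirc) : ℕ := JkN (word V).length
/-- mediator scale -/
def delV (V : VCirc) : ℕ := delN (VM V) (word V).length

/-- arrays -/
noncomputable def fxV (V : VCirc) : ℕ → ℝ := (ndV V).fx (JpV V) (delV V)
/-- arrays -/
noncomputable def fzV (V : VCirc) : ℕ → ℝ := (ndV V).fz 64 (JpV V) (JkV V) (delV V)
/-- arrays -/
noncomputable def axV (V : VCirc) : ℕ → ℕ → ℝ := (ndV V).ax
/-- arrays -/
noncomputable def azV (V : VCirc) : ℕ → ℕ → ℝ := (ndV V).az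
/-- arrays -/
noncomputable def bxV (V : VCirc) : ℕ → ℕ → ℝ := (ndV V).bx (JpV V) (delV V)
/-- arrays -/
noncomputable def bzV (V : VCirc) : ℕ → ℕ → ℝ := (ndV V).bz 64 (JpV V) (JkV V) (delV V)
/-- the constant -/
noncomputable def c0V (V : VCirc) : ℝ := (ndV V).c0 64 (JpV V) (JkV V) (delV V)

/-- the XZ operator of a verifier -/
noncomputable def opV (V : VCirc) : Op (Fin (nV V)) :=
  XZop (fxV V) (fzV V) (axV V) (azV V) (bxV V) (bzV V)

/-- threshold -/
noncomputable def loV (V : VCirc) : ℝ := 19 / 48 / (((word V).length : ℝ) + 1) - c0V V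

theorem opV_eq (V : VCirc) : (cdV V).xz 64 (JpV V) (JkV V) (delV V) = opV V := by
  unfold CD.xz opV fxV fzV axV azV bxV bzV
  rw [nd_eq]
  rfl

theorem num_le {M T : ℕ} (hT : 1 ≤ T) :
    (0 : ℝ) < delN M T ∧ (0 : ℝ) ≤ LamN M T ∧ (JpN T : ℝ) / 4 ≤ delN M T ∧
      (T : ℝ) * (32 * LamN M T / (delN M T : ℝ) ^ 2 + 96 / delN M T) ≤ 1 / 16 / ((T : ℝ) + 1) ∧
      (T : ℝ) * (JpN T : ℝ) ^ 2 / (8 * delN M T) ≤ 1 / 16 / ((T : ℝ) + 1) := by
  have hT1 : (1 : ℝ) ≤ T := by exact_mod_cast hT
  have hJp : ((JpN T : ℕ) : ℝ) = 128 * T := by unfold JpN; push_cast; ring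
  have hδ : ((delN M T : ℕ) : ℝ) = 32 * LamN M T + 2 * T * (T + 1) * (128 * (T : ℝ)) ^ 2
      + 1552 * T * (T + 1) := by unfold delN; push_cast; ring
  have hΛ0 : (0 : ℝ) ≤ LamN M T := Nat.cast_nonneg _
  generalize ((LamN M T : ℕ) : ℝ) = Λ at *
  generalize ((delN M T : ℕ) : ℝ) = δ at *
  have h1 : 0 ≤ 2 * (T : ℝ) * (T + 1) * (128 * (T : ℝ)) ^ 2 := by positivity
  have h2 : 3104 ≤ 1552 * (T : ℝ) * (T + 1) := by nlinarith
  have hδ0 : 0 < δ := by linarith
  have hδ1 : 32 * Λ ≤ δ := by linarith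
  have hδ2 : 1552 * (T : ℝ) * (T + 1) ≤ δ := by linarith
  have hδ3 : 2 * (T : ℝ) * (T + 1) * (128 * (T : ℝ)) ^ 2 ≤ δ := by linarith
  refine ⟨hδ0, hΛ0, ?_, ?_, ?_⟩
  · rw [hJp]; nlinarith
  · have a1 : 32 * Λ / δ ^ 2 ≤ 1 / δ := by
      rw [div_le_div_iff₀ (by positivity) hδ0]
      nlinarith
    have a2 : 32 * Λ / δ ^ 2 + 96 / δ ≤ 97 / δ := by
      have : (97 : ℝ) / δ = 1 / δ + 96 / δ := by ring
      linarith
    have a3 : (T : ℝ) * (32 * Λ / δ ^ 2 + 96 / δ) ≤ T * (97 / δ) :=
      mul_le_mul_of_nonneg_left a2 (by linarith)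
    refine a3.trans ?_
    rw [div_div, ← mul_div_assoc, div_le_div_iff₀ hδ0 (by positivity)]
    nlinarith
  · rw [hJp, div_div, div_le_div_iff₀ (by positivity) (by positivity)]
    nlinarith

/-- **YES side** of I.1 + I.2 + I.3 -/
theorem xz_yes (V : VCirc) (h : V.WellFormed)
    (hy : ∃ ψ : QVec V.w, IsWitness ψ ∧ 2 / 3 ≤ acceptProb V h.1 ψ) :
    ∃ φ : Q (Fin (nV V)), R338.nsq φ = 1 ∧ E (opV V) φ ≤ loV V := by
  obtain ⟨χ, h1, h2, h3⟩ := yesSpec V h hy
  have hT := two_le_length_word V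
  have hT1 : 1 ≤ (word V).length := by omega
  let first : Fin (word V).length := ⟨0, by omega⟩
  let last : Fin (word V).length := ⟨(word V).length - 1, by omega⟩
  have hf : (first : ℕ) = 0 := rfl
  have hl : (last : ℕ) + 1 = (word V).length := by
    change (word V).length - 1 + 1 = (word V).length; omega
  obtain ⟨ψ, g1, g2⟩ := CK.clock_yes (w := word V) (first := first) (last := last)
    (out := outW V) (con := conS V) (Jin := 64)
    (Jprop := JpV V) (Jclk := JkV V) hf hl
    ⟨χ, h1, fun σ ⟨a, ha, hs⟩ => h2 σ ⟨a, (Finset.mem_filter.1 ha).2, hs⟩, h3⟩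
  rw [← E_HK_CK V 64 (JpV V) (JkV V) first last hf hl ψ] at g2
  obtain ⟨n1, n2, n3, n4, n5⟩ := num_le (M := VM V) hT1
  have hΛ := FB_HK (cdV V) hT1 (Jin := 64) (Jp := JpV V) (Jk := JkV V) (by norm_num)
    (Nat.cast_nonneg _) (Nat.cast_nonneg _) (Sum.inl : Fin (VM V) → Fin (VM V) ⊕ Fin (word V).length)
    (Sum.inr : Fin (word V).length → Fin (VM V) ⊕ Fin (word V).length) (fun a t => by simp)
  have hΛ' : FB ((cdV V).HK Sum.inl Sum.inr 64 (JpV V) (JkV V)) (LamN (VM V) (word V).length) := by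
    refine hΛ.mono (le_of_eq ?_)
    have e1 : ((cdV V).M : ℝ) = VM V := rfl
    have e2 : ((cdV V).T : ℝ) = (word V).length := rfl
    rw [e1, e2]
    unfold JpV JkV JpN JkN LamN
    push_cast
    ring
  obtain ⟨φ, k1, k2⟩ := xz_upper (cdV V) (cdV_ok V) (Jin := 64) (Jp := JpV V) (Jk := JkV V)
    (δ := delV V) n1 (Nat.cast_nonneg _) n3 hΛ' g1 g2
  rw [opV_eq] at k2
  refine ⟨φ, k1, k2.trans ?_⟩
  unfold loV c0V
  rw [nd_eq]
  have e2 : ((cdV V).T : ℝ) = (word V).length := rfl
  rw [e2]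
  have e3 : ((word V).length : ℝ) * (32 * (LamN (VM V) (word V).length : ℝ) / (delV V : ℝ) ^ 2
      + 96 / (delV V : ℝ)) ≤ 1 / 16 / (((word V).length : ℝ) + 1) := n4
  have e4 : (1 : ℝ) / 3 / (((word V).length : ℝ) + 1) + 1 / 16 / (((word V).length : ℝ) + 1) =
      19 / 48 / (((word V).length : ℝ) + 1) := by ring
  linarith

/-- **NO side** of I.1 + I.2 + I.3 -/
theorem xz_no (V : VCirc) (h : V.WellFormed)
    (hn : ∀ ψ : QVec V.w, IsWitness ψ → acceptProb V h.1 ψ ≤ 1 / 3) (φ : Q (Fin (nV V))) :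
    (loV V + 1 / (8 * (((word V).length : ℝ) + 1))) * R338.nsq φ ≤ E (opV V) φ := by
  have h1 := noSpec V h hn
  have hT := two_le_length_word V
  have hT1 : 1 ≤ (word V).length := by omega
  let first : Fin (word V).length := ⟨0, by omega⟩
  let last : Fin (word V).length := ⟨(word V).length - 1, by omega⟩
  have hf : (first : ℕ) = 0 := rfl
  have hl : (last : ℕ) + 1 = (word V).length := by
    change (word V).length - 1 + 1 = (word V).length; omega
  have hpar : CK.Params (word V).length 64 (JpV V) (JkV V) := by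
    have := CK.params_std hT1
    unfold JpV JkV JpN JkN
    push_cast
    exact this
  have g := CK.clock_no (w := word V) (first := first) (last := last)
    (out := outW V) (con := conS V) (Jin := 64)
    (Jprop := JpV V) (Jclk := JkV V) hf hl hpar
    (fun χ c1 c2 => h1 χ c1 (fun σ ⟨a, ha, hs⟩ =>
      c2 σ ⟨a, Finset.mem_filter.2 ⟨Finset.mem_univ _, ha⟩, hs⟩))
  obtain ⟨n1, n2, n3, n4, n5⟩ := num_le (M := VM V) hT1
  have g' : ∀ ψ, 7 / 12 / (((word V).length : ℝ) + 1) * R338.nsq ψ ≤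
      E ((cdV V).HK Sum.inl Sum.inr 64 (JpV V) (JkV V)) ψ := by
    intro ψ
    exact (g ψ).trans (le_of_eq (E_HK_CK V 64 (JpV V) (JkV V) first last hf hl ψ).symm)
  have k := xz_lower (cdV V) (cdV_ok V) (Jin := 64) (Jp := JpV V) (Jk := JkV V)
    (δ := delV V) n1 (Nat.cast_nonneg _) n3 g' φ
  rw [opV_eq] at k
  refine le_trans (mul_le_mul_of_nonneg_right ?_ (nsq_nonneg φ)) k
  unfold loV c0V
  rw [nd_eq]
  have e2 : ((cdV V).T : ℝ) = (word V).length := rfl
  rw [e2]
  have e3 : ((word V).length : ℝ) * (JpV V : ℝ) ^ 2 / (8 * (delV V : ℝ)) ≤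
      1 / 16 / (((word V).length : ℝ) + 1) := n5
  have e4 : (19 : ℝ) / 48 / (((word V).length : ℝ) + 1) + 1 / (8 * (((word V).length : ℝ) + 1)) =
      7 / 12 / (((word V).length : ℝ) + 1) - 1 / 16 / (((word V).length : ℝ) + 1) := by
    have : ((word V).length : ℝ) + 1 ≠ 0 := by positivity
    field_simp
    ring
  linarith

/-! ### bounds of the arrays -/

section bounds

variable (N : ND) {Jin Jp Jk δ : ℝ}

/-- common bound -/
noncomputable def ND.B (Jin Jp Jk δ : ℝ) : ℝ :=
  1 + Jin * (N.nc + 1) + Jp + Jk + δ ^ 3 + Jp * δ ^ 2 + 2 * δ ^ 2 + 2 * δ * N.T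

theorem abs_fx_le (h1 : 0 ≤ Jin) (h2 : 0 ≤ Jp) (h3 : 0 ≤ Jk) (h4 : 0 ≤ δ) (p : ℕ) :
    |N.fx Jp δ p| ≤ N.B Jin Jp Jk δ := by
  have e1 : 0 ≤ Jin * ((N.nc : ℝ) + 1) := by positivity
  have e2 : 0 ≤ δ ^ 3 := by positivity
  have e3 : 0 ≤ Jp * δ ^ 2 := by positivity
  have e4 : 0 ≤ δ ^ 2 := by positivity
  have e5 : 0 ≤ 2 * δ * (N.T : ℝ) := by positivity
  unfold ND.fx ND.B
  split_ifs
  · rw [abs_neg, abs_of_nonneg (by positivity)]; linarith
  · rw [abs_zero]; linarith

theorem abs_fz_le (h1 : 0 ≤ Jin) (h2 : 0 ≤ Jp) (h3 : 0 ≤ Jk) (h4 : 0 ≤ δ) (p : ℕ) :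
    |N.fz Jin Jp Jk δ p| ≤ N.B Jin Jp Jk δ := by
  have e1 : 0 ≤ Jin * (N.nc : ℝ) := by positivity
  have e1' : Jin * ((N.nc : ℝ) + 1) = Jin * N.nc + Jin := by ring
  have e2 : 0 ≤ δ ^ 3 := by positivity
  have e3 : 0 ≤ Jp * δ ^ 2 := by positivity
  have e4 : 0 ≤ δ ^ 2 := by positivity
  have e5 : 0 ≤ 2 * δ * (N.T : ℝ) := by positivity
  have e6 : Jin / 4 * (N.nc : ℝ) = Jin * N.nc / 4 := by ring
  unfold ND.fz ND.B
  rw [e1', e6, abs_le]
  constructor <;> split_ifs <;> linarith

theorem abs_cosN_le (k : ℕ) : |cosN k| ≤ 1 := by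
  unfold cosN; split_ifs <;> exact Real.abs_cos_le_one _

theorem abs_sinN_le (k : ℕ) : |sinN k| ≤ 1 := by
  unfold sinN; split_ifs <;> exact Real.abs_sin_le_one _

theorem one_le_B (h1 : 0 ≤ Jin) (h2 : 0 ≤ Jp) (h3 : 0 ≤ Jk) (h4 : 0 ≤ δ) :
    1 ≤ N.B Jin Jp Jk δ := by
  have e1 : 0 ≤ Jin * ((N.nc : ℝ) + 1) := by positivity
  have e2 : 0 ≤ δ ^ 3 := by positivity
  have e3 : 0 ≤ Jp * δ ^ 2 := by positivity
  have e4 : 0 ≤ δ ^ 2 := by positivity
  have e5 : 0 ≤ 2 * δ * (N.T : ℝ) := by positivity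
  unfold ND.B
  linarith

theorem abs_ax_le (p q : ℕ) : |N.ax p q| ≤ 1 := by
  unfold ND.ax
  split_ifs
  · exact abs_sinN_le _
  · norm_num
  · norm_num

theorem abs_az_le (p q : ℕ) : |N.az p q| ≤ 1 := by
  unfold ND.az
  split_ifs
  · exact abs_cosN_le _
  · norm_num
  · norm_num

theorem abs_bx_le (h1 : 0 ≤ Jin) (h2 : 0 ≤ Jp) (h3 : 0 ≤ Jk) (h4 : 0 ≤ δ) (p q : ℕ) :
    |N.bx Jp δ p q| ≤ N.B Jin Jp Jk δ := by
  have e1 : 0 ≤ Jin * ((N.nc : ℝ) + 1) := by positivity
  have e2 : 0 ≤ δ ^ 3 := by positivity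
  have e3 : 0 ≤ Jp * δ ^ 2 := by positivity
  have e4 : 0 ≤ δ ^ 2 := by positivity
  have e5 : 0 ≤ 2 * δ * (N.T : ℝ) := by positivity
  unfold ND.bx ND.B
  rw [abs_le]
  constructor <;> split_ifs <;> linarith

theorem ncz_mem (p q : ℕ) : 0 ≤ N.ncz p q ∧ N.ncz p q ≤ N.T := by
  unfold ND.ncz
  constructor
  · exact Finset.sum_nonneg fun t _ => by split_ifs <;> norm_num
  · calc _ ≤ ∑ _t ∈ Finset.range N.T, (1 : ℝ) :=
          Finset.sum_le_sum fun t _ => by split_ifs <;> norm_num
      _ = N.T := by simp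

theorem abs_bz_le (h1 : 0 ≤ Jin) (h2 : 0 ≤ Jp) (h3 : 0 ≤ Jk) (h4 : 0 ≤ δ) (p q : ℕ) :
    |N.bz Jin Jp Jk δ p q| ≤ N.B Jin Jp Jk δ := by
  have e1 : 0 ≤ Jin * (N.nc : ℝ) := by positivity
  have e1' : Jin * ((N.nc : ℝ) + 1) = Jin * N.nc + Jin := by ring
  have e2 : 0 ≤ δ ^ 3 := by positivity
  have e3 : 0 ≤ Jp * δ ^ 2 := by positivity
  have e4 : 0 ≤ δ ^ 2 := by positivity
  have e5 : 0 ≤ 2 * δ * (N.T : ℝ) := by positivity
  have e6 := ncz_mem N p q
  have e7 : 2 * δ * N.ncz p q ≤ 2 * δ * N.T := mul_le_mul_of_nonneg_left e6.2 (by linarith)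
  have e8 : 0 ≤ 2 * δ * N.ncz p q := mul_nonneg (by linarith) e6.1
  have e9 : -(2 * δ) * N.ncz p q = -(2 * δ * N.ncz p q) := by ring
  unfold ND.bz ND.B
  rw [e1', e9, abs_le]
  constructor <;> split_ifs <;> linarith

end bounds

/-- bound of all the arrays of a verifier -/
def bV (V : VCirc) : ℕ :=
  1 + 64 * ((conN V).length + 1) + JpV V + JkV V + delV V ^ 3 + JpV V * delV V ^ 2
    + 2 * delV V ^ 2 + 2 * delV V * (wordN V).length

theorem bV_eq (V : VCirc) : (ndV V).B 64 (JpV V) (JkV V) (delV V) = bV V := by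
  unfold ND.B bV ndV
  push_cast
  ring

theorem abs_fxV_le (V : VCirc) (p : ℕ) : |fxV V p| ≤ bV V := by
  rw [← bV_eq]
  exact abs_fx_le _ (by norm_num) (Nat.cast_nonneg _) (Nat.cast_nonneg _) (Nat.cast_nonneg _) p

theorem abs_fzV_le (V : VCirc) (p : ℕ) : |fzV V p| ≤ bV V := by
  rw [← bV_eq]
  exact abs_fz_le _ (by norm_num) (Nat.cast_nonneg _) (Nat.cast_nonneg _) (Nat.cast_nonneg _) p

theorem abs_axV_le (V : VCirc) (p q : ℕ) : |axV V p q| ≤ bV V := by
  rw [← bV_eq]
  exact (abs_ax_le _ p q).trans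
    (one_le_B _ (by norm_num) (Nat.cast_nonneg _) (Nat.cast_nonneg _) (Nat.cast_nonneg _))

theorem abs_azV_le (V : VCirc) (p q : ℕ) : |azV V p q| ≤ bV V := by
  rw [← bV_eq]
  exact (abs_az_le _ p q).trans
    (one_le_B _ (by norm_num) (Nat.cast_nonneg _) (Nat.cast_nonneg _) (Nat.cast_nonneg _))

theorem abs_bxV_le (V : VCirc) (p q : ℕ) : |bxV V p q| ≤ bV V := by
  rw [← bV_eq]
  exact abs_bx_le _ (by norm_num) (Nat.cast_nonneg _) (Nat.cast_nonneg _) (Nat.cast_nonneg _) p q

theorem abs_bzV_le (V : VCirc) (p q : ℕ) : |bzV V p q| ≤ bV V := by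
  rw [← bV_eq]
  exact abs_bz_le _ (by norm_num) (Nat.cast_nonneg _) (Nat.cast_nonneg _) (Nat.cast_nonneg _) p q

end Crest.Agent.R338.PTab
end

-- ▼ part R338/P1Main

/-!
# Row 338: `QMA → XInst` (composition of nodes I.1, I.2, I.3 with rounding; helper18)
-/

set_option autoImplicit false

noncomputable section

open Crest.Agent.Lib.PT

namespace Crest.Agent.R338.P1

open Crest.Agent.R338 PTab Nu RC Crest.Quantum.QMA

/-- **Part I, first half**: `QMA → XZ` -/
theorem partIa : PartIaStmt := by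
  rintro P ⟨V, hV, ⟨gen, hgen, hgv⟩, hpoly, hyes, hno⟩
  have hpt := ptSpec V hV gen hgen hgv hpoly
  have hVM : PTU (fun x : Bits => VM (V x.val)) := by
    have : PTF (fun x : Bits => Un.mk (VM (V x.val))) :=
      PTF.comp (g := fun d : Un × List (ℕ × ℕ × ℕ) × List ℕ × (ℕ × ℕ) => d.1) PTF.fst hpt
    exact PTU.val this
  have hw : PTF (fun x : Bits => wordN (V x.val)) :=
    PTF.comp (g := fun d : Un × List (ℕ × ℕ × ℕ) × List ℕ × (ℕ × ℕ) => d.2.1) (by fun_prop) hpt
  have hc : PTF (fun x : Bits => conN (V x.val)) :=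
    PTF.comp (g := fun d : Un × List (ℕ × ℕ × ℕ) × List ℕ × (ℕ × ℕ) => d.2.2.1) (by fun_prop) hpt
  have ho : PTF (fun x : Bits => (outW (V x.val) : ℕ)) :=
    PTF.comp (g := fun d : Un × List (ℕ × ℕ × ℕ) × List ℕ × (ℕ × ℕ) => d.2.2.2.1)
      (by fun_prop) hpt
  have hT : PTU (fun x : Bits => (word (V x.val)).length) := by
    have : PTU (fun x : Bits => (wordN (V x.val)).length) := by fun_prop
    exact this.of_eq fun x => length_wordN _
  have hnc : PTU (fun x : Bits => (conN (V x.val)).length) := by fun_prop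
  have hN : NDP (fun x : Bits => ndV (V x.val)) := ndp_ndL hVM.toPTF hw hc ho
  have hJp : PTU (fun x : Bits => JpV (V x.val)) := by unfold JpV JpN; fun_prop
  have hJk : PTU (fun x : Bits => JkV (V x.val)) := by unfold JkV JkN; fun_prop
  have hδ : PTU (fun x : Bits => delV (V x.val)) := by unfold delV delN LamN; fun_prop
  have hn : PTU (fun x : Bits => nV (V x.val)) := by unfold nV; fun_prop
  have hb : PTU (fun x : Bits => bV (V x.val)) := by
    have h1 : PTU (fun x : Bits => (wordN (V x.val)).length) := by fun_prop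
    unfold bV; fun_prop
  have hq : PTU (fun x : Bits => 8 * ((word (V x.val)).length + 1)) := by fun_prop
  have rJp : PTR (fun x : Bits => (JpV (V x.val) : ℝ)) := PTR.natCastU hJp
  have rJk : PTR (fun x : Bits => (JkV (V x.val) : ℝ)) := PTR.natCastU hJk
  have rδ : PTR (fun x : Bits => (delV (V x.val) : ℝ)) := PTR.natCastU hδ
  have rc0 : PTR (fun x : Bits => c0V (V x.val)) :=
    ptr_c0 hN (PTR.ofNat 64) rJp rJk rδ
  have hlo : PTR (fun x : Bits => loV (V x.val)) := by
    have h1 : PTR (fun _ : Bits => (19 / 48 : ℝ)) := PTR.divOfNat (PTR.ofNat 19) 48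
    have h2 : PTR (fun x : Bits => ((((word (V x.val)).length + 1 : ℕ)) : ℝ)⁻¹) :=
      PTR.natInv (PTU.toPTF (by fun_prop))
    refine PTR.sub ((h1.mul h2).of_eq fun x => ?_) rc0
    push_cast
    rw [div_eq_mul_inv (19 / 48 : ℝ)]
  have N1 : NDP (fun p : Bits × ℕ => ndV (V p.1.val)) := hN.comp PTF.fst
  have N2 : NDP (fun p : Bits × (ℕ × ℕ) => ndV (V p.1.val)) := hN.comp PTF.fst
  have p1 : PTF (fun p : Bits × (ℕ × ℕ) => p.2.1) := by fun_prop
  have p2 : PTF (fun p : Bits × (ℕ × ℕ) => p.2.2) := by fun_prop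
  obtain ⟨g, g1, g2, g3, g4⟩ := roundXZ (α := Bits) (fun x => nV (V x.val))
    (fun x => 8 * ((word (V x.val)).length + 1)) (fun x => bV (V x.val)) hn hq hb
    (fun x => by have := two_le_length_word (V x.val); unfold nV; omega) (fun x => by omega)
    (fun x => fxV (V x.val)) (fun x => fzV (V x.val)) (fun x => axV (V x.val))
    (fun x => azV (V x.val)) (fun x => bxV (V x.val)) (fun x => bzV (V x.val))
    (ptr_fx N1 (rJp.comp PTF.fst) (rδ.comp PTF.fst) PTF.snd)
    (ptr_fz N1 (PTR.ofNat 64) (rJp.comp PTF.fst) (rJk.comp PTF.fst) (rδ.comp PTF.fst) PTF.snd)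
    (ptr_ax N2 p1 p2) (ptr_az N2 p1 p2)
    (ptr_bx N2 (rJp.comp PTF.fst) (rδ.comp PTF.fst) p1 p2)
    (ptr_bz N2 (PTR.ofNat 64) (rJp.comp PTF.fst) (rJk.comp PTF.fst) (rδ.comp PTF.fst) p1 p2)
    (fun x => abs_fxV_le _) (fun x => abs_fzV_le _) (fun x => abs_axV_le _) (fun x => abs_azV_le _)
    (fun x => abs_bxV_le _) (fun x => abs_bzV_le _) (fun x => loV (V x.val)) hlo
  refine ⟨g, g1, g2, fun x hx => g3 x ?_, fun x hx => g4 x ?_⟩
  · exact xz_yes (V x.val) (hV x.val) (hyes _ hx)
  · intro φ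
    have h := xz_no (V x.val) (hV x.val) (hno _ hx) φ
    have e : ((8 * ((word (V x.val)).length + 1) : ℕ) : ℝ) =
        8 * (((word (V x.val)).length : ℝ) + 1) := by push_cast; ring
    rw [e]
    exact h

end Crest.Agent.R338.P1

end
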