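import Mathlib
import Crest.Agent.R338.P2Defs

-- ▼ part R338/P2Arith
section

/-!
# Row 338, node P2 (helper714): inequalities of the parameter choice

`k ≥ 16`, `B = k^b`, `lam = κ/B^6`, `s = 1/(κ B²)`, `R = k^r B³`, `nL = k^m B^11`, `Lw = 4 R B² s`.
-/

set_option autoImplicit false

noncomputable section

namespace Crest.Agent.R338.P2

/-- polynomial growth is dominated by `2^k` -/
theorem exists_pow_le_two_pow (Z : ℕ) : ∃ k0 : ℕ, ∀ k : ℕ, k0 ≤ k → (k : ℝ) ^ Z ≤ 2 ^ k := by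
  have h := tendsto_pow_const_div_const_pow_of_one_lt Z (show (1 : ℝ) < 2 by norm_num)
  have h2 : ∀ᶠ k : ℕ in Filter.atTop, (k : ℝ) ^ Z / 2 ^ k < 1 :=
    h.eventually (gt_mem_nhds (by norm_num))
  obtain ⟨k0, hk0⟩ := Filter.eventually_atTop.1 h2
  refine ⟨k0, fun k hk => ?_⟩
  have := hk0 k hk
  rw [div_lt_one (by positivity)] at this
  exact this.le

section
variable {k κ : ℝ} {b r m g x y CL : ℕ}

theorem pow_div_le (hk : 1 ≤ k) {p q t : ℕ} (h : p + q ≤ t) : k ^ p / k ^ t ≤ 1 / k ^ q := by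
  have hk0 : 0 < k := by linarith
  rw [div_le_div_iff₀ (by positivity) (by positivity), one_mul, ← pow_add]
  exact pow_le_pow_right₀ hk h

theorem lam_le (hk : 1 ≤ k) (hκ1 : κ ≤ 1) : κ / (k ^ b) ^ 6 ≤ 1 / k ^ (6 * b) := by
  rw [← pow_mul, mul_comm b 6]
  exact div_le_div_of_nonneg_right hκ1 (by positivity)

theorem s_le (hk : 1 ≤ k) (hκ : 1 / 2 ≤ κ) : 1 / (κ * (k ^ b) ^ 2) ≤ 2 / k ^ (2 * b) := by
  rw [← pow_mul, mul_comm b 2, div_le_div_iff₀ (by positivity) (by positivity)]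
  have : 0 < k ^ (2 * b) := by positivity
  nlinarith

theorem s_ge (hk : 1 ≤ k) (hκ0 : 0 < κ) (hκ1 : κ ≤ 1) : 1 / k ^ (2 * b) ≤ 1 / (κ * (k ^ b) ^ 2) := by
  rw [← pow_mul, mul_comm b 2]
  apply one_div_le_one_div_of_le (by positivity)
  have : 0 < k ^ (2 * b) := by positivity
  nlinarith

/-- `lam * k^p ≤ 1/k^q` -/
theorem lam_mul_le (hk : 1 ≤ k) (hκ1 : κ ≤ 1) {p q : ℕ} (h : p + q ≤ 6 * b) :
    κ / (k ^ b) ^ 6 * k ^ p ≤ 1 / k ^ q := by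
  have h1 := lam_le (b := b) hk hκ1
  calc κ / (k ^ b) ^ 6 * k ^ p ≤ 1 / k ^ (6 * b) * k ^ p :=
        mul_le_mul_of_nonneg_right h1 (by positivity)
    _ = k ^ p / k ^ (6 * b) := by ring
    _ ≤ _ := pow_div_le hk h

/-- the five error terms -/
theorem T1 (hk : 1 ≤ k) (hκ0 : 0 ≤ κ) (hκ1 : κ ≤ 1) (h : y ≤ 6 * b) :
    (κ / (k ^ b) ^ 6) ^ 2 ≤ κ / (k ^ b) ^ 6 / k ^ y := by
  have h1 := lam_mul_le (b := b) hk hκ1 (p := 0) (q := y) (by omega)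
  have h0 : 0 ≤ κ / (k ^ b) ^ 6 := by positivity
  calc (κ / (k ^ b) ^ 6) ^ 2 = κ / (k ^ b) ^ 6 * (κ / (k ^ b) ^ 6 * k ^ 0) := by ring
    _ ≤ κ / (k ^ b) ^ 6 * (1 / k ^ y) := mul_le_mul_of_nonneg_left h1 h0
    _ = _ := by ring

theorem T2 (hk : 1 ≤ k) (hκ0 : 0 ≤ κ) (hκ1 : κ ≤ 1) (hCL : (CL : ℝ) ≤ k) (h : 8 + y ≤ 6 * b) :
    ((CL : ℝ) * (κ / (k ^ b) ^ 6) * k ^ 3) ^ 2 ≤ κ / (k ^ b) ^ 6 / k ^ y := by
  have h1 := lam_mul_le (b := b) hk hκ1 (p := 8) (q := y) h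
  have h0 : 0 ≤ κ / (k ^ b) ^ 6 := by positivity
  have hc0 : (0 : ℝ) ≤ CL := Nat.cast_nonneg _
  have h2 : (CL : ℝ) * (κ / (k ^ b) ^ 6) * k ^ 3 ≤ k * (κ / (k ^ b) ^ 6) * k ^ 3 := by gcongr
  calc ((CL : ℝ) * (κ / (k ^ b) ^ 6) * k ^ 3) ^ 2 ≤ (k * (κ / (k ^ b) ^ 6) * k ^ 3) ^ 2 := by gcongr
    _ = κ / (k ^ b) ^ 6 * (κ / (k ^ b) ^ 6 * k ^ 8) := by ring
    _ ≤ κ / (k ^ b) ^ 6 * (1 / k ^ y) := mul_le_mul_of_nonneg_left h1 h0
    _ = _ := by ring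

theorem kF_le (hk : 1 ≤ k) (hκ0 : 0 ≤ κ) (hκ1 : κ ≤ 1) (hCL : (CL : ℝ) ≤ k) (h : 4 + x ≤ 6 * b) :
    (CL : ℝ) * (κ / (k ^ b) ^ 6) * k ^ 3 ≤ 1 / k ^ x := by
  have h1 := lam_mul_le (b := b) hk hκ1 (p := 4) (q := x) h
  have h0 : 0 ≤ κ / (k ^ b) ^ 6 := by positivity
  calc (CL : ℝ) * (κ / (k ^ b) ^ 6) * k ^ 3 ≤ k * (κ / (k ^ b) ^ 6) * k ^ 3 := by gcongr
    _ = κ / (k ^ b) ^ 6 * k ^ 4 := by ring
    _ ≤ _ := h1

theorem T3 (hk : 2 ≤ k) (hκ : 1 / 2 ≤ κ) (hCL : (CL : ℝ) ≤ k) {n0 : ℝ} (hn0 : 0 ≤ n0)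
    (hn : n0 + 2 ≤ k ^ 10) (h : y + 10 * CL + 6 ≤ 2 * b) :
    (CL : ℝ) * (n0 + 2) ^ CL * (κ / (k ^ b) ^ 6) * k ^ 4 * (1 / (κ * (k ^ b) ^ 2)) ≤
      κ / (k ^ b) ^ 6 / k ^ y := by
  have hk1 : 1 ≤ k := by linarith
  have h0 : 0 ≤ κ / (k ^ b) ^ 6 := by positivity
  have hs := s_le (b := b) hk1 hκ
  have hpow : (n0 + 2) ^ CL ≤ k ^ (10 * CL) := by
    rw [pow_mul]; exact pow_le_pow_left₀ (by linarith) hn _
  have h3 : k ^ (10 * CL + 6) / k ^ (2 * b) ≤ 1 / k ^ y := pow_div_le hk1 (by omega)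
  calc (CL : ℝ) * (n0 + 2) ^ CL * (κ / (k ^ b) ^ 6) * k ^ 4 * (1 / (κ * (k ^ b) ^ 2))
      ≤ k * k ^ (10 * CL) * (κ / (k ^ b) ^ 6) * k ^ 4 * (2 / k ^ (2 * b)) := by gcongr
    _ ≤ k * k ^ (10 * CL) * (κ / (k ^ b) ^ 6) * k ^ 4 * (k / k ^ (2 * b)) := by gcongr
    _ = κ / (k ^ b) ^ 6 * (k ^ (10 * CL + 6) / k ^ (2 * b)) := by ring
    _ ≤ κ / (k ^ b) ^ 6 * (1 / k ^ y) := mul_le_mul_of_nonneg_left h3 h0
    _ = _ := by ring

theorem T5 (hk : 2 ≤ k) (hκ : 1 / 2 ≤ κ) (h : 1 + y ≤ 2 * r) :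
    1 / (k ^ r * (k ^ b) ^ 3) ^ 2 ≤ κ / (k ^ b) ^ 6 / k ^ y := by
  have hk1 : 1 ≤ k := by linarith
  have h2 : k ^ 1 / k ^ (2 * r) ≤ 1 / k ^ y := pow_div_le hk1 h
  have hB : (0 : ℝ) < (k ^ b) ^ 6 := by positivity
  have hkr : (0 : ℝ) < k ^ (2 * r) := by positivity
  have hky : (0 : ℝ) < k ^ y := by positivity
  have e1 : 1 / (k ^ r * (k ^ b) ^ 3) ^ 2 = (1 / k ^ (2 * r)) / (k ^ b) ^ 6 := by
    rw [div_div]; congr 1; ring
  rw [e1, div_right_comm κ]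
  refine div_le_div_of_nonneg_right ?_ hB.le
  have h3 : 1 / k ^ (2 * r) ≤ κ * (k ^ 1 / k ^ (2 * r)) := by
    rw [pow_one, ← mul_div_assoc]
    refine div_le_div_of_nonneg_right ?_ hkr.le
    nlinarith
  calc 1 / k ^ (2 * r) ≤ κ * (k ^ 1 / k ^ (2 * r)) := h3
    _ ≤ κ * (1 / k ^ y) := mul_le_mul_of_nonneg_left h2 (by linarith)
    _ = _ := by ring

/-- (a) of `E2` -/
theorem T4a (hk : 2 ≤ k) (hκ : 1 / 2 ≤ κ) (hκ1 : κ ≤ 1) (h : 4 * r + 1 + y ≤ 2 * m) :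
    (k ^ r * (k ^ b) ^ 3) ^ 4 / (k ^ m * (k ^ b) ^ 11 * (1 / (κ * (k ^ b) ^ 2))) ^ 2 ≤
      κ / (k ^ b) ^ 6 / k ^ y := by
  have hk1 : 1 ≤ k := by linarith
  have hκ0 : 0 < κ := by linarith
  have hB : (0 : ℝ) < (k ^ b) := by positivity
  have e1 : (k ^ r * (k ^ b) ^ 3) ^ 4 / (k ^ m * (k ^ b) ^ 11 * (1 / (κ * (k ^ b) ^ 2))) ^ 2 =
      κ ^ 2 / (k ^ b) ^ 6 * (k ^ (4 * r) / k ^ (2 * m)) := by
    rw [mul_comm 4 r, mul_comm 2 m, pow_mul, pow_mul k m 2]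
    field_simp
  have h2 : k ^ (4 * r) / k ^ (2 * m) ≤ 1 / k ^ y := pow_div_le hk1 (by omega)
  rw [e1]
  calc κ ^ 2 / (k ^ b) ^ 6 * (k ^ (4 * r) / k ^ (2 * m)) ≤ κ / (k ^ b) ^ 6 * (1 / k ^ y) := by
        apply mul_le_mul _ h2 (by positivity) (by positivity)
        refine div_le_div_of_nonneg_right ?_ (by positivity)
        nlinarith
    _ = _ := by ring

/-- (b) of `E2` -/
theorem T4b (hk : 2 ≤ k) (hκ : 1 / 2 ≤ κ) (hκ1 : κ ≤ 1) (h : 2 * g + r + 7 + y ≤ b) :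
    κ / (k ^ b) ^ 6 * (k ^ g) ^ 2 * ((1 / (κ * (k ^ b) ^ 2)) ^ 2 *
      (4 * (k ^ r * (k ^ b) ^ 3) * (k ^ b) ^ 2 * (1 / (κ * (k ^ b) ^ 2))) +
        k * (1 / (κ * (k ^ b) ^ 2))) ≤ κ / (k ^ b) ^ 6 / k ^ y := by
  have hk1 : 1 ≤ k := by linarith
  have hk0 : 0 < k := by linarith
  have hκ0 : 0 < κ := by linarith
  have hs := s_le (b := b) hk1 hκ
  have h0 : 0 ≤ κ / (k ^ b) ^ 6 := by positivity
  have hBp : (0 : ℝ) < k ^ b := by positivity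
  have hB1 : (1 : ℝ) ≤ k ^ b := one_le_pow₀ hk1
  have hr1 : (1 : ℝ) ≤ k ^ r := one_le_pow₀ hk1
  -- first summand
  have e1 : (1 / (κ * (k ^ b) ^ 2)) ^ 2 *
      (4 * (k ^ r * (k ^ b) ^ 3) * (k ^ b) ^ 2 * (1 / (κ * (k ^ b) ^ 2))) =
      4 / κ ^ 3 * (k ^ r / k ^ b) := by
    field_simp
  have e2 : 4 / κ ^ 3 ≤ 32 := by
    rw [div_le_iff₀ (by positivity)]
    have : (1 / 2 : ℝ) ^ 3 ≤ κ ^ 3 := pow_le_pow_left₀ (by norm_num) hκ 3
    norm_num at this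
    linarith
  have e3 : k * (1 / (κ * (k ^ b) ^ 2)) ≤ 2 * (k * k ^ r / k ^ b) := by
    have h1 : 1 / (κ * (k ^ b) ^ 2) ≤ 2 / k ^ b := by
      rw [div_le_div_iff₀ (by positivity) (by positivity)]
      nlinarith [mul_pos hκ0 hBp]
    calc k * (1 / (κ * (k ^ b) ^ 2)) ≤ k * (2 / k ^ b) := by gcongr
      _ = 2 * (k * 1 / k ^ b) := by ring
      _ ≤ 2 * (k * k ^ r / k ^ b) := by gcongr
  have e4 : (1 / (κ * (k ^ b) ^ 2)) ^ 2 *
      (4 * (k ^ r * (k ^ b) ^ 3) * (k ^ b) ^ 2 * (1 / (κ * (k ^ b) ^ 2))) +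
        k * (1 / (κ * (k ^ b) ^ 2)) ≤ k ^ 7 * k ^ r / k ^ b := by
    rw [e1]
    have h1 : 4 / κ ^ 3 * (k ^ r / k ^ b) ≤ 32 * (k * k ^ r / k ^ b) := by
      have : k ^ r / k ^ b ≤ k * k ^ r / k ^ b := by
        gcongr
        nlinarith
      exact mul_le_mul e2 this (by positivity) (by norm_num)
    have h5 : (34 : ℝ) ≤ k ^ 6 := by
      have : (2 : ℝ) ^ 6 ≤ k ^ 6 := pow_le_pow_left₀ (by norm_num) hk 6
      norm_num at this
      linarith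
    calc 4 / κ ^ 3 * (k ^ r / k ^ b) + k * (1 / (κ * (k ^ b) ^ 2))
        ≤ 32 * (k * k ^ r / k ^ b) + 2 * (k * k ^ r / k ^ b) := add_le_add h1 e3
      _ = 34 * (k * k ^ r / k ^ b) := by ring
      _ ≤ k ^ 6 * (k * k ^ r / k ^ b) := by gcongr
      _ = _ := by ring
  have h6 : k ^ (2 * g + 7 + r) / k ^ b ≤ 1 / k ^ y := pow_div_le hk1 (by omega)
  calc _ ≤ κ / (k ^ b) ^ 6 * (k ^ g) ^ 2 * (k ^ 7 * k ^ r / k ^ b) := by gcongr
    _ = κ / (k ^ b) ^ 6 * (k ^ (2 * g + 7 + r) / k ^ b) := by ring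
    _ ≤ κ / (k ^ b) ^ 6 * (1 / k ^ y) := mul_le_mul_of_nonneg_left h6 h0
    _ = _ := by ring

/-- (c) of `E2`: `eps = 2 (1/2)^kn / lam` -/
theorem T4c (hk : 2 ≤ k) (hκ : 1 / 2 ≤ κ) (hκ1 : κ ≤ 1) {P : ℝ} (hP : k ^ (r + 15 * b + y + 4) ≤ P) :
    κ / (k ^ b) ^ 6 * (2 * (1 / P) / (κ / (k ^ b) ^ 6)) *
      (4 * (k ^ r * (k ^ b) ^ 3) * (k ^ b) ^ 2 * (1 / (κ * (k ^ b) ^ 2))) /
        (1 / (κ * (k ^ b) ^ 2)) ^ 3 ≤ κ / (k ^ b) ^ 6 / k ^ y := by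
  have hk1 : 1 ≤ k := by linarith
  have hk0 : 0 < k := by linarith
  have hκ0 : 0 < κ := by linarith
  have hBp : (0 : ℝ) < k ^ b := by positivity
  have hP0 : 0 < P := lt_of_lt_of_le (by positivity) hP
  have e1 : κ / (k ^ b) ^ 6 * (2 * (1 / P) / (κ / (k ^ b) ^ 6)) *
      (4 * (k ^ r * (k ^ b) ^ 3) * (k ^ b) ^ 2 * (1 / (κ * (k ^ b) ^ 2))) /
        (1 / (κ * (k ^ b) ^ 2)) ^ 3 = 8 * κ ^ 2 * (k ^ r * (k ^ b) ^ 9) / P := by
    field_simp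
    ring
  rw [e1, div_div, div_le_div_iff₀ hP0 (by positivity)]
  have h8 : 8 * κ ^ 2 ≤ κ * k ^ 4 := by
    have : (2 : ℝ) ^ 4 ≤ k ^ 4 := pow_le_pow_left₀ (by norm_num) hk 4
    norm_num at this
    nlinarith
  calc 8 * κ ^ 2 * (k ^ r * (k ^ b) ^ 9) * ((k ^ b) ^ 6 * k ^ y)
      ≤ κ * k ^ 4 * (k ^ r * (k ^ b) ^ 9) * ((k ^ b) ^ 6 * k ^ y) := by gcongr
    _ = κ * k ^ (r + 15 * b + y + 4) := by ring
    _ ≤ κ * P := by gcongr

/-- (d) of `E2` -/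
theorem T4d (hk : 2 ≤ k) (hκ : 1 / 2 ≤ κ) (hκ1 : κ ≤ 1) {P : ℝ}
    (hP : k ^ ((m + 11 * b + 1) * CL + 2 * b * CL + 6 * b + 1 + y) ≤ P) :
    (k ^ m * (k ^ b) ^ 11 + 1) ^ CL * (1 / P) / (1 / (κ * (k ^ b) ^ 2)) ^ CL ≤
      κ / (k ^ b) ^ 6 / k ^ y := by
  have hk1 : 1 ≤ k := by linarith
  have hk0 : 0 < k := by linarith
  have hκ0 : 0 < κ := by linarith
  have hBp : (0 : ℝ) < k ^ b := by positivity
  have hP0 : 0 < P := lt_of_lt_of_le (by positivity) hP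
  have e1 : (k ^ m * (k ^ b) ^ 11 + 1) ^ CL * (1 / P) / (1 / (κ * (k ^ b) ^ 2)) ^ CL =
      (k ^ m * (k ^ b) ^ 11 + 1) ^ CL * (κ * (k ^ b) ^ 2) ^ CL / P := by
    rw [one_div_pow]
    field_simp
  rw [e1, div_div, div_le_div_iff₀ hP0 (by positivity)]
  have h1 : (k ^ m * (k ^ b) ^ 11 + 1) ^ CL ≤ k ^ ((m + 11 * b + 1) * CL) := by
    rw [pow_mul]
    refine pow_le_pow_left₀ (by positivity) ?_ _
    have h2 : k ^ m * (k ^ b) ^ 11 = k ^ (m + 11 * b) := by ring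
    have h3 : 1 ≤ k ^ (m + 11 * b) := one_le_pow₀ hk1
    rw [h2, pow_succ]
    nlinarith
  have h2 : (κ * (k ^ b) ^ 2) ^ CL ≤ k ^ (2 * b * CL) := by
    rw [pow_mul k (2 * b)]
    refine pow_le_pow_left₀ (by positivity) ?_ _
    have h3 : (k ^ b) ^ 2 = k ^ (2 * b) := by ring
    rw [h3]
    have : 0 < k ^ (2 * b) := by positivity
    nlinarith
  have h4 : 1 ≤ κ * k := by nlinarith
  calc (k ^ m * (k ^ b) ^ 11 + 1) ^ CL * (κ * (k ^ b) ^ 2) ^ CL * ((k ^ b) ^ 6 * k ^ y)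
      ≤ k ^ ((m + 11 * b + 1) * CL) * k ^ (2 * b * CL) * ((k ^ b) ^ 6 * k ^ y) * (κ * k) := by
        have h5 : (k ^ m * (k ^ b) ^ 11 + 1) ^ CL * (κ * (k ^ b) ^ 2) ^ CL * ((k ^ b) ^ 6 * k ^ y) ≤
            k ^ ((m + 11 * b + 1) * CL) * k ^ (2 * b * CL) * ((k ^ b) ^ 6 * k ^ y) := by gcongr
        exact h5.trans (le_mul_of_one_le_right (by positivity) h4)
    _ = κ * k ^ ((m + 11 * b + 1) * CL + 2 * b * CL + 6 * b + 1 + y) := by ring
    _ ≤ κ * P := by gcongr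

end

end Crest.Agent.R338.P2

end
end

-- ▼ part R338/P2Main
section

/-!
# Row 338, node P2 (helper714): `PartIIStmt` from the node statements
-/

set_option autoImplicit false

noncomputable section

open MeasureTheory Crest.Quantum.QMA Crest.MathPhysics.CoulombProblem
open Crest.MathPhysics.ElectronicCoulomb
open Crest.Agent.Lib.PT

namespace Crest.Agent.R338.P2

/-! ## `κ` -/

theorem kap_pow4 : kap ^ 4 = 3 / (4 * Real.pi) := by
  have h1 : kap ^ 4 = (kap ^ 2) ^ 2 := by ring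
  rw [h1]
  unfold kap
  rw [Real.sq_sqrt (Real.sqrt_nonneg _), Real.sq_sqrt (by positivity)]

theorem kap_nonneg : 0 ≤ kap := Real.sqrt_nonneg _

theorem kap_ge : 1 / 2 ≤ kap := by
  by_contra hlt
  push Not at hlt
  have h1 : kap ^ 4 < (1 / 2) ^ 4 := pow_lt_pow_left₀ hlt kap_nonneg (by norm_num)
  rw [kap_pow4, div_lt_iff₀ (by positivity)] at h1
  have := Real.pi_lt_four
  norm_num at h1
  linarith

theorem kap_le : kap ≤ 1 := by
  by_contra hlt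
  push Not at hlt
  have h1 : 1 ^ 4 < kap ^ 4 := pow_lt_pow_left₀ hlt (by norm_num) (by norm_num)
  rw [kap_pow4, lt_div_iff₀ (by positivity)] at h1
  have := Real.pi_gt_three
  linarith

theorem kap_pos : 0 < kap := lt_of_lt_of_le (by norm_num) kap_ge

/-! ## casts -/

section casts
variable (C : Cst) (h : HInst)

theorem BP_cast : (BP C h : ℝ) = (kP C h : ℝ) ^ C.b := by unfold BP; push_cast; rfl
theorem LamP_cast : (LamP C h : ℝ) = (kP C h : ℝ) ^ C.l := by unfold LamP; push_cast; rfl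
theorem RP_cast : (RP C h : ℝ) = (kP C h : ℝ) ^ C.r * ((kP C h : ℝ) ^ C.b) ^ 3 := by
  unfold RP; push_cast; rw [BP_cast]
theorem nLP_cast : (nLP C h : ℝ) = (kP C h : ℝ) ^ C.m * ((kP C h : ℝ) ^ C.b) ^ 11 := by
  unfold nLP; push_cast; rw [BP_cast]
theorem MdP_cast : (MdP C h : ℝ) =
    4 * ((kP C h : ℝ) ^ C.r * ((kP C h : ℝ) ^ C.b) ^ 3) * ((kP C h : ℝ) ^ C.b) ^ 2 := by
  unfold MdP; push_cast; rw [RP_cast, BP_cast]
theorem lamP_eq : lamP C h = kap / ((kP C h : ℝ) ^ C.b) ^ 6 := by unfold lamP; rw [BP_cast]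
theorem sP_eq : sP C h = 1 / (kap * ((kP C h : ℝ) ^ C.b) ^ 2) := by unfold sP; rw [BP_cast]
theorem AP_cast : (AP C h : ℝ) = ((kP C h : ℝ) ^ C.b) ^ 8 := by
  unfold AP; push_cast; rw [BP_cast]

end casts

/-! ## sizes of `k` -/

section ksize
variable (C : Cst) (h : HInst)

theorem base_pos (hc : 1 ≤ C.c) : 1 ≤ C.c * (h.n + 2) * (h.q + 1) :=
  Nat.one_le_iff_ne_zero.2 (by positivity)

theorem pow_le_kP (hc : 1 ≤ C.c) {e : ℕ} (he : e ≤ C.c) :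
    (C.c * (h.n + 2) * (h.q + 1)) ^ e ≤ kP C h := by
  unfold kP
  exact Nat.pow_le_pow_right (base_pos C h hc) he

theorem c_le_kP (hc : 1 ≤ C.c) : C.c ≤ kP C h := by
  refine le_trans ?_ (pow_le_kP C h hc (e := 1) hc)
  rw [pow_one, mul_assoc]
  exact Nat.le_mul_of_pos_right _ (by positivity)

theorem gen_le_kP (hc : 1 ≤ C.c) {X e : ℕ} (he : e ≤ C.c)
    (hX : X ≤ (C.c * (h.n + 2) * (h.q + 1)) ^ e) : X ≤ kP C h :=
  hX.trans (pow_le_kP C h hc he)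

theorem hBHk (hc : 1 ≤ C.c) {CB : ℕ} (hCB : 2 * CB ≤ C.c) : (CB * h.n * h.q) ^ (2 * CB) ≤ kP C h := by
  refine gen_le_kP C h hc (e := 2 * CB) hCB (Nat.pow_le_pow_left ?_ _)
  have : CB ≤ C.c := by omega
  gcongr <;> omega

theorem hCalk (hc : 1 ≤ C.c) {CC : ℕ} (hCC : CC ≤ C.c) : (CC * (h.n + 1)) ^ CC ≤ kP C h := by
  refine gen_le_kP C h hc (e := CC) hCC (Nat.pow_le_pow_left ?_ _)
  calc CC * (h.n + 1) ≤ C.c * (h.n + 2) := by gcongr; omega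
    _ ≤ C.c * (h.n + 2) * (h.q + 1) := Nat.le_mul_of_pos_right _ (by positivity)

theorem hnqk (hc : C.cB + 1 ≤ C.c) : (h.n * h.q) ^ C.cB * h.q ≤ kP C h := by
  refine gen_le_kP C h (by omega) (e := C.cB + 1) hc ?_
  have h1 : h.n * h.q ≤ C.c * (h.n + 2) * (h.q + 1) := by
    calc h.n * h.q ≤ (h.n + 2) * (h.q + 1) := by gcongr <;> omega
      _ ≤ C.c * ((h.n + 2) * (h.q + 1)) := Nat.le_mul_of_pos_left _ (by omega)
      _ = _ := by ring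
  have h2 : h.q ≤ C.c * (h.n + 2) * (h.q + 1) := by
    calc h.q ≤ 1 * (h.q + 1) := by omega
      _ ≤ C.c * (h.n + 2) * (h.q + 1) := by
        gcongr
        exact Nat.one_le_iff_ne_zero.2 (by have : C.c ≠ 0 := by omega
                                           positivity)
  rw [pow_succ]
  gcongr

theorem Yn_le (hc : 4 ≤ C.c) (h1 : 1 ≤ h.n) : Yn h.n ≤ kP C h := by
  refine gen_le_kP C h (by omega) (e := 3) (by omega) ?_
  have h2 : Yn h.n ≤ 32 * h.n ^ 3 := by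
    unfold Yn
    nlinarith [pow_le_pow_right₀ h1 (show 2 ≤ 3 by norm_num)]
  have h3 : (4 * (h.n + 2) * 1) ^ 3 ≤ (C.c * (h.n + 2) * (h.q + 1)) ^ 3 := by
    gcongr
    omega
  refine h2.trans (le_trans ?_ h3)
  nlinarith [pow_pos (show 0 < h.n by omega) 3, pow_pos (show 0 < h.n by omega) 2]

theorem n0P_le (hc : 16 ≤ C.c) (h1 : 1 ≤ h.n) : n0P C h ≤ kP C h ^ 9 := by
  have hY := Yn_le C h (by omega) h1
  have hk : 16 ≤ kP C h := hc.trans (c_le_kP C h (by omega))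
  unfold n0P n0'
  calc 16 * (kP C h ^ 3) ^ 2 * Yn h.n ^ 2 ≤ kP C h * (kP C h ^ 3) ^ 2 * kP C h ^ 2 := by gcongr
    _ = kP C h ^ 9 := by ring

theorem n_le_n0P (hc : 1 ≤ C.c) (h1 : 1 ≤ h.n) : h.n ≤ n0P C h := by
  have hk : 1 ≤ kP C h := hc.trans (c_le_kP C h hc)
  have hY : h.n ≤ Yn h.n := by
    unfold Yn
    nlinarith [pow_le_pow_right₀ h1 (show 1 ≤ 3 by norm_num)]
  unfold n0P n0'
  calc h.n ≤ 1 * 1 * h.n ^ 2 := by nlinarith
    _ ≤ 16 * (kP C h ^ 3) ^ 2 * Yn h.n ^ 2 := by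
      have : 1 ≤ (kP C h ^ 3) ^ 2 := Nat.one_le_pow _ _ (Nat.pow_pos hk)
      gcongr
      norm_num

end ksize

end Crest.Agent.R338.P2

end
end

-- ▼ part R338/P2Lat
section

/-!
# Row 338, node P2 (helper714): the lattice of the map satisfies `NucOK`
-/

set_option autoImplicit false

noncomputable section

open MeasureTheory Crest.Quantum.QMA Crest.MathPhysics.CoulombProblem
open Crest.MathPhysics.ElectronicCoulomb
open Crest.Agent.Lib.PT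

namespace Crest.Agent.R338.P2

/-- the conditions on the numerals -/
structure Good (C : Cst) (CA CC CW CL g x y : ℕ) : Prop where
  c16 : 16 ≤ C.c
  cB2 : 2 * C.cB + 1 ≤ C.c
  cC : CC ≤ C.c
  cL : CL ≤ C.c
  l1 : (CC + 10) * C.cB ≤ C.l
  g1 : (C.l + CC + 11) * CW ≤ g
  g0 : 1 ≤ g
  x1 : (g + 11) * CA ≤ x
  y1 : x + 15 ≤ y
  r1 : x + g + y + 4 ≤ C.r
  m1 : 4 * C.r + 1 + y ≤ 2 * C.m
  m2 : C.r + 3 ≤ C.m
  b1 : 2 * g + C.r + 7 + y ≤ C.b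
  b2 : y + 10 * CL + 6 ≤ 2 * C.b
  b3 : 2 * C.m + 3 ≤ 6 * C.b + 8 * C.r
  Z1 : ∀ k : ℕ, C.c ≤ k → (k : ℝ) ^ (C.r + 15 * C.b + y + 4) ≤ 2 ^ k
  Z2 : ∀ k : ℕ, C.c ≤ k →
    (k : ℝ) ^ ((C.m + 11 * C.b + 1) * CL + 2 * C.b * CL + 6 * C.b + 1 + y) ≤ 2 ^ k
  Z3 : ∀ k : ℕ, C.c ≤ k → (k : ℝ) ^ (8 * C.b + 8) ≤ 2 ^ k

theorem exists_good (c0 CA CB CC CW CL : ℕ) : ∃ (C : Cst) (g x y : ℕ),
    Good C CA CC CW CL g x y ∧ c0 ≤ C.c ∧ C.cB = CB := by
  obtain ⟨l, hl⟩ : ∃ l, l = (CC + 10) * CB := ⟨_, rfl⟩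
  obtain ⟨g, hg⟩ : ∃ g, g = (l + CC + 11) * CW + 1 := ⟨_, rfl⟩
  obtain ⟨x, hx⟩ : ∃ x, x = (g + 11) * CA := ⟨_, rfl⟩
  obtain ⟨y, hy⟩ : ∃ y, y = x + 15 := ⟨_, rfl⟩
  obtain ⟨r, hr⟩ : ∃ r, r = x + g + y + 4 := ⟨_, rfl⟩
  obtain ⟨m, hm⟩ : ∃ m, m = 2 * r + y + 1 := ⟨_, rfl⟩
  obtain ⟨b, hb⟩ : ∃ b, b = 2 * g + r + 7 + y + (10 * CL + 6) + m + 3 := ⟨_, rfl⟩
  obtain ⟨k1, hk1⟩ := exists_pow_le_two_pow (r + 15 * b + y + 4)
  obtain ⟨k2, hk2⟩ := exists_pow_le_two_pow ((m + 11 * b + 1) * CL + 2 * b * CL + 6 * b + 1 + y)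
  obtain ⟨k3, hk3⟩ := exists_pow_le_two_pow (8 * b + 8)
  refine ⟨⟨16 + (2 * CB + 1) + CC + CL + c0 + k1 + k2 + k3, CB, l, b, r, m⟩, g, x, y, ?_, ?_, rfl⟩
  · exact
      { c16 := by show 16 ≤ 16 + (2 * CB + 1) + CC + CL + c0 + k1 + k2 + k3; omega
        cB2 := by show 2 * CB + 1 ≤ 16 + (2 * CB + 1) + CC + CL + c0 + k1 + k2 + k3; omega
        cC := by show CC ≤ 16 + (2 * CB + 1) + CC + CL + c0 + k1 + k2 + k3; omega
        cL := by show CL ≤ 16 + (2 * CB + 1) + CC + CL + c0 + k1 + k2 + k3; omega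
        l1 := hl.ge
        g1 := by show (l + CC + 11) * CW ≤ g; omega
        g0 := by omega
        x1 := hx.ge
        y1 := hy.ge
        r1 := hr.ge
        m1 := by show 4 * r + 1 + y ≤ 2 * m; omega
        m2 := by show r + 3 ≤ m; omega
        b1 := by show 2 * g + r + 7 + y ≤ b; omega
        b2 := by show y + 10 * CL + 6 ≤ 2 * b; omega
        b3 := by show 2 * m + 3 ≤ 6 * b + 8 * r; omega
        Z1 := fun k (hk : 16 + (2 * CB + 1) + CC + CL + c0 + k1 + k2 + k3 ≤ k) => hk1 k (by omega)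
        Z2 := fun k (hk : 16 + (2 * CB + 1) + CC + CL + c0 + k1 + k2 + k3 ≤ k) => hk2 k (by omega)
        Z3 := fun k (hk : 16 + (2 * CB + 1) + CC + CL + c0 + k1 + k2 + k3 ≤ k) => hk3 k (by omega) }
  · show c0 ≤ 16 + (2 * CB + 1) + CC + CL + c0 + k1 + k2 + k3
    omega

section
variable {C : Cst} {h : HInst} {CA CC CW CL g x y : ℕ}

/-- scaled displacement field of rational physical displacements -/
def dS (C : Cst) (h : HInst) (D : (Fin 3 → ℤ) → Fin 3 → ℚ) (α : Fin 3 → ℤ) : Pos3 :=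
  (1 / lamP C h) • WithLp.toLp 2 (fun c => ((D α c : ℚ) : ℝ))

theorem kP_ge (hG : Good C CA CC CW CL g x y) : 16 ≤ kP C h :=
  hG.c16.trans (c_le_kP C h (by have := hG.c16; omega))

theorem kP_ge_real (hG : Good C CA CC CW CL g x y) : (16 : ℝ) ≤ kP C h := by
  exact_mod_cast kP_ge hG

theorem kP_gec (hG : Good C CA CC CW CL g x y) : C.c ≤ kP C h :=
  c_le_kP C h (by have := hG.c16; omega)

theorem lamP_pos (hG : Good C CA CC CW CL g x y) : 0 < lamP C h := by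
  rw [lamP_eq]
  have := kP_ge_real (h := h) hG
  have := kap_pos
  positivity

theorem sP_pos (hG : Good C CA CC CW CL g x y) : 0 < sP C h := by
  rw [sP_eq]
  have := kP_ge_real (h := h) hG
  have := kap_pos
  positivity

theorem sP_cube (hG : Good C CA CC CW CL g x y) : sP C h ^ 3 = 4 * Real.pi * lamP C h / 3 := by
  rw [lamP_eq, sP_eq]
  have hk := kP_ge_real (h := h) hG
  have hκ := kap_pos
  have h4 := kap_pow4
  have hB : (0 : ℝ) < (kP C h : ℝ) ^ C.b := by positivity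
  have hpi := Real.pi_pos
  have h5 : kap ^ 4 * (4 * Real.pi) = 3 := by rw [h4]; field_simp
  field_simp
  linarith

theorem norm_gradient_le {f : Pos3 → ℝ} {x : Pos3} {G : ℝ} (hf : ‖fderiv ℝ f x‖ ≤ G) :
    ‖gradient f x‖ ≤ G := by
  unfold gradient
  rwa [LinearIsometryEquiv.norm_map]

theorem norm_le_of_comp {v : Pos3} {δ : ℝ} (hδ : 0 ≤ δ) (hv : ∀ c, |v c| ≤ δ) : ‖v‖ ≤ 2 * δ := by
  rw [EuclideanSpace.norm_eq]
  apply Real.sqrt_le_iff.2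
  refine ⟨by positivity, ?_⟩
  calc ∑ i, ‖v i‖ ^ 2 ≤ ∑ _i : Fin 3, δ ^ 2 := by
        refine Finset.sum_le_sum fun c _ => ?_
        rw [Real.norm_eq_abs]
        exact pow_le_pow_left₀ (abs_nonneg _) (hv c) 2
    _ = 3 * δ ^ 2 := by simp
    _ ≤ (2 * δ) ^ 2 := by nlinarith [sq_nonneg δ]

theorem dS_apply (D : (Fin 3 → ℤ) → Fin 3 → ℚ) (α : Fin 3 → ℤ) (c : Fin 3) :
    dS C h D α c = 1 / lamP C h * ((D α c : ℚ) : ℝ) := by
  simp [dS]

theorem dapp (hG : Good C CA CC CW CL g x y) {D : (Fin 3 → ℤ) → Fin 3 → ℚ}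
    (hD : ∀ α c, |((D α c : ℚ) : ℝ) - DexP C h α c| ≤ (1 / 2) ^ kP C h) (α : Fin 3 → ℤ) :
    ‖dS C h D α - (sP C h ^ 3 / (4 * Real.pi)) • gradient (wcP C h) (Lat.pt (sP C h) α)‖ ≤
      2 * (1 / 2 ^ kP C h) / lamP C h := by
  have hlam := lamP_pos (h := h) hG
  have e0 : 2 * (1 / 2 ^ kP C h) / lamP C h = 2 * ((1 / 2) ^ kP C h / lamP C h) := by
    rw [one_div_pow]; ring
  rw [e0]
  refine norm_le_of_comp (by positivity) fun c => ?_
  have e1 : (dS C h D α - (sP C h ^ 3 / (4 * Real.pi)) •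
      gradient (wcP C h) (Lat.pt (sP C h) α)) c =
      (((D α c : ℚ) : ℝ) - DexP C h α c) / lamP C h := by
    rw [PiLp.sub_apply, PiLp.smul_apply, dS_apply, smul_eq_mul, sP_cube hG]
    unfold DexP
    have hpi := Real.pi_pos
    field_simp
  rw [e1, abs_div, abs_of_pos hlam]
  exact div_le_div_of_nonneg_right (hD α c) hlam.le

theorem n0P_real_le (hG : Good C CA CC CW CL g x y) (h1 : 1 ≤ h.n) :
    (n0P C h : ℝ) ≤ (kP C h : ℝ) ^ 9 := by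
  exact_mod_cast n0P_le C h hG.c16 h1

theorem Gbound (hG : Good C CA CC CW CL g x y) (h1 : 1 ≤ h.n) :
    ((n0P C h : ℝ) + LamP C h + (kP C h : ℝ) ^ CC + 2) ^ CW ≤ (kP C h : ℝ) ^ g := by
  have hk := kP_ge_real (h := h) hG
  have hk1 : (1 : ℝ) ≤ kP C h := by linarith
  have h2 : (n0P C h : ℝ) + LamP C h + (kP C h : ℝ) ^ CC + 2 ≤ (kP C h : ℝ) ^ (C.l + CC + 11) := by
    rw [LamP_cast]
    have a1 : (n0P C h : ℝ) ≤ (kP C h : ℝ) ^ (C.l + CC + 10) :=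
      (n0P_real_le hG h1).trans (pow_le_pow_right₀ hk1 (by omega))
    have a2 : (kP C h : ℝ) ^ C.l ≤ (kP C h : ℝ) ^ (C.l + CC + 10) :=
      pow_le_pow_right₀ hk1 (by omega)
    have a3 : (kP C h : ℝ) ^ CC ≤ (kP C h : ℝ) ^ (C.l + CC + 10) :=
      pow_le_pow_right₀ hk1 (by omega)
    have a4 : (2 : ℝ) ≤ (kP C h : ℝ) ^ (C.l + CC + 10) := by
      calc (2 : ℝ) ≤ (kP C h : ℝ) ^ 1 := by rw [pow_one]; linarith
        _ ≤ _ := pow_le_pow_right₀ hk1 (by omega)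
    rw [show C.l + CC + 11 = (C.l + CC + 10) + 1 by ring, pow_succ]
    nlinarith [pow_pos (show (0 : ℝ) < kP C h by linarith) (C.l + CC + 10)]
  calc _ ≤ ((kP C h : ℝ) ^ (C.l + CC + 11)) ^ CW := by gcongr
    _ = (kP C h : ℝ) ^ ((C.l + CC + 11) * CW) := by rw [← pow_mul]
    _ ≤ _ := pow_le_pow_right₀ hk1 hG.g1

/-- the bound needed for small displacements -/
theorem dsmall_aux (hG : Good C CA CC CW CL g x y) :
    2 * (1 / 2 ^ kP C h) / lamP C h + lamP C h / 3 * (kP C h : ℝ) ^ g ≤ sP C h / 8 := by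
  have hk := kP_ge_real (h := h) hG
  have hk1 : (1 : ℝ) ≤ kP C h := by linarith
  have hk0 : (0 : ℝ) < kP C h := by linarith
  have hκ0 := kap_pos
  have hκ := kap_ge
  have hκ1 := kap_le
  set k : ℝ := (kP C h : ℝ) with hkdef
  have hs : 1 / k ^ (2 * C.b) ≤ sP C h := by rw [sP_eq]; exact s_ge hk1 hκ0 hκ1
  have hb1 := hG.b1
  have hy1 := hG.y1
  -- first term
  have t1 : 2 * (1 / 2 ^ kP C h) / lamP C h ≤ 1 / k ^ (2 * C.b) / 16 := by
    have hZ := hG.Z3 (kP C h) (kP_gec hG)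
    rw [← hkdef] at hZ
    have hP0 : (0 : ℝ) < 2 ^ kP C h := by positivity
    have e1 : 2 * (1 / 2 ^ kP C h) / lamP C h = 2 * (k ^ C.b) ^ 6 / kap / 2 ^ kP C h := by
      rw [lamP_eq]; field_simp; rfl
    rw [e1, div_le_iff₀ hP0]
    have h2 : 2 * (k ^ C.b) ^ 6 / kap ≤ 4 * k ^ (6 * C.b) := by
      rw [div_le_iff₀ hκ0, ← pow_mul, mul_comm C.b 6]
      have : 0 < k ^ (6 * C.b) := by positivity
      nlinarith
    have h3 : 4 * k ^ (6 * C.b) * (k ^ (2 * C.b) * 16) ≤ 2 ^ kP C h := by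
      refine le_trans ?_ hZ
      have h64 : (64 : ℝ) ≤ k ^ 8 := by
        have : (16 : ℝ) ^ 8 ≤ k ^ 8 := pow_le_pow_left₀ (by norm_num) hk 8
        norm_num at this
        linarith
      calc 4 * k ^ (6 * C.b) * (k ^ (2 * C.b) * 16) = 64 * k ^ (8 * C.b) := by ring
        _ ≤ k ^ 8 * k ^ (8 * C.b) := by gcongr
        _ = k ^ (8 * C.b + 8) := by ring
    refine h2.trans ?_
    have e2 : 1 / k ^ (2 * C.b) / 16 * 2 ^ kP C h = 2 ^ kP C h / (k ^ (2 * C.b) * 16) := by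
      field_simp
    rw [e2, le_div_iff₀ (by positivity)]
    exact h3
  -- second term
  have t2 : lamP C h / 3 * k ^ g ≤ 1 / k ^ (2 * C.b) / 16 := by
    have h1 : lamP C h * k ^ (g + 4) ≤ 1 / k ^ (2 * C.b) := by
      rw [lamP_eq]
      exact lam_mul_le hk1 hκ1 (by omega)
    have h2 : 16 * k ^ g ≤ k ^ (g + 4) := by
      rw [pow_add]
      have : (16 : ℝ) ^ 4 ≤ k ^ 4 := pow_le_pow_left₀ (by norm_num) hk 4
      norm_num at this
      have h3 : 0 < k ^ g := by positivity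
      nlinarith
    have hl := lamP_pos (h := h) hG
    have h3 : lamP C h * (16 * k ^ g) ≤ lamP C h * k ^ (g + 4) := by gcongr
    have h4 : 0 < lamP C h * k ^ g := by positivity
    rw [le_div_iff₀ (by norm_num)]
    nlinarith
  linarith

/-- the radius of the displacement region -/
def LwD (C : Cst) (h : HInst) : ℝ := (MdP C h : ℝ) * sP C h

/-- the precision of the displacements -/
def epsD (C : Cst) (h : HInst) : ℝ := 2 * (1 / 2 ^ kP C h) / lamP C h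

theorem LwD_ge (hG : Good C CA CC CW CL g x y) : 4 * (RP C h : ℝ) ≤ LwD C h := by
  have hk := kP_ge_real (h := h) hG
  have hκ0 := kap_pos
  have hκ1 := kap_le
  unfold LwD
  rw [MdP_cast, sP_eq, RP_cast]
  set k : ℝ := (kP C h : ℝ) with hkdef
  have hB : 0 < k ^ C.b := by positivity
  have e1 : 4 * (k ^ C.r * (k ^ C.b) ^ 3) * (k ^ C.b) ^ 2 * (1 / (kap * (k ^ C.b) ^ 2)) =
      4 * (k ^ C.r * (k ^ C.b) ^ 3) / kap := by field_simp
  rw [e1, le_div_iff₀ hκ0]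
  have : 0 < 4 * (k ^ C.r * (k ^ C.b) ^ 3) := by positivity
  nlinarith

theorem RP_pos (hG : Good C CA CC CW CL g x y) : (1 : ℝ) ≤ RP C h := by
  have hk := kP_ge_real (h := h) hG
  rw [RP_cast]
  have h1 : (1 : ℝ) ≤ kP C h := by linarith
  have h2 : (1 : ℝ) ≤ (kP C h : ℝ) ^ C.r := one_le_pow₀ h1
  have h3 : (1 : ℝ) ≤ ((kP C h : ℝ) ^ C.b) ^ 3 := one_le_pow₀ (one_le_pow₀ h1)
  nlinarith

theorem RP_ge (hG : Good C CA CC CW CL g x y) {e : ℕ} (he : e ≤ C.r) :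
    (kP C h : ℝ) ^ e ≤ RP C h := by
  have hk := kP_ge_real (h := h) hG
  rw [RP_cast]
  have h1 : (1 : ℝ) ≤ kP C h := by linarith
  have h2 : (kP C h : ℝ) ^ e ≤ (kP C h : ℝ) ^ C.r := pow_le_pow_right₀ h1 he
  have h3 : (1 : ℝ) ≤ ((kP C h : ℝ) ^ C.b) ^ 3 := one_le_pow₀ (one_le_pow₀ h1)
  have h4 : 0 < (kP C h : ℝ) ^ C.r := by positivity
  nlinarith

/-- the calibrated amplitudes -/
theorem calFacts (hG : Good C CA CC CW CL g x y)
    (hCal : ∀ n k : ℕ, (CC * (n + 1)) ^ CC ≤ k → ∀ (j0 : ℝ) (J : ℕ → ℕ → ℝ),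
      (∃! p : (ℕ → ℕ → ℝ) × (ℕ → ℝ), IsCal n k j0 J p.1 p.2) ∧
      (0 ≤ j0 → j0 ≤ 1 → (∀ i j, 0 ≤ J i j ∧ J i j ≤ 1) →
        ∀ (A : ℕ → ℕ → ℝ) (a : ℕ → ℝ), IsCal n k j0 J A a →
          (∀ i j, |A i j| ≤ (k : ℝ) ^ CC) ∧ ∀ i, |a i| ≤ (k : ℝ) ^ CC)) (hv : h.Valid) :
    IsCal h.n (kP C h) (j0P C h) (JfP h) (AcP C h) (acP C h) ∧
      (∀ i j, |AcP C h i j| ≤ (kP C h : ℝ) ^ CC) ∧ ∀ i, |acP C h i| ≤ (kP C h : ℝ) ^ CC := by
  obtain ⟨h1, h2⟩ := hCal h.n (kP C h) (hCalk C h (by have := hG.c16; omega) hG.cC) (j0P C h) (JfP h)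
  have hex : ∃ p : (ℕ → ℕ → ℝ) × (ℕ → ℝ), IsCal h.n (kP C h) (j0P C h) (JfP h) p.1 p.2 := h1.exists
  have h3 : IsCal h.n (kP C h) (j0P C h) (JfP h) (AcP C h) (acP C h) := by
    unfold AcP acP calSol
    rw [dif_pos hex]
    exact hex.choose_spec
  have hk := kP_ge_real (h := h) hG
  have hj0 : 0 ≤ j0P C h := by unfold j0P; positivity
  have hn1 : (1 : ℝ) ≤ (h.n : ℝ) := by exact_mod_cast (by have := hv.1; omega : 1 ≤ h.n)
  have hq1 : (1 : ℝ) ≤ (h.q : ℝ) := by exact_mod_cast hv.2.1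
  have hj1 : j0P C h ≤ 1 := by
    unfold j0P
    rw [div_le_one (by positivity)]
    have a1 : (1 : ℝ) ≤ ((h.n : ℝ) * h.q) ^ C.cB := one_le_pow₀ (by nlinarith)
    have a2 : (1 : ℝ) ≤ (kP C h : ℝ) ^ 4 := one_le_pow₀ (by linarith)
    nlinarith
  have hJ : ∀ i j, 0 ≤ JfP h i j ∧ JfP h i j ≤ 1 := by
    intro i j
    obtain ⟨a1, a2⟩ := hv.2.2 i j
    unfold JfP
    exact ⟨by exact_mod_cast a1, by exact_mod_cast a2⟩
  exact ⟨h3, h2 hj0 hj1 hJ _ _ h3⟩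

/-- the body of `WcStmt` for our data -/
theorem wcFacts (hG : Good C CA CC CW CL g x y)
    (hWc : ∀ (n k : ℕ) (Lam Amax : ℝ) (A : ℕ → ℕ → ℝ) (a : ℕ → ℝ) (Lw : ℝ),
      1 ≤ n → 1 ≤ k → 1 ≤ Lam → 1 ≤ Amax → 1 ≤ Lw → (∀ i j, |A i j| ≤ Amax) → (∀ i, |a i| ≤ Amax) →
      let w := wpot n k Lam A a
      let wc := wcut Lw w
      let G := ((n0' n k : ℝ) + Lam + Amax + 2) ^ CW
      Continuous w ∧ (∀ x, |w x| ≤ G) ∧ (∀ x, |wc x| ≤ G) ∧ ContDiff ℝ 1 wc ∧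
      (∀ x, (∀ c, |x c| ≤ Lw) → wc x = w x) ∧
      (∀ x, (∃ c, 2 * Lw ≤ |x c|) → wc x = 0) ∧
      (∀ x, ‖fderiv ℝ wc x‖ ≤ G) ∧
      (∀ x v, ‖fderiv ℝ wc (x + v) - fderiv ℝ wc x‖ ≤ G * ‖v‖) ∧
      (∀ x v, ‖fderiv ℝ wc (x + v) + fderiv ℝ wc (x - v) - (2 : ℝ) • fderiv ℝ wc x‖ ≤ G * ‖v‖ ^ 2))
    (hv : h.Valid) (hA : ∀ i j, |AcP C h i j| ≤ (kP C h : ℝ) ^ CC)
    (ha : ∀ i, |acP C h i| ≤ (kP C h : ℝ) ^ CC) :
    Continuous (wP C h) ∧ (∀ x, |wP C h x| ≤ (kP C h : ℝ) ^ g) ∧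
      (∀ x, |wcP C h x| ≤ (kP C h : ℝ) ^ g) ∧ ContDiff ℝ 1 (wcP C h) ∧
      (∀ x : Pos3, (∀ c, |x c| ≤ 2 * (RP C h : ℝ)) → wcP C h x = wP C h x) ∧
      (∀ x : Pos3, (∃ c, 4 * (RP C h : ℝ) ≤ |x c|) → wcP C h x = 0) ∧
      (∀ x, ‖fderiv ℝ (wcP C h) x‖ ≤ (kP C h : ℝ) ^ g) ∧
      (∀ x v, ‖fderiv ℝ (wcP C h) (x + v) - fderiv ℝ (wcP C h) x‖ ≤ (kP C h : ℝ) ^ g * ‖v‖) ∧
      (∀ x v, ‖fderiv ℝ (wcP C h) (x + v) + fderiv ℝ (wcP C h) (x - v) -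
        (2 : ℝ) • fderiv ℝ (wcP C h) x‖ ≤ (kP C h : ℝ) ^ g * ‖v‖ ^ 2) := by
  have hk := kP_ge_real (h := h) hG
  have hkn := kP_ge (h := h) hG
  have hn1 : 1 ≤ h.n := by have := hv.1; omega
  have hR := RP_pos (h := h) hG
  have hLam : (1 : ℝ) ≤ (LamP C h : ℝ) := by
    rw [LamP_cast]; exact one_le_pow₀ (by linarith)
  have hAm : (1 : ℝ) ≤ (kP C h : ℝ) ^ CC := one_le_pow₀ (by linarith)
  obtain ⟨w1, w2, w3, w4, w5, w6, w7, w8, w9⟩ := hWc h.n (kP C h) (LamP C h) ((kP C h : ℝ) ^ CC)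
    (AcP C h) (acP C h) (2 * (RP C h : ℝ)) hn1 (by omega) hLam hAm (by linarith) hA ha
  have hGb := Gbound hG hn1
  refine ⟨w1, fun x => (w2 x).trans hGb, fun x => (w3 x).trans hGb, w4, w5, ?_,
    fun x => (w7 x).trans hGb, fun x v => (w8 x v).trans ?_, fun x v => (w9 x v).trans ?_⟩
  · rintro x ⟨c, hc⟩
    exact w6 x ⟨c, by linarith⟩
  · exact mul_le_mul_of_nonneg_right hGb (norm_nonneg _)
  · exact mul_le_mul_of_nonneg_right hGb (by positivity)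

/-- the displacements of the map satisfy `Disp` -/
theorem disp_of (hG : Good C CA CC CW CL g x y) {D : (Fin 3 → ℤ) → Fin 3 → ℚ}
    (hD : ∀ α c, |((D α c : ℚ) : ℝ) - DexP C h α c| ≤ (1 / 2) ^ kP C h)
    (hD0 : ∀ α, (∃ c, (MdP C h : ℤ) < |α c|) → D α = 0)
    (w4 : ContDiff ℝ 1 (wcP C h))
    (w6 : ∀ x : Pos3, (∃ c, 4 * (RP C h : ℝ) ≤ |x c|) → wcP C h x = 0)
    (w7 : ∀ x, ‖fderiv ℝ (wcP C h) x‖ ≤ (kP C h : ℝ) ^ g)
    (w8 : ∀ x v, ‖fderiv ℝ (wcP C h) (x + v) - fderiv ℝ (wcP C h) x‖ ≤ (kP C h : ℝ) ^ g * ‖v‖)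
    (w9 : ∀ x v, ‖fderiv ℝ (wcP C h) (x + v) + fderiv ℝ (wcP C h) (x - v) -
        (2 : ℝ) • fderiv ℝ (wcP C h) x‖ ≤ (kP C h : ℝ) ^ g * ‖v‖ ^ 2) :
    Lat.Disp (sP C h) (dS C h D) (wcP C h) (LwD C h) ((kP C h : ℝ) ^ g) (epsD C h) ∧
      ∀ α, ‖dS C h D α‖ ≤ sP C h / 8 := by
  have hs := sP_pos (h := h) hG
  have hl := lamP_pos (h := h) hG
  have hsm : ∀ α, ‖dS C h D α‖ ≤ sP C h / 8 := by
    intro α
    have h1 := dapp hG hD α
    have h2 := dsmall_aux (h := h) hG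
    have h3 : ‖(sP C h ^ 3 / (4 * Real.pi)) • gradient (wcP C h) (Lat.pt (sP C h) α)‖ ≤
        lamP C h / 3 * (kP C h : ℝ) ^ g := by
      rw [norm_smul, sP_cube hG]
      have hpi := Real.pi_pos
      have e1 : 4 * Real.pi * lamP C h / 3 / (4 * Real.pi) = lamP C h / 3 := by field_simp
      rw [e1, Real.norm_eq_abs, abs_of_pos (by positivity)]
      exact mul_le_mul_of_nonneg_left (norm_gradient_le (w7 _)) (by positivity)
    calc ‖dS C h D α‖ = ‖(dS C h D α - (sP C h ^ 3 / (4 * Real.pi)) •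
          gradient (wcP C h) (Lat.pt (sP C h) α)) + (sP C h ^ 3 / (4 * Real.pi)) •
          gradient (wcP C h) (Lat.pt (sP C h) α)‖ := by rw [sub_add_cancel]
      _ ≤ _ := (norm_add_le _ _).trans (add_le_add h1 h3)
      _ ≤ _ := h2
  refine ⟨⟨w4, ?_, w7, w8, w9, fun α => dapp hG hD α, ?_, fun α => (hsm α).trans (by linarith)⟩, hsm⟩
  · rintro x ⟨c, hc⟩
    exact w6 x ⟨c, (LwD_ge hG).trans hc.le⟩
  · rintro α ⟨c, hc⟩
    have h1 : D α = 0 := by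
      refine hD0 α ⟨c, ?_⟩
      unfold LwD at hc
      rw [abs_mul, abs_of_pos hs, mul_comm] at hc
      have h2 : (MdP C h : ℝ) < |(α c : ℝ)| := lt_of_mul_lt_mul_left hc hs.le
      exact_mod_cast h2
    unfold dS
    rw [h1]
    ext c
    simp

end

end Crest.Agent.R338.P2

end
end

-- ▼ part R338/P2Nuc
section

/-!
# Row 338, node P2 (helper714): `NucOK` for the data of the map, and the size of the error
-/

set_option autoImplicit false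

noncomputable section

open MeasureTheory Crest.Quantum.QMA Crest.MathPhysics.CoulombProblem
open Crest.MathPhysics.ElectronicCoulomb
open Crest.Agent.Lib.PT

namespace Crest.Agent.R338.P2

section
variable {C : Cst} {h : HInst} {CA CC CW CL g x y : ℕ}

/-- `eps2` -/
def E2P (C : Cst) (h : HInst) (CL g : ℕ) : ℝ :=
  CL * ((RP C h : ℝ) ^ 4 / ((nLP C h : ℝ) * sP C h) ^ 2 +
    lamP C h * ((kP C h : ℝ) ^ g) ^ 2 * (sP C h ^ 2 * LwD C h + (kP C h : ℝ) * sP C h) +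
    lamP C h * epsD C h * LwD C h / sP C h ^ 3 +
    ((nLP C h : ℝ) + 1) ^ CL * Real.exp (-(kP C h : ℝ) ^ 2) / sP C h ^ CL)

/-- `eps1` -/
def E1P (C : Cst) (h : HInst) (CL : ℕ) : ℝ :=
  CL * ((n0P C h : ℝ) + 2) ^ CL * lamP C h * (kP C h : ℝ) ^ 4 * sP C h

/-- `kF` -/
def kFP (C : Cst) (h : HInst) (CL : ℕ) : ℝ := CL * lamP C h * (kP C h : ℝ) ^ 3

theorem CL_le (hG : Good C CA CC CW CL g x y) : (CL : ℝ) ≤ kP C h := by
  exact_mod_cast hG.cL.trans (kP_gec hG)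

theorem n0P_two (hG : Good C CA CC CW CL g x y) (h1 : 1 ≤ h.n) :
    (n0P C h : ℝ) + 2 ≤ (kP C h : ℝ) ^ 10 := by
  have h2 := n0P_real_le hG h1
  have hk := kP_ge_real (h := h) hG
  have h3 : (1 : ℝ) ≤ (kP C h : ℝ) ^ 9 := one_le_pow₀ (by linarith)
  rw [pow_succ]
  nlinarith

theorem E1P_le (hG : Good C CA CC CW CL g x y) (h1 : 1 ≤ h.n) :
    E1P C h CL ≤ lamP C h / (kP C h : ℝ) ^ y := by
  unfold E1P
  rw [lamP_eq, sP_eq]
  have hk := kP_ge_real (h := h) hG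
  exact T3 (by linarith) kap_ge (CL_le hG) (Nat.cast_nonneg _) (n0P_two hG h1) hG.b2

theorem E1P_nonneg (hG : Good C CA CC CW CL g x y) : 0 ≤ E1P C h CL := by
  have := lamP_pos (h := h) hG
  have := sP_pos (h := h) hG
  unfold E1P
  positivity

theorem kFP_nonneg (hG : Good C CA CC CW CL g x y) : 0 ≤ kFP C h CL := by
  have := lamP_pos (h := h) hG
  unfold kFP
  positivity

theorem LwD_eq : LwD C h = 4 * ((kP C h : ℝ) ^ C.r * ((kP C h : ℝ) ^ C.b) ^ 3) *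
    ((kP C h : ℝ) ^ C.b) ^ 2 * (1 / (kap * ((kP C h : ℝ) ^ C.b) ^ 2)) := by
  unfold LwD
  rw [MdP_cast, sP_eq]

theorem E2P_le (hG : Good C CA CC CW CL g x y) :
    E2P C h CL g ≤ lamP C h / (kP C h : ℝ) ^ (x + 12) := by
  have hk := kP_ge_real (h := h) hG
  have hk1 : (1 : ℝ) ≤ kP C h := by linarith
  have hk2 : (2 : ℝ) ≤ kP C h := by linarith
  have hl := lamP_pos (h := h) hG
  have a1 : (RP C h : ℝ) ^ 4 / ((nLP C h : ℝ) * sP C h) ^ 2 ≤ lamP C h / (kP C h : ℝ) ^ y := by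
    rw [RP_cast, nLP_cast, sP_eq, lamP_eq]
    exact T4a hk2 kap_ge kap_le hG.m1
  have a2 : lamP C h * ((kP C h : ℝ) ^ g) ^ 2 * (sP C h ^ 2 * LwD C h + (kP C h : ℝ) * sP C h) ≤
      lamP C h / (kP C h : ℝ) ^ y := by
    rw [LwD_eq, sP_eq, lamP_eq]
    exact T4b hk2 kap_ge kap_le hG.b1
  have a3 : lamP C h * epsD C h * LwD C h / sP C h ^ 3 ≤ lamP C h / (kP C h : ℝ) ^ y := by
    unfold epsD
    rw [LwD_eq, sP_eq, lamP_eq]
    exact T4c hk2 kap_ge kap_le (hG.Z1 _ (kP_gec hG))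
  have a4 : ((nLP C h : ℝ) + 1) ^ CL * Real.exp (-(kP C h : ℝ) ^ 2) / sP C h ^ CL ≤
      lamP C h / (kP C h : ℝ) ^ y := by
    have e1 : Real.exp (-(kP C h : ℝ) ^ 2) = 1 / Real.exp ((kP C h : ℝ) ^ 2) := by
      rw [Real.exp_neg, one_div]
    rw [e1, nLP_cast, sP_eq, lamP_eq]
    refine T4d hk2 kap_ge kap_le ((hG.Z2 _ (kP_gec hG)).trans ?_)
    have h3 : (2 : ℝ) ^ kP C h ≤ Real.exp (kP C h) := by
      have h2 : (2 : ℝ) ≤ Real.exp 1 := by have := Real.add_one_le_exp (1 : ℝ); linarith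
      calc (2 : ℝ) ^ kP C h ≤ (Real.exp 1) ^ kP C h := pow_le_pow_left₀ (by norm_num) h2 _
        _ = Real.exp (kP C h) := by rw [← Real.exp_nat_mul, mul_one]
    refine h3.trans (Real.exp_le_exp.2 ?_)
    nlinarith
  unfold E2P
  have hCL := CL_le (h := h) hG
  have hCL0 : (0 : ℝ) ≤ CL := Nat.cast_nonneg _
  have hkp : (0 : ℝ) < kP C h := by linarith
  calc _ ≤ (CL : ℝ) * (lamP C h / (kP C h : ℝ) ^ y + lamP C h / (kP C h : ℝ) ^ y +
        lamP C h / (kP C h : ℝ) ^ y + lamP C h / (kP C h : ℝ) ^ y) := by gcongr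
    _ ≤ (kP C h : ℝ) * (lamP C h / (kP C h : ℝ) ^ y + lamP C h / (kP C h : ℝ) ^ y +
        lamP C h / (kP C h : ℝ) ^ y + lamP C h / (kP C h : ℝ) ^ y) := by gcongr
    _ = lamP C h * (4 * (kP C h : ℝ) / (kP C h : ℝ) ^ y) := by ring
    _ ≤ lamP C h * ((kP C h : ℝ) ^ 2 / (kP C h : ℝ) ^ y) := by gcongr; nlinarith
    _ ≤ lamP C h * (1 / (kP C h : ℝ) ^ (x + 12)) :=
        mul_le_mul_of_nonneg_left (pow_div_le hk1 (by have := hG.y1; omega)) hl.le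
    _ = _ := by ring

theorem LwD_pos (hG : Good C CA CC CW CL g x y) : 0 < LwD C h := by
  have h1 := LwD_ge (h := h) hG
  have h2 := RP_pos (h := h) hG
  linarith

theorem epsD_pos (hG : Good C CA CC CW CL g x y) : 0 < epsD C h := by
  have := lamP_pos (h := h) hG
  unfold epsD
  positivity

theorem E2P_nonneg (hG : Good C CA CC CW CL g x y) : 0 ≤ E2P C h CL g := by
  have h1 := lamP_pos (h := h) hG
  have h2 := sP_pos (h := h) hG
  have h3 := LwD_pos (h := h) hG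
  have h4 := epsD_pos (h := h) hG
  unfold E2P
  positivity

theorem lamP_le_pow (hG : Good C CA CC CW CL g x y) {p q : ℕ} (h1 : p + q ≤ 6 * C.b) :
    lamP C h * (kP C h : ℝ) ^ p ≤ 1 / (kP C h : ℝ) ^ q := by
  have hk := kP_ge_real (h := h) hG
  rw [lamP_eq]
  exact lam_mul_le (by linarith) kap_le h1

theorem lamP_le_one (hG : Good C CA CC CW CL g x y) : lamP C h ≤ 1 := by
  have := lamP_le_pow (h := h) hG (p := 0) (q := 0) (by omega)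
  simpa using this

/-- body of `LatStmt` -/
def LatBody (C : ℕ) : Prop := ∀ (n0 nL N : ℕ) (lam s K R Lw G Wb eps : ℝ)
  (d : (Fin 3 → ℤ) → Pos3) (w wc : Pos3 → ℝ) (e : Fin N ≃ {α // α ∈ Lat.Box nL}),
  0 < lam → lam ≤ 1 → 0 < s → s ≤ 1 → s ^ 3 = 4 * Real.pi * lam / 3 → (C : ℝ) ≤ K → K * s ≤ 1 →
  (C : ℝ) ≤ R → 1 ≤ Lw → Lw + s ≤ nL * s → C * R ≤ nL * s → 1 ≤ G → 0 ≤ eps → 1 ≤ Wb →
  Lat.Disp s d wc Lw G eps → Continuous w → (∀ x, |w x| ≤ Wb) → (∀ x, |wc x| ≤ Wb) →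
  (∀ x : Pos3, (∀ c, |x c| ≤ 2 * R) → wc x = w x) →
  C * (lam * Wb) ≤ R ^ 2 → C * ((nL : ℝ) * s) ^ 2 ≤ R ^ 8 →
  let E2 : ℝ := C * (R ^ 4 / ((nL : ℝ) * s) ^ 2 + lam * G ^ 2 * (s ^ 2 * Lw + K * s) +
      lam * eps * Lw / s ^ 3 + ((nL : ℝ) + 1) ^ C * Real.exp (-K ^ 2) / s ^ C)
  E2 ≤ 1 →
  NucOK n0 lam (-(Lat.V0 lam s (1 / (K * s) ^ 2) nL 0)) R (C * ((n0 : ℝ) + 2) ^ C * lam * K ^ 4 * s)
    E2 (C * lam * K ^ 3) Wb (fun i => Lat.nuc s d (e i).1) w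

theorem nucOK_of (hG : Good C CA CC CW CL g x y) (hLat : LatBody CL) {N : ℕ}
    {d : (Fin 3 → ℤ) → Pos3} (e : Fin N ≃ {α // α ∈ Lat.Box (nLP C h)})
    (hd : Lat.Disp (sP C h) d (wcP C h) (LwD C h) ((kP C h : ℝ) ^ g) (epsD C h))
    (w1 : Continuous (wP C h)) (w2 : ∀ x, |wP C h x| ≤ (kP C h : ℝ) ^ g)
    (w3 : ∀ x, |wcP C h x| ≤ (kP C h : ℝ) ^ g)
    (w5 : ∀ x : Pos3, (∀ c, |x c| ≤ 2 * (RP C h : ℝ)) → wcP C h x = wP C h x) :
    NucOK (n0P C h) (lamP C h) (C0P C h) (RP C h) (E1P C h CL) (E2P C h CL g) (kFP C h CL)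
      ((kP C h : ℝ) ^ g) (fun i => Lat.nuc (sP C h) d (e i).1) (wP C h) := by
  have hk := kP_ge_real (h := h) hG
  have hk1 : (1 : ℝ) ≤ kP C h := by linarith
  have hk0 : (0 : ℝ) < kP C h := by linarith
  have hl := lamP_pos (h := h) hG
  have hl1 := lamP_le_one (h := h) hG
  have hs := sP_pos (h := h) hG
  have hκ0 := kap_pos
  have hκ1 := kap_le
  have hκ := kap_ge
  have hCLk := CL_le (h := h) hG
  have hCL0 : (0 : ℝ) ≤ CL := Nat.cast_nonneg _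
  have hR1 := RP_ge (h := h) hG (e := 1) (by have := hG.r1; omega)
  rw [pow_one] at hR1
  have hb : 1 ≤ C.b := by have := hG.b1; omega
  have hs2 : sP C h ≤ 2 / (kP C h : ℝ) ^ (2 * C.b) := by rw [sP_eq]; exact s_le hk1 kap_ge
  have hks : (kP C h : ℝ) * sP C h ≤ 1 := by
    have h1 : (kP C h : ℝ) * sP C h ≤ kP C h * (2 / (kP C h : ℝ) ^ (2 * C.b)) := by gcongr
    have h2 : (kP C h : ℝ) ^ 2 ≤ (kP C h : ℝ) ^ (2 * C.b) := pow_le_pow_right₀ hk1 (by omega)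
    refine h1.trans ?_
    rw [← mul_div_assoc, div_le_one (by positivity)]
    nlinarith
  have hs1 : sP C h ≤ 1 := by nlinarith
  have hG1 : (1 : ℝ) ≤ (kP C h : ℝ) ^ g := one_le_pow₀ hk1
  -- nL s
  have hB : (0 : ℝ) < (kP C h : ℝ) ^ C.b := by positivity
  have hB1 : (1 : ℝ) ≤ (kP C h : ℝ) ^ C.b := one_le_pow₀ hk1
  have hL : (nLP C h : ℝ) * sP C h = (kP C h : ℝ) ^ C.m * ((kP C h : ℝ) ^ C.b) ^ 9 / kap := by
    rw [nLP_cast, sP_eq]; field_simp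
  have hLge : (kP C h : ℝ) ^ C.m * ((kP C h : ℝ) ^ C.b) ^ 9 ≤ (nLP C h : ℝ) * sP C h := by
    rw [hL, le_div_iff₀ hκ0]
    have : 0 < (kP C h : ℝ) ^ C.m * ((kP C h : ℝ) ^ C.b) ^ 9 := by positivity
    nlinarith
  have hLle : (nLP C h : ℝ) * sP C h ≤ 2 * ((kP C h : ℝ) ^ C.m * ((kP C h : ℝ) ^ C.b) ^ 9) := by
    rw [hL, div_le_iff₀ hκ0]
    have : 0 < (kP C h : ℝ) ^ C.m * ((kP C h : ℝ) ^ C.b) ^ 9 := by positivity
    nlinarith
  have c1 : LwD C h + sP C h ≤ nLP C h * sP C h := by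
    unfold LwD
    have h1 : (MdP C h : ℝ) + 1 ≤ nLP C h := by
      rw [MdP_cast, nLP_cast]
      set k : ℝ := (kP C h : ℝ)
      have h2 : k ^ (C.r + 3) ≤ k ^ C.m := pow_le_pow_right₀ hk1 hG.m2
      have h3 : (1 : ℝ) ≤ k ^ C.r := one_le_pow₀ hk1
      have h4 : (k ^ C.b) ^ 5 ≤ (k ^ C.b) ^ 11 := pow_le_pow_right₀ hB1 (by norm_num)
      have h5 : (1 : ℝ) ≤ (k ^ C.b) ^ 5 := one_le_pow₀ hB1
      have h6 : (1 : ℝ) ≤ k ^ C.r * (k ^ C.b) ^ 5 := by nlinarith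
      have h7 : (5 : ℝ) ≤ k ^ 3 := by
        have : (16 : ℝ) ^ 3 ≤ k ^ 3 := pow_le_pow_left₀ (by norm_num) hk 3
        norm_num at this; linarith
      calc 4 * (k ^ C.r * (k ^ C.b) ^ 3) * (k ^ C.b) ^ 2 + 1
          = 4 * (k ^ C.r * (k ^ C.b) ^ 5) + 1 := by ring
        _ ≤ 5 * (k ^ C.r * (k ^ C.b) ^ 5) := by linarith
        _ ≤ k ^ 3 * (k ^ C.r * (k ^ C.b) ^ 5) := by gcongr
        _ = k ^ (C.r + 3) * (k ^ C.b) ^ 5 := by ring
        _ ≤ k ^ C.m * (k ^ C.b) ^ 11 := by gcongr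
    calc (MdP C h : ℝ) * sP C h + sP C h = ((MdP C h : ℝ) + 1) * sP C h := by ring
      _ ≤ nLP C h * sP C h := by gcongr
  have c2 : (CL : ℝ) * (RP C h : ℝ) ≤ nLP C h * sP C h := by
    refine le_trans ?_ hLge
    rw [RP_cast]
    set k : ℝ := (kP C h : ℝ)
    have h2 : k ^ (C.r + 1) ≤ k ^ C.m := pow_le_pow_right₀ hk1 (by have := hG.m2; omega)
    have h4 : (k ^ C.b) ^ 3 ≤ (k ^ C.b) ^ 9 := pow_le_pow_right₀ hB1 (by norm_num)
    calc (CL : ℝ) * (k ^ C.r * (k ^ C.b) ^ 3) ≤ k * (k ^ C.r * (k ^ C.b) ^ 3) := by gcongr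
      _ = k ^ (C.r + 1) * (k ^ C.b) ^ 3 := by ring
      _ ≤ k ^ C.m * (k ^ C.b) ^ 9 := by gcongr
  have c3 : (CL : ℝ) * (lamP C h * (kP C h : ℝ) ^ g) ≤ (RP C h : ℝ) ^ 2 := by
    have h1 := lamP_le_pow (h := h) hG (p := g) (q := 0) (by have := hG.b1; omega)
    rw [pow_zero, div_one] at h1
    have h2 : 0 < lamP C h * (kP C h : ℝ) ^ g := by positivity
    nlinarith [RP_pos (h := h) hG]
  have c4 : (CL : ℝ) * ((nLP C h : ℝ) * sP C h) ^ 2 ≤ (RP C h : ℝ) ^ 8 := by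
    rw [RP_cast]
    have h0 : 0 ≤ (nLP C h : ℝ) * sP C h := by positivity
    set k : ℝ := (kP C h : ℝ)
    have h7 : (4 : ℝ) ≤ k ^ 2 := by nlinarith
    calc (CL : ℝ) * ((nLP C h : ℝ) * sP C h) ^ 2
        ≤ k * (2 * (k ^ C.m * (k ^ C.b) ^ 9)) ^ 2 := by gcongr
      _ = 4 * (k * (k ^ C.m * (k ^ C.b) ^ 9) ^ 2) := by ring
      _ ≤ k ^ 2 * (k * (k ^ C.m * (k ^ C.b) ^ 9) ^ 2) := by gcongr
      _ = k ^ (2 * C.m + 3) * k ^ (18 * C.b) := by ring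
      _ ≤ k ^ (6 * C.b + 8 * C.r) * k ^ (18 * C.b) :=
          mul_le_mul_of_nonneg_right (pow_le_pow_right₀ hk1 hG.b3) (by positivity)
      _ = (k ^ C.r * (k ^ C.b) ^ 3) ^ 8 := by ring
  have c5 : E2P C h CL g ≤ 1 := by
    refine (E2P_le hG).trans ?_
    rw [div_le_one (by positivity)]
    exact hl1.trans (one_le_pow₀ hk1)
  have hLw1 : 1 ≤ LwD C h := by
    have := LwD_ge (h := h) hG
    have := RP_pos (h := h) hG
    linarith
  exact hLat (n0P C h) (nLP C h) N (lamP C h) (sP C h) (kP C h) (RP C h) (LwD C h)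
    ((kP C h : ℝ) ^ g) ((kP C h : ℝ) ^ g) (epsD C h) d (wP C h) (wcP C h) e hl hl1 hs hs1
    (sP_cube hG) hCLk hks (hCLk.trans hR1) hLw1 c1 c2 hG1 (epsD_pos hG).le hG1 hd w1 w2 w3 w5 c3 c4
    c5

end

end Crest.Agent.R338.P2

end
end

-- ▼ part R338/P2Top

/-!
# Row 338, node P2 (helper714): `PartIIStmt` from the node statements, final assembly
-/

set_option autoImplicit false

noncomputable section

open MeasureTheory Crest.Quantum.QMA Crest.MathPhysics.CoulombProblem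
open Crest.MathPhysics.ElectronicCoulomb
open Crest.Agent.Lib.PT

namespace Crest.Agent.R338.P2

section
variable {C : Cst} {h : HInst} {CA CC CW CL g x y : ℕ}

/-- error of Theorem AB for our data -/
def ErrP (C : Cst) (h : HInst) (CA CL g : ℕ) : ℝ :=
  ((n0P C h : ℝ) + 2 + (kP C h : ℝ) ^ g) ^ CA *
    (lamP C h ^ 2 + kFP C h CL ^ 2 + E1P C h CL + E2P C h CL g + 1 / (RP C h : ℝ) ^ 2)

theorem X_le (hG : Good C CA CC CW CL g x y) (h1 : 1 ≤ h.n) :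
    ((n0P C h : ℝ) + 2 + (kP C h : ℝ) ^ g) ^ CA ≤ (kP C h : ℝ) ^ x := by
  have hk := kP_ge_real (h := h) hG
  have hk1 : (1 : ℝ) ≤ kP C h := by linarith
  have h2 := n0P_two hG h1
  have h3 : (n0P C h : ℝ) + 2 + (kP C h : ℝ) ^ g ≤ (kP C h : ℝ) ^ (g + 11) := by
    have a1 : (kP C h : ℝ) ^ 10 ≤ (kP C h : ℝ) ^ (g + 10) := pow_le_pow_right₀ hk1 (by omega)
    have a2 : (kP C h : ℝ) ^ g ≤ (kP C h : ℝ) ^ (g + 10) := pow_le_pow_right₀ hk1 (by omega)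
    have a3 : (0 : ℝ) < (kP C h : ℝ) ^ (g + 10) := by positivity
    rw [show g + 11 = (g + 10) + 1 by ring, pow_succ]
    nlinarith
  calc _ ≤ ((kP C h : ℝ) ^ (g + 11)) ^ CA := by gcongr
    _ = (kP C h : ℝ) ^ ((g + 11) * CA) := by rw [← pow_mul]
    _ ≤ _ := pow_le_pow_right₀ hk1 hG.x1


theorem kFP_le (hG : Good C CA CC CW CL g x y) {q : ℕ} (hq : 4 + q ≤ 6 * C.b) :
    kFP C h CL ≤ 1 / (kP C h : ℝ) ^ q := by
  have hk := kP_ge_real (h := h) hG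
  unfold kFP
  rw [lamP_eq]
  exact kF_le (by linarith) kap_nonneg kap_le (CL_le hG) hq

theorem AB_cond (hG : Good C CA CC CW CL g x y) (h1 : 1 ≤ h.n) :
    ((n0P C h : ℝ) + 2 + (kP C h : ℝ) ^ g) ^ CA * (lamP C h + kFP C h CL) ≤ 1 := by
  have hk := kP_ge_real (h := h) hG
  have hk0 : (0 : ℝ) < kP C h := by linarith
  have hX := X_le hG h1
  have hb := hG.b1
  have hy := hG.y1
  have a1 := lamP_le_pow (h := h) hG (p := 0) (q := x + 1) (by omega)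
  rw [pow_zero, mul_one] at a1
  have a2 := kFP_le (h := h) hG (q := x + 1) (by omega)
  have hl := lamP_pos (h := h) hG
  have hF := kFP_nonneg (h := h) hG
  calc _ ≤ (kP C h : ℝ) ^ x * (1 / (kP C h : ℝ) ^ (x + 1) + 1 / (kP C h : ℝ) ^ (x + 1)) := by
        gcongr
    _ = 2 / kP C h := by
        rw [pow_succ]; field_simp; norm_num
    _ ≤ 1 := by rw [div_le_one hk0]; linarith

theorem ErrP_le (hG : Good C CA CC CW CL g x y) (hv : h.Valid) :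
    ErrP C h CA CL g ≤ lamP C h * j0P C h / (16 * h.q) := by
  have hk := kP_ge_real (h := h) hG
  have hk1 : (1 : ℝ) ≤ kP C h := by linarith
  have hk2 : (2 : ℝ) ≤ kP C h := by linarith
  have hk0 : (0 : ℝ) < kP C h := by linarith
  have h1 : 1 ≤ h.n := by have := hv.1; omega
  have hX := X_le hG h1
  have hb := hG.b1
  have hy := hG.y1
  have hr := hG.r1
  have hl := lamP_pos (h := h) hG
  have hyx : lamP C h / (kP C h : ℝ) ^ y ≤ lamP C h / (kP C h : ℝ) ^ (x + 12) := by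
    apply div_le_div_of_nonneg_left hl.le (by positivity)
    exact pow_le_pow_right₀ hk1 (by omega)
  have a1 : lamP C h ^ 2 ≤ lamP C h / (kP C h : ℝ) ^ (x + 12) := by
    refine le_trans ?_ hyx
    rw [lamP_eq]
    exact T1 hk1 kap_nonneg kap_le (by omega)
  have a2 : kFP C h CL ^ 2 ≤ lamP C h / (kP C h : ℝ) ^ (x + 12) := by
    refine le_trans ?_ hyx
    unfold kFP
    rw [lamP_eq]
    exact T2 hk1 kap_nonneg kap_le (CL_le hG) (by omega)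
  have a3 : E1P C h CL ≤ lamP C h / (kP C h : ℝ) ^ (x + 12) := (E1P_le hG h1).trans hyx
  have a4 := E2P_le (h := h) hG
  have a5 : 1 / (RP C h : ℝ) ^ 2 ≤ lamP C h / (kP C h : ℝ) ^ (x + 12) := by
    refine le_trans ?_ hyx
    rw [lamP_eq, RP_cast]
    exact T5 hk2 kap_ge (by omega)
  have hj : 1 / (kP C h : ℝ) ^ 5 ≤ j0P C h / h.q := by
    have hn1 : (1 : ℝ) ≤ (h.n : ℝ) := by exact_mod_cast h1
    have hq1 : (1 : ℝ) ≤ (h.q : ℝ) := by exact_mod_cast hv.2.1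
    have h3 : ((h.n : ℝ) * h.q) ^ C.cB * h.q ≤ kP C h := by
      exact_mod_cast hnqk C h (by have := hG.cB2; omega)
    unfold j0P
    rw [div_div]
    apply one_div_le_one_div_of_le (by positivity)
    calc ((h.n : ℝ) * h.q) ^ C.cB * (kP C h : ℝ) ^ 4 * h.q
        = (((h.n : ℝ) * h.q) ^ C.cB * h.q) * (kP C h : ℝ) ^ 4 := by ring
      _ ≤ kP C h * (kP C h : ℝ) ^ 4 := by gcongr
      _ = _ := by ring
  have hsum0 : 0 ≤ lamP C h ^ 2 + kFP C h CL ^ 2 + E1P C h CL + E2P C h CL g +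
      1 / (RP C h : ℝ) ^ 2 := by
    have := E1P_nonneg (h := h) hG
    have := E2P_nonneg (h := h) hG
    positivity
  unfold ErrP
  calc _ ≤ (kP C h : ℝ) ^ x * (5 * (lamP C h / (kP C h : ℝ) ^ (x + 12))) := by
        apply mul_le_mul hX (by linarith) hsum0 (by positivity)
    _ = lamP C h * (5 / (kP C h : ℝ) ^ 12) := by
        rw [pow_add]; field_simp
    _ ≤ lamP C h * (1 / (kP C h : ℝ) ^ 5 / 16) := by
        refine mul_le_mul_of_nonneg_left ?_ hl.le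
        rw [div_div, div_le_div_iff₀ (by positivity) (by positivity), one_mul]
        have h7 : (80 : ℝ) ≤ (kP C h : ℝ) ^ 7 := by
          have : (16 : ℝ) ^ 7 ≤ (kP C h : ℝ) ^ 7 := pow_le_pow_left₀ (by norm_num) hk 7
          norm_num at this; linarith
        calc 5 * ((kP C h : ℝ) ^ 5 * 16) = 80 * (kP C h : ℝ) ^ 5 := by ring
          _ ≤ (kP C h : ℝ) ^ 7 * (kP C h : ℝ) ^ 5 := by gcongr
          _ = _ := by ring
    _ ≤ lamP C h * (j0P C h / h.q / 16) := by gcongr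
    _ = _ := by
        rw [div_div, mul_div_assoc, mul_comm (h.q : ℝ) 16]

/-- the signal in physical units is at least `10` -/
theorem signal_ge (hG : Good C CA CC CW CL g x y) (hv : h.Valid) :
    10 ≤ j0P C h / h.q / lamP C h := by
  have hk := kP_ge_real (h := h) hG
  have hk1 : (1 : ℝ) ≤ kP C h := by linarith
  have h1 : 1 ≤ h.n := by have := hv.1; omega
  have hl := lamP_pos (h := h) hG
  have hb := hG.b1
  have hj : 1 / (kP C h : ℝ) ^ 5 ≤ j0P C h / h.q := by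
    have hn1 : (1 : ℝ) ≤ (h.n : ℝ) := by exact_mod_cast h1
    have hq1 : (1 : ℝ) ≤ (h.q : ℝ) := by exact_mod_cast hv.2.1
    have h3 : ((h.n : ℝ) * h.q) ^ C.cB * h.q ≤ kP C h := by
      exact_mod_cast hnqk C h (by have := hG.cB2; omega)
    unfold j0P
    rw [div_div]
    apply one_div_le_one_div_of_le (by positivity)
    calc ((h.n : ℝ) * h.q) ^ C.cB * (kP C h : ℝ) ^ 4 * h.q
        = (((h.n : ℝ) * h.q) ^ C.cB * h.q) * (kP C h : ℝ) ^ 4 := by ring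
      _ ≤ kP C h * (kP C h : ℝ) ^ 4 := by gcongr
      _ = _ := by ring
  have h2 := lamP_le_pow (h := h) hG (p := 0) (q := 6) (by omega)
  rw [pow_zero, mul_one] at h2
  rw [le_div_iff₀ hl]
  calc 10 * lamP C h ≤ 10 * (1 / (kP C h : ℝ) ^ 6) := by gcongr
    _ ≤ kP C h * (1 / (kP C h : ℝ) ^ 6) := by gcongr; linarith
    _ = 1 / (kP C h : ℝ) ^ 5 := by field_simp
    _ ≤ _ := hj

/-- reference energy (scaled) -/
def ErefP (C : Cst) (h : HInst) : ℝ :=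
  EN (n0P C h) h.n - numEl (n0P C h) h.n * C0P C h + lamP C h * Ecc (n0P C h) (wP C h)

/-- the constant of the shell problem -/
def cHP (C : Cst) (h : HInst) : ℝ := constH h.n (kP C h) (LamP C h) (j0P C h) (JfP h)

theorem thrP_eq : thrP C h =
    (ErefP C h + lamP C h * (cHP C h + j0P C h * ((h.e : ℝ) + 1 / (2 * (h.q : ℝ))))) /
      lamP C h ^ 2 := by
  unfold thrP ErefP cHP
  rfl

theorem yes_thr (hG : Good C CA CC CW CL g x y) (hv : h.Valid) :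
    (ErefP C h + lamP C h * (cHP C h + j0P C h * (h.e : ℝ) + j0P C h / (16 * h.q)) +
      ErrP C h CA CL g) / lamP C h ^ 2 ≤ thrP C h - 5 / 8 := by
  have hl := lamP_pos (h := h) hG
  have hE := ErrP_le (h := h) hG hv
  have hS := signal_ge (h := h) hG hv
  have hq1 : (0 : ℝ) < (h.q : ℝ) := by exact_mod_cast hv.2.1
  rw [thrP_eq, le_sub_iff_add_le, ← sub_nonneg]
  have e1 : (ErefP C h + lamP C h * (cHP C h + j0P C h * ((h.e : ℝ) + 1 / (2 * (h.q : ℝ))))) /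
      lamP C h ^ 2 - ((ErefP C h + lamP C h * (cHP C h + j0P C h * (h.e : ℝ) +
        j0P C h / (16 * h.q)) + ErrP C h CA CL g) / lamP C h ^ 2 + 5 / 8) =
      (lamP C h * j0P C h / (16 * h.q) - ErrP C h CA CL g) / lamP C h ^ 2 +
        (3 / 8 * (j0P C h / h.q / lamP C h) - 5 / 8) := by
    field_simp
    ring
  rw [e1]
  have h2 : 0 ≤ (lamP C h * j0P C h / (16 * h.q) - ErrP C h CA CL g) / lamP C h ^ 2 :=
    div_nonneg (by linarith) (by positivity)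
  linarith

theorem no_thr (hG : Good C CA CC CW CL g x y) (hv : h.Valid) :
    thrP C h + 5 / 8 ≤ (ErefP C h + lamP C h * (cHP C h + j0P C h * ((h.e : ℝ) + 1 / h.q) -
      j0P C h / (16 * h.q)) - ErrP C h CA CL g) / lamP C h ^ 2 := by
  have hl := lamP_pos (h := h) hG
  have hE := ErrP_le (h := h) hG hv
  have hS := signal_ge (h := h) hG hv
  have hq1 : (0 : ℝ) < (h.q : ℝ) := by exact_mod_cast hv.2.1
  rw [thrP_eq, ← sub_nonneg]
  have e1 : (ErefP C h + lamP C h * (cHP C h + j0P C h * ((h.e : ℝ) + 1 / h.q) -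
      j0P C h / (16 * h.q)) - ErrP C h CA CL g) / lamP C h ^ 2 -
      ((ErefP C h + lamP C h * (cHP C h + j0P C h * ((h.e : ℝ) + 1 / (2 * (h.q : ℝ))))) /
      lamP C h ^ 2 + 5 / 8) =
      (lamP C h * j0P C h / (16 * h.q) - ErrP C h CA CL g) / lamP C h ^ 2 +
        (3 / 8 * (j0P C h / h.q / lamP C h) - 5 / 8) := by
    field_simp
    ring
  rw [e1]
  have h2 : 0 ≤ (lamP C h * j0P C h / (16 * h.q) - ErrP C h CA CL g) / lamP C h ^ 2 :=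
    div_nonneg (by linarith) (by positivity)
  linarith

end

/-! ## monotonicity and homogeneity -/

theorem InfLE_mono {n : ℕ} {W : Config n → ℝ} {a b : ℝ} (hab : a ≤ b) (h : InfEnergyLE W a) :
    InfEnergyLE W b := by
  intro ε hε
  obtain ⟨Ψ, h1, h2, h3⟩ := h ε hε
  exact ⟨Ψ, h1, h2, h3.trans (by linarith)⟩

theorem InfGE_mono {n : ℕ} {W : Config n → ℝ} {a b : ℝ} (hab : b ≤ a) (h : InfEnergyGE W a) :
    InfEnergyGE W b := fun Ψ h1 h2 => hab.trans (h Ψ h1 h2)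

theorem nrmSq_smul {n : ℕ} (c : ℝ) (ψ : (Fin n → Bool) → ℂ) :
    nrmSq (fun σ => (c : ℂ) * ψ σ) = c ^ 2 * nrmSq ψ := by
  unfold nrmSq
  rw [Finset.mul_sum]
  refine Finset.sum_congr rfl fun σ _ => ?_
  rw [norm_mul, mul_pow, Complex.norm_real, Real.norm_eq_abs, sq_abs]

theorem swapExp_smul {n : ℕ} (i j : Fin n) (c : ℝ) (ψ : (Fin n → Bool) → ℂ) :
    swapExp i j (fun σ => (c : ℂ) * ψ σ) = c ^ 2 * swapExp i j ψ := by
  unfold swapExp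
  rw [Finset.mul_sum]
  refine Finset.sum_congr rfl fun σ _ => ?_
  have e1 : (starRingEnd ℂ) ((c : ℂ) * ψ σ) * ((c : ℂ) * ψ (σ ∘ Equiv.swap i j)) =
      ((c ^ 2 : ℝ) : ℂ) * ((starRingEnd ℂ) (ψ σ) * ψ (σ ∘ Equiv.swap i j)) := by
    rw [map_mul, Complex.conj_ofReal]
    push_cast
    ring
  rw [e1, Complex.re_ofReal_mul]

theorem heis_smul {n : ℕ} (J : Fin n → Fin n → ℝ) (c : ℝ) (ψ : (Fin n → Bool) → ℂ) :
    heis J (fun σ => (c : ℂ) * ψ σ) = c ^ 2 * heis J ψ := by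
  unfold heis
  rw [Finset.mul_sum]
  refine Finset.sum_congr rfl fun i _ => ?_
  rw [Finset.mul_sum]
  refine Finset.sum_congr rfl fun j _ => ?_
  rw [nrmSq_smul, swapExp_smul]
  split_ifs
  · ring
  · ring

theorem nrmSq_nonneg {n : ℕ} (ψ : (Fin n → Bool) → ℂ) : 0 ≤ nrmSq ψ :=
  Finset.sum_nonneg fun _ _ => by positivity

theorem heis_of_nrmSq_zero {n : ℕ} (J : Fin n → Fin n → ℝ) (ψ : (Fin n → Bool) → ℂ)
    (h0 : nrmSq ψ = 0) : heis J ψ = 0 := by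
  have h1 : ψ = fun σ => ((0 : ℝ) : ℂ) * ψ σ := by
    funext σ
    have h2 : ‖ψ σ‖ ^ 2 = 0 := by
      unfold nrmSq at h0
      exact (Finset.sum_eq_zero_iff_of_nonneg (fun _ _ => by positivity)).1 h0 σ (Finset.mem_univ _)
    have h3 : ψ σ = 0 := by simpa using h2
    rw [h3]; simp
  rw [h1, heis_smul]
  ring

theorem no_homog {n : ℕ} {J : Fin n → Fin n → ℝ} {e : ℝ}
    (h : ∀ ψ : (Fin n → Bool) → ℂ, nrmSq ψ = 1 → e ≤ heis J ψ) (ψ : (Fin n → Bool) → ℂ) :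
    e * nrmSq ψ ≤ heis J ψ := by
  rcases (nrmSq_nonneg ψ).eq_or_lt with h0 | h0
  · rw [← h0, heis_of_nrmSq_zero J ψ h0.symm]; simp
  · have hs : 0 < √(nrmSq ψ) := Real.sqrt_pos.2 h0
    have h1 := h (fun σ => (((√(nrmSq ψ))⁻¹ : ℝ) : ℂ) * ψ σ) (by
      rw [nrmSq_smul, inv_pow, Real.sq_sqrt h0.le, inv_mul_cancel₀ h0.ne'])
    rw [heis_smul, inv_pow, Real.sq_sqrt h0.le, ← div_eq_inv_mul, le_div_iff₀ h0] at h1
    exact h1

/-! ## the final composition -/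

theorem realPos_eq {C : Cst} {h : HInst} {CA CC CW CL g x y : ℕ}
    (hG : Good C CA CC CW CL g x y) (D : (Fin 3 → ℤ) → Fin 3 → ℚ) (α : Fin 3 → ℤ) :
    realPos (fun c => (α c : ℚ) / (AP C h : ℚ) - D α c) =
      lamP C h • Lat.nuc (sP C h) (dS C h D) α := by
  have hl := lamP_pos (h := h) hG
  have hk := kP_ge_real (h := h) hG
  have hκ0 := kap_pos
  have e1 : lamP C h * sP C h = 1 / (AP C h : ℝ) := by
    rw [lamP_eq, sP_eq, AP_cast]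
    have hB : (0 : ℝ) < (kP C h : ℝ) ^ C.b := by positivity
    field_simp
  ext c
  unfold realPos Lat.nuc Lat.pt
  rw [PiLp.smul_apply, PiLp.sub_apply, dS_apply]
  simp only [smul_eq_mul, PiLp.toLp_apply]
  push_cast
  have e2 : lamP C h * (sP C h * (α c : ℝ) - 1 / lamP C h * (D α c : ℝ)) =
      lamP C h * sP C h * (α c : ℝ) - D α c := by
    field_simp
  rw [e2, e1]
  ring

/-- distinctness of the (scaled) nuclei -/
theorem nuc_injective {s : ℝ} (hs : 0 < s) {d : (Fin 3 → ℤ) → Pos3} (hd : ∀ α, ‖d α‖ ≤ s / 8) :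
    Function.Injective (Lat.nuc s d) := by
  intro α β hαβ
  by_contra hne
  have h1 : Lat.pt s α - Lat.pt s β = d α - d β := by
    unfold Lat.nuc at hαβ
    rw [sub_eq_sub_iff_sub_eq_sub] at hαβ
    exact hαβ
  have h2 : ‖Lat.pt s α - Lat.pt s β‖ ≤ s / 4 := by
    rw [h1]
    calc ‖d α - d β‖ ≤ ‖d α‖ + ‖d β‖ := norm_sub_le _ _
      _ ≤ s / 8 + s / 8 := add_le_add (hd α) (hd β)
      _ = s / 4 := by ring
  obtain ⟨c, hc⟩ : ∃ c, α c ≠ β c := by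
    by_contra hall
    push Not at hall
    exact hne (funext hall)
  have h3 : |(Lat.pt s α - Lat.pt s β) c| ≤ ‖Lat.pt s α - Lat.pt s β‖ := by
    have := PiLp.norm_apply_le (p := 2) (Lat.pt s α - Lat.pt s β) c
    rwa [Real.norm_eq_abs] at this
  have h4 : (Lat.pt s α - Lat.pt s β) c = s * ((α c : ℝ) - β c) := by
    rw [PiLp.sub_apply]
    unfold Lat.pt
    simp only [PiLp.toLp_apply]
    ring
  have h5 : (1 : ℝ) ≤ |(α c : ℝ) - β c| := by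
    have : (1 : ℤ) ≤ |α c - β c| := Int.one_le_abs (sub_ne_zero.2 hc)
    exact_mod_cast this
  rw [h4, abs_mul, abs_of_pos hs] at h3
  nlinarith

theorem partII_of (hAB : ThmABStmt) (hBH : ThmBHStmt) (hCal : CalStmt) (hWc : WcStmt)
    (hLat : LatStmt) (hSc : ScaleStmt) (hNum : NumStmt) : PartIIStmt := by
  obtain ⟨CA, hAB⟩ := hAB
  obtain ⟨CB, hCB1, hBH⟩ := hBH
  obtain ⟨CC, hCC1, hCal⟩ := hCal
  obtain ⟨CW, hCW1, hWc⟩ := hWc
  obtain ⟨CL, hCL1, hLat⟩ := hLat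
  obtain ⟨c0, hNum⟩ := hNum
  obtain ⟨C, g, x, y, hG, hc0, hcB⟩ := exists_good c0 CA CB CC CW CL
  obtain ⟨I, hI, hI'⟩ := hNum C hc0
  have key : ∀ h : HInst, h.Valid → (I h).Valid ∧
      (h.Yes → InfEnergyLE (I h).potential ((I h).lower : ℝ)) ∧
      (h.No → InfEnergyGE (I h).potential ((I h).upper : ℝ)) := by
    intro h hv
    obtain ⟨hel, ⟨l, D, hnd, hmem, hnuc, hD, hD0⟩, hlow, hup⟩ := hI' h hv
    have hk := kP_ge_real (h := h) hG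
    have hk0 : (0 : ℝ) < kP C h := by linarith
    have hn2 := hv.1
    have hn1 : 1 ≤ h.n := by omega
    have hl := lamP_pos (h := h) hG
    have hs := sP_pos (h := h) hG
    obtain ⟨hcal, hA, ha⟩ := calFacts hG hCal hv
    obtain ⟨w1, w2, w3, w4, w5, w6, w7, w8, w9⟩ := wcFacts hG hWc hv hA ha
    obtain ⟨hdisp, hsm⟩ := disp_of hG hD hD0 w4 w6 w7 w8 w9
    -- enumeration
    have hlen : (I h).nuclei.length = l.length := by rw [hnuc, List.length_map]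
    let e : Fin (I h).nuclei.length ≃ {α // α ∈ Lat.Box (nLP C h)} :=
      (finCongr hlen).trans ((hnd.getEquiv l).trans (Equiv.subtypeEquivRight hmem))
    have he : ∀ i : Fin (I h).nuclei.length, (e i).1 = l.get (finCongr hlen i) := fun i => rfl
    have hpos : (fun i : Fin (I h).nuclei.length => realPos ((I h).nuclei.get i)) =
        fun i => lamP C h • Lat.nuc (sP C h) (dS C h D) (e i).1 := by
      funext i
      rw [← realPos_eq hG, he]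
      congr 1
      have h2 : (I h).nuclei.get i =
          (l.map (fun α c => (α c : ℚ) / (AP C h : ℚ) - D α c)).get
            (finCongr (by rw [hnuc]) i) := by
        simp [hnuc]
      rw [h2]
      simp
    have hNuc := nucOK_of hG hLat e hdisp w1 w2 w3 w5
    -- Theorem AB
    have hkn := n_le_n0P C h (by have := hG.c16; omega) hn1
    have hab := hAB (n0P C h) h.n (hn1.trans hkn) hn1 (by nlinarith) (lamP C h) (C0P C h) (RP C h)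
      (E1P C h CL) (E2P C h CL g) (kFP C h CL) ((kP C h : ℝ) ^ g) _ _ (wP C h) hNuc
      (AB_cond hG hn1) ((X_le hG hn1).trans (RP_ge hG (by have := hG.r1; omega)))
      (E1P_nonneg hG) (E2P_nonneg hG) ((E2P_le hG).trans (by
        rw [div_le_one (by positivity)]
        exact (lamP_le_one hG).trans (one_le_pow₀ (by linarith))))
    -- Theorem BH
    have hLam : ((n0' h.n (kP C h) : ℝ) + (kP C h : ℝ) ^ CC) ^ CB ≤ (LamP C h : ℝ) := by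
      rw [LamP_cast]
      have hk1 : (1 : ℝ) ≤ kP C h := by linarith
      have h1 : (n0' h.n (kP C h) : ℝ) + (kP C h : ℝ) ^ CC ≤ (kP C h : ℝ) ^ (CC + 10) := by
        have a1 : (n0' h.n (kP C h) : ℝ) ≤ (kP C h : ℝ) ^ (CC + 9) :=
          (n0P_real_le hG hn1).trans (pow_le_pow_right₀ hk1 (by omega))
        have a2 : (kP C h : ℝ) ^ CC ≤ (kP C h : ℝ) ^ (CC + 9) := pow_le_pow_right₀ hk1 (by omega)
        have a3 : (0 : ℝ) < (kP C h : ℝ) ^ (CC + 9) := by positivity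
        rw [show CC + 10 = (CC + 9) + 1 by ring, pow_succ]
        nlinarith
      calc _ ≤ ((kP C h : ℝ) ^ (CC + 10)) ^ CB := by gcongr
        _ = (kP C h : ℝ) ^ ((CC + 10) * CB) := by rw [← pow_mul]
        _ ≤ _ := pow_le_pow_right₀ hk1 (by have := hG.l1; rwa [hcB] at this)
    have hJ : ∀ i j, 0 ≤ JfP h i j ∧ JfP h i j ≤ 1 := by
      intro i j
      obtain ⟨a1, a2⟩ := hv.2.2 i j
      unfold JfP
      exact ⟨by exact_mod_cast a1, by exact_mod_cast a2⟩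
    have hj0eq : j0P C h = 1 / (((h.n : ℝ) * h.q) ^ CB * (kP C h : ℝ) ^ 4) := by
      unfold j0P; rw [hcB]
    have hcal2 : Calib h.n (kP C h) (1 / (((h.n : ℝ) * h.q) ^ CB * (kP C h : ℝ) ^ 4)) (JfP h)
        (AcP C h) (acP C h)
        (1 / (((h.n : ℝ) * h.q) ^ CB * (kP C h : ℝ) ^ 4) / (((h.n : ℝ) * h.q) ^ CB)) := by
      rw [← hj0eq]
      have h0 : 0 ≤ j0P C h / (((h.n : ℝ) * h.q) ^ CB) := by unfold j0P; positivity
      obtain ⟨b1, b2⟩ := hcal.1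
      exact ⟨fun i hi j hj hij => (b1 i hi j hj hij).trans h0, fun i hi => (b2 i hi).trans h0⟩
    have hbh := hBH h.n h.q (kP C h) hn2 hv.2.1
      (hBHk C h (by have := hG.c16; omega) (by have := hG.cB2; omega))
      (LamP C h) ((kP C h : ℝ) ^ CC) (JfP h) (AcP C h) (acP C h) hJ hA ha
      (one_le_pow₀ (by linarith)) hLam hcal2
    rw [← hj0eq] at hbh
    obtain ⟨hab1, hab2⟩ := hab
    obtain ⟨hbh1, hbh2⟩ := hbh
    have hq1 : (0 : ℝ) < (h.q : ℝ) := by exact_mod_cast hv.2.1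
    have hj0 : 0 ≤ j0P C h := by unfold j0P; positivity
    have hscale := fun a => hSc (NP C h) (I h).nuclei.length
      (fun i => Lat.nuc (sP C h) (dS C h D) (e i).1) (lamP C h) hl a
    -- transport of the potential
    have hpot : ∀ a : ℝ, (InfEnergyLE (unitNucleiPotential (n := NP C h)
          fun i => lamP C h • Lat.nuc (sP C h) (dS C h D) (e i).1) a →
          InfEnergyLE (I h).potential a) ∧
        (InfEnergyGE (unitNucleiPotential (n := NP C h)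
          fun i => lamP C h • Lat.nuc (sP C h) (dS C h D) (e i).1) a →
          InfEnergyGE (I h).potential a) := by
      intro a
      unfold Instance.potential
      rw [hpos, hel]
      exact ⟨id, id⟩
    refine ⟨⟨?_, ?_, ?_, ?_⟩, ?_, ?_⟩
    · -- nonempty
      intro h0
      have h1 : (0 : Fin 3 → ℤ) ∈ l := by
        rw [hmem]
        unfold Lat.Box
        simp
      rw [hnuc, List.map_eq_nil_iff] at h0
      rw [h0] at h1
      exact absurd h1 (List.not_mem_nil)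
    · -- nodup
      rw [hnuc]
      refine List.Nodup.map ?_ hnd
      intro α β hαβ
      have h1 : lamP C h • Lat.nuc (sP C h) (dS C h D) α = lamP C h • Lat.nuc (sP C h) (dS C h D) β := by
        rw [← realPos_eq hG, ← realPos_eq hG]
        exact congrArg realPos hαβ
      exact nuc_injective hs hsm (smul_right_injective _ hl.ne' h1)
    · rw [hel]
      unfold NP numEl
      omega
    · rw [hup]
    · rintro ⟨ψ, hψ1, hψ2⟩
      obtain ⟨F, hF1, hF2, hF3⟩ := hbh1 ψ hψ1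
      have h1 := hab1 (cHP C h + j0P C h * (h.e : ℝ) + j0P C h / (16 * h.q))
        ⟨F, hF1, hF2, hF3.trans (by
          have h3 : j0P C h * heis (fun i j : Fin h.n => JfP h i j) ψ ≤ j0P C h * (h.e : ℝ) :=
            mul_le_mul_of_nonneg_left hψ2 hj0
          unfold cHP
          linarith)⟩
      refine InfLE_mono ?_ ((hpot _).1 ((hscale _).1 h1))
      have h2 := yes_thr (CA := CA) (CL := CL) hG hv
      have h3 := (abs_le.1 hlow).1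
      have h4 : (ErefP C h + lamP C h * (cHP C h + j0P C h * (h.e : ℝ) + j0P C h / (16 * h.q)) +
        ErrP C h CA CL g) / lamP C h ^ 2 ≤ ((I h).lower : ℝ) := by linarith
      exact h4
    · intro hno
      have h0 : ∀ ψ : (Fin h.n → Bool) → ℂ, ((h.e : ℝ) + 1 / h.q) * nrmSq ψ ≤
          heis (fun i j : Fin h.n => JfP h i j) ψ := no_homog hno
      have h1 := hab2 (cHP C h + j0P C h * ((h.e : ℝ) + 1 / h.q) - j0P C h / (16 * h.q))
        (hbh2 _ h0)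
      refine InfGE_mono ?_ ((hpot _).2 ((hscale _).2 h1))
      have h2 := no_thr (CA := CA) (CL := CL) hG hv
      have h3 := (abs_le.1 hlow).2
      have h4 : (((I h).upper : ℚ) : ℝ) ≤ (ErefP C h + lamP C h * (cHP C h +
        j0P C h * ((h.e : ℝ) + 1 / h.q) - j0P C h / (16 * h.q)) - ErrP C h CA CL g) /
          lamP C h ^ 2 := by
        rw [hup]
        push_cast
        linarith
      exact h4
  refine ⟨fun h => ⟨(I h).code⟩, hI, fun h hv hy => ?_, fun h hv hn => ?_⟩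
  · exact ⟨I h, (key h hv).1, rfl, (key h hv).2.1 hy⟩
  · exact ⟨I h, (key h hv).1, rfl, (key h hv).2.2 hn⟩

end Crest.Agent.R338.P2

end
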