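import Crest.Agent.R338.LatDefs

-- ▼ part R338/Di1
section

/-!
Row 338, node C.5 (displacements), part 1: elementary inequalities for Gaussians
(helper581).
-/

set_option autoImplicit false

noncomputable section
open Real
open scoped RealInnerProductSpace

namespace Crest.Agent.R338.Di

/-- master constant -/
def C0 : ℝ := Real.exp 23

theorem C0_pos : 0 < C0 := Real.exp_pos _


theorem abs_exp_sub_one (x : ℝ) : |Real.exp x - 1| ≤ |x| * Real.exp |x| := by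
  have h := Complex.norm_exp_sub_sum_le_norm_mul_exp (x : ℂ) 1
  have e : Complex.exp (x : ℂ) - ∑ m ∈ Finset.range 1, (x : ℂ) ^ m / (m.factorial : ℂ)
      = ((Real.exp x - 1 : ℝ) : ℂ) := by
    simp
  rw [e, Complex.norm_real, Complex.norm_real, pow_one, Real.norm_eq_abs, Real.norm_eq_abs] at h
  exact h

theorem abs_exp_sub_one_sub (x : ℝ) : |Real.exp x - 1 - x| ≤ x ^ 2 * Real.exp |x| := by
  have h := Complex.norm_exp_sub_sum_le_norm_mul_exp (x : ℂ) 2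
  have e : Complex.exp (x : ℂ) - ∑ m ∈ Finset.range 2, (x : ℂ) ^ m / (m.factorial : ℂ)
      = ((Real.exp x - 1 - x : ℝ) : ℂ) := by
    simp [Finset.sum_range_succ]; ring
  rw [e, Complex.norm_real, Complex.norm_real, Real.norm_eq_abs, Real.norm_eq_abs, sq_abs] at h
  exact h

/-- master inequality -/
theorem master {r : ℝ} (hr : 0 ≤ r) :
    (2 * r + 1) ^ 3 * Real.exp (2 * r + 1) * Real.exp (-r ^ 2) ≤ C0 * Real.exp (-r ^ 2 / 4) := by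
  have h1 : (2 * r + 1) ^ 3 ≤ Real.exp (6 * r) := by
    have : 2 * r + 1 ≤ Real.exp (2 * r) := Real.add_one_le_exp _
    calc (2 * r + 1) ^ 3 ≤ Real.exp (2 * r) ^ 3 := by gcongr
      _ = Real.exp (6 * r) := by rw [← Real.exp_nat_mul]; congr 1; push_cast; ring
  calc (2 * r + 1) ^ 3 * Real.exp (2 * r + 1) * Real.exp (-r ^ 2)
      ≤ Real.exp (6 * r) * Real.exp (2 * r + 1) * Real.exp (-r ^ 2) := by gcongr
    _ = Real.exp (8 * r + 1 - r ^ 2) := by rw [← Real.exp_add, ← Real.exp_add]; congr 1; ring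
    _ ≤ Real.exp (23 + -r ^ 2 / 4) := by
      apply Real.exp_le_exp.mpr
      nlinarith [sq_nonneg (3 * r / 4 - 4)]
    _ = C0 * Real.exp (-r ^ 2 / 4) := by rw [Real.exp_add]; rfl

/-- weaker forms -/
theorem master' {r a : ℝ} (hr : 0 ≤ r) (ha : a ≤ (2 * r + 1) ^ 3 * Real.exp (2 * r + 1)) :
    a * Real.exp (-r ^ 2) ≤ C0 * Real.exp (-r ^ 2 / 4) :=
  le_trans (by gcongr) (master hr)

variable {E : Type*} [NormedAddCommGroup E] [InnerProductSpace ℝ E]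

theorem inner_bd {ζ θ : E} (hθ : ‖θ‖ ≤ 1) :
    |2 * ⟪ζ, θ⟫ + ‖θ‖ ^ 2| ≤ ‖θ‖ * (2 * ‖ζ‖ + 1) := by
  have h1 := abs_real_inner_le_norm ζ θ
  have h2 : |2 * ⟪ζ, θ⟫ + ‖θ‖ ^ 2| ≤ 2 * |⟪ζ, θ⟫| + ‖θ‖ ^ 2 := by
    refine (abs_add_le _ _).trans ?_
    rw [abs_mul, abs_of_pos (by norm_num : (0:ℝ) < 2), abs_of_nonneg (sq_nonneg ‖θ‖)]
  nlinarith [norm_nonneg θ, norm_nonneg ζ]

theorem inner_bd' {ζ θ : E} (hθ : ‖θ‖ ≤ 1) :
    |2 * ⟪ζ, θ⟫ + ‖θ‖ ^ 2| ≤ 2 * ‖ζ‖ + 1 := by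
  have := inner_bd (ζ := ζ) hθ
  nlinarith [norm_nonneg θ, norm_nonneg ζ]

/-- the bound for `|e^{-m} - 1|` -/
theorem em1 {ζ θ : E} (hθ : ‖θ‖ ≤ 1) :
    |Real.exp (-(2 * ⟪ζ, θ⟫ + ‖θ‖ ^ 2)) - 1| ≤
      ‖θ‖ * ((2 * ‖ζ‖ + 1) * Real.exp (2 * ‖ζ‖ + 1)) := by
  refine (abs_exp_sub_one _).trans ?_
  rw [abs_neg]
  calc |2 * ⟪ζ, θ⟫ + ‖θ‖ ^ 2| * Real.exp |2 * ⟪ζ, θ⟫ + ‖θ‖ ^ 2|
      ≤ (‖θ‖ * (2 * ‖ζ‖ + 1)) * Real.exp (2 * ‖ζ‖ + 1) := by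
        have h1 := inner_bd (ζ := ζ) hθ
        have h2 := inner_bd' (ζ := ζ) hθ
        gcongr
    _ = _ := by ring

/-- the bound for `|e^{-m} - 1 + m|` -/
theorem em2 {ζ θ : E} (hθ : ‖θ‖ ≤ 1) :
    |Real.exp (-(2 * ⟪ζ, θ⟫ + ‖θ‖ ^ 2)) - 1 + (2 * ⟪ζ, θ⟫ + ‖θ‖ ^ 2)| ≤
      ‖θ‖ ^ 2 * ((2 * ‖ζ‖ + 1) ^ 2 * Real.exp (2 * ‖ζ‖ + 1)) := by
  have h := abs_exp_sub_one_sub (-(2 * ⟪ζ, θ⟫ + ‖θ‖ ^ 2))
  rw [abs_neg, neg_sq, sub_neg_eq_add] at h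
  refine h.trans ?_
  rw [← sq_abs]
  calc |2 * ⟪ζ, θ⟫ + ‖θ‖ ^ 2| ^ 2 * Real.exp |2 * ⟪ζ, θ⟫ + ‖θ‖ ^ 2|
      ≤ (‖θ‖ * (2 * ‖ζ‖ + 1)) ^ 2 * Real.exp (2 * ‖ζ‖ + 1) := by
        have h1 := inner_bd (ζ := ζ) hθ
        have h2 := inner_bd' (ζ := ζ) hθ
        gcongr
    _ = _ := by ring

theorem exp_norm_add (ζ θ : E) :
    Real.exp (-‖ζ + θ‖ ^ 2) = Real.exp (-(2 * ⟪ζ, θ⟫ + ‖θ‖ ^ 2)) * Real.exp (-‖ζ‖ ^ 2) := by
  rw [← Real.exp_add, norm_add_sq_real]; congr 1; ring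

theorem exp_norm_sub (ζ θ : E) :
    Real.exp (-‖ζ - θ‖ ^ 2) = Real.exp (-(2 * ⟪ζ, -θ⟫ + ‖-θ‖ ^ 2)) * Real.exp (-‖ζ‖ ^ 2) := by
  rw [sub_eq_add_neg, exp_norm_add]

theorem one_le_aux (r : ℝ) (hr : 0 ≤ r) : 1 ≤ (2 * r + 1) * Real.exp (2 * r + 1) := by
  have h1 : (1:ℝ) ≤ 2 * r + 1 := by linarith
  have h2 : (1:ℝ) ≤ Real.exp (2 * r + 1) := Real.one_le_exp (by linarith)
  nlinarith

/-- (g1) second order Taylor for the Gaussian -/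
theorem g1 {ζ θ : E} (hθ : ‖θ‖ ≤ 1) :
    |Real.exp (-‖ζ + θ‖ ^ 2) - Real.exp (-‖ζ‖ ^ 2) + 2 * ⟪ζ, θ⟫ * Real.exp (-‖ζ‖ ^ 2)| ≤
      2 * C0 * ‖θ‖ ^ 2 * Real.exp (-‖ζ‖ ^ 2 / 4) := by
  rw [exp_norm_add]
  set m := 2 * ⟪ζ, θ⟫ + ‖θ‖ ^ 2 with hm
  have e : Real.exp (-m) * Real.exp (-‖ζ‖ ^ 2) - Real.exp (-‖ζ‖ ^ 2) +
      2 * ⟪ζ, θ⟫ * Real.exp (-‖ζ‖ ^ 2) =
      ((Real.exp (-m) - 1 + m) - ‖θ‖ ^ 2) * Real.exp (-‖ζ‖ ^ 2) := by rw [hm]; ring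
  rw [e, abs_mul, abs_of_pos (Real.exp_pos _)]
  have h2 := em2 (ζ := ζ) hθ
  rw [← hm] at h2
  set r := ‖ζ‖
  have hr : 0 ≤ r := norm_nonneg _
  have h3 : |Real.exp (-m) - 1 + m - ‖θ‖ ^ 2| ≤
      ‖θ‖ ^ 2 * (2 * ((2 * r + 1) ^ 3 * Real.exp (2 * r + 1))) := by
    refine (abs_sub _ _).trans ?_
    rw [abs_of_nonneg (sq_nonneg ‖θ‖)]
    have h1 : (1:ℝ) ≤ 2 * r + 1 := by linarith
    have h4 : (2 * r + 1) ^ 2 * Real.exp (2 * r + 1) ≤ (2 * r + 1) ^ 3 * Real.exp (2 * r + 1) := by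
      gcongr; norm_num
    have h5 : 1 ≤ (2 * r + 1) ^ 3 * Real.exp (2 * r + 1) := by
      refine (one_le_aux r hr).trans ?_
      gcongr
      calc 2 * r + 1 = (2 * r + 1) ^ 1 := (pow_one _).symm
        _ ≤ (2 * r + 1) ^ 3 := by gcongr; norm_num
    nlinarith [sq_nonneg ‖θ‖]
  calc |Real.exp (-m) - 1 + m - ‖θ‖ ^ 2| * Real.exp (-r ^ 2)
      ≤ ‖θ‖ ^ 2 * (2 * ((2 * r + 1) ^ 3 * Real.exp (2 * r + 1))) * Real.exp (-r ^ 2) := by gcongr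
    _ = 2 * ‖θ‖ ^ 2 * ((2 * r + 1) ^ 3 * Real.exp (2 * r + 1) * Real.exp (-r ^ 2)) := by ring
    _ ≤ 2 * ‖θ‖ ^ 2 * (C0 * Real.exp (-r ^ 2 / 4)) := by
        gcongr 2 * ‖θ‖ ^ 2 * ?_
        exact master hr
    _ = _ := by ring

/-- (g2) -/
theorem g2 (ζ : E) : ‖ζ‖ * Real.exp (-‖ζ‖ ^ 2) ≤ C0 * Real.exp (-‖ζ‖ ^ 2 / 4) := by
  set r := ‖ζ‖
  have hr : 0 ≤ r := norm_nonneg _
  apply master' hr
  have h2 : (1:ℝ) ≤ Real.exp (2 * r + 1) := Real.one_le_exp (by linarith)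
  have h3 : r ≤ (2 * r + 1) ^ 3 := by nlinarith [pow_nonneg hr 2, pow_nonneg hr 3]
  nlinarith [pow_nonneg (by linarith : 0 ≤ 2 * r + 1) 3]

/-- (g2') -/
theorem g2' (ζ : E) : ‖Real.exp (-‖ζ‖ ^ 2) • ζ‖ ≤ C0 * Real.exp (-‖ζ‖ ^ 2 / 4) := by
  rw [norm_smul, Real.norm_eq_abs, abs_of_pos (Real.exp_pos _), mul_comm]
  exact g2 ζ

/-- (g3) first difference of `γ(ζ) = e^{-|ζ|²} ζ` -/
theorem g3 {ζ θ : E} (hθ : ‖θ‖ ≤ 1) :
    ‖Real.exp (-‖ζ + θ‖ ^ 2) • (ζ + θ) - Real.exp (-‖ζ‖ ^ 2) • ζ‖ ≤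
      2 * C0 * ‖θ‖ * Real.exp (-‖ζ‖ ^ 2 / 4) := by
  rw [exp_norm_add]
  set m := 2 * ⟪ζ, θ⟫ + ‖θ‖ ^ 2 with hm
  have e : (Real.exp (-m) * Real.exp (-‖ζ‖ ^ 2)) • (ζ + θ) - Real.exp (-‖ζ‖ ^ 2) • ζ =
      Real.exp (-‖ζ‖ ^ 2) • ((Real.exp (-m) - 1) • (ζ + θ) + θ) := by
    module
  rw [e, norm_smul, Real.norm_eq_abs, abs_of_pos (Real.exp_pos _)]
  have h2 := em1 (ζ := ζ) hθ
  rw [← hm] at h2
  have h1 : ‖(Real.exp (-m) - 1) • (ζ + θ) + θ‖ ≤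
      ‖θ‖ * ((2 * ‖ζ‖ + 1) * Real.exp (2 * ‖ζ‖ + 1)) * (‖ζ‖ + 1) + ‖θ‖ := by
    refine (norm_add_le _ _).trans ?_
    rw [norm_smul, Real.norm_eq_abs]
    have : ‖ζ + θ‖ ≤ ‖ζ‖ + 1 := (norm_add_le _ _).trans (by linarith)
    gcongr
  set r := ‖ζ‖
  have hr : 0 ≤ r := norm_nonneg _
  have h3 : ‖θ‖ * ((2 * r + 1) * Real.exp (2 * r + 1)) * (r + 1) + ‖θ‖ ≤
      2 * ‖θ‖ * ((2 * r + 1) ^ 3 * Real.exp (2 * r + 1)) := by
    have h6 : (1:ℝ) ≤ 2 * r + 1 := by linarith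
    have h4 : (2 * r + 1) * Real.exp (2 * r + 1) * (r + 1) ≤
        (2 * r + 1) ^ 3 * Real.exp (2 * r + 1) := by
      have : (2 * r + 1) * (r + 1) ≤ (2 * r + 1) ^ 3 := by
        nlinarith [pow_nonneg hr 2, pow_nonneg hr 3]
      nlinarith [Real.exp_pos (2 * r + 1)]
    have h5 : 1 ≤ (2 * r + 1) ^ 3 * Real.exp (2 * r + 1) := by
      refine (one_le_aux r hr).trans ?_
      gcongr
      calc 2 * r + 1 = (2 * r + 1) ^ 1 := (pow_one _).symm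
        _ ≤ (2 * r + 1) ^ 3 := by gcongr; norm_num
    nlinarith [norm_nonneg θ]
  calc Real.exp (-r ^ 2) * ‖(Real.exp (-m) - 1) • (ζ + θ) + θ‖
      ≤ Real.exp (-r ^ 2) * (2 * ‖θ‖ * ((2 * r + 1) ^ 3 * Real.exp (2 * r + 1))) := by
        gcongr; exact h1.trans h3
    _ = 2 * ‖θ‖ * ((2 * r + 1) ^ 3 * Real.exp (2 * r + 1) * Real.exp (-r ^ 2)) := by ring
    _ ≤ 2 * ‖θ‖ * (C0 * Real.exp (-r ^ 2 / 4)) := by
        gcongr 2 * ‖θ‖ * ?_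
        exact master hr
    _ = _ := by ring

/-- (g4) second difference of `γ(ζ) = e^{-|ζ|²} ζ` -/
theorem g4 {ζ θ : E} (hθ : ‖θ‖ ≤ 1) :
    ‖Real.exp (-‖ζ + θ‖ ^ 2) • (ζ + θ) + Real.exp (-‖ζ - θ‖ ^ 2) • (ζ - θ) -
        (2 * Real.exp (-‖ζ‖ ^ 2)) • ζ‖ ≤
      6 * C0 * ‖θ‖ ^ 2 * Real.exp (-‖ζ‖ ^ 2 / 4) := by
  have hθ' : ‖-θ‖ ≤ 1 := by rwa [norm_neg]
  rw [exp_norm_add, exp_norm_sub]
  set m := 2 * ⟪ζ, θ⟫ + ‖θ‖ ^ 2 with hm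
  set m' := 2 * ⟪ζ, -θ⟫ + ‖-θ‖ ^ 2 with hm'
  have hmm : m + m' = 2 * ‖θ‖ ^ 2 := by
    rw [hm, hm', norm_neg, inner_neg_right]; ring
  have e : (Real.exp (-m) * Real.exp (-‖ζ‖ ^ 2)) • (ζ + θ) +
      (Real.exp (-m') * Real.exp (-‖ζ‖ ^ 2)) • (ζ - θ) - (2 * Real.exp (-‖ζ‖ ^ 2)) • ζ =
      Real.exp (-‖ζ‖ ^ 2) • (((Real.exp (-m) - 1 + m) + (Real.exp (-m') - 1 + m') -
        2 * ‖θ‖ ^ 2) • ζ + ((Real.exp (-m) - 1) - (Real.exp (-m') - 1)) • θ) := by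
    rw [← hmm]; module
  rw [e, norm_smul, Real.norm_eq_abs, abs_of_pos (Real.exp_pos _)]
  have a2 := em2 (ζ := ζ) hθ
  have a2' := em2 (ζ := ζ) hθ'
  have a1 := em1 (ζ := ζ) hθ
  have a1' := em1 (ζ := ζ) hθ'
  rw [← hm] at a1 a2
  rw [← hm', norm_neg] at a1' a2'
  set r := ‖ζ‖ with hrdef
  have hr : 0 ≤ r := norm_nonneg _
  set X := Real.exp (2 * r + 1)
  have hX : 0 < X := Real.exp_pos _
  have h1 : ‖((Real.exp (-m) - 1 + m) + (Real.exp (-m') - 1 + m') -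
        2 * ‖θ‖ ^ 2) • ζ + ((Real.exp (-m) - 1) - (Real.exp (-m') - 1)) • θ‖ ≤
      (2 * (‖θ‖ ^ 2 * ((2 * r + 1) ^ 2 * X)) + 2 * ‖θ‖ ^ 2) * r +
        2 * (‖θ‖ * ((2 * r + 1) * X)) * ‖θ‖ := by
    refine (norm_add_le _ _).trans ?_
    rw [norm_smul, norm_smul, Real.norm_eq_abs, Real.norm_eq_abs, ← hrdef]
    have b1 : |(Real.exp (-m) - 1 + m) + (Real.exp (-m') - 1 + m') - 2 * ‖θ‖ ^ 2| ≤
        2 * (‖θ‖ ^ 2 * ((2 * r + 1) ^ 2 * X)) + 2 * ‖θ‖ ^ 2 := by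
      refine (abs_sub _ _).trans ?_
      rw [abs_of_nonneg (by positivity : 0 ≤ 2 * ‖θ‖ ^ 2)]
      gcongr
      refine (abs_add_le _ _).trans ?_
      linarith
    have b2 : |(Real.exp (-m) - 1) - (Real.exp (-m') - 1)| ≤
        2 * (‖θ‖ * ((2 * r + 1) * X)) := by
      refine (abs_sub _ _).trans ?_
      linarith
    gcongr
  have h3 : (2 * (‖θ‖ ^ 2 * ((2 * r + 1) ^ 2 * X)) + 2 * ‖θ‖ ^ 2) * r +
        2 * (‖θ‖ * ((2 * r + 1) * X)) * ‖θ‖ ≤ 6 * ‖θ‖ ^ 2 * ((2 * r + 1) ^ 3 * X) := by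
    have c1 : (2 * r + 1) ^ 2 * X * r ≤ (2 * r + 1) ^ 3 * X := by
      have : (2 * r + 1) ^ 2 * r ≤ (2 * r + 1) ^ 3 := by
        nlinarith [pow_nonneg hr 2, pow_nonneg hr 3]
      nlinarith
    have c2 : r ≤ (2 * r + 1) ^ 3 * X := by
      have h2 : (1:ℝ) ≤ X := Real.one_le_exp (by linarith)
      have h3 : r ≤ (2 * r + 1) ^ 3 := by nlinarith [pow_nonneg hr 2, pow_nonneg hr 3]
      nlinarith [pow_nonneg (by linarith : 0 ≤ 2 * r + 1) 3]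
    have c3 : (2 * r + 1) * X ≤ (2 * r + 1) ^ 3 * X := by
      have : (2 * r + 1) ≤ (2 * r + 1) ^ 3 := by
        nlinarith [pow_nonneg hr 2, pow_nonneg hr 3]
      nlinarith
    nlinarith [sq_nonneg ‖θ‖]
  calc Real.exp (-r ^ 2) * _
      ≤ Real.exp (-r ^ 2) * (6 * ‖θ‖ ^ 2 * ((2 * r + 1) ^ 3 * X)) := by
        gcongr; exact h1.trans h3
    _ = 6 * ‖θ‖ ^ 2 * ((2 * r + 1) ^ 3 * X * Real.exp (-r ^ 2)) := by ring
    _ ≤ 6 * ‖θ‖ ^ 2 * (C0 * Real.exp (-r ^ 2 / 4)) := by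
        gcongr 6 * ‖θ‖ ^ 2 * ?_
        exact master hr
    _ = _ := by ring

end Crest.Agent.R338.Di
end
end

-- ▼ part R338/Di2

/-!
Row 338, node C.5 (displacements), part 2: scaled inequalities and lattice sums
(helper581).
-/

set_option autoImplicit false

noncomputable section
open Real
open scoped RealInnerProductSpace

namespace Crest.Agent.R338.Di
open Lat

/-- the vector field `e^{-τ²|z|²} z` -/
def vv (τ : ℝ) (z : P3) : P3 := gau τ z • z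

theorem gau_eq (τ : ℝ) (z : P3) : gau τ z = Real.exp (-‖τ • z‖ ^ 2) := by
  unfold gau
  rw [norm_smul, mul_pow, Real.norm_eq_abs, sq_abs]

theorem gau_half (τ : ℝ) (z : P3) : gau (τ / 2) z = Real.exp (-‖τ • z‖ ^ 2 / 4) := by
  unfold gau
  rw [norm_smul, mul_pow, Real.norm_eq_abs, sq_abs]
  congr 1; ring

theorem gau_pos (τ : ℝ) (z : P3) : 0 < gau τ z := Real.exp_pos _

theorem gau_le_one (τ : ℝ) (z : P3) : gau τ z ≤ 1 := by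
  unfold gau
  rw [Real.exp_le_one_iff]
  nlinarith [mul_nonneg (sq_nonneg τ) (sq_nonneg ‖z‖)]


/-- (s1) -/
theorem s1 {τ : ℝ} (hτ : 0 < τ) {z d : P3} (h : τ * ‖d‖ ≤ 1) :
    |gau τ (z + d) - gau τ z + 2 * τ ^ 2 * ⟪z, d⟫ * gau τ z| ≤
      2 * C0 * τ ^ 2 * ‖d‖ ^ 2 * gau (τ / 2) z := by
  have hn : ‖τ • d‖ = τ * ‖d‖ := by rw [norm_smul, Real.norm_eq_abs, abs_of_pos hτ]
  have := g1 (ζ := τ • z) (θ := τ • d) (by rw [hn]; exact h)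
  rw [← smul_add, ← gau_eq, ← gau_eq, ← gau_half, real_inner_smul_left, real_inner_smul_right,
    hn] at this
  convert this using 2 <;> ring

/-- (s2) -/
theorem s2 {τ : ℝ} (hτ : 0 < τ) (z : P3) : τ * ‖vv τ z‖ ≤ C0 * gau (τ / 2) z := by
  have := g2' (τ • z)
  rw [← gau_eq, ← gau_half, smul_comm, norm_smul, Real.norm_eq_abs, abs_of_pos hτ] at this
  exact this

/-- (s3) -/
theorem s3 {τ : ℝ} (hτ : 0 < τ) {z t : P3} (h : τ * ‖t‖ ≤ 1) :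
    τ * ‖vv τ (z + t) - vv τ z‖ ≤ 2 * C0 * (τ * ‖t‖) * gau (τ / 2) z := by
  have hn : ‖τ • t‖ = τ * ‖t‖ := by rw [norm_smul, Real.norm_eq_abs, abs_of_pos hτ]
  have := g3 (ζ := τ • z) (θ := τ • t) (by rw [hn]; exact h)
  rw [← smul_add, ← gau_eq, ← gau_eq, ← gau_half, hn, smul_comm, smul_comm (gau τ z),
    ← smul_sub, norm_smul, Real.norm_eq_abs, abs_of_pos hτ] at this
  exact this

/-- (s4) -/
theorem s4 {τ : ℝ} (hτ : 0 < τ) {z t : P3} (h : τ * ‖t‖ ≤ 1) :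
    τ * ‖vv τ (z + t) + vv τ (z - t) - (2 : ℝ) • vv τ z‖ ≤
      6 * C0 * (τ * ‖t‖) ^ 2 * gau (τ / 2) z := by
  have hn : ‖τ • t‖ = τ * ‖t‖ := by rw [norm_smul, Real.norm_eq_abs, abs_of_pos hτ]
  have := g4 (ζ := τ • z) (θ := τ • t) (by rw [hn]; exact h)
  rw [← smul_add, ← smul_sub, ← gau_eq, ← gau_eq, ← gau_eq, ← gau_half, hn] at this
  have e : τ • (vv τ (z + t) + vv τ (z - t) - (2 : ℝ) • vv τ z) =
      gau τ (z + t) • τ • (z + t) + gau τ (z - t) • τ • (z - t) - (2 * gau τ z) • τ • z := by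
    unfold vv; module
  rw [← e, norm_smul, Real.norm_eq_abs, abs_of_pos hτ] at this
  exact this

/-- geometric sums over finite sets -/
theorem geo_le {q : ℝ} (h0 : 0 ≤ q) (h1 : q < 1) (S : Finset ℤ) (f : ℤ → ℕ)
    (hf : Set.InjOn f S) : ∑ k ∈ S, q ^ (f k) ≤ (1 - q)⁻¹ := by
  rw [← Finset.sum_image (f := fun j => q ^ j) hf]
  exact sum_le_hasSum _ (fun _ _ => pow_nonneg h0 _) (hasSum_geometric_of_lt_one h0 h1)

theorem one_sub_exp {κ : ℝ} (h0 : 0 < κ) (h1 : κ ≤ 1) : κ / 2 ≤ 1 - Real.exp (-κ) := by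
  have h2 : 1 + κ ≤ Real.exp κ := by linarith [Real.add_one_le_exp κ]
  have h3 : Real.exp (-κ) ≤ 1 / (1 + κ) := by
    rw [Real.exp_neg, ← one_div]
    exact one_div_le_one_div_of_le (by linarith) h2
  have h4 : 1 - 1 / (1 + κ) = κ / (1 + κ) := by field_simp; ring
  have h5 : κ / 2 ≤ κ / (1 + κ) := by
    apply div_le_div_of_nonneg_left h0.le (by linarith) (by linarith)
  linarith

/-- the two sided exponential sum -/
theorem two_sided {κ : ℝ} (h0 : 0 < κ) (h1 : κ ≤ 1) (v : ℝ) (S : Finset ℤ) :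
    ∑ k ∈ S, Real.exp (-(κ * |v - k|)) ≤ 4 / κ := by
  set q := Real.exp (-κ) with hq
  have hq0 : 0 ≤ q := (Real.exp_pos _).le
  have hq1 : q < 1 := by rw [hq, Real.exp_lt_one_iff]; linarith
  have hinv : (1 - q)⁻¹ ≤ 2 / κ := by
    have := one_sub_exp h0 h1
    rw [inv_eq_one_div, div_le_div_iff₀ (by linarith) h0]
    linarith
  rw [← Finset.sum_filter_add_sum_filter_not S (fun k => k ≤ ⌊v⌋)]
  have hA : ∑ k ∈ S.filter (fun k => k ≤ ⌊v⌋), Real.exp (-(κ * |v - k|)) ≤ 2 / κ := by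
    refine le_trans (Finset.sum_le_sum fun k hk => ?_)
      ((geo_le hq0 hq1 (S.filter (fun k => k ≤ ⌊v⌋)) (fun k => (⌊v⌋ - k).toNat) ?_).trans hinv)
    · rw [Finset.mem_filter] at hk
      have hk2 := hk.2
      have h3 : (((⌊v⌋ - k).toNat : ℕ) : ℝ) = (⌊v⌋ : ℝ) - k := by
        have : (((⌊v⌋ - k).toNat : ℕ) : ℤ) = ⌊v⌋ - k := Int.toNat_of_nonneg (by omega)
        exact_mod_cast this
      show Real.exp (-(κ * |v - k|)) ≤ q ^ (⌊v⌋ - k).toNat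
      rw [hq, ← Real.exp_nat_mul, h3]
      apply Real.exp_le_exp.mpr
      have h4 := Int.floor_le v
      have h5 : v - k ≤ |v - k| := le_abs_self _
      nlinarith
    · intro i hi j hj hij
      have hi' := Finset.mem_filter.mp (Finset.mem_coe.mp hi)
      have hj' := Finset.mem_filter.mp (Finset.mem_coe.mp hj)
      have : (⌊v⌋ - i).toNat = (⌊v⌋ - j).toNat := hij
      have := hi'.2; have := hj'.2
      omega
  have hB : ∑ k ∈ S.filter (fun k => ¬ k ≤ ⌊v⌋), Real.exp (-(κ * |v - k|)) ≤ 2 / κ := by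
    refine le_trans (Finset.sum_le_sum fun k hk => ?_)
      ((geo_le hq0 hq1 (S.filter (fun k => ¬ k ≤ ⌊v⌋)) (fun k => (k - ⌊v⌋ - 1).toNat) ?_).trans
        hinv)
    · rw [Finset.mem_filter] at hk
      have hk2 := hk.2
      have h3 : (((k - ⌊v⌋ - 1).toNat : ℕ) : ℝ) = (k : ℝ) - ⌊v⌋ - 1 := by
        have : (((k - ⌊v⌋ - 1).toNat : ℕ) : ℤ) = k - ⌊v⌋ - 1 := Int.toNat_of_nonneg (by omega)
        exact_mod_cast this
      show Real.exp (-(κ * |v - k|)) ≤ q ^ (k - ⌊v⌋ - 1).toNat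
      rw [hq, ← Real.exp_nat_mul, h3]
      apply Real.exp_le_exp.mpr
      have h4 := (Int.lt_floor_add_one v).le
      have h5 : -(v - k) ≤ |v - k| := neg_le_abs _
      nlinarith
    · intro i hi j hj hij
      have hi' := Finset.mem_filter.mp (Finset.mem_coe.mp hi)
      have hj' := Finset.mem_filter.mp (Finset.mem_coe.mp hj)
      have : (i - ⌊v⌋ - 1).toNat = (j - ⌊v⌋ - 1).toNat := hij
      have := hi'.2; have := hj'.2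
      omega
  have : 2 / κ + 2 / κ = 4 / κ := by ring
  linarith

theorem exp_quarter_le : Real.exp (1 / 4) ≤ 3 / 2 := by
  have h := Real.exp_one_lt_d9
  have h1 : Real.exp (1 / 4) ^ 4 = Real.exp 1 := by
    rw [← Real.exp_nat_mul]; norm_num
  by_contra hc
  push Not at hc
  have : (3 / 2 : ℝ) ^ 4 < Real.exp (1 / 4) ^ 4 := by gcongr
  rw [h1] at this
  norm_num at this
  linarith

/-- 1D lattice sum, first bound -/
theorem Sx_le1 {s τ : ℝ} (hs : 0 < s) (hτ : 0 < τ) (h : τ * s ≤ 1) (M : ℕ) (y : ℝ) :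
    Sx s M y τ ≤ 6 / (τ * s) := by
  unfold Sx
  have h0 : 0 < τ * s := mul_pos hτ hs
  calc ∑ k ∈ Finset.Icc (-(M : ℤ)) (M : ℤ), Real.exp (-(τ ^ 2 * (y - s * (k : ℝ)) ^ 2))
      ≤ ∑ k ∈ Finset.Icc (-(M : ℤ)) (M : ℤ),
        Real.exp (1 / 4) * Real.exp (-((τ * s) * |y / s - k|)) := by
        apply Finset.sum_le_sum
        intro k _
        rw [← Real.exp_add]
        apply Real.exp_le_exp.mpr
        have e : y - s * (k : ℝ) = s * (y / s - k) := by field_simp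
        rw [e, mul_pow, ← sq_abs (y / s - k)]
        nlinarith [sq_nonneg (τ * s * |y / s - k| - 1 / 2)]
    _ = Real.exp (1 / 4) * ∑ k ∈ Finset.Icc (-(M : ℤ)) (M : ℤ),
        Real.exp (-((τ * s) * |y / s - k|)) := by rw [Finset.mul_sum]
    _ ≤ (3 / 2) * (4 / (τ * s)) := by
        apply mul_le_mul exp_quarter_le (two_sided h0 h _ _)
          (Finset.sum_nonneg fun _ _ => (Real.exp_pos _).le) (by norm_num)
    _ = 6 / (τ * s) := by ring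

theorem Sx_le2 (s τ : ℝ) (M : ℕ) (y : ℝ) : Sx s M y τ ≤ 2 * M + 1 := by
  unfold Sx
  calc ∑ k ∈ Finset.Icc (-(M : ℤ)) (M : ℤ), Real.exp (-(τ ^ 2 * (y - s * (k : ℝ)) ^ 2))
      ≤ ∑ k ∈ Finset.Icc (-(M : ℤ)) (M : ℤ), (1 : ℝ) := by
        apply Finset.sum_le_sum
        intro k _
        rw [Real.exp_le_one_iff]
        nlinarith [mul_nonneg (sq_nonneg τ) (sq_nonneg (y - s * (k : ℝ)))]
    _ = 2 * M + 1 := by
        rw [Finset.sum_const, Int.card_Icc, nsmul_eq_mul, mul_one]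
        have : ((M : ℤ) + 1 - -(M : ℤ)).toNat = 2 * M + 1 := by omega
        rw [this]; push_cast; ring

theorem Sx_nonneg (s τ : ℝ) (M : ℕ) (y : ℝ) : 0 ≤ Sx s M y τ :=
  Finset.sum_nonneg fun _ _ => (Real.exp_pos _).le

/-- 1D lattice sum, combined bound -/
theorem Sx_le {s τ L : ℝ} (hs : 0 < s) (hτ : 0 < τ) (h : τ * s ≤ 1) (hL : s ≤ L) {M : ℕ}
    (hM : (M : ℝ) ≤ L / s + 1) (y : ℝ) :
    Sx s M y (τ / 2) ≤ 20 * (L / s) / (1 + τ * L) := by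
  have hL0 : 0 < L := lt_of_lt_of_le hs hL
  have h1 := Sx_le1 hs (half_pos hτ) (by nlinarith [mul_pos hτ hs]) M y
  have h2 := Sx_le2 s (τ / 2) M y
  have h3 : 1 ≤ L / s := (one_le_div hs).mpr hL
  have hpos : 0 < 1 + τ * L := by positivity
  rw [le_div_iff₀ hpos]
  have h4 : Sx s M y (τ / 2) * (τ * L) ≤ 12 * (L / s) := by
    calc Sx s M y (τ / 2) * (τ * L) ≤ 6 / (τ / 2 * s) * (τ * L) := by gcongr
      _ = 12 * (L / s) := by field_simp; ring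
  nlinarith

/-- 3D lattice sum -/
theorem sum3 {s τ L : ℝ} (hs : 0 < s) (hτ : 0 < τ) (h : τ * s ≤ 1) (hL : s ≤ L) {M : ℕ}
    (hM : (M : ℝ) ≤ L / s + 1) (x : P3) :
    ∑ α ∈ Box M, gau (τ / 2) (x - pt s α) ≤ 8000 / s ^ 3 * (L / (1 + τ * L)) ^ 3 := by
  rw [sum_gau]
  have hL0 : 0 < L := lt_of_lt_of_le hs hL
  calc ∏ c : Fin 3, Sx s M (x c) (τ / 2) ≤ ∏ c : Fin 3, (20 * (L / s) / (1 + τ * L)) := by
        apply Finset.prod_le_prod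
        · intro c _; exact Sx_nonneg _ _ _ _
        · intro c _; exact Sx_le hs hτ h hL hM _
    _ = 8000 / s ^ 3 * (L / (1 + τ * L)) ^ 3 := by
        rw [Finset.prod_const, Finset.card_univ, Fintype.card_fin]
        have hpos : 0 < 1 + τ * L := by positivity
        field_simp
        norm_num

end Crest.Agent.R338.Di
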