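import Mathlib
import Crest.Agent.R338.HO1a

-- ▼ part R338/Lag1
section

/-!
Row 338, node B.3a (helper695): Laguerre polynomials `lag k t = ∑ j ≤ k, C(k,j) (-t)^j / j!`,
recursions and orthonormality on `(0, ∞)` for the weight `exp (-t)`.
-/

set_option autoImplicit false

open Finset MeasureTheory Set
open scoped Nat

noncomputable section
namespace Crest.Agent.R338.Lag

/-- Laguerre polynomials. -/
def lag (k : ℕ) (t : ℝ) : ℝ := ∑ j ∈ Finset.range (k + 1), (k.choose j : ℝ) * (-t) ^ j / (j ! : ℝ)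

@[simp] theorem lag_zero (t : ℝ) : lag 0 t = 1 := by simp [lag]

theorem lag_one (t : ℝ) : lag 1 t = 1 - t := by
  simp [lag, Finset.sum_range_succ]; ring


theorem sum_choose (j k : ℕ) : ∑ i ∈ Finset.range (k + 1), (i.choose j : ℝ) =
    ((k + 1).choose (j + 1) : ℝ) := by
  induction k with
  | zero =>
    cases j with
    | zero => simp
    | succ j => rw [Nat.choose_eq_zero_of_lt (by omega : 0 + 1 < j + 1 + 1)]; simp
  | succ k ih =>
    rw [Finset.sum_range_succ, ih, Nat.choose_succ_succ (k + 1) j]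
    push_cast
    ring

/-- the sum of the first Laguerre polynomials -/
theorem sum_lag (k : ℕ) (t : ℝ) :
    ∑ i ∈ Finset.range (k + 1), lag i t =
      ∑ j ∈ Finset.range (k + 1), ((k + 1).choose (j + 1) : ℝ) * (-t) ^ j / (j ! : ℝ) := by
  have h1 : ∀ i ∈ Finset.range (k + 1), lag i t =
      ∑ j ∈ Finset.range (k + 1), (i.choose j : ℝ) * (-t) ^ j / (j ! : ℝ) := by
    intro i hi
    unfold lag
    apply Finset.sum_subset
    · intro j hj
      simp only [Finset.mem_range] at hj hi ⊢
      omega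
    · intro j _ hj
      simp only [Finset.mem_range, not_lt] at hj
      rw [Nat.choose_eq_zero_of_lt (by omega)]
      simp
  rw [Finset.sum_congr rfl h1, Finset.sum_comm]
  apply Finset.sum_congr rfl
  intro j _
  rw [← Finset.sum_div, ← Finset.sum_mul, sum_choose]

/-- `(k+1) (L_{k+1} - L_k) = - t ∑_{i ≤ k} L_i` -/
theorem lag_succ_sub (k : ℕ) (t : ℝ) :
    ((k : ℝ) + 1) * (lag (k + 1) t - lag k t) = -t * ∑ i ∈ Finset.range (k + 1), lag i t := by
  rw [sum_lag]
  have h1 : lag k t = ∑ j ∈ Finset.range (k + 2), (k.choose j : ℝ) * (-t) ^ j / (j ! : ℝ) := by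
    rw [Finset.sum_range_succ, Nat.choose_succ_self]
    simp [lag]
  have h2 : lag (k + 1) t = ∑ j ∈ Finset.range (k + 2),
      ((k + 1).choose j : ℝ) * (-t) ^ j / (j ! : ℝ) := rfl
  rw [h1, h2, ← Finset.sum_sub_distrib, Finset.sum_range_succ']
  simp only [Nat.choose_zero_right, pow_zero, Nat.factorial_zero, Nat.cast_one, mul_one, div_one,
    sub_self, add_zero]
  rw [Finset.mul_sum, Finset.mul_sum]
  apply Finset.sum_congr rfl
  intro j _
  have h3 : ((k + 1).choose (j + 1) : ℝ) = (k.choose j : ℝ) + (k.choose (j + 1) : ℝ) := by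
    rw [Nat.choose_succ_succ]; push_cast; ring
  have h4 : ((k : ℝ) + 1) * (k.choose j : ℝ) = ((k + 1).choose (j + 1) : ℝ) * ((j : ℝ) + 1) := by
    have := Nat.add_one_mul_choose_eq k j
    exact_mod_cast this
  have h5 : ((j + 1)! : ℝ) = ((j : ℝ) + 1) * (j ! : ℝ) := by
    rw [Nat.factorial_succ]; push_cast; ring
  have h6 : (j ! : ℝ) ≠ 0 := by positivity
  have h7 : ((j : ℝ) + 1) ≠ 0 := by positivity
  calc ((k : ℝ) + 1) * (((k + 1).choose (j + 1) : ℝ) * (-t) ^ (j + 1) / ((j + 1)! : ℝ) -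
        (k.choose (j + 1) : ℝ) * (-t) ^ (j + 1) / ((j + 1)! : ℝ))
      = (((k : ℝ) + 1) * (k.choose j : ℝ)) * (-t) ^ (j + 1) / ((j + 1)! : ℝ) := by
        rw [h3]; ring
    _ = -t * (((k + 1).choose (j + 1) : ℝ) * (-t) ^ j / (j ! : ℝ)) := by
        rw [h4, h5]; field_simp; ring

/-- three-term recursion (also for `k = 0` with the convention `0 * lag (0-1)`) -/
theorem lag_rec (k : ℕ) (t : ℝ) :
    ((k : ℝ) + 1) * lag (k + 1) t = (2 * k + 1 - t) * lag k t - k * lag (k - 1) t := by
  cases k with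
  | zero => simp [lag_one]
  | succ k =>
    have h1 := lag_succ_sub (k + 1) t
    have h2 := lag_succ_sub k t
    rw [Finset.sum_range_succ] at h1
    simp only [Nat.add_sub_cancel]
    push_cast at h1 h2 ⊢
    linear_combination h1 - h2

theorem t_mul_lag (k : ℕ) (t : ℝ) :
    t * lag k t = (2 * k + 1) * lag k t - ((k : ℝ) + 1) * lag (k + 1) t - k * lag (k - 1) t := by
  have := lag_rec k t
  linear_combination this

/-! ### integrals against `exp (-t)` -/

theorem integrableOn_pow_exp (n : ℕ) :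
    IntegrableOn (fun t : ℝ => t ^ n * Real.exp (-t)) (Ioi 0) := by
  have := Real.GammaIntegral_convergent (s := (n : ℝ) + 1) (by positivity)
  refine this.congr_fun ?_ measurableSet_Ioi
  intro t _
  simp only [add_sub_cancel_right, Real.rpow_natCast]
  ring

theorem integral_pow_exp (n : ℕ) :
    ∫ t in Ioi (0 : ℝ), t ^ n * Real.exp (-t) = (n ! : ℝ) := by
  rw [← Real.Gamma_nat_eq_factorial, Real.Gamma_eq_integral (by positivity)]
  apply setIntegral_congr_fun measurableSet_Ioi
  intro t _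
  simp only [add_sub_cancel_right, Real.rpow_natCast]
  ring

/-- functions which are polynomials -/
def IsPoly (f : ℝ → ℝ) : Prop := ∃ p : Polynomial ℝ, ∀ t, f t = p.eval t

theorem IsPoly.mul {f g : ℝ → ℝ} (hf : IsPoly f) (hg : IsPoly g) :
    IsPoly (fun t => f t * g t) := by
  obtain ⟨p, hp⟩ := hf
  obtain ⟨q, hq⟩ := hg
  exact ⟨p * q, fun t => by simp [hp, hq]⟩

theorem IsPoly.add {f g : ℝ → ℝ} (hf : IsPoly f) (hg : IsPoly g) :
    IsPoly (fun t => f t + g t) := by
  obtain ⟨p, hp⟩ := hf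
  obtain ⟨q, hq⟩ := hg
  exact ⟨p + q, fun t => by simp [hp, hq]⟩

theorem IsPoly.const_mul {f : ℝ → ℝ} (c : ℝ) (hf : IsPoly f) :
    IsPoly (fun t => c * f t) := by
  obtain ⟨p, hp⟩ := hf
  exact ⟨Polynomial.C c * p, fun t => by simp [hp]⟩

theorem isPoly_pow (n : ℕ) : IsPoly (fun t => t ^ n) := ⟨Polynomial.X ^ n, fun t => by simp⟩

theorem isPoly_id : IsPoly (fun t => t) := ⟨Polynomial.X, fun t => by simp⟩


theorem isPoly_lag (k : ℕ) : IsPoly (lag k) := by
  refine ⟨∑ j ∈ Finset.range (k + 1), Polynomial.C ((k.choose j : ℝ) / (j ! : ℝ)) *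
    (-Polynomial.X) ^ j, fun t => ?_⟩
  simp only [lag, Polynomial.eval_finsetSum, Polynomial.eval_mul, Polynomial.eval_C,
    Polynomial.eval_pow, Polynomial.eval_neg, Polynomial.eval_X]
  apply Finset.sum_congr rfl
  intro j _
  ring

theorem IsPoly.continuous {f : ℝ → ℝ} (hf : IsPoly f) : Continuous f := by
  obtain ⟨p, hp⟩ := hf
  have : f = fun t => p.eval t := funext hp
  rw [this]
  exact p.continuous


theorem IsPoly.integrableOn_exp {f : ℝ → ℝ} (hf : IsPoly f) :
    IntegrableOn (fun t : ℝ => f t * Real.exp (-t)) (Ioi 0) := by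
  obtain ⟨p, hp⟩ := hf
  have : (fun t : ℝ => f t * Real.exp (-t)) =
      fun t => ∑ i ∈ p.support, p.coeff i * (t ^ i * Real.exp (-t)) := by
    funext t
    rw [hp, Polynomial.eval_eq_sum, Polynomial.sum, Finset.sum_mul]
    apply Finset.sum_congr rfl
    intro i _
    ring
  rw [this]
  apply integrable_finsetSum
  intro i _
  exact (integrableOn_pow_exp i).const_mul _

theorem integral_lag_exp (k : ℕ) :
    ∫ t in Ioi (0 : ℝ), lag k t * Real.exp (-t) = if k = 0 then 1 else 0 := by
  have h1 : (fun t : ℝ => lag k t * Real.exp (-t)) = fun t =>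
      ∑ j ∈ Finset.range (k + 1),
        ((k.choose j : ℝ) * (-1) ^ j / (j ! : ℝ)) * (t ^ j * Real.exp (-t)) := by
    funext t
    unfold lag
    rw [Finset.sum_mul]
    apply Finset.sum_congr rfl
    intro j _
    rw [neg_pow]
    ring
  rw [h1, integral_finsetSum]
  · simp_rw [integral_const_mul, integral_pow_exp]
    have h2 : ∀ j ∈ Finset.range (k + 1),
        ((k.choose j : ℝ) * (-1) ^ j / (j ! : ℝ)) * (j ! : ℝ) = (-1) ^ j * (k.choose j : ℝ) := by
      intro j _
      have : (j ! : ℝ) ≠ 0 := by positivity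
      field_simp
    rw [Finset.sum_congr rfl h2]
    have h3 := Int.alternating_sum_range_choose (n := k)
    have h4 : ((∑ i ∈ Finset.range (k + 1), (-1 : ℤ) ^ i * (k.choose i : ℤ) : ℤ) : ℝ) =
        ((if k = 0 then 1 else 0 : ℤ) : ℝ) := by rw [h3]
    push_cast at h4
    simpa using h4
  · intro j _
    exact (integrableOn_pow_exp j).const_mul _

/-- the inner product -/
def ip (f g : ℝ → ℝ) : ℝ := ∫ t in Ioi (0 : ℝ), f t * g t * Real.exp (-t)

/-- orthonormality of the Laguerre polynomials -/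
theorem ip_lag (m k : ℕ) : ip (lag m) (lag k) = if m = k then 1 else 0 := by
  have hint : ∀ m k, IntegrableOn (fun t : ℝ => lag m t * lag k t * Real.exp (-t)) (Ioi 0) :=
    fun m k => ((isPoly_lag m).mul (isPoly_lag k)).integrableOn_exp
  -- the two expansions of `∫ t L_m L_k e^{-t}`
  have hrel : ∀ m k : ℕ,
      (2 * m + 1) * ip (lag m) (lag k) - ((m : ℝ) + 1) * ip (lag (m + 1)) (lag k)
        - m * ip (lag (m - 1)) (lag k) =
      (2 * k + 1) * ip (lag m) (lag k) - ((k : ℝ) + 1) * ip (lag m) (lag (k + 1))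
        - k * ip (lag m) (lag (k - 1)) := by
    intro m k
    unfold ip
    rw [← integral_const_mul, ← integral_const_mul, ← integral_const_mul, ← integral_sub,
      ← integral_sub, ← integral_const_mul, ← integral_const_mul, ← integral_const_mul,
      ← integral_sub, ← integral_sub]
    · apply setIntegral_congr_fun measurableSet_Ioi
      intro t _
      have h1 := t_mul_lag m t
      have h2 := t_mul_lag k t
      simp only
      linear_combination (-(lag k t * Real.exp (-t))) * h1 + (lag m t * Real.exp (-t)) * h2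
    all_goals first
      | exact (((hint _ _).const_mul _).sub ((hint _ _).const_mul _))
      | exact (hint _ _).const_mul _
  induction k using Nat.strong_induction_on generalizing m with
  | _ k ih =>
    rcases Nat.eq_zero_or_pos k with rfl | hk
    · unfold ip
      simp only [lag_zero, mul_one]
      exact integral_lag_exp m
    · obtain ⟨k, rfl⟩ : ∃ k', k = k' + 1 := ⟨k - 1, by omega⟩
      have e := hrel m k
      have i0 : ip (lag m) (lag k) = if m = k then 1 else 0 := ih k (by omega) m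
      have i1 : ip (lag (m + 1)) (lag k) = if m + 1 = k then 1 else 0 := ih k (by omega) (m + 1)
      have i2 : (m : ℝ) * ip (lag (m - 1)) (lag k) = if m = k + 1 then (m : ℝ) else 0 := by
        rw [ih k (by omega) (m - 1)]
        rcases Nat.eq_zero_or_pos m with rfl | hm
        · simp
        · by_cases h : m = k + 1
          · subst h; simp
          · rw [if_neg h, if_neg (by omega)]; simp
      have i3 : (k : ℝ) * ip (lag m) (lag (k - 1)) = if m + 1 = k then (k : ℝ) else 0 := by
        rcases Nat.eq_zero_or_pos k with rfl | hk'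
        · simp
        · rw [ih (k - 1) (by omega) m]
          by_cases h : m + 1 = k
          · rw [if_pos h, if_pos (by omega)]; simp
          · rw [if_neg h, if_neg (by omega)]; simp
      rw [i0, i1, i2, i3] at e
      have hk1 : ((k : ℝ) + 1) ≠ 0 := by positivity
      apply mul_left_cancel₀ hk1
      by_cases a : m = k
      · subst a
        simp only [if_true, mul_one, Nat.succ_ne_self, if_false, mul_zero, sub_zero] at e
        rw [if_neg (by omega)] at e ⊢
        linarith
      · by_cases b : m = k + 1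
        · subst b
          rw [if_neg (by omega), if_neg (by omega), if_pos rfl, if_neg (by omega)] at e
          rw [if_pos rfl]
          push_cast at e
          linarith
        · by_cases c : m + 1 = k
          · subst c
            rw [if_neg (by omega), if_pos rfl, if_neg (by omega), if_pos rfl] at e
            rw [if_neg (by omega)]
            push_cast at e ⊢
            linarith
          · rw [if_neg a, if_neg c, if_neg b, if_neg c] at e
            rw [if_neg b]
            linarith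

end Crest.Agent.R338.Lag
end
end

-- ▼ part R338/Lag2
section

/-!
Row 338, node B.3a (helper695): the Fourier integrals of `h_k ^ 2`:
`∫ h_k(x)^2 cos (q x) dx = exp (-q^2/4) L_k (q^2/2)`.
-/

set_option autoImplicit false

open Finset MeasureTheory Set
open scoped Nat

noncomputable section
namespace Crest.Agent.R338.Lag
open Crest.Agent.R338.HO

/-- `∫ h_j h_k e^{iqx} dx` -/
def FT (j k : ℕ) (q : ℝ) : ℂ :=
  ∫ x : ℝ, ((hf j x * hf k x : ℝ) : ℂ) * Complex.exp (Complex.I * q * x)

theorem norm_cexp_I (q x : ℝ) : ‖Complex.exp (Complex.I * q * x)‖ = 1 := by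
  have : Complex.I * (q : ℂ) * (x : ℂ) = ((q * x : ℝ) : ℂ) * Complex.I := by push_cast; ring
  rw [this, Complex.norm_exp_ofReal_mul_I]

theorem integrable_mul_cexp {f : ℝ → ℝ} (hf' : Integrable f) (q : ℝ) :
    Integrable (fun x : ℝ => ((f x : ℝ) : ℂ) * Complex.exp (Complex.I * q * x)) := by
  refine (hf'.ofReal (𝕜 := ℂ)).mul_bdd (c := 1) ?_ ?_
  · apply Continuous.aestronglyMeasurable
    fun_prop
  · filter_upwards with x
    rw [norm_cexp_I]

theorem integrable_FT (j k : ℕ) (q : ℝ) :
    Integrable (fun x : ℝ => ((hf j x * hf k x : ℝ) : ℂ) * Complex.exp (Complex.I * q * x)) :=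
  integrable_mul_cexp (integrable_hf_mul_hf j k) q

theorem FT_comm (j k : ℕ) (q : ℝ) : FT j k q = FT k j q := by
  unfold FT
  congr 1; ext x; rw [mul_comm (hf j x)]

/-- `a n = √(n/2)` -/
def aa (n : ℕ) : ℝ := √((n : ℝ) / 2)

theorem aa_sq (n : ℕ) : aa n * aa n = (n : ℝ) / 2 := Real.mul_self_sqrt (by positivity)

theorem aa_zero : aa 0 = 0 := by simp [aa]


theorem x_mul_hf' (m : ℕ) (x : ℝ) :
    x * hf m x = aa (m + 1) * hf (m + 1) x + aa m * hf (m - 1) x := by
  have := x_mul_hf m x
  simpa [aa] using this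

theorem hasDerivAt_hf' (m : ℕ) (x : ℝ) : HasDerivAt (hf m)
    (aa m * hf (m - 1) x - aa (m + 1) * hf (m + 1) x) x := by
  have := hasDerivAt_hf m x
  simpa [aa] using this

theorem FT_x (j k : ℕ) (q : ℝ) :
    (aa (j + 1) : ℂ) * FT (j + 1) k q + (aa j : ℂ) * FT (j - 1) k q =
      (aa (k + 1) : ℂ) * FT j (k + 1) q + (aa k : ℂ) * FT j (k - 1) q := by
  unfold FT
  rw [← integral_const_mul, ← integral_const_mul, ← integral_const_mul, ← integral_const_mul,
    ← integral_add, ← integral_add]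
  · congr 1; ext x
    have h1 := x_mul_hf' j x
    have h2 := x_mul_hf' k x
    have h3 : (aa (j + 1) * hf (j + 1) x + aa j * hf (j - 1) x) * hf k x =
      hf j x * (aa (k + 1) * hf (k + 1) x + aa k * hf (k - 1) x) := by
      rw [← h1, ← h2]; ring
    have h4 := congrArg (fun r : ℝ => ((r : ℝ) : ℂ)) h3
    push_cast at h4 ⊢
    linear_combination (Complex.exp (Complex.I * q * x)) * h4
  all_goals exact (integrable_FT _ _ q).const_mul _

theorem FT_d (j k : ℕ) (q : ℝ) :
    (aa j : ℂ) * FT (j - 1) k q - (aa (j + 1) : ℂ) * FT (j + 1) k q +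
      ((aa k : ℂ) * FT j (k - 1) q - (aa (k + 1) : ℂ) * FT j (k + 1) q) +
      Complex.I * q * FT j k q = 0 := by
  have hd : ∀ x : ℝ, HasDerivAt
      (fun x : ℝ => ((hf j x * hf k x : ℝ) : ℂ) * Complex.exp (Complex.I * q * x))
      ((aa j : ℂ) * (((hf (j - 1) x * hf k x : ℝ) : ℂ) * Complex.exp (Complex.I * q * x))
        - (aa (j + 1) : ℂ) * (((hf (j + 1) x * hf k x : ℝ) : ℂ) * Complex.exp (Complex.I * q * x))
        + ((aa k : ℂ) * (((hf j x * hf (k - 1) x : ℝ) : ℂ) * Complex.exp (Complex.I * q * x))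
        - (aa (k + 1) : ℂ) * (((hf j x * hf (k + 1) x : ℝ) : ℂ) * Complex.exp (Complex.I * q * x)))
        + Complex.I * q *
          (((hf j x * hf k x : ℝ) : ℂ) * Complex.exp (Complex.I * q * x))) x := by
    intro x
    have h1 : HasDerivAt (fun x : ℝ => ((hf j x * hf k x : ℝ) : ℂ))
        ((((aa j * hf (j - 1) x - aa (j + 1) * hf (j + 1) x) * hf k x +
          hf j x * (aa k * hf (k - 1) x - aa (k + 1) * hf (k + 1) x) : ℝ)) : ℂ) x :=
      ((hasDerivAt_hf' j x).mul (hasDerivAt_hf' k x)).ofReal_comp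
    have h2 : HasDerivAt (fun x : ℝ => Complex.exp (Complex.I * q * x))
        (Complex.exp (Complex.I * q * x) * (Complex.I * q)) x := by
      have h3 : HasDerivAt (fun x : ℝ => Complex.I * (q : ℂ) * (x : ℂ)) (Complex.I * q) x := by
        have := (Complex.ofRealCLM.hasDerivAt (x := x)).const_mul (Complex.I * (q : ℂ))
        simpa using this
      exact h3.cexp
    refine (h1.mul h2).congr_deriv ?_
    push_cast
    ring
  have hi : ∀ a b : ℕ, ∀ c : ℂ, Integrable (fun x : ℝ =>
      c * (((hf a x * hf b x : ℝ) : ℂ) * Complex.exp (Complex.I * q * x))) :=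
    fun a b c => (integrable_FT a b q).const_mul c
  have h0 := integral_eq_zero_of_hasDerivAt_of_integrable hd
    ((((hi _ _ _).sub (hi _ _ _)).add ((hi _ _ _).sub (hi _ _ _))).add (hi _ _ _))
    (integrable_FT j k q)
  rw [← h0]
  unfold FT
  rw [← integral_const_mul, ← integral_const_mul, ← integral_const_mul, ← integral_const_mul,
    ← integral_const_mul, ← integral_sub (hi _ _ _) (hi _ _ _),
    ← integral_sub (hi _ _ _) (hi _ _ _), ← integral_add, ← integral_add]
  · exact ((hi _ _ _).sub (hi _ _ _)).add ((hi _ _ _).sub (hi _ _ _))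
  · exact hi _ _ _
  · exact (hi _ _ _).sub (hi _ _ _)
  · exact (hi _ _ _).sub (hi _ _ _)

/-- the ladder recursion -/
theorem FT_rec (j k : ℕ) (q : ℝ) :
    (aa (k + 1) : ℂ) * FT j (k + 1) q =
      (aa j : ℂ) * FT (j - 1) k q + Complex.I * q / 2 * FT j k q := by
  have h1 := FT_d j k q
  have h2 := FT_x j k q
  linear_combination (-1 / 2 : ℂ) * h1 - (1 / 2 : ℂ) * h2

theorem FT_zero_zero (q : ℝ) : FT 0 0 q = Real.exp (-(q ^ 2) / 4) := by
  have h := fourierIntegral_gaussian (b := 1) (by simp) (q : ℂ)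
  unfold FT
  have h1 : ∀ x : ℝ, ((hf 0 x * hf 0 x : ℝ) : ℂ) * Complex.exp (Complex.I * q * x) =
      ((Real.pi ^ (-(1 / 2) : ℝ) : ℝ) : ℂ) *
        (Complex.exp (Complex.I * q * x) * Complex.exp (-1 * (x : ℂ) ^ 2)) := by
    intro x
    have h2 : hf 0 x * hf 0 x = Real.pi ^ (-(1 / 2) : ℝ) * Real.exp (-1 * x ^ 2) := by
      rw [hf_mul_hf, hP_zero, ← Polynomial.C_mul, Polynomial.eval_C, ← Real.rpow_add Real.pi_pos]
      norm_num
    rw [h2]
    push_cast
    ring
  simp only [h1]
  rw [integral_const_mul, h]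
  have h3 : ((Real.pi : ℂ) / 1) ^ (1 / 2 : ℂ) = ((Real.pi ^ (1 / 2 : ℝ) : ℝ) : ℂ) := by
    rw [div_one, Complex.ofReal_cpow Real.pi_pos.le]
    norm_num
  rw [h3, ← mul_assoc, ← Complex.ofReal_mul, ← Real.rpow_add Real.pi_pos]
  norm_num

theorem FT_sum (k : ℕ) (q : ℝ) : (aa (k + 1) : ℂ) * FT k (k + 1) q =
    Complex.I * q / 2 * ∑ i ∈ Finset.range (k + 1), FT i i q := by
  induction k with
  | zero =>
    rw [FT_rec, aa_zero]
    simp
  | succ k ih =>
    rw [FT_rec, Nat.add_sub_cancel, ih, Finset.sum_range_succ _ (k + 1)]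
    ring

theorem FT_diag_succ (k : ℕ) (q : ℝ) : ((k : ℂ) + 1) * (FT (k + 1) (k + 1) q - FT k k q) =
    -((q : ℂ) ^ 2 / 2) * ∑ i ∈ Finset.range (k + 1), FT i i q := by
  have h1 := FT_rec (k + 1) k q
  rw [Nat.add_sub_cancel, FT_comm (k + 1) k] at h1
  have h2 := FT_sum k q
  have h3 : ((aa (k + 1) : ℝ) : ℂ) * ((aa (k + 1) : ℝ) : ℂ) = ((k : ℂ) + 1) / 2 := by
    rw [← Complex.ofReal_mul, aa_sq]; push_cast; ring
  have h4 : (Complex.I : ℂ) * Complex.I = -1 := Complex.I_mul_I
  linear_combination 2 * (aa (k + 1) : ℂ) * h1 + (Complex.I * q) * h2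
    + (-2) * (FT (k + 1) (k + 1) q - FT k k q) * h3
    + ((q : ℂ) ^ 2 / 2) * (∑ i ∈ Finset.range (k + 1), FT i i q) * h4

theorem FT_diag (k : ℕ) (q : ℝ) : FT k k q = ((Real.exp (-(q ^ 2) / 4) * lag k (q ^ 2 / 2) : ℝ) : ℂ) := by
  induction k using Nat.strong_induction_on with
  | _ k ih =>
    cases k with
    | zero => rw [FT_zero_zero]; simp
    | succ k =>
      have h1 := FT_diag_succ k q
      have h2 : ∑ i ∈ Finset.range (k + 1), FT i i q =
          ∑ i ∈ Finset.range (k + 1), ((Real.exp (-(q ^ 2) / 4) * lag i (q ^ 2 / 2) : ℝ) : ℂ) := by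
        apply Finset.sum_congr rfl
        intro i hi
        exact ih i (Finset.mem_range.1 hi)
      rw [h2, ih k (by omega)] at h1
      have h3 := lag_succ_sub k (q ^ 2 / 2)
      have h4 : ((k : ℂ) + 1) ≠ 0 := by
        have : ((k : ℝ) + 1) ≠ 0 := by positivity
        exact_mod_cast this
      apply mul_left_cancel₀ h4
      have h5 := congrArg (fun r : ℝ => ((Real.exp (-(q ^ 2) / 4) * r : ℝ) : ℂ)) h3
      rw [← Complex.ofReal_sum, ← Finset.mul_sum] at h1
      push_cast at h1 h5 ⊢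
      linear_combination h1 - h5

/-- `∫ h_k(x)^2 cos (q x) dx = exp (-q^2/4) L_k (q^2/2)` -/
theorem integral_hf_sq_cos (k : ℕ) (q : ℝ) :
    ∫ x : ℝ, hf k x * hf k x * Real.cos (q * x) = Real.exp (-(q ^ 2) / 4) * lag k (q ^ 2 / 2) := by
  have h1 := congrArg Complex.re (FT_diag k q)
  rw [Complex.ofReal_re] at h1
  rw [← h1]
  unfold FT
  have h2 : ∀ x : ℝ, hf k x * hf k x * Real.cos (q * x) =
      (((hf k x * hf k x : ℝ) : ℂ) * Complex.exp (Complex.I * q * x)).re := by
    intro x
    have : Complex.I * (q : ℂ) * (x : ℂ) = ((q * x : ℝ) : ℂ) * Complex.I := by push_cast; ring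
    rw [this, Complex.re_ofReal_mul, Complex.exp_ofReal_mul_I_re]
  simp only [h2]
  exact integral_re (integrable_FT k k q)


end Crest.Agent.R338.Lag
end
end

-- ▼ part R338/Lag3

/-!
Row 338, node B.3a / D.12 (helper695): the selection potentials
`Dsel m x = ∫_0^∞ q exp (-q^2/4) L_m (q^2/2) cos (q x) dq`.
-/

set_option autoImplicit false

open MeasureTheory Set
open scoped Nat ContDiff

noncomputable section
namespace Crest.Agent.R338.Lag
open Crest.Agent.R338.HO

/-! ### cosine transforms -/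

/-- cosine transform with a phase -/
def CT (g : ℝ → ℝ) (θ x : ℝ) : ℝ := ∫ q in Ioi (0 : ℝ), g q * Real.cos (q * x + θ)

/-- continuous functions all of whose moments on `(0,∞)` are integrable -/
def GM (g : ℝ → ℝ) : Prop := Continuous g ∧ ∀ r : ℕ, IntegrableOn (fun q => q ^ r * g q) (Ioi 0)

theorem GM.integrableOn {g : ℝ → ℝ} (h : GM g) : IntegrableOn g (Ioi 0) := by
  have := h.2 0
  simpa using this

theorem GM.pow_mul {g : ℝ → ℝ} (h : GM g) (r : ℕ) : GM (fun q => q ^ r * g q) := by
  refine ⟨(continuous_pow r).mul h.1, fun s => ?_⟩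
  have := h.2 (s + r)
  refine this.congr_fun (fun q _ => ?_) measurableSet_Ioi
  simp only
  rw [pow_add]; ring

theorem GM.integrableOn_cos {g : ℝ → ℝ} (h : GM g) (θ x : ℝ) :
    IntegrableOn (fun q => g q * Real.cos (q * x + θ)) (Ioi 0) := by
  refine Integrable.mul_bdd (c := 1) h.integrableOn ?_ ?_
  · apply Continuous.aestronglyMeasurable
    fun_prop
  · filter_upwards with q
    rw [Real.norm_eq_abs]
    exact Real.abs_cos_le_one _

theorem hasDerivAt_CT {g : ℝ → ℝ} (h : GM g) (θ x : ℝ) :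
    HasDerivAt (CT g θ) (CT (fun q => q ^ 1 * g q) (θ + Real.pi / 2) x) x := by
  have h1 : GM (fun q => q ^ 1 * g q) := h.pow_mul 1
  have key := hasDerivAt_integral_of_dominated_loc_of_deriv_le
    (μ := volume.restrict (Ioi (0 : ℝ))) (x₀ := x) (s := Set.univ)
    (F := fun x q => g q * Real.cos (q * x + θ))
    (F' := fun x q => (q ^ 1 * g q) * Real.cos (q * x + (θ + Real.pi / 2)))
    (bound := fun q => ‖q ^ 1 * g q‖) Filter.univ_mem
    (Filter.Eventually.of_forall fun y => (h.integrableOn_cos θ y).aestronglyMeasurable)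
    (h.integrableOn_cos θ x)
    (h1.integrableOn_cos (θ + Real.pi / 2) x).aestronglyMeasurable
    (by
      filter_upwards with q y _
      rw [norm_mul]
      refine mul_le_of_le_one_right (norm_nonneg _) ?_
      rw [Real.norm_eq_abs]
      exact Real.abs_cos_le_one _)
    h1.integrableOn.norm
    (by
      filter_upwards with q y _
      have h2 : HasDerivAt (fun y : ℝ => q * y + θ) q y := by
        have := ((hasDerivAt_id y).const_mul q).add_const θ
        simpa using this
      have h3 := (h2.cos).const_mul (g q)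
      refine h3.congr_deriv ?_
      rw [← add_assoc, Real.cos_add_pi_div_two]
      ring)
  exact key.2

theorem iteratedDeriv_CT {g : ℝ → ℝ} (h : GM g) (θ : ℝ) (r : ℕ) :
    iteratedDeriv r (CT g θ) = CT (fun q => q ^ r * g q) (θ + r * (Real.pi / 2)) := by
  induction r with
  | zero =>
    simp
  | succ r ih =>
    rw [iteratedDeriv_succ, ih]
    funext x
    rw [(hasDerivAt_CT (h.pow_mul r) _ x).deriv]
    unfold CT
    apply setIntegral_congr_fun measurableSet_Ioi
    intro q _
    simp only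
    push_cast
    rw [pow_succ]
    ring_nf

theorem contDiff_CT {g : ℝ → ℝ} (h : GM g) (θ : ℝ) : ContDiff ℝ ∞ (CT g θ) := by
  apply contDiff_of_differentiable_iteratedDeriv
  intro r _
  rw [iteratedDeriv_CT h]
  exact fun x => (hasDerivAt_CT (h.pow_mul r) _ x).differentiableAt

theorem abs_CT_le {g : ℝ → ℝ} (h : GM g) (θ x : ℝ) :
    |CT g θ x| ≤ ∫ q in Ioi (0 : ℝ), |g q| := by
  unfold CT
  rw [← Real.norm_eq_abs]
  refine (norm_integral_le_integral_norm _).trans ?_
  apply setIntegral_mono_on (h.integrableOn_cos θ x).norm h.integrableOn.abs measurableSet_Ioi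
  intro q _
  rw [norm_mul, Real.norm_eq_abs, Real.norm_eq_abs]
  exact mul_le_of_le_one_right (abs_nonneg _) (Real.abs_cos_le_one _)

/-! ### the functions `q ↦ q exp (-q^2/4) L_m (q^2/2)` -/

theorem IsPoly.comp {f g : ℝ → ℝ} (hf : IsPoly f) (hg : IsPoly g) : IsPoly (fun t => f (g t)) := by
  obtain ⟨p, hp⟩ := hf
  obtain ⟨q, hq⟩ := hg
  exact ⟨p.comp q, fun t => by simp [hp, hq]⟩

theorem IsPoly.gm {f : ℝ → ℝ} (hf : IsPoly f) {b : ℝ} (hb : 0 < b) :
    GM (fun q => f q * Real.exp (-b * q ^ 2)) := by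
  refine ⟨hf.continuous.mul (by fun_prop), fun r => ?_⟩
  obtain ⟨p, hp⟩ := (isPoly_pow r).mul hf
  refine (integrable_poly_gauss p hb).integrableOn.congr_fun (fun q _ => ?_) measurableSet_Ioi
  simp only
  rw [← hp]; ring

theorem isPoly_half_sq : IsPoly (fun q : ℝ => q ^ 2 / 2) :=
  ⟨Polynomial.C (1 / 2) * Polynomial.X ^ 2, fun t => by simp; ring⟩

/-- the weight `q exp (-q^2/4) L_m (q^2/2)` -/
def gw (m : ℕ) (q : ℝ) : ℝ := q * Real.exp (-(q ^ 2) / 4) * lag m (q ^ 2 / 2)

theorem gw_eq (m : ℕ) : gw m = fun q => (q * lag m (q ^ 2 / 2)) * Real.exp (-(1 / 4) * q ^ 2) := by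
  funext q
  unfold gw
  rw [show -(q ^ 2) / 4 = -(1 / 4) * q ^ 2 by ring]
  ring

theorem gm_gw (m : ℕ) : GM (gw m) := by
  rw [gw_eq]
  exact (isPoly_id.mul ((isPoly_lag m).comp isPoly_half_sq)).gm (by norm_num)

/-- the selection potential -/
def Dsel (m : ℕ) (x : ℝ) : ℝ :=
  ∫ q in Ioi (0 : ℝ), q * Real.exp (-(q ^ 2) / 4) * lag m (q ^ 2 / 2) * Real.cos (q * x)

theorem Dsel_eq (m : ℕ) : Dsel m = CT (gw m) 0 := by
  funext x
  unfold Dsel CT gw
  simp


theorem contDiff_Dsel (m : ℕ) : ContDiff ℝ ∞ (Dsel m) := by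
  rw [Dsel_eq]; exact contDiff_CT (gm_gw m) 0

theorem continuous_Dsel (m : ℕ) : Continuous (Dsel m) := (contDiff_Dsel m).continuous

/-- substitution `t = q^2/2` -/
theorem image_half_sq : (fun q : ℝ => q ^ 2 / 2) '' Ioi 0 = Ioi 0 := by
  ext t
  constructor
  · rintro ⟨q, hq, rfl⟩
    have : (0 : ℝ) < q := hq
    show (0 : ℝ) < q ^ 2 / 2
    positivity
  · intro ht
    have ht' : (0 : ℝ) < t := ht
    refine ⟨√(2 * t), Real.sqrt_pos.2 (by positivity), ?_⟩
    show √(2 * t) ^ 2 / 2 = t
    rw [Real.sq_sqrt (by positivity)]; ring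

theorem injOn_half_sq : InjOn (fun q : ℝ => q ^ 2 / 2) (Ioi 0) := by
  intro a ha b hb h
  have ha' : (0 : ℝ) < a := ha
  have hb' : (0 : ℝ) < b := hb
  simp only at h
  nlinarith [sq_nonneg (a - b), mul_pos ha' hb']

theorem hasDeriv_half_sq (q : ℝ) (s : Set ℝ) :
    HasDerivWithinAt (fun q : ℝ => q ^ 2 / 2) q s q := by
  have := ((hasDerivAt_pow 2 q).div_const 2).hasDerivWithinAt (s := s)
  refine this.congr_deriv ?_
  norm_num

theorem integral_half_sq (f : ℝ → ℝ) :
    ∫ q in Ioi (0 : ℝ), q * f (q ^ 2 / 2) = ∫ t in Ioi (0 : ℝ), f t := by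
  have h := integral_image_eq_integral_abs_deriv_smul (s := Ioi (0 : ℝ))
    (f := fun q : ℝ => q ^ 2 / 2) (f' := fun q => q) measurableSet_Ioi
    (fun q _ => hasDeriv_half_sq q _) injOn_half_sq f
  rw [image_half_sq] at h
  rw [h]
  apply setIntegral_congr_fun measurableSet_Ioi
  intro q hq
  have : (0 : ℝ) < q := hq
  simp [abs_of_pos this]

theorem integrableOn_half_sq (f : ℝ → ℝ) (hf : IntegrableOn f (Ioi 0)) :
    IntegrableOn (fun q : ℝ => q * f (q ^ 2 / 2)) (Ioi 0) := by
  have h := (integrableOn_image_iff_integrableOn_abs_deriv_smul (s := Ioi (0 : ℝ))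
    (f := fun q : ℝ => q ^ 2 / 2) (f' := fun q => q) measurableSet_Ioi
    (fun q _ => hasDeriv_half_sq q _) injOn_half_sq f).1 (by rw [image_half_sq]; exact hf)
  refine h.congr_fun (fun q hq => ?_) measurableSet_Ioi
  have : (0 : ℝ) < q := hq
  simp [abs_of_pos this]

/-! ### orthogonality with `h_k ^ 2` -/

theorem integrable_Dsel_hf (m a b : ℕ) :
    Integrable (fun x => Dsel m x * (hf a x * hf b x)) := by
  refine Integrable.bdd_mul (c := ∫ q in Ioi (0 : ℝ), |gw m q|) (integrable_hf_mul_hf a b)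
    (continuous_Dsel m).aestronglyMeasurable ?_
  filter_upwards with x
  rw [Dsel_eq, Real.norm_eq_abs]
  exact abs_CT_le (gm_gw m) 0 x

theorem integral_Dsel_hf_sq (m k : ℕ) :
    ∫ x, Dsel m x * (hf k x * hf k x) = if m = k then 1 else 0 := by
  have hswap : ∫ x, (∫ q in Ioi (0 : ℝ), gw m q * Real.cos (q * x) * (hf k x * hf k x)) =
      ∫ q in Ioi (0 : ℝ), (∫ x, gw m q * Real.cos (q * x) * (hf k x * hf k x)) := by
    apply integral_integral_swap
    have h1 : Integrable (fun z : ℝ × ℝ => (hf k z.1 * hf k z.1) * gw m z.2)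
        (volume.prod (volume.restrict (Ioi (0 : ℝ)))) :=
      (integrable_hf_mul_hf k k).mul_prod (gm_gw m).integrableOn
    have h2 : Integrable (fun z : ℝ × ℝ => (hf k z.1 * hf k z.1) * gw m z.2 *
        Real.cos (z.2 * z.1)) (volume.prod (volume.restrict (Ioi (0 : ℝ)))) := by
      refine h1.mul_bdd (c := 1) ?_ ?_
      · apply Continuous.aestronglyMeasurable
        fun_prop
      · filter_upwards with z
        rw [Real.norm_eq_abs]
        exact Real.abs_cos_le_one _
    refine h2.congr ?_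
    filter_upwards with z
    simp only [Function.uncurry]
    ring
  have h3 : ∀ x, Dsel m x * (hf k x * hf k x) =
      ∫ q in Ioi (0 : ℝ), gw m q * Real.cos (q * x) * (hf k x * hf k x) := by
    intro x
    rw [integral_mul_const]
    rfl
  simp only [h3]
  rw [hswap, ← ip_lag m k]
  unfold ip
  rw [← integral_half_sq (fun t => lag m t * lag k t * Real.exp (-t))]
  apply setIntegral_congr_fun measurableSet_Ioi
  intro q _
  simp only
  have h4 : ∫ x, gw m q * Real.cos (q * x) * (hf k x * hf k x) =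
      gw m q * ∫ x, hf k x * hf k x * Real.cos (q * x) := by
    rw [← integral_const_mul]
    congr 1; ext x; ring
  rw [h4, integral_hf_sq_cos]
  unfold gw
  have h5 : Real.exp (-(q ^ 2 / 2)) = Real.exp (-(q ^ 2) / 4) * Real.exp (-(q ^ 2) / 4) := by
    rw [← Real.exp_add]; ring_nf
  rw [h5]; ring

end Crest.Agent.R338.Lag
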