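import Mathlib
import Crest.Agent.R338.WCBase
import Crest.Agent.R338.LatDefs

-- ▼ part R338/WCBound
section

/-!
Row 338, node WC (helper201), part 3: polynomial bounds of the derivatives (order `≤ 3`) of the
Hermite functions, of the designer potential and of its cut-off.
-/

set_option autoImplicit false

open MeasureTheory Set
open Crest.MathPhysics.ElectronicCoulomb

noncomputable section
namespace Crest.Agent.R338.WC

namespace DB

theorem succ {N : ℕ} {f f' : ℝ → ℝ} {B : ℝ} (h : ∀ x, HasDerivAt f (f' x) x)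
    (b0 : ∀ x, |f x| ≤ B) (h' : DB N f' B) : DB (N + 1) f B := by
  have d0 : deriv f = f' := funext fun x => (h x).deriv
  have c0 : ContDiff ℝ ((N : WithTop ℕ∞) + 1) f := by
    rw [contDiff_succ_iff_deriv]
    exact ⟨fun x => (h x).differentiableAt, by simp, by rw [d0]; exact h'.cd⟩
  refine ⟨by exact_mod_cast c0, fun j hj x => ?_⟩
  rw [norm_iteratedFDeriv_eq_norm_iteratedDeriv, Real.norm_eq_abs]
  cases j with
  | zero => rw [iteratedDeriv_zero]; exact b0 x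
  | succ j =>
    rw [iteratedDeriv_succ', d0]
    exact h'.abs_iteratedDeriv_le (by omega) x

theorem zero {f : ℝ → ℝ} {B : ℝ} (hc : Continuous f) (b0 : ∀ x, |f x| ≤ B) : DB 0 f B := by
  refine ⟨by exact_mod_cast contDiff_zero.2 hc, fun j hj x => ?_⟩
  obtain rfl : j = 0 := by omega
  rw [norm_iteratedFDeriv_zero, Real.norm_eq_abs]
  exact b0 x

end DB

/-! ### Hermite functions -/

theorem integral_dhf_sq (m : ℕ) : ∫ x, dhf m x ^ 2 = (m : ℝ) + 1 / 2 := by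
  have hint : ∀ a b : ℕ, Integrable (fun x => HO.hf a x * HO.hf b x) := HO.integrable_hf_mul_hf
  have e : ∀ x, dhf m x ^ 2 = (m : ℝ) / 2 * (HO.hf (m - 1) x * HO.hf (m - 1) x) -
      2 * (√((m : ℝ) / 2) * √(((m : ℝ) + 1) / 2)) * (HO.hf (m - 1) x * HO.hf (m + 1) x) +
      ((m : ℝ) + 1) / 2 * (HO.hf (m + 1) x * HO.hf (m + 1) x) := by
    intro x
    unfold dhf
    have s1 : √((m : ℝ) / 2) * √((m : ℝ) / 2) = (m : ℝ) / 2 := Real.mul_self_sqrt (by positivity)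
    have s2 : √(((m : ℝ) + 1) / 2) * √(((m : ℝ) + 1) / 2) = ((m : ℝ) + 1) / 2 :=
      Real.mul_self_sqrt (by positivity)
    nlinarith [s1, s2]
  simp only [e]
  have i1 : Integrable (fun x => (m : ℝ) / 2 * (HO.hf (m - 1) x * HO.hf (m - 1) x)) :=
    (hint _ _).const_mul _
  have i2 : Integrable (fun x => 2 * (√((m : ℝ) / 2) * √(((m : ℝ) + 1) / 2)) *
      (HO.hf (m - 1) x * HO.hf (m + 1) x)) := (hint _ _).const_mul _
  have i3 : Integrable (fun x => ((m : ℝ) + 1) / 2 * (HO.hf (m + 1) x * HO.hf (m + 1) x)) :=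
    (hint _ _).const_mul _
  have i12 : Integrable (fun x => (m : ℝ) / 2 * (HO.hf (m - 1) x * HO.hf (m - 1) x) -
    2 * (√((m : ℝ) / 2) * √(((m : ℝ) + 1) / 2)) *
      (HO.hf (m - 1) x * HO.hf (m + 1) x)) := i1.sub i2
  rw [integral_add i12 i3, integral_sub i1 i2, integral_const_mul,
    integral_const_mul, integral_const_mul, HO.integral_hf_mul_hf, HO.integral_hf_mul_hf,
    HO.integral_hf_mul_hf]
  rw [if_pos rfl, if_pos rfl, if_neg (by omega)]
  ring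

theorem integrable_dhf_sq (m : ℕ) : Integrable (fun x => dhf m x ^ 2) := by
  have hint : ∀ a b : ℕ, Integrable (fun x => HO.hf a x * HO.hf b x) := HO.integrable_hf_mul_hf
  have e : (fun x => dhf m x ^ 2) = fun x => (√((m : ℝ) / 2)) ^ 2 * (HO.hf (m - 1) x * HO.hf (m - 1) x) -
      2 * (√((m : ℝ) / 2) * √(((m : ℝ) + 1) / 2)) * (HO.hf (m - 1) x * HO.hf (m + 1) x) +
      (√(((m : ℝ) + 1) / 2)) ^ 2 * (HO.hf (m + 1) x * HO.hf (m + 1) x) := by
    ext x
    unfold dhf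
    ring
  rw [e]
  exact (((hint _ _).const_mul _).sub ((hint _ _).const_mul _)).add ((hint _ _).const_mul _)

theorem integrable_hf_sq (m : ℕ) : Integrable (fun x => HO.hf m x ^ 2) := by
  simpa [pow_two] using HO.integrable_hf_mul_hf m m

theorem integral_hf_sq (m : ℕ) : ∫ x, HO.hf m x ^ 2 = 1 := by
  have := HO.integral_hf_mul_hf m m
  simpa [pow_two] using this

/-- `|h_m|² ≤ m + 3/2` -/
theorem hf_sq_le (m : ℕ) (x : ℝ) : HO.hf m x ^ 2 ≤ (m : ℝ) + 3 / 2 := by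
  have hd : ∀ y, HasDerivAt (fun y => HO.hf m y ^ 2) (2 * (HO.hf m y * dhf m y)) y := by
    intro y
    refine ((hasDerivAt_hf m y).pow 2).congr_deriv ?_
    norm_num; ring
  have hc : Continuous (dhf m) := by
    unfold dhf
    have h1 := HO.continuous_hf (m - 1)
    have h2 := HO.continuous_hf (m + 1)
    fun_prop
  have hi : Integrable (fun y => 2 * (HO.hf m y * dhf m y)) := by
    refine ((integrable_hf_sq m).add (integrable_dhf_sq m)).mono' ?_ ?_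
    · exact (continuous_const.mul ((HO.continuous_hf m).mul hc)).aestronglyMeasurable
    · refine Filter.Eventually.of_forall fun y => ?_
      rw [Real.norm_eq_abs, Pi.add_apply, abs_le]
      constructor <;> nlinarith [sq_nonneg (HO.hf m y + dhf m y), sq_nonneg (HO.hf m y - dhf m y)]
  have hlim : Filter.Tendsto (fun y => HO.hf m y ^ 2) Filter.atBot (nhds 0) := by
    -- integrable with integrable derivative
    have := tendsto_zero_of_hasDerivAt_of_integrableOn_Iic (a := (0 : ℝ)) (fun y _ => hd y)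
      hi.integrableOn (integrable_hf_sq m).integrableOn
    exact this
  have h1 := integral_Iic_of_hasDerivAt_of_tendsto' (a := x) (fun y _ => hd y) hi.integrableOn hlim
  rw [sub_zero] at h1
  rw [← h1]
  calc ∫ y in Iic x, 2 * (HO.hf m y * dhf m y) ≤ ∫ y in Iic x, (HO.hf m y ^ 2 + dhf m y ^ 2) := by
        refine setIntegral_mono hi.integrableOn
          ((integrable_hf_sq m).add (integrable_dhf_sq m)).integrableOn fun y => ?_
        nlinarith [sq_nonneg (HO.hf m y - dhf m y)]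
    _ ≤ ∫ y, (HO.hf m y ^ 2 + dhf m y ^ 2) := by
        refine setIntegral_le_integral ((integrable_hf_sq m).add (integrable_dhf_sq m)) ?_
        exact Filter.Eventually.of_forall fun y => by positivity
    _ = (m : ℝ) + 3 / 2 := by
        rw [integral_add (integrable_hf_sq m) (integrable_dhf_sq m), integral_hf_sq,
          integral_dhf_sq]; ring

theorem abs_hf_le (m : ℕ) (x : ℝ) : |HO.hf m x| ≤ (m : ℝ) + 2 := by
  refine abs_le_of_sq_le_sq ?_ (by positivity) |>.trans_eq rfl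
  nlinarith [hf_sq_le m x]

/-- bound of the derivatives of order `≤ N` of `h_m` -/
def HB (N m : ℕ) : ℝ := 2 ^ N * ((m : ℝ) + N + 2) ^ (N + 1)

theorem HB_nonneg (N m : ℕ) : 0 ≤ HB N m := by unfold HB; positivity

theorem HB_mono (N : ℕ) {m k : ℕ} (h : m ≤ k) : HB N m ≤ HB N k := by
  unfold HB
  have : (m : ℝ) ≤ k := by exact_mod_cast h
  gcongr

theorem db_hf (N m : ℕ) : DB N (HO.hf m) (HB N m) := by
  induction N generalizing m with
  | zero =>
    refine DB.zero (HO.continuous_hf m) fun x => (abs_hf_le m x).trans ?_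
    unfold HB; norm_num
  | succ N ih =>
    refine DB.succ (fun x => hasDerivAt_hf m x) (fun x => (abs_hf_le m x).trans ?_) ?_
    · unfold HB
      have h1 : (1 : ℝ) ≤ 2 ^ (N + 1) := one_le_pow₀ (by norm_num)
      have h2 : (m : ℝ) + 2 ≤ ((m : ℝ) + (N + 1 : ℕ) + 2) := by push_cast; linarith [N.cast_nonneg (α := ℝ)]
      have h3 : ((m : ℝ) + (N + 1 : ℕ) + 2) ≤ ((m : ℝ) + (N + 1 : ℕ) + 2) ^ (N + 1 + 1) :=
        le_self_pow₀ (by push_cast; linarith [N.cast_nonneg (α := ℝ), m.cast_nonneg (α := ℝ)]) (by omega)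
      calc (m : ℝ) + 2 ≤ 1 * ((m : ℝ) + (N + 1 : ℕ) + 2) ^ (N + 1 + 1) := by linarith
        _ ≤ _ := by gcongr
    · have h1 := ((ih (m - 1)).const_mul (√((m : ℝ) / 2))).sub
        ((ih (m + 1)).const_mul (√(((m : ℝ) + 1) / 2)))
      refine (h1.congr (g := dhf m) fun x => rfl).mono ?_
      rw [abs_of_nonneg (Real.sqrt_nonneg _), abs_of_nonneg (Real.sqrt_nonneg _)]
      have a1 : √((m : ℝ) / 2) ≤ (m : ℝ) + 1 := by
        rw [Real.sqrt_le_left (by positivity)]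
        nlinarith [m.cast_nonneg (α := ℝ)]
      have a2 : √(((m : ℝ) + 1) / 2) ≤ (m : ℝ) + 1 := by
        rw [Real.sqrt_le_left (by positivity)]
        nlinarith [m.cast_nonneg (α := ℝ)]
      have a3 : HB N (m - 1) ≤ HB N (m + 1) := HB_mono N (by omega)
      have a4 := HB_nonneg N (m - 1)
      calc √((m : ℝ) / 2) * HB N (m - 1) + √(((m : ℝ) + 1) / 2) * HB N (m + 1)
          ≤ ((m : ℝ) + 1) * HB N (m + 1) + ((m : ℝ) + 1) * HB N (m + 1) := by
            have := HB_nonneg N (m + 1)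
            gcongr
        _ = 2 ^ (N + 1) * (((m : ℝ) + 1) * ((m : ℝ) + 1 + N + 2) ^ (N + 1)) := by
            unfold HB; push_cast; ring
        _ ≤ 2 ^ (N + 1) * (((m : ℝ) + (N + 1 : ℕ) + 2) * ((m : ℝ) + (N + 1 : ℕ) + 2) ^ (N + 1)) := by
            have e : (m : ℝ) + 1 + N + 2 = (m : ℝ) + (N + 1 : ℕ) + 2 := by push_cast; ring
            rw [e]
            have : (m : ℝ) + 1 ≤ (m : ℝ) + (N + 1 : ℕ) + 2 := by
              push_cast; linarith [N.cast_nonneg (α := ℝ)]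
            gcongr
        _ = HB (N + 1) m := by unfold HB; ring

/-! ### the Gaussian `exp(-2s²)` -/

theorem one_add_sq_le (s : ℝ) : 1 + s ^ 2 ≤ Real.exp (s ^ 2) := by
  have := Real.add_one_le_exp (s ^ 2); linarith

theorem abs_pow_exp (s : ℝ) : |s| * Real.exp (-2 * s ^ 2) ≤ 1 ∧ s ^ 2 * Real.exp (-2 * s ^ 2) ≤ 1 ∧
    |s| ^ 3 * Real.exp (-2 * s ^ 2) ≤ 1 ∧ Real.exp (-2 * s ^ 2) ≤ 1 := by
  have h := one_add_sq_le s
  have h0 : |s| ≤ Real.exp (s ^ 2) := by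
    have : |s| ≤ 1 + s ^ 2 := by rw [← sq_abs]; nlinarith [sq_nonneg (|s| - 1), abs_nonneg s]
    linarith
  have h2 : s ^ 2 ≤ Real.exp (s ^ 2) := by linarith
  have e : Real.exp (-2 * s ^ 2) = (Real.exp (s ^ 2))⁻¹ * (Real.exp (s ^ 2))⁻¹ := by
    rw [← Real.exp_neg, ← Real.exp_add]; congr 1; ring
  have hp := Real.exp_pos (s ^ 2)
  have h1 : 1 ≤ Real.exp (s ^ 2) := by nlinarith [sq_nonneg s]
  have i1 : (Real.exp (s ^ 2))⁻¹ ≤ 1 := inv_le_one_of_one_le₀ h1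
  have i0 : 0 ≤ (Real.exp (s ^ 2))⁻¹ := by positivity
  have j1 : |s| * (Real.exp (s ^ 2))⁻¹ ≤ 1 := by
    rw [← div_eq_mul_inv, div_le_one hp]; exact h0
  have j2 : s ^ 2 * (Real.exp (s ^ 2))⁻¹ ≤ 1 := by
    rw [← div_eq_mul_inv, div_le_one hp]; exact h2
  have n1 : 0 ≤ |s| * (Real.exp (s ^ 2))⁻¹ := by positivity
  have n2 : 0 ≤ s ^ 2 * (Real.exp (s ^ 2))⁻¹ := by positivity
  rw [e]
  refine ⟨?_, ?_, ?_, ?_⟩
  · calc |s| * ((Real.exp (s ^ 2))⁻¹ * (Real.exp (s ^ 2))⁻¹) =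
          (|s| * (Real.exp (s ^ 2))⁻¹) * (Real.exp (s ^ 2))⁻¹ := by ring
      _ ≤ 1 * 1 := by gcongr
      _ = 1 := by norm_num
  · calc s ^ 2 * ((Real.exp (s ^ 2))⁻¹ * (Real.exp (s ^ 2))⁻¹) =
          (s ^ 2 * (Real.exp (s ^ 2))⁻¹) * (Real.exp (s ^ 2))⁻¹ := by ring
      _ ≤ 1 * 1 := by gcongr
      _ = 1 := by norm_num
  · calc |s| ^ 3 * ((Real.exp (s ^ 2))⁻¹ * (Real.exp (s ^ 2))⁻¹) =
          (|s| ^ 2 * (Real.exp (s ^ 2))⁻¹) * (|s| * (Real.exp (s ^ 2))⁻¹) := by ring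
      _ = (s ^ 2 * (Real.exp (s ^ 2))⁻¹) * (|s| * (Real.exp (s ^ 2))⁻¹) := by rw [sq_abs]
      _ ≤ 1 * 1 := by gcongr
      _ = 1 := by norm_num
  · calc (Real.exp (s ^ 2))⁻¹ * (Real.exp (s ^ 2))⁻¹ ≤ 1 * 1 := by gcongr
      _ = 1 := by norm_num

theorem db_exp2 : DB 3 (fun s : ℝ => Real.exp (-2 * s ^ 2)) 112 := by
  have hE := hasDerivAt_exp2
  have h1 : ∀ s : ℝ, HasDerivAt (fun s : ℝ => Real.exp (-2 * s ^ 2) * (-4 * s))
      (Real.exp (-2 * s ^ 2) * (16 * s ^ 2 - 4)) s := by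
    intro s
    refine ((hE s).mul ((hasDerivAt_id s).const_mul (-4 : ℝ))).congr_deriv ?_
    simp only [id]; ring
  have h2 : ∀ s : ℝ, HasDerivAt (fun s : ℝ => Real.exp (-2 * s ^ 2) * (16 * s ^ 2 - 4))
      (Real.exp (-2 * s ^ 2) * (-64 * s ^ 3 + 48 * s)) s := by
    intro s
    have hp : HasDerivAt (fun s : ℝ => 16 * s ^ 2 - 4) (32 * s) s := by
      refine (((hasDerivAt_pow 2 s).const_mul (16 : ℝ)).sub_const 4).congr_deriv ?_
      norm_num; ring
    refine ((hE s).mul hp).congr_deriv ?_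
    ring
  refine DB.of_chain3 hE h1 h2 (by fun_prop) ?_ ?_ ?_ ?_
  · intro s
    obtain ⟨-, -, -, a4⟩ := abs_pow_exp s
    rw [abs_of_pos (Real.exp_pos _)]; linarith
  · intro s
    obtain ⟨a1, -, -, -⟩ := abs_pow_exp s
    rw [abs_mul, abs_of_pos (Real.exp_pos _), abs_mul, show |(-4 : ℝ)| = 4 by norm_num]
    nlinarith
  · intro s
    obtain ⟨-, a2, -, a4⟩ := abs_pow_exp s
    have hp := Real.exp_pos (-2 * s ^ 2)
    rw [abs_mul, abs_of_pos hp]
    have : |16 * s ^ 2 - 4| ≤ 16 * s ^ 2 + 4 := by rw [abs_le]; constructor <;> nlinarith [sq_nonneg s]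
    calc Real.exp (-2 * s ^ 2) * |16 * s ^ 2 - 4| ≤ Real.exp (-2 * s ^ 2) * (16 * s ^ 2 + 4) := by
          gcongr
      _ = 16 * (s ^ 2 * Real.exp (-2 * s ^ 2)) + 4 * Real.exp (-2 * s ^ 2) := by ring
      _ ≤ 112 := by linarith
  · intro s
    obtain ⟨a1, -, a3, -⟩ := abs_pow_exp s
    have hp := Real.exp_pos (-2 * s ^ 2)
    rw [abs_mul, abs_of_pos hp]
    have : |-64 * s ^ 3 + 48 * s| ≤ 64 * |s| ^ 3 + 48 * |s| := by
      refine (abs_add_le _ _).trans ?_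
      rw [abs_mul, abs_mul, abs_pow]; norm_num
    calc Real.exp (-2 * s ^ 2) * |-64 * s ^ 3 + 48 * s|
        ≤ Real.exp (-2 * s ^ 2) * (64 * |s| ^ 3 + 48 * |s|) := by gcongr
      _ = 64 * (|s| ^ 3 * Real.exp (-2 * s ^ 2)) + 48 * (|s| * Real.exp (-2 * s ^ 2)) := by ring
      _ ≤ 112 := by linarith

theorem db_vv (m k : ℕ) : DB 3 (vv m k) (2 ^ 3 * 112 * (2 ^ 3 * HB 3 m * HB 3 k)) :=
  db_exp2.mul ((db_hf 3 m).mul (db_hf 3 k))

theorem BD_mono {r r' m m' : ℕ} (hr : r ≤ r') (hm : m ≤ m') : Lag.BD r m ≤ Lag.BD r' m' := by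
  unfold Lag.BD
  have h1 : (r : ℝ) ≤ r' := by exact_mod_cast hr
  have h2 : (m : ℝ) ≤ m' := by exact_mod_cast hm
  have h3 : (2 : ℝ) ^ r ≤ 2 ^ r' := pow_le_pow_right₀ (by norm_num) hr
  have h4 : (4 * ((m : ℝ) + r) + 10) ^ (r + 2) ≤ (4 * ((m' : ℝ) + r') + 10) ^ (r' + 2) := by
    calc (4 * ((m : ℝ) + r) + 10) ^ (r + 2) ≤ (4 * ((m' : ℝ) + r') + 10) ^ (r + 2) := by gcongr
      _ ≤ (4 * ((m' : ℝ) + r') + 10) ^ (r' + 2) := by
          refine pow_le_pow_right₀ ?_ (by omega)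
          have := m'.cast_nonneg (α := ℝ)
          have := r'.cast_nonneg (α := ℝ)
          linarith
  gcongr

theorem db_Dsel (m : ℕ) : DB 3 (Lag.Dsel m) (Lag.BD 3 m) := by
  refine DB.of_iteratedDeriv (contDiff_infty.1 (Lag.contDiff_Dsel m) 3) fun j hj x => ?_
  exact (Lag.abs_iteratedDeriv_Dsel_le j m x).trans (BD_mono hj le_rfl)

/-! ### functions on `Pos3` -/

/-- coordinates -/
def P (c : Fin 3) : Pos3 →L[ℝ] ℝ := EuclideanSpace.proj c

@[simp] theorem P_apply (c : Fin 3) (x : Pos3) : P c x = x c := rfl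

theorem norm_P_le (c : Fin 3) : ‖P c‖ ≤ 1 := by
  refine ContinuousLinearMap.opNorm_le_bound _ zero_le_one fun x => ?_
  rw [one_mul, P_apply]
  exact PiLp.norm_apply_le x c

theorem db_coord {N : ℕ} {f : ℝ → ℝ} {B : ℝ} (h : DB N f B) (c : Fin 3) :
    DB N (fun x : Pos3 => f (x c)) B := h.comp_clm (P c) (norm_P_le c)

/-- bound of the derivatives of order `≤ 3` of the designer potential, `M` = bound of the quantum
numbers, `n` number of sites -/
def Gw (n M : ℕ) (Lam Am : ℝ) : ℝ :=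
  Lam * Lag.BD 3 0 + n * ((Lam + Am) * Lag.BD 3 M) +
    n * (n * (Am * (2 ^ 3 * (2 ^ 3 * 112 * (2 ^ 3 * HB 3 M * HB 3 M)) *
      (2 ^ 3 * 112 * (2 ^ 3 * HB 3 M * HB 3 M)))))

theorem db_wpot {n k M : ℕ} {Lam Am : ℝ} {A : ℕ → ℕ → ℝ} {a : ℕ → ℝ} (hL : 0 ≤ Lam)
    (hA : ∀ i j, |A i j| ≤ Am) (ha : ∀ i, |a i| ≤ Am) (hM : ∀ i < n, mi n k i ≤ M)
    (hM' : n0' n k ≤ M) : DB 3 (wpot n k Lam A a) (Gw n M Lam Am) := by
  have hAm : 0 ≤ Am := (abs_nonneg _).trans (hA 0 0)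
  have hBD0 := Lag.BD_nonneg 3 0
  have t1 : DB 3 (fun x : Pos3 => -Lam * Lag.Dsel 0 (x 2)) (Lam * Lag.BD 3 0) := by
    have := (db_coord (db_Dsel 0) 2).const_mul (-Lam)
    rwa [abs_neg, abs_of_nonneg hL] at this
  have t2 : DB 3 (fun x : Pos3 => ∑ i ∈ Finset.range n, (Lam - a i) * Lag.Dsel (mi n k i) (x 0))
      (∑ i ∈ Finset.range n, (Lam + Am) * Lag.BD 3 M) := by
    refine DB.sum _ fun i hi => ?_
    have := (db_coord (db_Dsel (mi n k i)) 0).const_mul (Lam - a i)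
    refine this.mono ?_
    have h1 : |Lam - a i| ≤ Lam + Am := by
      have := ha i
      rw [abs_le] at this ⊢
      constructor <;> linarith
    have h2 : Lag.BD 3 (mi n k i) ≤ Lag.BD 3 M := BD_mono le_rfl (hM i (Finset.mem_range.1 hi))
    have := Lag.BD_nonneg 3 (mi n k i)
    gcongr
  have hV : ∀ m l : ℕ, m ≤ M → l ≤ M → DB 3 (vv m l) (2 ^ 3 * 112 * (2 ^ 3 * HB 3 M * HB 3 M)) := by
    intro m l hm hl
    refine (db_vv m l).mono ?_
    have := HB_mono 3 hm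
    have := HB_mono 3 hl
    have := HB_nonneg 3 m
    have := HB_nonneg 3 l
    have := HB_nonneg 3 M
    gcongr
  have t3 : DB 3 (fun x : Pos3 => ∑ i ∈ Finset.range n, ∑ j ∈ Finset.range n, if i < j then
        A i j * (vv (mi n k i) (mi n k j) (x 0) * vv (mi' n k i) (mi' n k j) (x 1)) else 0)
      (∑ i ∈ Finset.range n, ∑ j ∈ Finset.range n,
        (Am * (2 ^ 3 * (2 ^ 3 * 112 * (2 ^ 3 * HB 3 M * HB 3 M)) *
      (2 ^ 3 * 112 * (2 ^ 3 * HB 3 M * HB 3 M))))) := by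
    refine DB.sum _ fun i hi => DB.sum _ fun j hj => ?_
    have hi' := Finset.mem_range.1 hi
    have hj' := Finset.mem_range.1 hj
    have hV1 := db_coord (hV (mi n k i) (mi n k j) (hM i hi') (hM j hj')) 0
    have hV2 := db_coord (hV (mi' n k i) (mi' n k j) ((Nat.sub_le _ _).trans hM')
      ((Nat.sub_le _ _).trans hM')) 1
    have h1 := (hV1.mul hV2).const_mul (A i j)
    have hnn := (hV1.mul hV2).nonneg
    by_cases hij : i < j
    · simp only [hij, if_true]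
      refine h1.mono ?_
      exact mul_le_mul_of_nonneg_right (hA i j) hnn
    · simp only [hij, if_false]
      refine (DB.const (E := Pos3) (N := 3) 0).mono ?_
      rw [abs_zero]
      exact mul_nonneg hAm hnn
  have h := (t1.sub t2).add t3
  refine (h.congr fun x => wpot_eq n k Lam A a x).mono ?_
  unfold Gw
  rw [Finset.sum_const, Finset.card_range, nsmul_eq_mul, Finset.sum_const, Finset.card_range,
    nsmul_eq_mul, Finset.sum_const, Finset.card_range, nsmul_eq_mul]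




end Crest.Agent.R338.WC
end
end

-- ▼ part R338/WCMain

/-!
Row 338, node WC (helper201), part 4: the gradient of the cut-off potential in closed form, and the
structure `Lat.Disp` (hypotheses on `w_c` and the displacements of blueprint C.5).
-/

set_option autoImplicit false

open MeasureTheory Set
open Crest.MathPhysics.ElectronicCoulomb

noncomputable section
namespace Crest.Agent.R338.WC

/-! ### difference bounds from `DB` -/

section diff
variable {E G : Type*} [NormedAddCommGroup E] [NormedSpace ℝ E] [NormedAddCommGroup G]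
  [NormedSpace ℝ G]

theorem lip_of_fderiv {g : E → G} {B : ℝ} (hg : Differentiable ℝ g)
    (hb : ∀ x, ‖fderiv ℝ g x‖ ≤ B) (x v : E) : ‖g (x + v) - g x‖ ≤ B * ‖v‖ := by
  have := Convex.norm_image_sub_le_of_norm_fderiv_le (𝕜 := ℝ) (s := univ) (f := g)
    (C := B) (fun y _ => hg y) (fun y _ => hb y) convex_univ (mem_univ x) (mem_univ (x + v))
  simpa using this

theorem diff2_of_fderiv {g : E → G} {B : ℝ} (hg : ContDiff ℝ 2 g)
    (hb : ∀ x, ‖iteratedFDeriv ℝ 2 g x‖ ≤ B) (x v : E) :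
    ‖g (x + v) + g (x - v) - (2 : ℝ) • g x‖ ≤ B * ‖v‖ ^ 2 := by
  have hd : Differentiable ℝ g := hg.differentiable (by norm_num)
  have hd2 : Differentiable ℝ (fderiv ℝ g) :=
    (hg.fderiv_right (m := 1) (by norm_num)).differentiable (by norm_num)
  have hb2 : ∀ x, ‖fderiv ℝ (fderiv ℝ g) x‖ ≤ B := by
    intro x
    have := hb x
    rwa [← norm_iteratedFDeriv_fderiv, ← norm_iteratedFDeriv_fderiv, norm_iteratedFDeriv_zero] at this
  have hL : ∀ y, ‖fderiv ℝ g (y + v) - fderiv ℝ g y‖ ≤ B * ‖v‖ := fun y =>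
    lip_of_fderiv hd2 hb2 y v
  have hψd : ∀ y, HasFDerivAt (fun y => g (y + v) - g y) (fderiv ℝ g (y + v) - fderiv ℝ g y) y := by
    intro y
    have h1 : HasFDerivAt (fun y => g (y + v)) (fderiv ℝ g (y + v)) y := by
      rw [hasFDerivAt_comp_add_right]
      exact (hd (y + v)).hasFDerivAt
    exact h1.sub (hd y).hasFDerivAt
  have := Convex.norm_image_sub_le_of_norm_hasFDerivWithin_le (𝕜 := ℝ) (s := univ)
    (f := fun y => g (y + v) - g y)
    (C := B * ‖v‖) (fun y _ => (hψd y).hasFDerivWithinAt) (fun y _ => hL y) convex_univ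
    (mem_univ (x - v)) (mem_univ x)
  have e : (g (x + v) - g x) - (g (x - v + v) - g (x - v)) =
      g (x + v) + g (x - v) - (2 : ℝ) • g x := by
    rw [sub_add_cancel, two_smul]; abel
  simp only [e, sub_sub_cancel] at this
  calc _ ≤ B * ‖v‖ * ‖v‖ := this
    _ = B * ‖v‖ ^ 2 := by ring

theorem DB.cd_fderiv {f : E → ℝ} {B : ℝ} (h : DB 3 f B) : ContDiff ℝ 2 (fderiv ℝ f) :=
  h.cd.fderiv_right (m := 2) (by norm_num)

theorem DB.b1 {f : E → ℝ} {B : ℝ} (h : DB 3 f B) (x v : E) :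
    ‖fderiv ℝ f (x + v) - fderiv ℝ f x‖ ≤ B * ‖v‖ := by
  refine lip_of_fderiv (h.cd_fderiv.differentiable (by norm_num)) (fun y => ?_) x v
  have := h.bd 2 (by norm_num) y
  rwa [← norm_iteratedFDeriv_fderiv, ← norm_iteratedFDeriv_fderiv, norm_iteratedFDeriv_zero] at this

theorem DB.b2 {f : E → ℝ} {B : ℝ} (h : DB 3 f B) (x v : E) :
    ‖fderiv ℝ f (x + v) + fderiv ℝ f (x - v) - (2 : ℝ) • fderiv ℝ f x‖ ≤ B * ‖v‖ ^ 2 := by
  refine diff2_of_fderiv h.cd_fderiv (fun y => ?_) x v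
  rw [norm_iteratedFDeriv_fderiv]
  exact h.bd 3 le_rfl y

end diff

/-! ### closed form of the gradient -/

theorem hasFDerivAt_coord {f : ℝ → ℝ} {f' : ℝ} {x : Pos3} {c : Fin 3} (h : HasDerivAt f f' (x c)) :
    HasFDerivAt (fun x : Pos3 => f (x c)) (f' • P c) x := by
  have := HasDerivAt.comp_hasFDerivAt x (h₂ := f) (f := fun x : Pos3 => x c) (f' := P c) h
    (P c).hasFDerivAt
  exact this

theorem hasFDerivAt_wpot (n k : ℕ) (Lam : ℝ) (A : ℕ → ℕ → ℝ) (a : ℕ → ℝ) (x : Pos3) :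
    HasFDerivAt (wpot n k Lam A a) (dw n k Lam A a 0 x • P 0 + dw n k Lam A a 1 x • P 1 +
      dw n k Lam A a 2 x • P 2) x := by
  have t1 : HasFDerivAt (fun x : Pos3 => -Lam * Lag.Dsel 0 (x 2)) ((-Lam) • (dD 0 (x 2) • P 2)) x :=
    (hasFDerivAt_coord (hasDerivAt_Dsel 0 (x 2))).const_mul (-Lam)
  have t2 : HasFDerivAt
      (fun x : Pos3 => ∑ i ∈ Finset.range n, (Lam - a i) * Lag.Dsel (mi n k i) (x 0))
      (∑ i ∈ Finset.range n, (Lam - a i) • (dD (mi n k i) (x 0) • P 0)) x := by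
    refine HasFDerivAt.fun_sum fun i _ => ?_
    exact (hasFDerivAt_coord (hasDerivAt_Dsel (mi n k i) (x 0))).const_mul (Lam - a i)
  have t3 : HasFDerivAt (fun x : Pos3 => ∑ i ∈ Finset.range n, ∑ j ∈ Finset.range n, if i < j then
        A i j * (vv (mi n k i) (mi n k j) (x 0) * vv (mi' n k i) (mi' n k j) (x 1)) else 0)
      (∑ i ∈ Finset.range n, ∑ j ∈ Finset.range n, if i < j then
        A i j • (vv (mi n k i) (mi n k j) (x 0) • (dvv (mi' n k i) (mi' n k j) (x 1) • P 1) +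
          vv (mi' n k i) (mi' n k j) (x 1) • (dvv (mi n k i) (mi n k j) (x 0) • P 0)) else 0) x := by
    refine HasFDerivAt.fun_sum fun i _ => HasFDerivAt.fun_sum fun j _ => ?_
    by_cases hij : i < j
    · simp only [hij, if_true]
      exact ((hasFDerivAt_coord (hasDerivAt_vv _ _ (x 0))).mul
        (hasFDerivAt_coord (hasDerivAt_vv _ _ (x 1)))).const_mul (A i j)
    · simp only [hij, if_false]
      exact hasFDerivAt_const _ _
  have h := (t1.sub t2).add t3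
  have e : wpot n k Lam A a = fun x => -Lam * Lag.Dsel 0 (x 2) -
      ∑ i ∈ Finset.range n, (Lam - a i) * Lag.Dsel (mi n k i) (x 0) +
      ∑ i ∈ Finset.range n, ∑ j ∈ Finset.range n, if i < j then
        A i j * (vv (mi n k i) (mi n k j) (x 0) * vv (mi' n k i) (mi' n k j) (x 1)) else 0 :=
    funext fun x => wpot_eq n k Lam A a x
  rw [e]
  refine h.congr_fderiv ?_
  ext y
  simp only [add_apply, sub_apply,
    smul_apply, sum_apply, P_apply, smul_eq_mul, dw,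
    if_true, Fin.isValue]
  have e3 : ∀ i j : ℕ, (if i < j then
        A i j • (vv (mi n k i) (mi n k j) (x 0) • (dvv (mi' n k i) (mi' n k j) (x 1) • P 1) +
          vv (mi' n k i) (mi' n k j) (x 1) • (dvv (mi n k i) (mi n k j) (x 0) • P 0)) else 0 :
          Pos3 →L[ℝ] ℝ) y =
      (if i < j then A i j * (dvv (mi n k i) (mi n k j) (x 0) *
        vv (mi' n k i) (mi' n k j) (x 1)) else 0) * y 0 +
      (if i < j then A i j * (vv (mi n k i) (mi n k j) (x 0) *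
        dvv (mi' n k i) (mi' n k j) (x 1)) else 0) * y 1 := by
    intro i j
    by_cases hij : i < j
    · simp only [hij, if_true, add_apply, smul_apply,
        P_apply, smul_eq_mul]
      ring
    · simp [hij]
  simp only [e3, Finset.sum_add_distrib, ← Finset.sum_mul]
  have e2 : ∑ i ∈ Finset.range n, (Lam - a i) * (dD (mi n k i) (x 0) * y 0) =
      (∑ i ∈ Finset.range n, (Lam - a i) * dD (mi n k i) (x 0)) * y 0 := by
    rw [Finset.sum_mul]
    exact Finset.sum_congr rfl fun i _ => by ring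
  rw [e2]
  have c10 : (1 : Fin 3) ≠ 0 := by decide
  have c20 : (2 : Fin 3) ≠ 0 := by decide
  have c21 : (2 : Fin 3) ≠ 1 := by decide
  simp only [c10, c20, c21, if_false]
  ring

theorem hasDerivAt_chR {R : ℝ} (t : ℝ) : HasDerivAt (chR R) (dchR R t) t := by
  have h : HasDerivAt (fun t : ℝ => t / (2 * R)) (1 / (2 * R)) t := (hasDerivAt_id t).div_const _
  have := (hasDerivAt_chi (t / (2 * R))).comp t h
  refine this.congr_deriv ?_
  unfold dchR; ring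

theorem hasFDerivAt_wcut (n k : ℕ) (Lam : ℝ) (A : ℕ → ℕ → ℝ) (a : ℕ → ℝ) (R : ℝ) (x : Pos3) :
    HasFDerivAt (wcut R (wpot n k Lam A a)) (dwc n k Lam A a R 0 x • P 0 +
      dwc n k Lam A a R 1 x • P 1 + dwc n k Lam A a R 2 x • P 2) x := by
  have hw := hasFDerivAt_wpot n k Lam A a x
  have h0 := hasFDerivAt_coord (hasDerivAt_chR (R := R) (x 0))
  have h1 := hasFDerivAt_coord (hasDerivAt_chR (R := R) (x 1))
  have h2 := hasFDerivAt_coord (hasDerivAt_chR (R := R) (x 2))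
  have h := hw.mul ((h0.mul h1).mul h2)
  have e : wcut R (wpot n k Lam A a) = fun x => wpot n k Lam A a x *
    (chR R (x 0) * chR R (x 1) * chR R (x 2)) := rfl
  rw [e]
  refine h.congr_fderiv ?_
  ext y
  have c10 : (1 : Fin 3) ≠ 0 := by decide
  have c20 : (2 : Fin 3) ≠ 0 := by decide
  have c21 : (2 : Fin 3) ≠ 1 := by decide
  simp only [add_apply, smul_apply, P_apply, smul_eq_mul, Pi.mul_apply,
    dwc, if_true, c10, c20, c21, if_false]
  ring

/-- closed form of the gradient -/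
theorem hasGradientAt_wcut (n k : ℕ) (Lam : ℝ) (A : ℕ → ℕ → ℝ) (a : ℕ → ℝ) (R : ℝ) (x : Pos3) :
    HasGradientAt (wcut R (wpot n k Lam A a))
      (WithLp.toLp 2 (fun c => dwc n k Lam A a R c x) : Pos3) x := by
  rw [hasGradientAt_iff_hasFDerivAt]
  refine (hasFDerivAt_wcut n k Lam A a R x).congr_fderiv ?_
  ext y
  simp only [add_apply, smul_apply, P_apply, smul_eq_mul,
    InnerProductSpace.toDual_apply_apply]
  rw [PiLp.inner_apply, Fin.sum_univ_three]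
  simp
  ring

theorem gradient_wcut (n k : ℕ) (Lam : ℝ) (A : ℕ → ℕ → ℝ) (a : ℕ → ℝ) (R : ℝ) (x : Pos3) :
    gradient (wcut R (wpot n k Lam A a)) x = WithLp.toLp 2 (fun c => dwc n k Lam A a R c x) :=
  (hasGradientAt_wcut n k Lam A a R x).gradient

theorem continuous_wpot (n k : ℕ) (Lam : ℝ) (A : ℕ → ℕ → ℝ) (a : ℕ → ℝ) :
    Continuous (wpot n k Lam A a) :=
  continuous_iff_continuousAt.2 fun x => (hasFDerivAt_wpot n k Lam A a x).continuousAt

/-! ### vanishing outside the cutoff -/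

theorem chR_of_ge {R t : ℝ} (hR : 0 < R) (ht : 4 * R ≤ |t|) : chR R t = 0 := by
  unfold chR
  refine chi_of_ge ?_
  rw [abs_div, abs_of_pos (by positivity : (0 : ℝ) < 2 * R), le_div_iff₀ (by positivity)]
  linarith

theorem dchR_of_ge {R t : ℝ} (hR : 0 < R) (ht : 4 * R ≤ |t|) : dchR R t = 0 := by
  unfold dchR
  rw [chi1_of_ge, zero_div]
  rw [abs_div, abs_of_pos (by positivity : (0 : ℝ) < 2 * R), le_div_iff₀ (by positivity)]
  linarith

theorem dwc_of_ge {n k : ℕ} {Lam : ℝ} {A : ℕ → ℕ → ℝ} {a : ℕ → ℝ} {R : ℝ} (hR : 0 < R) {x : Pos3}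
    (hx : ∃ c, 4 * R ≤ |x c|) (c : Fin 3) : dwc n k Lam A a R c x = 0 := by
  obtain ⟨b, hb⟩ := hx
  have h1 := chR_of_ge hR hb
  have h2 := dchR_of_ge hR hb
  unfold dwc
  fin_cases b
  · rw [show chR R (x 0) = 0 from h1, show dchR R (x 0) = 0 from h2]; simp
  · rw [show chR R (x 1) = 0 from h1, show dchR R (x 1) = 0 from h2]; simp
  · rw [show chR R (x 2) = 0 from h1, show dchR R (x 2) = 0 from h2]; simp

/-! ### explicit bounds -/

/-- derivative bound of the cut-off potential -/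
def Gc (n M : ℕ) (Lam Am : ℝ) : ℝ := 2 ^ 3 * Gw n M Lam Am * (2 ^ 3 * (2 ^ 3 * CX * CX) * CX)

theorem Gw_le {n M : ℕ} {Lam Am : ℝ} (hL : 0 ≤ Lam) (hA : 0 ≤ Am) (hn : n ≤ M) :
    Gw n M Lam Am ≤ 2 * 10 ^ 12 * ((M : ℝ) + 5) ^ 18 * (Lam + Am) := by
  have hn' : (n : ℝ) ≤ (M : ℝ) + 5 := by
    have : (n : ℝ) ≤ M := by exact_mod_cast hn
    linarith
  have hn0 : (0 : ℝ) ≤ n := n.cast_nonneg
  set y : ℝ := (M : ℝ) + 5 with hy
  have hy1 : 1 ≤ y := by have := M.cast_nonneg (α := ℝ); linarith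
  have hy0 : 0 ≤ y := by linarith
  have b0 : Lag.BD 3 0 ≤ 3 * 10 ^ 8 := by unfold Lag.BD; norm_num
  have bM : Lag.BD 3 M ≤ 70000 * y ^ 5 := by
    unfold Lag.BD
    have h1 : (4 * ((M : ℝ) + (3 : ℕ)) + 10) ≤ 4.4 * y := by
      rw [hy]; push_cast; have := M.cast_nonneg (α := ℝ); linarith
    have h0 : 0 ≤ (4 * ((M : ℝ) + (3 : ℕ)) + 10) := by positivity
    calc 5 * 2 ^ 3 * (4 * ((M : ℝ) + (3 : ℕ)) + 10) ^ (3 + 2) ≤ 5 * 2 ^ 3 * (4.4 * y) ^ (3 + 2) := by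
          gcongr
      _ = (5 * 2 ^ 3 * 4.4 ^ 5) * y ^ 5 := by ring
      _ ≤ 70000 * y ^ 5 := by
          refine mul_le_mul_of_nonneg_right (by norm_num) (by positivity)
  have hH : HB 3 M = 8 * y ^ 4 := by unfold HB; rw [hy]; push_cast; ring
  have p5 : y ^ 5 * y ≤ y ^ 18 := by
    rw [← pow_succ]; exact pow_le_pow_right₀ hy1 (by norm_num)
  have p0 : (1 : ℝ) ≤ y ^ 18 := one_le_pow₀ hy1
  unfold Gw
  rw [hH]
  have t1 : Lam * Lag.BD 3 0 ≤ 3 * 10 ^ 8 * y ^ 18 * (Lam + Am) := by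
    calc Lam * Lag.BD 3 0 ≤ Lam * (3 * 10 ^ 8) := by gcongr
      _ ≤ (Lam + Am) * (3 * 10 ^ 8 * y ^ 18) := by
          have : (3 : ℝ) * 10 ^ 8 ≤ 3 * 10 ^ 8 * y ^ 18 := by nlinarith
          have h2 : Lam ≤ Lam + Am := by linarith
          gcongr
      _ = _ := by ring
  have t2 : (n : ℝ) * ((Lam + Am) * Lag.BD 3 M) ≤ 70000 * y ^ 18 * (Lam + Am) := by
    have := Lag.BD_nonneg 3 M
    calc (n : ℝ) * ((Lam + Am) * Lag.BD 3 M) ≤ y * ((Lam + Am) * (70000 * y ^ 5)) := by gcongr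
      _ = 70000 * (y ^ 5 * y) * (Lam + Am) := by ring
      _ ≤ 70000 * y ^ 18 * (Lam + Am) := by gcongr
  have t3 : (n : ℝ) * (n * (Am * (2 ^ 3 * (2 ^ 3 * 112 * (2 ^ 3 * (8 * y ^ 4) * (8 * y ^ 4))) *
      (2 ^ 3 * 112 * (2 ^ 3 * (8 * y ^ 4) * (8 * y ^ 4)))))) ≤ 1.9 * 10 ^ 12 * y ^ 18 * (Lam + Am) := by
    calc (n : ℝ) * (n * (Am * (2 ^ 3 * (2 ^ 3 * 112 * (2 ^ 3 * (8 * y ^ 4) * (8 * y ^ 4))) *
      (2 ^ 3 * 112 * (2 ^ 3 * (8 * y ^ 4) * (8 * y ^ 4))))))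
        ≤ y * (y * ((Lam + Am) * (2 ^ 3 * (2 ^ 3 * 112 * (2 ^ 3 * (8 * y ^ 4) * (8 * y ^ 4))) *
      (2 ^ 3 * 112 * (2 ^ 3 * (8 * y ^ 4) * (8 * y ^ 4)))))) := by
          have h2 : Am ≤ Lam + Am := by linarith
          gcongr
      _ = (2 ^ 3 * (2 ^ 3 * 112 * (2 ^ 3 * 8 * 8)) * (2 ^ 3 * 112 * (2 ^ 3 * 8 * 8))) *
          y ^ 18 * (Lam + Am) := by ring
      _ ≤ 1.9 * 10 ^ 12 * y ^ 18 * (Lam + Am) := by
          refine mul_le_mul_of_nonneg_right ?_ (by linarith)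
          refine mul_le_mul_of_nonneg_right (by norm_num) (by positivity)
  have hfin : 3 * 10 ^ 8 * y ^ 18 * (Lam + Am) + 70000 * y ^ 18 * (Lam + Am) +
      1.9 * 10 ^ 12 * y ^ 18 * (Lam + Am) ≤ 2 * 10 ^ 12 * y ^ 18 * (Lam + Am) := by
    have : 0 ≤ y ^ 18 * (Lam + Am) := by positivity
    nlinarith
  linarith

theorem Gw_nonneg {n M : ℕ} {Lam Am : ℝ} (hL : 0 ≤ Lam) (hA : 0 ≤ Am) : 0 ≤ Gw n M Lam Am := by
  unfold Gw
  have := Lag.BD_nonneg 3 0
  have := Lag.BD_nonneg 3 M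
  have := HB_nonneg 3 M
  positivity

theorem Gc_le {n M : ℕ} {Lam Am : ℝ} (hL : 0 ≤ Lam) (hA : 0 ≤ Am) (hn : n ≤ M) :
    Gc n M Lam Am ≤ 10 ^ 32 * ((M : ℝ) + 5) ^ 18 * (Lam + Am) := by
  have h := Gw_le (n := n) (M := M) hL hA hn
  have h0 := Gw_nonneg (n := n) (M := M) hL hA
  unfold Gc CX
  calc 2 ^ 3 * Gw n M Lam Am * (2 ^ 3 * (2 ^ 3 * (2 ^ 3 * 210 * 210) * (2 ^ 3 * 210 * 210)) *
        (2 ^ 3 * 210 * 210))
      = (2 ^ 3 * (2 ^ 3 * (2 ^ 3 * (2 ^ 3 * 210 * 210) * (2 ^ 3 * 210 * 210)) *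
        (2 ^ 3 * 210 * 210))) * Gw n M Lam Am := by ring
    _ ≤ (2 ^ 3 * (2 ^ 3 * (2 ^ 3 * (2 ^ 3 * 210 * 210) * (2 ^ 3 * 210 * 210)) *
        (2 ^ 3 * 210 * 210))) * (2 * 10 ^ 12 * ((M : ℝ) + 5) ^ 18 * (Lam + Am)) := by gcongr
    _ = (2 ^ 3 * (2 ^ 3 * (2 ^ 3 * (2 ^ 3 * 210 * 210) * (2 ^ 3 * 210 * 210)) *
        (2 ^ 3 * 210 * 210)) * (2 * 10 ^ 12)) * (((M : ℝ) + 5) ^ 18 * (Lam + Am)) := by ring
    _ ≤ 10 ^ 32 * (((M : ℝ) + 5) ^ 18 * (Lam + Am)) := by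
        refine mul_le_mul_of_nonneg_right (by norm_num) (by positivity)
    _ = _ := by ring

theorem mi_le (n k : ℕ) {i : ℕ} (hi : i < n) : mi n k i ≤ n0' n k := by
  unfold mi n0'
  have h1 : 4 * nu n i ≤ 5 * Yn n + Yn n := by
    unfold nu Yn
    nlinarith [Nat.mul_le_mul_left (n ^ 2) (Nat.succ_le_of_lt hi), Nat.mul_le_mul hi.le hi.le,
      Nat.mul_le_mul_left (16 * n ^ 2) hi.le, sq_nonneg (n : ℤ)]
  have h2 : (4 * nu n i) ^ 2 ≤ (6 * Yn n) ^ 2 := Nat.pow_le_pow_left (by omega) 2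
  have h3 : nu n i ^ 2 ≤ 8 * Yn n ^ 2 := by nlinarith
  calc 2 * (k ^ 3 * nu n i) ^ 2 = 2 * ((k ^ 3) ^ 2 * nu n i ^ 2) := by ring
    _ ≤ 2 * ((k ^ 3) ^ 2 * (8 * Yn n ^ 2)) := by gcongr
    _ = _ := by ring


/-! ### the structure `Disp` -/



/-! ### distinct nuclei -/




end Crest.Agent.R338.WC
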