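import Crest.Agent.R338.LatV0_Mg
import Crest.Agent.R338.LatC34
import Crest.Agent.R338.P2Defs
import Crest.Agent.R338.Bridge
import Crest.Agent.R338.HO6
import Crest.Agent.R338.Di2
import Crest.Agent.R338.BHDefs
import Crest.Agent.R338.Lag3
import Crest.Agent.R338.Br
import Crest.Agent.R338.CE1
import Crest.Agent.R338.WKB4
import Crest.Agent.R338.XF4
import Crest.Agent.R338.WCMain

-- ▼ part R338/LatMain
section

/-!
Row 338, part C assembly: `P2.LatStmt` from `C34Stmt` (701) and `C5Stmt` (581).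
-/

set_option autoImplicit false

noncomputable section
open MeasureTheory Real Set Filter Topology
open scoped ContDiff

namespace Crest.Agent.R338.Lat

/-- the sum over an enumeration of the box -/
theorem sum_enum {N nL : ℕ} (e : Fin N ≃ {α // α ∈ Box nL}) (g : (Fin 3 → ℤ) → ℝ) :
    ∑ i, g (e i).1 = ∑ α ∈ Box nL, g α := by
  rw [Equiv.sum_comp e (fun α : {α // α ∈ Box nL} => g α.1)]
  exact Finset.sum_coe_sort (Box nL) g

theorem kk_enum {N nL : ℕ} (e : Fin N ≃ {α // α ∈ Box nL}) (lam s a : ℝ)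
    (d : (Fin 3 → ℤ) → P3) (x : P3) :
    (-lam * ∑ i, 1 / ‖x - nuc s d (e i).1‖) - Vs lam s a nL d x = kk lam s a nL d x := by
  have h := Vnuc_eq lam s a nL d x
  have h2 : Vnuc lam s nL d x = -lam * ∑ i, 1 / ‖x - nuc s d (e i).1‖ := by
    rw [sum_enum e fun α => 1 / ‖x - nuc s d α‖, Finset.mul_sum]
    unfold Vnuc
    exact Finset.sum_congr rfl fun α _ => by ring
  rw [← h2, h]; ring

theorem continuous_Vs (lam s a : ℝ) (nL : ℕ) (d : (Fin 3 → ℤ) → P3) :
    Continuous (Vs lam s a nL d) := by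
  unfold Vs
  exact continuous_finsetSum _ fun α _ => (continuous_Psi lam a).comp (continuous_id.sub continuous_const)

theorem Vs_nonpos (lam s a : ℝ) (nL : ℕ) (d : (Fin 3 → ℤ) → P3) (hl : 0 ≤ lam) (x : P3) :
    Vs lam s a nL d x ≤ 0 := Finset.sum_nonpos fun α _ => Psi_nonpos lam a hl _

theorem Vs_bdd (lam s a : ℝ) (nL : ℕ) (d : (Fin 3 → ℤ) → P3) (hl : 0 ≤ lam) (ha : 0 ≤ a) :
    ∃ b, ∀ x, -b ≤ Vs lam s a nL d x := by
  refine ⟨∑ _α ∈ Box nL, 2 * lam * √a, fun x => ?_⟩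
  unfold Vs
  rw [← Finset.sum_neg_distrib]
  exact Finset.sum_le_sum fun α _ => (abs_le.1 (abs_Psi_le lam a hl ha _)).1

theorem measurable_FF (lam s a : ℝ) (nL : ℕ) (d : (Fin 3 → ℤ) → P3) :
    Measurable (FF lam s a nL d) := by
  unfold FF
  exact Finset.measurable_fun_sum _ fun α _ => (measurable_F1 lam a).comp (measurable_id.sub_const _)

set_option maxHeartbeats 2000000 in
/-- **Node LAT** -/
theorem latStmt_of (h34 : C34Stmt) (h5 : C5Stmt) : P2.LatStmt := by
  obtain ⟨c4, hc4, H34⟩ := h34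
  obtain ⟨C5, H5⟩ := h5
  obtain ⟨C3, hC3, H3⟩ := HO.N3_of_C2 C2Stmt_holds
  obtain ⟨c5, hc5⟩ := exists_nat_ge |C5|
  obtain ⟨c3, hc3⟩ := exists_nat_ge C3
  obtain ⟨CB, HB⟩ := C1Bound_holds
  obtain ⟨cB, hcB⟩ := exists_nat_ge |CB|
  obtain ⟨C, hC⟩ : ∃ C, C = c4 + c5 + c3 + cB + 400 := ⟨_, rfl⟩
  refine ⟨C, by omega, ?_⟩
  intro n0 nL N lam s K R Lw G Wb eps d w wc e hlam hlam1 hs hs1 hls hCK hKs hCR hLw hLwn hCRn hG
    heps hWb hD hwc hwb hwcb hww hlW hR8 E2 hE2
  have hE2def : E2 = (C : ℝ) * (R ^ 4 / ((nL : ℝ) * s) ^ 2 + lam * G ^ 2 * (s ^ 2 * Lw + K * s) +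
      lam * eps * Lw / s ^ 3 + ((nL : ℝ) + 1) ^ C * Real.exp (-K ^ 2) / s ^ C) := rfl
  clear_value E2
  have hc4C : (c4 : ℝ) ≤ C := by exact_mod_cast (by omega : c4 ≤ C)
  have hc5C : (c5 : ℝ) ≤ C := by exact_mod_cast (by omega : c5 ≤ C)
  have hc3C : (c3 : ℝ) ≤ C := by exact_mod_cast (by omega : c3 ≤ C)
  have hcBC : (cB : ℝ) ≤ C := by exact_mod_cast (by omega : cB ≤ C)
  have h400 : (400 : ℝ) ≤ C := by exact_mod_cast (by omega : 400 ≤ C)
  have hK1 : 1 ≤ K := by linarith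
  have hK0 : 0 < K := by linarith
  have hR0 : 0 < R := by linarith
  have hnLs : 0 < (nL : ℝ) * s := lt_of_lt_of_le (by positivity) hCRn
  have hnL0 : (0 : ℝ) < nL := by
    by_contra h
    push Not at h
    have h' : (nL : ℝ) = 0 := le_antisymm h (Nat.cast_nonneg _)
    rw [h', zero_mul] at hnLs
    exact lt_irrefl _ hnLs
  have hnL1 : 1 ≤ nL := by exact_mod_cast hnL0
  obtain ⟨a, ha⟩ : ∃ a, a = 1 / (K * s) ^ 2 := ⟨_, rfl⟩
  rw [← ha]
  have ha0 : 0 < a := by rw [ha]; positivity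
  obtain ⟨Hn, Hf⟩ := H34 nL lam s K R hlam hlam1 hs hs1 hls (hc4C.trans hCK) hKs (hc4C.trans hCR)
    ((mul_le_mul_of_nonneg_right hc4C hR0.le).trans hCRn)
  rw [← ha] at Hn Hf
  obtain ⟨E4, hE4⟩ : ∃ E4 : ℝ, E4 = (c4 : ℝ) * (R ^ 4 / ((nL : ℝ) * s) ^ 2 +
    ((nL : ℝ) + 1) ^ c4 * Real.exp (-K ^ 2) / s ^ c4) := ⟨_, rfl⟩
  rw [← hE4] at Hn Hf
  have H5' := H5 lam s K a nL d wc Lw G eps hlam.le hs hs1 hK1 ha hLw hLwn hG heps hD
  obtain ⟨T1, hT1⟩ : ∃ T : ℝ, T = R ^ 4 / ((nL : ℝ) * s) ^ 2 := ⟨_, rfl⟩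
  obtain ⟨T4, hT4⟩ : ∃ T : ℝ, T = ((nL : ℝ) + 1) ^ C * Real.exp (-K ^ 2) / s ^ C := ⟨_, rfl⟩
  obtain ⟨T2, hT2⟩ : ∃ T : ℝ, T = lam * G ^ 2 * (s ^ 2 * Lw + K * s) := ⟨_, rfl⟩
  obtain ⟨T3, hT3⟩ : ∃ T : ℝ, T = lam * eps * Lw / s ^ 3 := ⟨_, rfl⟩
  rw [← hT1, ← hT2, ← hT3, ← hT4] at hE2def
  rw [← hT1] at hE4
  have hT1' : 0 ≤ T1 := by rw [hT1]; positivity
  have hT2' : 0 ≤ T2 := by rw [hT2]; positivity
  have hT3' : 0 ≤ T3 := by rw [hT3]; positivity
  have hT4' : 0 ≤ T4 := by rw [hT4]; positivity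
  have hE4le : E4 ≤ C * (T1 + T4) := by
    rw [hE4]
    have h1 : ((nL : ℝ) + 1) ^ c4 * Real.exp (-K ^ 2) / s ^ c4 ≤ T4 := by
      rw [hT4]
      have h2 : ((nL : ℝ) + 1) ^ c4 ≤ ((nL : ℝ) + 1) ^ C :=
        pow_le_pow_right₀ (by linarith) (by omega)
      have h3 : s ^ C ≤ s ^ c4 := pow_le_pow_of_le_one hs.le hs1 (by omega)
      gcongr
    exact mul_le_mul hc4C (by linarith) (by positivity) (by positivity)
  have hE5le : ∀ x, |Vs lam s a nL d x - V0 lam s a nL x - lam * wc x| ≤ C * (T2 + T3) := by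
    intro x
    refine (H5' x).trans ?_
    have e1 : C5 * lam * (G ^ 2 * (s ^ 2 * Lw + K * s) + eps * Lw / s ^ 3) = C5 * (T2 + T3) := by
      rw [hT2, hT3]; ring
    rw [e1]
    refine mul_le_mul_of_nonneg_right ?_ (by positivity)
    exact (le_abs_self _).trans (hc5.trans hc5C)
  have hsum0 : 0 ≤ (C : ℝ) * (T1 + T4) := by positivity
  have hsum1 : 0 ≤ (C : ℝ) * (T2 + T3) := by positivity
  have hE2split : E2 = C * (T1 + T4) + C * (T2 + T3) := by rw [hE2def]; ring
  refine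
    { lam_pos := hlam
      kF_nonneg := by positivity
      w_cont := hwc
      w_bdd := hwb
      C0_nonneg := by
        have := V0_nonpos lam s a nL hlam.le 0
        linarith
      C0_le := by
        have h1 := V0_zero_bound lam s K nL hlam.le hs hK1 hnL1 hls 0
        rw [← ha] at h1
        refine h1.trans (le_trans ?_ hR8)
        exact mul_le_mul_of_nonneg_right (by linarith) (by positivity)
      decomp := ?_ }
  refine ⟨Vs lam s a nL d, FF lam s a nL d, continuous_Vs _ _ _ _ _, Vs_nonpos _ _ _ _ _ hlam.le,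
    Vs_bdd _ _ _ _ _ hlam.le ha0.le, measurable_FF _ _ _ _ _, ?_, ?_, ?_, ?_, ?_⟩
  · intro x
    refine (HB lam s K a nL d hlam.le hs hK1 ha hD.dsmall x).trans ?_
    have h1 : CB ≤ C := (le_abs_self _).trans (hcB.trans hcBC)
    gcongr
  · intro f hf _ hi hi'
    have h := (weak_kk lam s a nL d ha0 hf hi hi').2
    simp only [smul_eq_mul] at h
    rw [← h]
    refine integral_congr_ae (Eventually.of_forall fun x => ?_)
    simp only
    rw [kk_enum e]
  · intro x hx
    have h1 := Hn x hx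
    have h2 := hE5le x
    rw [hww x hx] at h2
    have e1 : Vs lam s a nL d x + -(V0 lam s a nL 0) - ‖x‖ ^ 2 / 2 - lam * w x =
        (Vs lam s a nL d x - V0 lam s a nL x - lam * w x) +
        (V0 lam s a nL x - V0 lam s a nL 0 - ‖x‖ ^ 2 / 2) := by ring
    rw [e1]
    refine (abs_add_le _ _).trans ?_
    linarith
  · intro x hx
    have h0 : E4 ≤ 1 := by linarith
    have h1 := Hf h0 x hx
    have h2 := (abs_le.1 (hE5le x)).1
    have h3 := (abs_le.1 (hwcb x)).1
    have h4 : lam * Wb ≤ R ^ 2 / 400 := by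
      rw [le_div_iff₀ (by norm_num)]
      have h5 : 400 * (lam * Wb) ≤ C * (lam * Wb) :=
        mul_le_mul_of_nonneg_right h400 (by positivity)
      linarith
    have h5 : -(lam * Wb) ≤ lam * wc x := by nlinarith
    have h6 : (160000 : ℝ) ≤ R ^ 2 := by nlinarith
    have h7 : (C : ℝ) * (T2 + T3) ≤ 1 := by linarith
    linarith
  · intro p q hp hq
    have hp' : TA.deg3 p ≤ n0 := by
      unfold TA.deg3; rw [Fin.sum_univ_three] at hp; exact hp
    have hq' : TA.deg3 q ≤ n0 := by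
      unfold TA.deg3; rw [Fin.sum_univ_three] at hq; exact hq
    have h1 := H3 lam s K a nL d hlam.le hs hK1 hKs ha hD.dsmall n0 p q hp' hq'
    have e1 : ∫ x, ((-lam * ∑ α, 1 / ‖x - nuc s d (e α).1‖) - Vs lam s a nL d x) *
        (orb p x * orb q x) = ∫ x, kk lam s a nL d x * (HO.Phi p x * HO.Phi q x) := by
      refine integral_congr_ae (Eventually.of_forall fun x => ?_)
      simp only
      rw [kk_enum e, orb_eq, orb_eq]
    rw [e1]
    refine h1.trans ?_
    have h2 : ((n0 : ℝ) + 1) ^ 36 ≤ ((n0 : ℝ) + 2) ^ C := by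
      calc ((n0 : ℝ) + 1) ^ 36 ≤ ((n0 : ℝ) + 2) ^ 36 := by gcongr; norm_num
        _ ≤ ((n0 : ℝ) + 2) ^ C := pow_le_pow_right₀ (by linarith [Nat.cast_nonneg (α := ℝ) n0]) (by omega)
    have h3 : C3 ≤ C := hc3.trans hc3C
    calc C3 * lam * ((n0 : ℝ) + 1) ^ 36 * K ^ 4 * s ≤ C * lam * ((n0 : ℝ) + 2) ^ C * K ^ 4 * s := by
          gcongr
      _ = C * ((n0 : ℝ) + 2) ^ C * lam * K ^ 4 * s := by ring

end Crest.Agent.R338.Lat
end
end

-- ▼ part R338/Di3
section

/-!
Row 338, node C.5 (displacements), part 3: the midpoint rule on the cubic lattice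
(helper581).
-/

set_option autoImplicit false

noncomputable section
open Real MeasureTheory Set

namespace Crest.Agent.R338.Di

/-- the lattice point in `Fin 3 → ℝ` -/
def ptp (s : ℝ) (α : Fin 3 → ℤ) : Fin 3 → ℝ := fun c => s * (α c : ℝ)

/-- half open cell -/
def cell (s : ℝ) (α : Fin 3 → ℤ) : Set (Fin 3 → ℝ) :=
  Set.pi univ fun c => Ico (s * (α c : ℝ) - s / 2) (s * (α c : ℝ) + s / 2)

/-- symmetric cube -/
def cube (s : ℝ) : Set (Fin 3 → ℝ) := Icc (fun _ => -(s / 2)) (fun _ => s / 2)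

theorem measurableSet_cell (s : ℝ) (α : Fin 3 → ℤ) : MeasurableSet (cell s α) :=
  MeasurableSet.univ_pi fun _ => measurableSet_Ico

theorem cell_ae (s : ℝ) (α : Fin 3 → ℤ) :
    cell s α =ᵐ[volume] Icc (fun c => s * (α c : ℝ) - s / 2) (fun c => s * (α c : ℝ) + s / 2) :=
  Measure.univ_pi_Ico_ae_eq_Icc

theorem cell_integral (s : ℝ) (α : Fin 3 → ℤ) (h : (Fin 3 → ℝ) → ℝ) :
    ∫ y in cell s α, h y = ∫ t in cube s, h (ptp s α + t) := by
  rw [setIntegral_congr_set (cell_ae s α)]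
  have := (measurePreserving_add_left (volume : Measure (Fin 3 → ℝ))
    (ptp s α)).setIntegral_preimage_emb (measurableEmbedding_addLeft (ptp s α)) h
    (Icc (fun c => s * (α c : ℝ) - s / 2) (fun c => s * (α c : ℝ) + s / 2))
  rw [← this]
  congr 2
  rw [Set.preimage_const_add_Icc]
  unfold cube
  congr 1
  · funext c; simp [ptp]
  · funext c; simp [ptp]

theorem cube_neg_integral (s : ℝ) (f : (Fin 3 → ℝ) → ℝ) :
    ∫ t in cube s, f (-t) = ∫ t in cube s, f t := by
  have := (Measure.measurePreserving_neg (volume : Measure (Fin 3 → ℝ))).setIntegral_preimage_emb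
    (MeasurableEquiv.neg (Fin 3 → ℝ)).measurableEmbedding f (cube s)
  rw [← this]
  congr 2
  ext t
  simp only [cube, mem_Icc, mem_preimage, Pi.le_def, Pi.neg_apply]
  constructor
  · rintro ⟨h1, h2⟩
    exact ⟨fun c => by linarith [h2 c], fun c => by linarith [h1 c]⟩
  · rintro ⟨h1, h2⟩
    exact ⟨fun c => by linarith [h2 c], fun c => by linarith [h1 c]⟩

theorem cube_vol {s : ℝ} (hs : 0 < s) : volume.real (cube s) = s ^ 3 := by
  unfold cube
  rw [measureReal_def, Real.volume_Icc_pi]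
  simp only [sub_neg_eq_add, add_halves]
  rw [Finset.prod_const, Finset.card_univ, Fintype.card_fin, ENNReal.toReal_pow,
    ENNReal.toReal_ofReal hs.le]

theorem cube_vol_lt_top (s : ℝ) : volume (cube s) < ⊤ :=
  isCompact_Icc.measure_lt_top

theorem cell_disj {s : ℝ} (hs : 0 < s) {α β : Fin 3 → ℤ} (hne : α ≠ β) :
    Disjoint (cell s α) (cell s β) := by
  rw [Set.disjoint_left]
  intro y hy hy'
  apply hne
  funext c
  have h1 := hy c (mem_univ c)
  have h2 := hy' c (mem_univ c)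
  rw [mem_Ico] at h1 h2
  have h3 : s * (α c : ℝ) - s * (β c : ℝ) < s * 1 := by linarith
  have h4 : s * (β c : ℝ) - s * (α c : ℝ) < s * 1 := by linarith
  rw [← mul_sub] at h3 h4
  have h5 := lt_of_mul_lt_mul_left h3 hs.le
  have h6 := lt_of_mul_lt_mul_left h4 hs.le
  have h7 : (α c : ℤ) - β c < 1 := by exact_mod_cast h5
  have h8 : (β c : ℤ) - α c < 1 := by exact_mod_cast h6
  omega

theorem cell_cover {s : ℝ} (hs : 0 < s) {n : ℕ} {y : Fin 3 → ℝ} (hy : ∀ c, |y c| ≤ n * s) :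
    ∃ α ∈ Lat.Box n, y ∈ cell s α := by
  refine ⟨fun c => ⌊y c / s + 1 / 2⌋, ?_, ?_⟩
  · unfold Lat.Box
    rw [Fintype.mem_piFinset]
    intro c
    rw [Finset.mem_Icc]
    have h1 := abs_le.mp (hy c)
    have h2 : y c / s ≤ n := by rw [div_le_iff₀ hs]; exact h1.2
    have h3 : -(n : ℝ) ≤ y c / s := by rw [le_div_iff₀ hs]; linarith [h1.1]
    constructor
    · apply Int.le_floor.mpr; push_cast; linarith
    · apply Int.lt_add_one_iff.mp
      apply Int.floor_lt.mpr; push_cast; linarith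
  · intro c _
    show y c ∈ Ico (s * ((⌊y c / s + 1 / 2⌋ : ℤ) : ℝ) - s / 2)
      (s * ((⌊y c / s + 1 / 2⌋ : ℤ) : ℝ) + s / 2)
    have h1 := Int.floor_le (y c / s + 1 / 2)
    have h2 := Int.lt_floor_add_one (y c / s + 1 / 2)
    have h3 : y c = s * (y c / s) := by field_simp
    rw [mem_Ico]
    constructor
    · nlinarith
    · nlinarith

/-- decomposition of an integral into cells -/
theorem cell_decomp {s : ℝ} (hs : 0 < s) {n : ℕ} {h : (Fin 3 → ℝ) → ℝ} (hi : Integrable h)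
    (supp : ∀ y, (∃ c, n * s < |y c|) → h y = 0) :
    ∫ y, h y = ∑ α ∈ Lat.Box n, ∫ t in cube s, h (ptp s α + t) := by
  have h1 : ∫ y, h y = ∫ y in ⋃ α ∈ Lat.Box n, cell s α, h y := by
    symm
    apply setIntegral_eq_integral_of_forall_compl_eq_zero
    intro y hy
    apply supp
    by_contra hc
    push Not at hc
    obtain ⟨α, h1, h2⟩ := cell_cover hs hc
    exact hy (mem_biUnion (x := α) h1 h2)
  rw [h1, integral_biUnion_finset]
  · exact Finset.sum_congr rfl fun α _ => cell_integral s α h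
  · intro α _; exact measurableSet_cell s α
  · intro α _ β _ hne; exact cell_disj hs hne
  · intro α _; exact hi.integrableOn

/-- the midpoint rule -/
theorem midpoint {s : ℝ} (hs : 0 < s) {n : ℕ} {h : (Fin 3 → ℝ) → ℝ} (hc : Continuous h)
    (supp : ∀ y, (∃ c, n * s < |y c|) → h y = 0) (b : (Fin 3 → ℤ) → ℝ)
    (hb : ∀ α ∈ Lat.Box n, ∀ t : Fin 3 → ℝ, (∀ c, |t c| ≤ s / 2) →
      |h (ptp s α + t) + h (ptp s α - t) - 2 * h (ptp s α)| ≤ b α) :
    |s ^ 3 * ∑ α ∈ Lat.Box n, h (ptp s α) - ∫ y, h y| ≤ s ^ 3 / 2 * ∑ α ∈ Lat.Box n, b α := by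
  have hcomp : HasCompactSupport h := by
    apply HasCompactSupport.of_support_subset_isCompact
      (K := Icc (fun _ => -(n * s)) (fun _ => n * s)) isCompact_Icc
    intro y hy
    by_contra hcon
    apply hy
    apply supp
    by_contra hcc
    push Not at hcc
    apply hcon
    exact ⟨fun c => (abs_le.mp (hcc c)).1, fun c => (abs_le.mp (hcc c)).2⟩
  have hi : Integrable h := hc.integrable_of_hasCompactSupport hcomp
  rw [cell_decomp hs hi supp, Finset.mul_sum, ← Finset.sum_sub_distrib, Finset.mul_sum]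
  refine (Finset.abs_sum_le_sum_abs _ _).trans (Finset.sum_le_sum fun α hα => ?_)
  have hK : IsCompact (cube s) := isCompact_Icc
  have i1 : IntegrableOn (fun t => h (ptp s α + t)) (cube s) :=
    (hc.comp (continuous_const.add continuous_id)).continuousOn.integrableOn_compact hK
  have i2 : IntegrableOn (fun t => h (ptp s α - t)) (cube s) :=
    (hc.comp (continuous_const.sub continuous_id)).continuousOn.integrableOn_compact hK
  have i3 : IntegrableOn (fun _ : Fin 3 → ℝ => 2 * h (ptp s α)) (cube s) :=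
    continuous_const.continuousOn.integrableOn_compact hK
  have e1 : ∫ t in cube s, h (ptp s α - t) = ∫ t in cube s, h (ptp s α + t) := by
    rw [← cube_neg_integral s (fun t => h (ptp s α + t))]
    rfl
  have e2 : ∫ t in cube s, (h (ptp s α + t) + h (ptp s α - t) - 2 * h (ptp s α)) =
      2 * (∫ t in cube s, h (ptp s α + t)) - 2 * (s ^ 3 * h (ptp s α)) := by
    have i12 : Integrable (fun t => h (ptp s α + t) + h (ptp s α - t))
        (volume.restrict (cube s)) := i1.add i2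
    rw [integral_sub i12 i3, integral_add i1 i2, e1, setIntegral_const, cube_vol hs,
      smul_eq_mul]
    ring
  have e3 : |∫ t in cube s, (h (ptp s α + t) + h (ptp s α - t) - 2 * h (ptp s α))| ≤
      b α * s ^ 3 := by
    have := norm_setIntegral_le_of_norm_le_const (μ := volume) (s := cube s) (C := b α)
      (f := fun t => h (ptp s α + t) + h (ptp s α - t) - 2 * h (ptp s α))
      (cube_vol_lt_top s) ?_
    · rw [cube_vol hs] at this
      exact this
    · intro t ht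
      apply hb α hα
      intro c
      rw [abs_le]
      exact ⟨ht.1 c, ht.2 c⟩
  rw [e2] at e3
  have e4 : |s ^ 3 * h (ptp s α) - ∫ t in cube s, h (ptp s α + t)| =
      |2 * (∫ t in cube s, h (ptp s α + t)) - 2 * (s ^ 3 * h (ptp s α))| / 2 := by
    rw [← mul_sub, abs_mul, abs_of_pos (by norm_num : (0:ℝ) < 2), abs_sub_comm]
    ring
  rw [e4]
  linarith

end Crest.Agent.R338.Di
end
end

-- ▼ part R338/Di4
section

/-!
Row 338, node C.5 (displacements), part 4: the main term (integration by parts and integration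
in `τ`) (helper581).
-/

set_option autoImplicit false

noncomputable section
open Real MeasureTheory Set
open scoped RealInnerProductSpace

namespace Crest.Agent.R338.Di
open Crest.Agent.R338.Lat

/-- `d/dτ (τ³ e^{-τ²|z|²})` -/
def pp (τ : ℝ) (z : P3) : ℝ := (3 * τ ^ 2 - 2 * τ ^ 4 * ‖z‖ ^ 2) * gau τ z

theorem hasDerivAt_pp (τ : ℝ) (z : P3) : HasDerivAt (fun τ => τ ^ 3 * gau τ z) (pp τ z) τ := by
  have h1 : HasDerivAt (fun τ : ℝ => -(τ ^ 2 * ‖z‖ ^ 2)) (-(((2 : ℕ) : ℝ) * τ ^ (2 - 1) * ‖z‖ ^ 2)) τ :=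
    ((hasDerivAt_pow 2 τ).mul_const (‖z‖ ^ 2)).neg
  have h2 : HasDerivAt (fun τ : ℝ => τ ^ 3 * gau τ z)
      ((((3 : ℕ) : ℝ) * τ ^ (3 - 1)) * gau τ z +
        τ ^ 3 * (gau τ z * (-(((2 : ℕ) : ℝ) * τ ^ (2 - 1) * ‖z‖ ^ 2)))) τ :=
    (hasDerivAt_pow 3 τ).mul h1.exp
  refine h2.congr_deriv ?_
  unfold pp
  push_cast
  ring

theorem continuous_pp (z : P3) : Continuous fun τ : ℝ => pp τ z := by
  unfold pp gau; fun_prop

theorem integral_pp (b : ℝ) (z : P3) : ∫ τ in (0 : ℝ)..b, pp τ z = b ^ 3 * gau b z := by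
  rw [intervalIntegral.integral_eq_sub_of_hasDerivAt (f := fun τ => τ ^ 3 * gau τ z)
    (fun τ _ => hasDerivAt_pp τ z) ((continuous_pp z).intervalIntegrable _ _)]
  simp

theorem abs_pp_le {τ b : ℝ} (h0 : 0 ≤ τ) (h1 : τ ≤ b) (z : P3) : |pp τ z| ≤ 5 * b ^ 2 := by
  unfold pp
  rw [abs_mul, abs_of_pos (gau_pos τ z)]
  have h2 : |3 * τ ^ 2 - 2 * τ ^ 4 * ‖z‖ ^ 2| ≤ 3 * τ ^ 2 + 2 * τ ^ 4 * ‖z‖ ^ 2 := by
    refine (abs_sub _ _).trans ?_
    rw [abs_of_nonneg (by positivity), abs_of_nonneg (by positivity)]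
  have h3 : τ ^ 2 * ‖z‖ ^ 2 * gau τ z ≤ 1 := by
    unfold gau
    set q := τ ^ 2 * ‖z‖ ^ 2
    have hq : q ≤ Real.exp q := by linarith [Real.add_one_le_exp q]
    rw [Real.exp_neg]
    rw [← div_eq_mul_inv, div_le_one (Real.exp_pos _)]
    exact hq
  have h4 : τ ^ 2 ≤ b ^ 2 := by gcongr
  calc |3 * τ ^ 2 - 2 * τ ^ 4 * ‖z‖ ^ 2| * gau τ z
      ≤ (3 * τ ^ 2 + 2 * τ ^ 4 * ‖z‖ ^ 2) * gau τ z := by
        gcongr; exact (gau_pos τ z).le
    _ = 3 * τ ^ 2 * gau τ z + 2 * τ ^ 2 * (τ ^ 2 * ‖z‖ ^ 2 * gau τ z) := by ring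
    _ ≤ 3 * τ ^ 2 * 1 + 2 * τ ^ 2 * 1 := by
        gcongr; exact gau_le_one τ z
    _ ≤ 5 * b ^ 2 := by linarith

/-- the integrand of the first order term -/
def Hf (w : P3 → ℝ) (τ : ℝ) (x y : P3) : ℝ := -(2 * τ ^ 2) * fderiv ℝ w y (vv τ (x - y))

theorem continuous_vv (τ : ℝ) : Continuous (vv τ) := (continuous_gau τ).smul continuous_id

theorem continuous_Hf {w : P3 → ℝ} (hw : ContDiff ℝ 1 w) (τ : ℝ) (x : P3) :
    Continuous (Hf w τ x) := by
  unfold Hf
  have h1 : Continuous (fderiv ℝ w) := hw.continuous_fderiv one_ne_zero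
  exact continuous_const.mul (h1.clm_apply ((continuous_vv τ).comp (continuous_const.sub
    continuous_id)))

/-- basis vectors -/
def ee (c : Fin 3) : P3 := EuclideanSpace.single c (1 : ℝ)

theorem vec_eq (z : P3) : z = ∑ c, z c • ee c := by
  ext i
  simp [ee, Finset.sum_apply, Pi.single_apply]

/-- coordinate of the field -/
def gc (τ : ℝ) (x : P3) (c : Fin 3) (y : P3) : ℝ := gau τ (x - y) * (x - y) c

theorem hasFDerivAt_gc (τ : ℝ) (x : P3) (c : Fin 3) (y : P3) :
    HasFDerivAt (gc τ x c)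
      (gau τ (x - y) • (-(EuclideanSpace.proj c : P3 →L[ℝ] ℝ)) +
        ((x - y) c) • (gau τ (x - y) • ((2 * τ ^ 2) • (innerSL ℝ (x - y))))) y := by
  have h0 : HasFDerivAt (fun y : P3 => x - y) (-(ContinuousLinearMap.id ℝ P3)) y :=
    (hasFDerivAt_id y).const_sub x
  have h1 : HasFDerivAt (fun y : P3 => ‖x - y‖ ^ 2)
      (2 • (innerSL ℝ (x - y)).comp (-(ContinuousLinearMap.id ℝ P3))) y := h0.norm_sq
  have h2 : HasFDerivAt (fun y : P3 => gau τ (x - y))
      (gau τ (x - y) • ((2 * τ ^ 2) • (innerSL ℝ (x - y)))) y := by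
    have h3 : HasFDerivAt (fun y : P3 => gau τ (x - y))
      (gau τ (x - y) • -(τ ^ 2 • ((2 : ℕ) • (innerSL ℝ (x - y)).comp
        (-(ContinuousLinearMap.id ℝ P3)) : P3 →L[ℝ] ℝ))) y :=
          ((h1.const_mul (τ ^ 2)).neg).exp
    refine h3.congr_fderiv ?_
    ext v
    simp
    ring
  have h3 : HasFDerivAt (fun y : P3 => (x - y) c) (-(EuclideanSpace.proj c : P3 →L[ℝ] ℝ)) y := by
    have h4 : HasFDerivAt (fun y : P3 => (x - y) c)
        ((EuclideanSpace.proj c : P3 →L[ℝ] ℝ).comp (-(ContinuousLinearMap.id ℝ P3))) y :=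
      (EuclideanSpace.proj c : P3 →L[ℝ] ℝ).hasFDerivAt.comp y h0
    refine h4.congr_fderiv ?_
    ext v
    simp
  exact h2.mul h3

theorem fderiv_gc (τ : ℝ) (x : P3) (c : Fin 3) (y : P3) :
    fderiv ℝ (gc τ x c) y (ee c) = gau τ (x - y) * (2 * τ ^ 2 * (x - y) c ^ 2 - 1) := by
  rw [(hasFDerivAt_gc τ x c y).fderiv]
  have e2 : inner ℝ (x - y) (ee c) = (x - y) c := by
    unfold ee
    rw [EuclideanSpace.inner_single_right]; simp
  simp only [add_apply, smul_apply, neg_apply, innerSL_apply_apply, e2]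
  simp [ee]
  ring

theorem continuous_gc (τ : ℝ) (x : P3) (c : Fin 3) : Continuous (gc τ x c) :=
  continuous_iff_continuousAt.mpr fun y => (hasFDerivAt_gc τ x c y).continuousAt

/-- integration by parts -/
theorem ibp {w : P3 → ℝ} (hw : ContDiff ℝ 1 w) (hc : HasCompactSupport w) (τ : ℝ) (x : P3) :
    ∫ y, Hf w τ x y = -2 * ∫ y, w y * pp τ (x - y) := by
  have hfd : Continuous (fderiv ℝ w) := hw.continuous_fderiv one_ne_zero
  have hcfd : HasCompactSupport (fderiv ℝ w) := hc.fderiv ℝ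
  have hcgau : Continuous fun y : P3 => gau τ (x - y) :=
    (continuous_gau τ).comp (continuous_const.sub continuous_id)
  have hcoord : ∀ c : Fin 3, Continuous fun y : P3 => (x - y) c := fun c =>
    (EuclideanSpace.proj c : P3 →L[ℝ] ℝ).continuous.comp (continuous_const.sub continuous_id)
  -- the three integrability facts
  have i1 : ∀ c, Integrable fun y => fderiv ℝ w y (ee c) * gc τ x c y := by
    intro c
    apply Continuous.integrable_of_hasCompactSupport
    · exact (hfd.clm_apply continuous_const).mul (continuous_gc τ x c)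
    · have : HasCompactSupport fun y => fderiv ℝ w y (ee c) := by
        apply hcfd.mono
        intro y hy hcon
        apply hy
        show fderiv ℝ w y (ee c) = 0
        rw [show fderiv ℝ w y = 0 from hcon]; rfl
      exact this.mul_right
  have i2 : ∀ c, Integrable fun y => w y * fderiv ℝ (gc τ x c) y (ee c) := by
    intro c
    apply Continuous.integrable_of_hasCompactSupport
    · apply hw.continuous.mul
      simp only [fderiv_gc]
      have := hcoord c
      fun_prop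
    · exact hc.mul_right
  have i3 : ∀ c, Integrable fun y => w y * gc τ x c y := by
    intro c
    apply Continuous.integrable_of_hasCompactSupport
    · exact hw.continuous.mul (continuous_gc τ x c)
    · exact hc.mul_right
  have key : ∀ c, ∫ y, fderiv ℝ w y (ee c) * gc τ x c y =
      - ∫ y, w y * fderiv ℝ (gc τ x c) y (ee c) := by
    intro c
    have := integral_mul_fderiv_eq_neg_fderiv_mul_of_integrable (μ := (volume : Measure P3))
      (f := w) (g := gc τ x c) (v := ee c) (i1 c) (i2 c) (i3 c)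
      (fun y _ => (hw.differentiable one_ne_zero) y)
      (fun y _ => (hasFDerivAt_gc τ x c y).differentiableAt)
    rw [this, neg_neg]
  have e1 : ∀ y, Hf w τ x y = -(2 * τ ^ 2) * ∑ c, fderiv ℝ w y (ee c) * gc τ x c y := by
    intro y
    unfold Hf vv gc
    congr 1
    rw [map_smul]
    have e0 : fderiv ℝ w y (x - y) = ∑ c, (x - y) c * fderiv ℝ w y (ee c) := by
      conv_lhs => rw [vec_eq (x - y)]
      rw [map_sum]
      apply Finset.sum_congr rfl
      intro c _
      rw [map_smul, smul_eq_mul]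
    rw [e0, smul_eq_mul, Finset.mul_sum]
    apply Finset.sum_congr rfl
    intro c _
    ring
  simp_rw [e1]
  rw [integral_const_mul, integral_finsetSum _ (fun c _ => i1 c)]
  simp_rw [key]
  rw [Finset.sum_neg_distrib, ← integral_finsetSum _ (fun c _ => i2 c)]
  rw [← integral_const_mul, ← integral_neg, ← integral_const_mul]
  congr 1
  ext y
  simp_rw [fderiv_gc]
  rw [← Finset.mul_sum, ← Finset.mul_sum]
  unfold pp
  rw [norm_sq_P3, Finset.sum_sub_distrib, ← Finset.mul_sum]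
  simp
  ring

end Crest.Agent.R338.Di
end
end

-- ▼ part R338/Di5
section

/-!
Row 338, node C.5 (displacements), part 5: evaluation of the main term
(helper581).
-/

set_option autoImplicit false

noncomputable section
open Real MeasureTheory Set
open scoped RealInnerProductSpace

namespace Crest.Agent.R338.Di
open Crest.Agent.R338.Lat

theorem integral_gau {b : ℝ} (hb : 0 < b) : ∫ z : P3, gau b z = (√π / b) ^ 3 := by
  have h := GaussianFourier.integral_rexp_neg_mul_sq_norm (V := P3) (b := b ^ 2) (by positivity)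
  have e : ∀ z : P3, gau b z = rexp (-b ^ 2 * ‖z‖ ^ 2) := fun z => by
    unfold gau; congr 1; ring
  simp_rw [e]
  rw [h]
  have h3 : (Module.finrank ℝ P3 : ℝ) = 3 := by simp [P3]
  rw [h3]
  have h4 : √π / b = (π / b ^ 2) ^ (1 / 2 : ℝ) := by
    rw [← Real.sqrt_eq_rpow, Real.sqrt_div pi_pos.le, Real.sqrt_sq hb.le]
  rw [h4, ← Real.rpow_natCast ((π / b ^ 2) ^ (1 / 2 : ℝ)) 3, ← Real.rpow_mul (by positivity)]
  norm_num

theorem integrable_gau {b : ℝ} (hb : 0 < b) : Integrable (gau b) := by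
  by_contra hcon
  have h := integral_undef hcon
  rw [integral_gau hb] at h
  have : 0 < (√π / b) ^ 3 := by positivity
  linarith

theorem integral_gau_sub {b : ℝ} (hb : 0 < b) (x : P3) :
    ∫ y : P3, gau b (x - y) = (√π / b) ^ 3 := by
  rw [integral_sub_left_eq_self (gau b) volume x, integral_gau hb]

theorem integrable_gau_sub {b : ℝ} (hb : 0 < b) (x : P3) :
    Integrable fun y : P3 => gau b (x - y) := (integrable_gau hb).comp_sub_left x

theorem lip {w : P3 → ℝ} (hw : ContDiff ℝ 1 w) {G : ℝ} (hG : ∀ x, ‖fderiv ℝ w x‖ ≤ G)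
    (x y : P3) : |w y - w x| ≤ G * ‖x - y‖ := by
  have := Convex.norm_image_sub_le_of_norm_fderiv_le (𝕜 := ℝ) (f := w) (s := univ) (C := G)
    (x := x) (y := y) (fun z _ => (hw.differentiable one_ne_zero) z) (fun z _ => hG z)
    convex_univ (mem_univ _) (mem_univ _)
  rw [Real.norm_eq_abs, norm_sub_rev] at this
  exact this

/-- the mollification error -/
theorem moll {w : P3 → ℝ} (hw : ContDiff ℝ 1 w) (hc : HasCompactSupport w) {G b : ℝ}
    (hG : ∀ x, ‖fderiv ℝ w x‖ ≤ G) (hb : 0 < b) (x : P3) :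
    |(b / √π) ^ 3 * (∫ y, w y * gau b (x - y)) - w x| ≤ 8 * C0 * G / b := by
  have hG0 : 0 ≤ G := (norm_nonneg _).trans (hG 0)
  have i1 : Integrable fun y : P3 => w y * gau b (x - y) := by
    apply Continuous.integrable_of_hasCompactSupport
    · exact hw.continuous.mul ((continuous_gau b).comp (continuous_const.sub continuous_id))
    · exact hc.mul_right
  have i2 : Integrable fun y : P3 => w x * gau b (x - y) :=
    (integrable_gau_sub hb x).const_mul _
  have e1 : ∫ y : P3, w x * gau b (x - y) = w x * (√π / b) ^ 3 := by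
    rw [integral_const_mul, integral_gau_sub hb]
  have i3 : Integrable fun y : P3 => G * (C0 / b) * gau (b / 2) (x - y) :=
    (integrable_gau_sub (half_pos hb) x).const_mul _
  have e3 : ∫ y : P3, G * (C0 / b) * gau (b / 2) (x - y) = G * (C0 / b) * (√π / (b / 2)) ^ 3 := by
    rw [integral_const_mul, integral_gau_sub (half_pos hb)]
  have hb' : |∫ y, (w y * gau b (x - y) - w x * gau b (x - y))| ≤
      G * (C0 / b) * (√π / (b / 2)) ^ 3 := by
    rw [← e3]
    refine (abs_integral_le_integral_abs).trans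
      (integral_mono (i1.sub i2).abs i3 fun y => ?_)
    show |w y * gau b (x - y) - w x * gau b (x - y)| ≤ G * (C0 / b) * gau (b / 2) (x - y)
    rw [← sub_mul, abs_mul, abs_of_pos (gau_pos _ _)]
    have h1 := lip hw hG x y
    have h2 := s2 hb (x - y)
    unfold vv at h2
    rw [norm_smul, Real.norm_eq_abs, abs_of_pos (gau_pos _ _)] at h2
    calc |w y - w x| * gau b (x - y) ≤ G * ‖x - y‖ * gau b (x - y) := by
          gcongr; exact (gau_pos _ _).le
      _ = G * (1 / b) * (b * (gau b (x - y) * ‖x - y‖)) := by field_simp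
      _ ≤ G * (1 / b) * (C0 * gau (b / 2) (x - y)) := by gcongr
      _ = G * (C0 / b) * gau (b / 2) (x - y) := by ring
  rw [integral_sub i1 i2, e1] at hb'
  have hsp : 0 < √π := Real.sqrt_pos.mpr pi_pos
  have e5 : (b / √π) ^ 3 * (∫ y, w y * gau b (x - y)) - w x =
      (b / √π) ^ 3 * ((∫ y, w y * gau b (x - y)) - w x * (√π / b) ^ 3) := by
    rw [mul_sub]
    congr 1
    field_simp
  rw [e5, abs_mul, abs_of_pos (by positivity : 0 < (b / √π) ^ 3)]
  calc (b / √π) ^ 3 * |(∫ y, w y * gau b (x - y)) - w x * (√π / b) ^ 3|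
      ≤ (b / √π) ^ 3 * (G * (C0 / b) * (√π / (b / 2)) ^ 3) := by gcongr
    _ = 8 * C0 * G / b := by field_simp; ring

/-- the end point term -/
theorem endpt {w : P3 → ℝ} {G b : ℝ}
    (hG : ∀ x, ‖fderiv ℝ w x‖ ≤ G) (hb : 0 < b) (x : P3) :
    |∫ y, Hf w b x y| ≤ 16 * √π ^ 3 * C0 * G / b ^ 2 := by
  have hG0 : 0 ≤ G := (norm_nonneg _).trans (hG 0)
  have i3 : Integrable fun y : P3 => 2 * b * G * C0 * gau (b / 2) (x - y) :=
    (integrable_gau_sub (half_pos hb) x).const_mul _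
  have e3 : ∫ y : P3, 2 * b * G * C0 * gau (b / 2) (x - y) =
      2 * b * G * C0 * (√π / (b / 2)) ^ 3 := by
    rw [integral_const_mul, integral_gau_sub (half_pos hb)]
  have h := norm_integral_le_of_norm_le (f := fun y => Hf w b x y) i3
    (Filter.Eventually.of_forall fun y => by
      show ‖-(2 * b ^ 2) * fderiv ℝ w y (vv b (x - y))‖ ≤ _
      rw [norm_mul, norm_neg, Real.norm_eq_abs (2 * b ^ 2), abs_of_pos (by positivity)]
      have h1 : ‖fderiv ℝ w y (vv b (x - y))‖ ≤ G * ‖vv b (x - y)‖ :=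
        (ContinuousLinearMap.le_opNorm _ _).trans (by gcongr; exact hG y)
      have h2 := s2 hb (x - y)
      calc 2 * b ^ 2 * ‖fderiv ℝ w y (vv b (x - y))‖ ≤ 2 * b ^ 2 * (G * ‖vv b (x - y)‖) := by
            gcongr
        _ = 2 * b * G * (b * ‖vv b (x - y)‖) := by ring
        _ ≤ 2 * b * G * (C0 * gau (b / 2) (x - y)) := by gcongr
        _ = _ := by ring)
  rw [e3, Real.norm_eq_abs] at h
  refine h.trans (le_of_eq ?_)
  field_simp
  ring

/-- Fubini for the main term -/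
theorem int_tau {w : P3 → ℝ} (hw : ContDiff ℝ 1 w) (hc : HasCompactSupport w) {b : ℝ}
    (hb : 0 ≤ b) (x : P3) :
    IntervalIntegrable (fun τ => ∫ y, Hf w τ x y) volume 0 b ∧
    ∫ τ in (0 : ℝ)..b, ∫ y, Hf w τ x y = -2 * (b ^ 3 * ∫ y, w y * gau b (x - y)) := by
  have hF : Integrable (Function.uncurry fun (τ : ℝ) (y : P3) => w y * pp τ (x - y))
      ((volume.restrict (Ioc 0 b)).prod volume) := by
    have hint : Integrable (fun y : P3 => 5 * b ^ 2 * ‖w y‖) :=
      ((hw.continuous.integrable_of_hasCompactSupport hc).norm).const_mul _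
    have hint2 := hint.comp_snd (volume.restrict (Ioc (0 : ℝ) b))
    have hcont : Continuous (Function.uncurry fun (τ : ℝ) (y : P3) => w y * pp τ (x - y)) := by
      unfold Function.uncurry pp gau
      have := hw.continuous
      fun_prop
    refine hint2.mono' hcont.aestronglyMeasurable ?_
    have hae : ∀ᵐ p ∂((volume.restrict (Ioc (0 : ℝ) b)).prod (volume : Measure P3)),
        p.1 ∈ Ioc (0 : ℝ) b := by
      have h1 : ∀ᵐ t ∂(volume.restrict (Ioc (0 : ℝ) b)), t ∈ Ioc (0 : ℝ) b :=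
        ae_restrict_mem measurableSet_Ioc
      exact Measure.quasiMeasurePreserving_fst.ae h1
    filter_upwards [hae] with p hp
    show ‖w p.2 * pp p.1 (x - p.2)‖ ≤ 5 * b ^ 2 * ‖w p.2‖
    rw [norm_mul, Real.norm_eq_abs (pp p.1 (x - p.2)), mul_comm]
    gcongr
    exact abs_pp_le hp.1.le hp.2 _
  have e1 : (fun τ => ∫ y, Hf w τ x y) = fun τ => -2 * ∫ y, w y * pp τ (x - y) := by
    funext τ; exact ibp hw hc τ x
  rw [e1]
  constructor
  · rw [intervalIntegrable_iff_integrableOn_Ioc_of_le hb]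
    exact (hF.integral_prod_left).const_mul _
  · rw [intervalIntegral.integral_const_mul, intervalIntegral.integral_of_le hb,
      integral_integral_swap hF]
    congr 1
    rw [← integral_const_mul]
    congr 1
    ext y
    rw [integral_const_mul, ← intervalIntegral.integral_of_le hb, integral_pp]
    ring

end Crest.Agent.R338.Di
end
end

-- ▼ part R338/Di6
section

/-!
Row 338, node C.5 (displacements), part 6: the slice estimate
(helper581).
-/

set_option autoImplicit false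

noncomputable section
open Real MeasureTheory Set
open scoped RealInnerProductSpace

namespace Crest.Agent.R338.Di
open Crest.Agent.R338.Lat

/-- second difference of the integrand -/
theorem Hf_diff2 {w : P3 → ℝ} {G s τ : ℝ} (hG : 0 ≤ G) (hs : 0 < s) (hτ : 0 < τ) (hτs : τ * s ≤ 1)
    (b0 : ∀ x, ‖fderiv ℝ w x‖ ≤ G)
    (b1 : ∀ x v, ‖fderiv ℝ w (x + v) - fderiv ℝ w x‖ ≤ G * ‖v‖)
    (b2 : ∀ x v, ‖fderiv ℝ w (x + v) + fderiv ℝ w (x - v) - (2 : ℝ) • fderiv ℝ w x‖ ≤
      G * ‖v‖ ^ 2) (x c t : P3) (ht : ‖t‖ ≤ s) :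
    |Hf w τ x (c + t) + Hf w τ x (c - t) - 2 * Hf w τ x c| ≤
      12 * C0 * G * s ^ 2 * (τ + τ ^ 2 + τ ^ 3) * gau (τ / 2) (x - c) := by
  have hC0 := C0_pos
  have htt : τ * ‖t‖ ≤ 1 := le_trans (by gcongr) hτs
  set z := x - c with hz
  set g := gau (τ / 2) z with hg
  have hg0 : 0 < g := gau_pos _ _
  have e1 : x - (c + t) = z - t := by rw [hz]; abel
  have e2 : x - (c - t) = z + t := by rw [hz]; abel
  set A0 := fderiv ℝ w c
  set Ap := fderiv ℝ w (c + t)
  set Am := fderiv ℝ w (c - t)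
  have key : Hf w τ x (c + t) + Hf w τ x (c - t) - 2 * Hf w τ x c =
      -(2 * τ ^ 2) * ((Ap + Am - (2 : ℝ) • A0) (vv τ z) +
        A0 (vv τ (z + t) + vv τ (z - t) - (2 : ℝ) • vv τ z) +
        (Ap - A0) (vv τ (z - t) - vv τ z) + (Am - A0) (vv τ (z + t) - vv τ z)) := by
    unfold Hf
    rw [e1, e2]
    simp only [add_apply, sub_apply, smul_apply, map_add, map_sub, map_smul, smul_eq_mul]
    ring
  rw [key, abs_mul, abs_neg, abs_of_pos (by positivity : 0 < 2 * τ ^ 2)]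
  have n1 : |(Ap + Am - (2 : ℝ) • A0) (vv τ z)| ≤ G * ‖t‖ ^ 2 * ‖vv τ z‖ := by
    rw [← Real.norm_eq_abs]
    exact (ContinuousLinearMap.le_opNorm _ _).trans (by gcongr; exact b2 c t)
  have n2 : |A0 (vv τ (z + t) + vv τ (z - t) - (2 : ℝ) • vv τ z)| ≤
      G * ‖vv τ (z + t) + vv τ (z - t) - (2 : ℝ) • vv τ z‖ := by
    rw [← Real.norm_eq_abs]
    exact (ContinuousLinearMap.le_opNorm _ _).trans (by gcongr; exact b0 c)
  have n3 : |(Ap - A0) (vv τ (z - t) - vv τ z)| ≤ G * ‖t‖ * ‖vv τ (z - t) - vv τ z‖ := by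
    rw [← Real.norm_eq_abs]
    exact (ContinuousLinearMap.le_opNorm _ _).trans (by gcongr; exact b1 c t)
  have n4 : |(Am - A0) (vv τ (z + t) - vv τ z)| ≤ G * ‖t‖ * ‖vv τ (z + t) - vv τ z‖ := by
    rw [← Real.norm_eq_abs]
    refine (ContinuousLinearMap.le_opNorm _ _).trans ?_
    have := b1 c (-t)
    rw [← sub_eq_add_neg, norm_neg] at this
    gcongr
  have m1 := s2 hτ z
  have m2 := s4 hτ (z := z) htt
  have m3 := s3 hτ (z := z) (t := -t) (by rw [norm_neg]; exact htt)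
  have m4 := s3 hτ (z := z) htt
  rw [← sub_eq_add_neg, norm_neg] at m3
  rw [← hg] at m1 m2 m3 m4
  set a1 := ‖vv τ z‖
  set a2 := ‖vv τ (z + t) + vv τ (z - t) - (2 : ℝ) • vv τ z‖
  set a3 := ‖vv τ (z - t) - vv τ z‖
  set a4 := ‖vv τ (z + t) - vv τ z‖
  have hsum := (abs_add_le ((Ap + Am - (2 : ℝ) • A0) (vv τ z) +
        A0 (vv τ (z + t) + vv τ (z - t) - (2 : ℝ) • vv τ z) +
        (Ap - A0) (vv τ (z - t) - vv τ z)) ((Am - A0) (vv τ (z + t) - vv τ z)))
  have hsum2 := (abs_add_le ((Ap + Am - (2 : ℝ) • A0) (vv τ z) +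
        A0 (vv τ (z + t) + vv τ (z - t) - (2 : ℝ) • vv τ z))
        ((Ap - A0) (vv τ (z - t) - vv τ z)))
  have hsum3 := (abs_add_le ((Ap + Am - (2 : ℝ) • A0) (vv τ z))
        (A0 (vv τ (z + t) + vv τ (z - t) - (2 : ℝ) • vv τ z)))
  have hT0 : 0 ≤ ‖t‖ := norm_nonneg _
  set T := ‖t‖
  calc 2 * τ ^ 2 * |(Ap + Am - (2 : ℝ) • A0) (vv τ z) +
        A0 (vv τ (z + t) + vv τ (z - t) - (2 : ℝ) • vv τ z) +
        (Ap - A0) (vv τ (z - t) - vv τ z) + (Am - A0) (vv τ (z + t) - vv τ z)|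
      ≤ 2 * τ ^ 2 * (G * T ^ 2 * a1 + G * a2 + G * T * a3 + G * T * a4) := by
        gcongr; linarith
    _ = 2 * τ * (G * T ^ 2 * (τ * a1) + G * (τ * a2) + G * T * (τ * a3) + G * T * (τ * a4)) := by
        ring
    _ ≤ 2 * τ * (G * T ^ 2 * (C0 * g) + G * (6 * C0 * (τ * T) ^ 2 * g) +
        G * T * (2 * C0 * (τ * T) * g) + G * T * (2 * C0 * (τ * T) * g)) := by
        gcongr
    _ = 2 * C0 * G * T ^ 2 * (τ + 6 * τ ^ 3 + 4 * τ ^ 2) * g := by ring
    _ ≤ 2 * C0 * G * s ^ 2 * (τ + 6 * τ ^ 3 + 4 * τ ^ 2) * g := by gcongr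
    _ ≤ 2 * C0 * G * s ^ 2 * (6 * (τ + τ ^ 2 + τ ^ 3)) * g := by
        gcongr; nlinarith [pow_pos hτ 2, pow_pos hτ 3]
    _ = _ := by ring

/-- vanishing of the derivative outside of the support -/
theorem fderiv_zero {w : P3 → ℝ} {L : ℝ} (supp : ∀ x, (∃ c, L < |x c|) → w x = 0) {x : P3}
    (hx : ∃ c, L < |x c|) : fderiv ℝ w x = 0 := by
  obtain ⟨c, hc⟩ := hx
  have hopen : IsOpen {y : P3 | L < |y c|} :=
    isOpen_lt continuous_const ((EuclideanSpace.proj c : P3 →L[ℝ] ℝ).continuous.abs)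
  have heq : w =ᶠ[nhds x] fun _ => (0 : ℝ) := by
    filter_upwards [hopen.mem_nhds hc] with y hy
    exact supp y ⟨c, hy⟩
  rw [heq.fderiv_eq]
  simp

theorem norm_toLp_le {s : ℝ} (hs : 0 < s) {t : Fin 3 → ℝ} (ht : ∀ c, |t c| ≤ s / 2) :
    ‖(WithLp.toLp 2 t : P3)‖ ≤ s := by
  have h1 : ‖(WithLp.toLp 2 t : P3)‖ ^ 2 ≤ s ^ 2 := by
    rw [norm_sq_P3]
    calc ∑ c, (WithLp.toLp 2 t : P3) c ^ 2 ≤ ∑ _c : Fin 3, (s / 2) ^ 2 := by
          apply Finset.sum_le_sum
          intro c _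
          rw [← sq_abs]
          have := ht c
          have h0 := abs_nonneg (t c)
          show |t c| ^ 2 ≤ (s / 2) ^ 2
          gcongr
      _ ≤ s ^ 2 := by
          rw [Finset.sum_const, Finset.card_univ, Fintype.card_fin]
          simp only [nsmul_eq_mul]
          push_cast
          nlinarith [sq_nonneg s]
  exact le_of_sq_le_sq h1 hs.le |> id

/-- midpoint rule for the slice -/
theorem slice_mid {w : P3 → ℝ} {G s τ L : ℝ} (hw : ContDiff ℝ 1 w)
    (supp : ∀ x, (∃ c, L < |x c|) → w x = 0) (hG : 0 ≤ G) (hs : 0 < s) (hτ : 0 < τ)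
    (hτs : τ * s ≤ 1)
    (b0 : ∀ x, ‖fderiv ℝ w x‖ ≤ G)
    (b1 : ∀ x v, ‖fderiv ℝ w (x + v) - fderiv ℝ w x‖ ≤ G * ‖v‖)
    (b2 : ∀ x v, ‖fderiv ℝ w (x + v) + fderiv ℝ w (x - v) - (2 : ℝ) • fderiv ℝ w x‖ ≤
      G * ‖v‖ ^ 2) {M : ℕ} (hM : L ≤ M * s) (x : P3) :
    |s ^ 3 * ∑ α ∈ Box M, Hf w τ x (pt s α) - ∫ y, Hf w τ x y| ≤
      s ^ 3 / 2 * ∑ α ∈ Box M,
        12 * C0 * G * s ^ 2 * (τ + τ ^ 2 + τ ^ 3) * gau (τ / 2) (x - pt s α) := by
  have hcont := continuous_Hf hw τ x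
  have hmid := midpoint hs (n := M) (h := fun y => Hf w τ x (WithLp.toLp 2 y))
    (hcont.comp (PiLp.continuous_toLp 2 _)) ?_
    (fun α => 12 * C0 * G * s ^ 2 * (τ + τ ^ 2 + τ ^ 3) * gau (τ / 2) (x - pt s α)) ?_
  · have e1 : ∫ y : Fin 3 → ℝ, Hf w τ x (WithLp.toLp 2 y) = ∫ y : P3, Hf w τ x y :=
      (PiLp.volume_preserving_toLp (Fin 3)).integral_comp
        (MeasurableEquiv.toLp 2 (Fin 3 → ℝ)).measurableEmbedding (Hf w τ x)
    rw [e1] at hmid
    exact hmid
  · rintro y ⟨c, hc⟩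
    show Hf w τ x (WithLp.toLp 2 y) = 0
    unfold Hf
    rw [fderiv_zero supp (x := WithLp.toLp 2 y) ⟨c, lt_of_le_of_lt hM hc⟩]
    simp
  · intro α _ t ht
    have := Hf_diff2 hG hs hτ hτs b0 b1 b2 x (pt s α) (WithLp.toLp 2 t) (norm_toLp_le hs ht)
    exact this

/-- the slice -/
def Rs (s : ℝ) (nL : ℕ) (d : (Fin 3 → ℤ) → P3) (τ : ℝ) (x : P3) : ℝ :=
  ∑ α ∈ Box nL, (gau τ (x - pt s α + d α) - gau τ (x - pt s α))

theorem d_sq {s : ℝ} {d : (Fin 3 → ℤ) → P3} {w : P3 → ℝ} {L G eps : ℝ} (hs : 0 < s)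
    (heps : 0 ≤ eps) (H : Disp s d w L G eps) (α : Fin 3 → ℤ) :
    ‖d α‖ ^ 2 ≤ s ^ 6 * G ^ 2 + s * eps := by
  have h1 := H.dapp α
  have h2 := H.dsmall α
  have h3 : ‖gradient w (pt s α)‖ ≤ G := by
    have := H.b0 (pt s α)
    unfold gradient
    rwa [LinearIsometryEquiv.norm_map]
  have hG : 0 ≤ G := (norm_nonneg _).trans h3
  have h4 : ‖d α‖ ≤ s ^ 3 * G + eps := by
    have e : d α = (s ^ 3 / (4 * π)) • gradient w (pt s α) +
        (d α - (s ^ 3 / (4 * π)) • gradient w (pt s α)) := by abel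
    have h5 : ‖(s ^ 3 / (4 * π)) • gradient w (pt s α)‖ ≤ s ^ 3 * G := by
      rw [norm_smul, Real.norm_eq_abs, abs_of_pos (by positivity)]
      have : s ^ 3 / (4 * π) ≤ s ^ 3 := by
        apply div_le_self (by positivity)
        nlinarith [Real.pi_gt_three]
      gcongr
    rw [e]
    exact (norm_add_le _ _).trans (add_le_add h5 h1)
  have h0 := norm_nonneg (d α)
  have hs3 : 0 ≤ s ^ 3 * G := by positivity
  have h6 : ‖d α‖ ^ 2 ≤ ‖d α‖ * (s ^ 3 * G) + s / 4 * eps := by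
    have : ‖d α‖ * ‖d α‖ ≤ ‖d α‖ * (s ^ 3 * G + eps) := by gcongr
    nlinarith
  have h7 : ‖d α‖ * (s ^ 3 * G) ≤ ‖d α‖ ^ 2 / 2 + (s ^ 3 * G) ^ 2 / 2 := by
    nlinarith [sq_nonneg (‖d α‖ - s ^ 3 * G)]
  have h8 : (s ^ 3 * G) ^ 2 = s ^ 6 * G ^ 2 := by ring
  nlinarith

/-- one term of the slice -/
theorem slice_term {s τ : ℝ} {d : (Fin 3 → ℤ) → P3} {w : P3 → ℝ} {L G eps : ℝ} (hs : 0 < s)
    (hτ : 0 < τ) (hτs : τ * s ≤ 1)
    (heps : 0 ≤ eps) (H : Disp s d w L G eps) (x : P3) (α : Fin 3 → ℤ) :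
    |(gau τ (x - pt s α + d α) - gau τ (x - pt s α)) -
      1 / (4 * π) * (s ^ 3 * Hf w τ x (pt s α))| ≤
    (2 * C0 * τ ^ 2 * (s ^ 6 * G ^ 2) + 4 * C0 * τ * eps) * gau (τ / 2) (x - pt s α) := by
  have hC0 := C0_pos
  set z := x - pt s α with hz
  set g := gau (τ / 2) z with hg
  have hg0 : 0 < g := gau_pos _ _
  have hd := H.dsmall α
  have htd : τ * ‖d α‖ ≤ 1 := by
    calc τ * ‖d α‖ ≤ τ * (s / 4) := by gcongr
      _ ≤ 1 := by nlinarith
  have h1 := s1 hτ (z := z) htd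
  rw [← hg] at h1
  set e := d α - (s ^ 3 / (4 * π)) • gradient w (pt s α) with he
  have hde : d α = (s ^ 3 / (4 * π)) • gradient w (pt s α) + e := by rw [he]; abel
  have h2 : fderiv ℝ w (pt s α) (vv τ z) = ⟪gradient w (pt s α), vv τ z⟫ := by
    unfold gradient
    rw [InnerProductSpace.toDual_symm_apply]
  have h3 : 2 * τ ^ 2 * ⟪z, d α⟫ * gau τ z =
      -(1 / (4 * π) * (s ^ 3 * Hf w τ x (pt s α))) + 2 * τ ^ 2 * ⟪vv τ z, e⟫ := by
    unfold Hf
    rw [← hz, h2, real_inner_comm (vv τ z) (gradient w (pt s α))]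
    have h4 : gau τ z * ⟪z, d α⟫ = ⟪vv τ z, d α⟫ := by
      unfold vv; rw [real_inner_smul_left]
    have h5 : ⟪vv τ z, d α⟫ = s ^ 3 / (4 * π) * ⟪vv τ z, gradient w (pt s α)⟫ + ⟪vv τ z, e⟫ := by
      conv_lhs => rw [hde]
      rw [inner_add_right, real_inner_smul_right]
    calc 2 * τ ^ 2 * ⟪z, d α⟫ * gau τ z = 2 * τ ^ 2 * (gau τ z * ⟪z, d α⟫) := by ring
      _ = 2 * τ ^ 2 * (s ^ 3 / (4 * π) * ⟪vv τ z, gradient w (pt s α)⟫ + ⟪vv τ z, e⟫) := by
          rw [h4, h5]
      _ = _ := by ring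
  have h6 : |2 * τ ^ 2 * ⟪vv τ z, e⟫| ≤ 2 * C0 * τ * eps * g := by
    rw [abs_mul, abs_of_pos (by positivity : 0 < 2 * τ ^ 2)]
    have h7 := abs_real_inner_le_norm (vv τ z) e
    have h8 := s2 hτ z
    rw [← hg] at h8
    have h9 : ‖e‖ ≤ eps := H.dapp α
    calc 2 * τ ^ 2 * |⟪vv τ z, e⟫| ≤ 2 * τ ^ 2 * (‖vv τ z‖ * eps) := by
          gcongr; exact h7.trans (by gcongr)
      _ = 2 * τ * (τ * ‖vv τ z‖) * eps := by ring
      _ ≤ 2 * τ * (C0 * g) * eps := by gcongr
      _ = _ := by ring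
  have h10 := d_sq hs heps H α
  have h11 : |(gau τ (z + d α) - gau τ z) - 1 / (4 * π) * (s ^ 3 * Hf w τ x (pt s α))| ≤
      2 * C0 * τ ^ 2 * ‖d α‖ ^ 2 * g + 2 * C0 * τ * eps * g := by
    have e1 : (gau τ (z + d α) - gau τ z) - 1 / (4 * π) * (s ^ 3 * Hf w τ x (pt s α)) =
        (gau τ (z + d α) - gau τ z + 2 * τ ^ 2 * ⟪z, d α⟫ * gau τ z) -
          2 * τ ^ 2 * ⟪vv τ z, e⟫ := by rw [h3]; ring
    rw [e1]
    exact (abs_sub _ _).trans (add_le_add h1 h6)
  refine h11.trans ?_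
  have h12 : 2 * C0 * τ ^ 2 * ‖d α‖ ^ 2 ≤ 2 * C0 * τ ^ 2 * (s ^ 6 * G ^ 2) + 2 * C0 * τ * eps := by
    calc 2 * C0 * τ ^ 2 * ‖d α‖ ^ 2 ≤ 2 * C0 * τ ^ 2 * (s ^ 6 * G ^ 2 + s * eps) := by gcongr
      _ = 2 * C0 * τ ^ 2 * (s ^ 6 * G ^ 2) + 2 * C0 * τ * eps * (τ * s) := by ring
      _ ≤ 2 * C0 * τ ^ 2 * (s ^ 6 * G ^ 2) + 2 * C0 * τ * eps * 1 := by gcongr
      _ = _ := by ring
  nlinarith

end Crest.Agent.R338.Di
end
end

-- ▼ part R338/Di7
section

/-!
Row 338, node C.5 (displacements), part 7: conclusion, `Lat.C5Stmt`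
(helper581).
-/

set_option autoImplicit false

noncomputable section
open Real MeasureTheory Set
open scoped RealInnerProductSpace

namespace Crest.Agent.R338.Di
open Crest.Agent.R338.Lat

theorem compactSupp {w : P3 → ℝ} {L : ℝ} (supp : ∀ x, (∃ c, L < |x c|) → w x = 0) :
    HasCompactSupport w := by
  apply HasCompactSupport.of_support_subset_isCompact (K := Metric.closedBall 0 (3 * |L|))
    (isCompact_closedBall _ _)
  intro x hx
  rw [mem_closedBall_zero_iff]
  have h : ∀ c, |x c| ≤ |L| := by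
    intro c
    by_contra hcon
    push Not at hcon
    exact hx (supp x ⟨c, lt_of_le_of_lt (le_abs_self L) hcon⟩)
  have h2 : ‖x‖ ^ 2 ≤ (3 * |L|) ^ 2 := by
    rw [norm_sq_P3]
    calc ∑ c, x c ^ 2 ≤ ∑ _c : Fin 3, |L| ^ 2 := by
          apply Finset.sum_le_sum
          intro c _
          rw [← sq_abs (x c)]
          have := h c
          gcongr
      _ ≤ (3 * |L|) ^ 2 := by
          rw [Finset.sum_const, Finset.card_univ, Fintype.card_fin]
          simp only [nsmul_eq_mul]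
          push_cast
          nlinarith [sq_nonneg |L|]
  exact le_of_sq_le_sq h2 (by positivity) |> id

/-- weight -/
def qq (L τ : ℝ) : ℝ := L / (1 + τ * L)

theorem qq_nonneg {L τ : ℝ} (hL : 0 < L) (hτ : 0 ≤ τ) : 0 ≤ qq L τ := by
  unfold qq; positivity

theorem qq_le {L τ : ℝ} (hL : 0 < L) (hτ : 0 ≤ τ) : qq L τ ≤ L := by
  unfold qq
  apply div_le_self hL.le
  nlinarith [mul_nonneg hτ hL.le]

theorem qq_mul_le {L τ : ℝ} (hL : 0 < L) (hτ : 0 ≤ τ) : τ * qq L τ ≤ 1 := by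
  unfold qq
  rw [← mul_div_assoc, div_le_one (by positivity)]
  linarith

/-- the slice estimate -/
theorem slice {s τ : ℝ} {d : (Fin 3 → ℤ) → P3} {w : P3 → ℝ} {L G eps : ℝ} {nL : ℕ}
    (hs : 0 < s) (hs1 : s ≤ 1) (hτ : 0 < τ) (hτs : τ * s ≤ 1) (hL : 1 ≤ L)
    (hn : L + s ≤ nL * s) (hG : 1 ≤ G)
    (heps : 0 ≤ eps) (H : Disp s d w L G eps) (x : P3) :
    |Rs s nL d τ x - 1 / (4 * π) * ∫ y, Hf w τ x y| ≤
      8000 * C0 / s ^ 3 * (2 * τ ^ 2 * (s ^ 6 * G ^ 2) + 4 * τ * eps +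
        s ^ 5 * G * (τ + τ ^ 2 + τ ^ 3)) * qq L τ ^ 3 := by
  have hC0 := C0_pos
  have hG0 : 0 ≤ G := by linarith
  have hL0 : 0 < L := by linarith
  set M := ⌊L / s⌋₊ + 1 with hM
  have hM1 : (M : ℝ) ≤ L / s + 1 := by
    rw [hM]; push_cast
    have := Nat.floor_le (div_nonneg hL0.le hs.le)
    linarith
  have hM2 : L ≤ M * s := by
    have := Nat.lt_floor_add_one (L / s)
    rw [div_lt_iff₀ hs] at this
    rw [hM]; push_cast
    linarith
  have hM3 : M ≤ nL := by
    have : (M : ℝ) ≤ nL := by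
      refine hM1.trans ?_
      rw [← sub_nonneg]
      have e : (nL : ℝ) - (L / s + 1) = (nL * s - (L + s)) / s := by field_simp
      rw [e]
      apply div_nonneg (by linarith) hs.le
    exact_mod_cast this
  have hsub : Box M ⊆ Box nL := by
    unfold Box
    apply Fintype.piFinset_subset
    intro c
    apply Finset.Icc_subset_Icc <;> omega
  have e1 : Rs s nL d τ x = ∑ α ∈ Box M, (gau τ (x - pt s α + d α) - gau τ (x - pt s α)) := by
    unfold Rs
    symm
    apply Finset.sum_subset hsub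
    intro α _ hα
    have : d α = 0 := by
      apply H.dsupp
      by_contra hcon
      push Not at hcon
      apply hα
      unfold Box
      rw [Fintype.mem_piFinset]
      intro c
      have h1 := hcon c
      rw [abs_mul, abs_of_pos hs] at h1
      have h2 : |(α c : ℝ)| * s < (M + 1) * s := by nlinarith
      have h3 : |(α c : ℝ)| < M + 1 := lt_of_mul_lt_mul_right h2 hs.le
      have h4 : |α c| < (M : ℤ) + 1 := by exact_mod_cast h3
      rw [Finset.mem_Icc]
      have h5 := abs_lt.mp h4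
      omega
    rw [this, add_zero, sub_self]
  set S := ∑ α ∈ Box M, gau (τ / 2) (x - pt s α) with hS
  have hS1 : S ≤ 8000 / s ^ 3 * qq L τ ^ 3 := sum3 hs hτ hτs (by linarith) hM1 x
  have hS0 : 0 ≤ S := Finset.sum_nonneg fun _ _ => (gau_pos _ _).le
  have h1 : |Rs s nL d τ x - 1 / (4 * π) * (s ^ 3 * ∑ α ∈ Box M, Hf w τ x (pt s α))| ≤
      (2 * C0 * τ ^ 2 * (s ^ 6 * G ^ 2) + 4 * C0 * τ * eps) * S := by
    rw [e1, Finset.mul_sum, Finset.mul_sum, ← Finset.sum_sub_distrib, hS, Finset.mul_sum]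
    refine (Finset.abs_sum_le_sum_abs _ _).trans (Finset.sum_le_sum fun α _ => ?_)
    exact slice_term hs hτ hτs heps H x α
  have h2 := slice_mid H.smooth H.supp hG0 hs hτ hτs H.b0 H.b1 H.b2 hM2 x
  rw [← Finset.mul_sum, ← hS] at h2
  have h3 : |1 / (4 * π) * (s ^ 3 * ∑ α ∈ Box M, Hf w τ x (pt s α)) -
      1 / (4 * π) * ∫ y, Hf w τ x y| ≤ C0 * (s ^ 5 * G * (τ + τ ^ 2 + τ ^ 3)) * S := by
    rw [← mul_sub, abs_mul, abs_of_pos (by positivity : 0 < 1 / (4 * π))]
    calc 1 / (4 * π) * |s ^ 3 * ∑ α ∈ Box M, Hf w τ x (pt s α) - ∫ y, Hf w τ x y|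
        ≤ 1 / (4 * 3) * (s ^ 3 / 2 * (12 * C0 * G * s ^ 2 * (τ + τ ^ 2 + τ ^ 3) * S)) := by
          have := Real.pi_gt_three
          gcongr
      _ = (1 / 2) * (C0 * (s ^ 5 * G * (τ + τ ^ 2 + τ ^ 3)) * S) := by ring
      _ ≤ C0 * (s ^ 5 * G * (τ + τ ^ 2 + τ ^ 3)) * S := by
          have : 0 ≤ C0 * (s ^ 5 * G * (τ + τ ^ 2 + τ ^ 3)) * S := by positivity
          linarith
  have h4 : |Rs s nL d τ x - 1 / (4 * π) * ∫ y, Hf w τ x y| ≤
      (2 * C0 * τ ^ 2 * (s ^ 6 * G ^ 2) + 4 * C0 * τ * eps) * S +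
        C0 * (s ^ 5 * G * (τ + τ ^ 2 + τ ^ 3)) * S := by
    refine le_trans ?_ (add_le_add h1 h3)
    exact abs_sub_le _ _ _
  refine h4.trans ?_
  calc (2 * C0 * τ ^ 2 * (s ^ 6 * G ^ 2) + 4 * C0 * τ * eps) * S +
        C0 * (s ^ 5 * G * (τ + τ ^ 2 + τ ^ 3)) * S
      = C0 * (2 * τ ^ 2 * (s ^ 6 * G ^ 2) + 4 * τ * eps + s ^ 5 * G * (τ + τ ^ 2 + τ ^ 3)) * S := by
        ring
    _ ≤ C0 * (2 * τ ^ 2 * (s ^ 6 * G ^ 2) + 4 * τ * eps + s ^ 5 * G * (τ + τ ^ 2 + τ ^ 3)) *
        (8000 / s ^ 3 * qq L τ ^ 3) := by gcongr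
    _ = _ := by ring

/-- pointwise majorant of the slice error -/
theorem maj {s τ L G eps : ℝ} (hs : 0 < s) (hs1 : s ≤ 1) (hτ : 0 < τ) (hL : 1 ≤ L) (hG : 1 ≤ G)
    (heps : 0 ≤ eps) :
    8000 * C0 / s ^ 3 * (2 * τ ^ 2 * (s ^ 6 * G ^ 2) + 4 * τ * eps +
        s ^ 5 * G * (τ + τ ^ 2 + τ ^ 3)) * qq L τ ^ 3 ≤
      32000 * C0 * (s ^ 2 * G ^ 2 * (1 + qq L τ ^ 2) + eps / s ^ 3 * qq L τ ^ 2) := by
  have hC0 := C0_pos
  have hL0 : 0 < L := by linarith
  have hG0 : 0 ≤ G := by linarith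
  have q0 := qq_nonneg hL0 hτ.le
  have q1 := qq_mul_le hL0 hτ.le
  set q := qq L τ
  have hτq0 : 0 ≤ τ * q := by positivity
  have r1 : τ * q ^ 3 ≤ q ^ 2 := by
    calc τ * q ^ 3 = (τ * q) * q ^ 2 := by ring
      _ ≤ 1 * q ^ 2 := by gcongr
      _ = q ^ 2 := one_mul _
  have r2 : τ ^ 2 * q ^ 3 ≤ 1 + q ^ 2 := by
    calc τ ^ 2 * q ^ 3 = (τ * q) ^ 2 * q := by ring
      _ ≤ 1 ^ 2 * q := by gcongr
      _ ≤ 1 + q ^ 2 := by nlinarith [sq_nonneg (q - 1)]
  have r3 : τ ^ 3 * q ^ 3 ≤ 1 := by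
    calc τ ^ 3 * q ^ 3 = (τ * q) ^ 3 := by ring
      _ ≤ 1 ^ 3 := by gcongr
      _ = 1 := one_pow _
  have hs6 : s ^ 6 * G ^ 2 ≤ s ^ 5 * G ^ 2 := by
    have : s ^ 6 ≤ s ^ 5 := pow_le_pow_of_le_one hs.le hs1 (by norm_num)
    gcongr
  have hs5 : s ^ 5 * G ≤ s ^ 5 * G ^ 2 := by
    have : G ≤ G ^ 2 := by nlinarith
    gcongr
  calc 8000 * C0 / s ^ 3 * (2 * τ ^ 2 * (s ^ 6 * G ^ 2) + 4 * τ * eps +
        s ^ 5 * G * (τ + τ ^ 2 + τ ^ 3)) * q ^ 3
      = 8000 * C0 / s ^ 3 * (2 * (s ^ 6 * G ^ 2) * (τ ^ 2 * q ^ 3) + 4 * eps * (τ * q ^ 3) +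
        s ^ 5 * G * (τ * q ^ 3 + τ ^ 2 * q ^ 3 + τ ^ 3 * q ^ 3)) := by ring
    _ ≤ 8000 * C0 / s ^ 3 * (2 * (s ^ 5 * G ^ 2) * (1 + q ^ 2) + 4 * eps * q ^ 2 +
        s ^ 5 * G ^ 2 * (q ^ 2 + (1 + q ^ 2) + 1)) := by gcongr
    _ = 32000 * C0 * (s ^ 2 * G ^ 2 * (1 + q ^ 2) + eps / s ^ 3 * q ^ 2) := by
        field_simp
        ring

/-- the end point version -/
theorem maj_end {s b L G eps : ℝ} (hs : 0 < s) (hs1 : s ≤ 1) (hb : 0 < b) (hbs : b * s ≤ 1)
    (hL : 1 ≤ L) (hG : 1 ≤ G) (heps : 0 ≤ eps) :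
    b * (8000 * C0 / s ^ 3 * (2 * b ^ 2 * (s ^ 6 * G ^ 2) + 4 * b * eps +
        s ^ 5 * G * (b + b ^ 2 + b ^ 3)) * qq L b ^ 3) ≤
      32000 * C0 * (G ^ 2 * (s ^ 2 * L + s) + eps * L / s ^ 3) := by
  have hC0 := C0_pos
  have hL0 : 0 < L := by linarith
  have hG0 : 0 ≤ G := by linarith
  have q0 := qq_nonneg hL0 hb.le
  have q1 := qq_mul_le hL0 hb.le
  have q2 := qq_le hL0 hb.le
  set q := qq L b
  have hτq0 : 0 ≤ b * q := by positivity
  have r2 : b ^ 2 * q ^ 3 ≤ L := by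
    calc b ^ 2 * q ^ 3 = (b * q) ^ 2 * q := by ring
      _ ≤ 1 ^ 2 * L := by gcongr
      _ = L := by ring
  have r3 : b ^ 3 * q ^ 3 ≤ 1 := by
    calc b ^ 3 * q ^ 3 = (b * q) ^ 3 := by ring
      _ ≤ 1 ^ 3 := by gcongr
      _ = 1 := one_pow _
  have r4 : s * (b ^ 4 * q ^ 3) ≤ 1 := by
    calc s * (b ^ 4 * q ^ 3) = (b * s) * (b ^ 3 * q ^ 3) := by ring
      _ ≤ 1 * 1 := by gcongr
      _ = 1 := one_mul _
  have e0 : b * (8000 * C0 / s ^ 3 * (2 * b ^ 2 * (s ^ 6 * G ^ 2) + 4 * b * eps +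
        s ^ 5 * G * (b + b ^ 2 + b ^ 3)) * q ^ 3) =
      8000 * C0 * (2 * (s ^ 3 * G ^ 2) * (b ^ 3 * q ^ 3) + 4 * (eps / s ^ 3) * (b ^ 2 * q ^ 3) +
        (s ^ 2 * G * (b ^ 2 * q ^ 3) + s ^ 2 * G * (b ^ 3 * q ^ 3) +
          s * G * (s * (b ^ 4 * q ^ 3)))) := by
    field_simp
  rw [e0]
  have hs3 : s ^ 3 * G ^ 2 ≤ s * G ^ 2 := by
    have : s ^ 3 ≤ s := by nlinarith [sq_nonneg s, mul_pos hs hs]
    gcongr
  have hGG : G ≤ G ^ 2 := by nlinarith
  calc 8000 * C0 * (2 * (s ^ 3 * G ^ 2) * (b ^ 3 * q ^ 3) + 4 * (eps / s ^ 3) * (b ^ 2 * q ^ 3) +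
        (s ^ 2 * G * (b ^ 2 * q ^ 3) + s ^ 2 * G * (b ^ 3 * q ^ 3) +
          s * G * (s * (b ^ 4 * q ^ 3))))
      ≤ 8000 * C0 * (2 * (s * G ^ 2) * 1 + 4 * (eps / s ^ 3) * L +
        (s ^ 2 * G ^ 2 * L + s ^ 2 * G ^ 2 * L + s * G ^ 2 * 1)) := by
        gcongr
        linarith
    _ ≤ 32000 * C0 * (G ^ 2 * (s ^ 2 * L + s) + eps * L / s ^ 3) := by
        have : 0 ≤ C0 * (s * G ^ 2) := by positivity
        have : 0 ≤ C0 * (s ^ 2 * G ^ 2 * L) := by positivity
        have e : 8000 * C0 * (2 * (s * G ^ 2) * 1 + 4 * (eps / s ^ 3) * L +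
            (s ^ 2 * G ^ 2 * L + s ^ 2 * G ^ 2 * L + s * G ^ 2 * 1)) =
            32000 * C0 * (eps * L / s ^ 3) + 24000 * (C0 * (s * G ^ 2)) +
              16000 * (C0 * (s ^ 2 * G ^ 2 * L)) := by ring
        rw [e]
        have e' : 32000 * C0 * (G ^ 2 * (s ^ 2 * L + s) + eps * L / s ^ 3) =
            32000 * C0 * (eps * L / s ^ 3) + 32000 * (C0 * (s * G ^ 2)) +
              32000 * (C0 * (s ^ 2 * G ^ 2 * L)) := by ring
        rw [e']
        linarith

theorem integral_qq_sq {L b : ℝ} (hL : 0 < L) (hb : 0 ≤ b) :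
    IntervalIntegrable (fun τ => qq L τ ^ 2) volume 0 b ∧
    ∫ τ in (0 : ℝ)..b, qq L τ ^ 2 ≤ L := by
  have hpos : ∀ τ ∈ Set.uIcc (0 : ℝ) b, 0 < 1 + τ * L := by
    intro τ hτ
    rw [Set.uIcc_of_le hb] at hτ
    nlinarith [hτ.1]
  have hcont : ContinuousOn (fun τ => qq L τ ^ 2) (Set.uIcc 0 b) := by
    unfold qq
    apply ContinuousOn.pow
    apply ContinuousOn.div continuousOn_const (by fun_prop)
    intro τ hτ
    exact (hpos τ hτ).ne'
  refine ⟨hcont.intervalIntegrable, ?_⟩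
  have hder : ∀ τ ∈ Set.uIcc (0 : ℝ) b, HasDerivAt (fun τ => -(L / (1 + τ * L))) (qq L τ ^ 2) τ := by
    intro τ hτ
    have h1 : HasDerivAt (fun τ : ℝ => 1 + τ * L) (1 * L) τ :=
      ((hasDerivAt_id τ).mul_const L).const_add 1
    have h2 := ((hasDerivAt_const τ L).div h1 (hpos τ hτ).ne').neg
    refine h2.congr_deriv ?_
    unfold qq
    have := (hpos τ hτ).ne'
    field_simp
    ring
  rw [intervalIntegral.integral_eq_sub_of_hasDerivAt hder hcont.intervalIntegrable]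
  have : 0 ≤ L / (1 + b * L) := by positivity
  simp
  linarith

theorem continuous_Rs (s : ℝ) (nL : ℕ) (d : (Fin 3 → ℤ) → P3) (x : P3) :
    Continuous fun τ => Rs s nL d τ x := by
  unfold Rs
  apply continuous_finsetSum
  intro α _
  exact (continuous_gau_param _).sub (continuous_gau_param _)

/-- `Vs - V0` through slices -/
theorem Vs_sub {lam s a : ℝ} {nL : ℕ} {d : (Fin 3 → ℤ) → P3} (x : P3) :
    Vs lam s a nL d x - V0 lam s a nL x =
      -(lam * (2 / √π)) * (∫ τ in (0 : ℝ)..√a, Rs s nL d τ x) -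
        lam * √(a / π) * Rs s nL d (√a) x := by
  rw [← Vs_zero]
  unfold Vs
  rw [← Finset.sum_sub_distrib]
  have e : ∫ τ in (0 : ℝ)..√a, Rs s nL d τ x =
      ∑ α ∈ Box nL, ((∫ τ in (0 : ℝ)..√a, gau τ (x - pt s α + d α)) -
        ∫ τ in (0 : ℝ)..√a, gau τ (x - pt s α)) := by
    unfold Rs
    rw [intervalIntegral.integral_finsetSum]
    · apply Finset.sum_congr rfl
      intro α _
      rw [intervalIntegral.integral_sub ((continuous_gau_param _).intervalIntegrable _ _)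
        ((continuous_gau_param _).intervalIntegrable _ _)]
    · intro α _
      exact ((continuous_gau_param _).sub (continuous_gau_param _)).intervalIntegrable _ _
  rw [e]
  unfold Rs
  rw [Finset.mul_sum, Finset.mul_sum, ← Finset.sum_sub_distrib]
  apply Finset.sum_congr rfl
  intro α _
  unfold Psi LR nuc
  have e1 : x - (pt s α - d α) = x - pt s α + d α := by abel
  rw [e1, sub_zero]
  ring

set_option maxHeartbeats 1000000 in
/-- node C.5 -/
theorem c5 : C5Stmt := by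
  refine ⟨100000 * C0, ?_⟩
  intro lam s K a nL d w L G eps hlam hs hs1 hK ha hL hn hG heps H x
  have hC0 := C0_pos
  have hL0 : 0 < L := by linarith
  have hG0 : 0 ≤ G := by linarith
  have hK0 : 0 < K := by linarith
  set b := 1 / (K * s) with hb
  have hb0 : 0 < b := by rw [hb]; positivity
  have hab : √a = b := by
    rw [ha, hb, Real.sqrt_div zero_le_one, Real.sqrt_one, Real.sqrt_sq (by positivity)]
  have hab2 : √(a / π) = b / √π := by
    rw [Real.sqrt_div (by rw [ha]; positivity), hab]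
  have hbs : b * s ≤ 1 := by
    rw [hb]
    have : 1 / (K * s) * s = 1 / K := by field_simp
    rw [this, div_le_one hK0]
    exact hK
  have hbinv : 1 / b = K * s := by rw [hb]; simp
  have hcs : HasCompactSupport w := compactSupp H.supp
  have hπ := Real.pi_pos
  have hsp : 0 < √π := Real.sqrt_pos.mpr hπ
  have hsp2 : √π * √π = π := Real.mul_self_sqrt hπ.le
  set E := G ^ 2 * (s ^ 2 * L + s) + eps * L / s ^ 3 with hE
  have hE0 : 0 ≤ E := by rw [hE]; positivity
  -- the integral term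
  obtain ⟨hi1, hi2⟩ := int_tau H.smooth hcs hb0.le x
  have hiR : IntervalIntegrable (fun τ => Rs s nL d τ x) volume 0 b :=
    (continuous_Rs s nL d x).intervalIntegrable _ _
  obtain ⟨hq1, hq2⟩ := integral_qq_sq hL0 hb0.le
  have hI : |(∫ τ in (0 : ℝ)..b, Rs s nL d τ x) -
      1 / (4 * π) * ∫ τ in (0 : ℝ)..b, ∫ y, Hf w τ x y| ≤ 32000 * C0 * E := by
    rw [← intervalIntegral.integral_const_mul, ← intervalIntegral.integral_sub hiR
      (hi1.const_mul _)]
    have hgi : IntervalIntegrable (fun τ => 32000 * C0 *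
        (s ^ 2 * G ^ 2 * (1 + qq L τ ^ 2) + eps / s ^ 3 * qq L τ ^ 2)) volume 0 b := by
      apply IntervalIntegrable.const_mul
      apply IntervalIntegrable.add
      · apply IntervalIntegrable.const_mul
        exact (intervalIntegrable_const).add hq1
      · exact hq1.const_mul _
    have hle := intervalIntegral.norm_integral_le_of_norm_le (μ := volume) hb0.le
      (f := fun τ => Rs s nL d τ x - 1 / (4 * π) * ∫ y, Hf w τ x y)
      (g := fun τ => 32000 * C0 *
        (s ^ 2 * G ^ 2 * (1 + qq L τ ^ 2) + eps / s ^ 3 * qq L τ ^ 2)) ?_ hgi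
    · rw [Real.norm_eq_abs] at hle
      refine hle.trans ?_
      have e1 : ∫ τ in (0 : ℝ)..b, 32000 * C0 *
          (s ^ 2 * G ^ 2 * (1 + qq L τ ^ 2) + eps / s ^ 3 * qq L τ ^ 2) =
          32000 * C0 * (s ^ 2 * G ^ 2 * (b + ∫ τ in (0 : ℝ)..b, qq L τ ^ 2) +
            eps / s ^ 3 * ∫ τ in (0 : ℝ)..b, qq L τ ^ 2) := by
        rw [intervalIntegral.integral_const_mul, intervalIntegral.integral_add,
          intervalIntegral.integral_const_mul, intervalIntegral.integral_const_mul,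
          intervalIntegral.integral_add intervalIntegrable_const hq1]
        · simp
        · exact (intervalIntegrable_const.add hq1).const_mul _
        · exact hq1.const_mul _
      rw [e1]
      have h5 : s ^ 2 * b ≤ s := by nlinarith
      calc 32000 * C0 * (s ^ 2 * G ^ 2 * (b + ∫ τ in (0 : ℝ)..b, qq L τ ^ 2) +
            eps / s ^ 3 * ∫ τ in (0 : ℝ)..b, qq L τ ^ 2)
          ≤ 32000 * C0 * (s ^ 2 * G ^ 2 * (b + L) + eps / s ^ 3 * L) := by gcongr
        _ = 32000 * C0 * (G ^ 2 * (s ^ 2 * L + s ^ 2 * b) + eps * L / s ^ 3) := by ring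
        _ ≤ 32000 * C0 * E := by rw [hE]; gcongr
    · refine Filter.Eventually.of_forall fun τ hτ => ?_
      have hτs : τ * s ≤ 1 := le_trans (by have := hτ.2; gcongr) hbs
      exact (slice hs hs1 hτ.1 hτs hL hn hG heps H x).trans (maj hs hs1 hτ.1 hL hG heps)
  -- the end point term
  have hEnd : b * |Rs s nL d b x - 1 / (4 * π) * ∫ y, Hf w b x y| ≤ 32000 * C0 * E := by
    refine le_trans ?_ (maj_end hs hs1 hb0 hbs hL hG heps)
    gcongr
    exact slice hs hs1 hb0 hbs hL hn hG heps H x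
  have hEnd2 := endpt H.b0 hb0 x
  have hMoll := moll H.smooth hcs H.b0 hb0 x
  rw [hi2] at hI
  -- assemble
  set A := ∫ τ in (0 : ℝ)..b, Rs s nL d τ x
  set B := ∫ y, w y * gau b (x - y)
  set D := ∫ y, Hf w b x y
  have key : Vs lam s a nL d x - V0 lam s a nL x - lam * w x =
      -(lam * (2 / √π)) * (A - 1 / (4 * π) * (-2 * (b ^ 3 * B))) +
      (-(lam * (1 / √π)) * (b * (Rs s nL d b x - 1 / (4 * π) * D)) +
      (-(lam * (b / √π) * (1 / (4 * π)) * D) +
      lam * ((b / √π) ^ 3 * B - w x))) := by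
    rw [Vs_sub, hab, hab2]
    have e3 : (b / √π) ^ 3 = b ^ 3 / (π * √π) := by
      rw [div_pow, pow_succ (√π) 2, pow_two (√π), hsp2]
    rw [e3]
    field_simp
    ring
  rw [key]
  have hsq1 : 1 / √π ≤ 1 := by
    rw [div_le_one hsp]
    have : (1 : ℝ) = √1 := by simp
    rw [this]
    exact Real.sqrt_le_sqrt (by linarith [Real.pi_gt_three])
  have hsq2 : 2 / √π ≤ 2 := by
    calc 2 / √π = 2 * (1 / √π) := by ring
      _ ≤ 2 * 1 := by gcongr
      _ = 2 := by norm_num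
  have t1 : |-(lam * (2 / √π)) * (A - 1 / (4 * π) * (-2 * (b ^ 3 * B)))| ≤
      lam * (64000 * C0 * E) := by
    rw [abs_mul, abs_neg, abs_of_nonneg (by positivity : 0 ≤ lam * (2 / √π))]
    calc lam * (2 / √π) * |A - 1 / (4 * π) * (-2 * (b ^ 3 * B))|
        ≤ lam * 2 * (32000 * C0 * E) := by gcongr
      _ = lam * (64000 * C0 * E) := by ring
  have t2 : |-(lam * (1 / √π)) * (b * (Rs s nL d b x - 1 / (4 * π) * D))| ≤
      lam * (32000 * C0 * E) := by
    rw [abs_mul, abs_neg, abs_of_nonneg (by positivity : 0 ≤ lam * (1 / √π)), abs_mul,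
      abs_of_pos hb0]
    calc lam * (1 / √π) * (b * |Rs s nL d b x - 1 / (4 * π) * D|)
        ≤ lam * 1 * (32000 * C0 * E) := by gcongr
      _ = lam * (32000 * C0 * E) := by ring
  have t3 : |-(lam * (b / √π) * (1 / (4 * π)) * D)| ≤ lam * (4 * C0 * G * (K * s)) := by
    rw [abs_neg, abs_mul, abs_of_nonneg (by positivity : 0 ≤ lam * (b / √π) * (1 / (4 * π)))]
    calc lam * (b / √π) * (1 / (4 * π)) * |D|
        ≤ lam * (b / √π) * (1 / (4 * π)) * (16 * √π ^ 3 * C0 * G / b ^ 2) := by gcongr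
      _ = lam * (4 * C0 * G * ((√π * √π) / π) * (1 / b)) := by field_simp; ring
      _ = lam * (4 * C0 * G * (K * s)) := by rw [hsp2, div_self hπ.ne', hbinv]; ring
  have t4 : |lam * ((b / √π) ^ 3 * B - w x)| ≤ lam * (8 * C0 * G * (K * s)) := by
    rw [abs_mul, abs_of_nonneg hlam]
    calc lam * |(b / √π) ^ 3 * B - w x| ≤ lam * (8 * C0 * G / b) := by gcongr
      _ = lam * (8 * C0 * G * (1 / b)) := by ring
      _ = _ := by rw [hbinv]
  have hGG : G ≤ G ^ 2 := by nlinarith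
  have hsK : s ≤ K * s := by nlinarith
  refine (abs_add_le _ _).trans ?_
  refine (add_le_add t1 ((abs_add_le _ _).trans (add_le_add t2 ((abs_add_le _ _).trans
    (add_le_add t3 t4))))).trans ?_
  have f1 : E ≤ G ^ 2 * (s ^ 2 * L + K * s) + eps * L / s ^ 3 := by
    rw [hE]; gcongr
  have f2 : G * (K * s) ≤ G ^ 2 * (s ^ 2 * L + K * s) + eps * L / s ^ 3 := by
    have h1 : G * (K * s) ≤ G ^ 2 * (K * s) := by gcongr
    have h2 : 0 ≤ G ^ 2 * (s ^ 2 * L) := by positivity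
    have h3 : 0 ≤ eps * L / s ^ 3 := by positivity
    have h4 : G ^ 2 * (s ^ 2 * L + K * s) = G ^ 2 * (s ^ 2 * L) + G ^ 2 * (K * s) := by ring
    linarith
  set F := G ^ 2 * (s ^ 2 * L + K * s) + eps * L / s ^ 3
  calc lam * (64000 * C0 * E) + (lam * (32000 * C0 * E) +
        (lam * (4 * C0 * G * (K * s)) + lam * (8 * C0 * G * (K * s))))
      = lam * C0 * (96000 * E + 12 * (G * (K * s))) := by ring
    _ ≤ lam * C0 * (96000 * F + 12 * F) := by gcongr
    _ ≤ 100000 * C0 * lam * F := by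
        have h1 : 0 ≤ F := hE0.trans f1
        have h2 : 0 ≤ lam * C0 * F := by positivity
        have h3 : lam * C0 * (96000 * F + 12 * F) = 96012 * (lam * C0 * F) := by ring
        have h4 : 100000 * C0 * lam * F = 100000 * (lam * C0 * F) := by ring
        rw [h3, h4]
        linarith

end Crest.Agent.R338.Di
end
end

-- ▼ part R338/Sel1
section

/-!
# Row 338, node BH2 (helper695), file 1: bilinear one- and two-body forms on tensors

`b1`, `b2` : sesquilinear versions of `form1`, `form2`; crude bounds; embedding of tensors along an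
injection of the orbitals.
-/

set_option autoImplicit false
set_option linter.unusedSectionVars false

noncomputable section

open Function
open scoped ComplexConjugate BigOperators

namespace Crest.Agent.R338.Sel

section gen

variable {V : Type} [Fintype V] [DecidableEq V] {n : ℕ}

/-- bilinear one-body form -/
def b1 (h : V → V → ℝ) (D E : (Fin n → V) → ℂ) : ℝ :=
  ∑ i, ∑ v : Fin n → V, ∑ b, h (v i) b * (conj (D v) * E (update v i b)).re

/-- bilinear two-body form -/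
def b2 (W : V → V → V → V → ℝ) (D E : (Fin n → V) → ℂ) : ℝ :=
  ∑ i, ∑ j, if i < j then ∑ v : Fin n → V, ∑ b, ∑ d, W (v i) b (v j) d *
    (conj (D v) * E (update (update v i b) j d)).re else 0



theorem b1_add_left (h : V → V → ℝ) (D D' E : (Fin n → V) → ℂ) :
    b1 h (D + D') E = b1 h D E + b1 h D' E := by
  simp only [b1, ← Finset.sum_add_distrib]
  refine Finset.sum_congr rfl fun i _ => Finset.sum_congr rfl fun v _ =>
    Finset.sum_congr rfl fun b _ => ?_
  rw [Pi.add_apply, map_add, add_mul, Complex.add_re]; ring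

theorem b1_add_right (h : V → V → ℝ) (D E E' : (Fin n → V) → ℂ) :
    b1 h D (E + E') = b1 h D E + b1 h D E' := by
  simp only [b1, ← Finset.sum_add_distrib]
  refine Finset.sum_congr rfl fun i _ => Finset.sum_congr rfl fun v _ =>
    Finset.sum_congr rfl fun b _ => ?_
  rw [Pi.add_apply, mul_add, Complex.add_re]; ring

theorem b1_add_mat (h h' : V → V → ℝ) (D E : (Fin n → V) → ℂ) :
    b1 (fun a b => h a b + h' a b) D E = b1 h D E + b1 h' D E := by
  simp only [b1, ← Finset.sum_add_distrib, add_mul]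

theorem b2_add_left (W : V → V → V → V → ℝ) (D D' E : (Fin n → V) → ℂ) :
    b2 W (D + D') E = b2 W D E + b2 W D' E := by
  simp only [b2, ← Finset.sum_add_distrib]
  refine Finset.sum_congr rfl fun i _ => Finset.sum_congr rfl fun j _ => ?_
  split_ifs
  · simp only [← Finset.sum_add_distrib]
    refine Finset.sum_congr rfl fun v _ => Finset.sum_congr rfl fun b _ =>
      Finset.sum_congr rfl fun d _ => ?_
    rw [Pi.add_apply, map_add, add_mul, Complex.add_re]; ring
  · simp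

theorem b2_add_right (W : V → V → V → V → ℝ) (D E E' : (Fin n → V) → ℂ) :
    b2 W D (E + E') = b2 W D E + b2 W D E' := by
  simp only [b2, ← Finset.sum_add_distrib]
  refine Finset.sum_congr rfl fun i _ => Finset.sum_congr rfl fun j _ => ?_
  split_ifs
  · simp only [← Finset.sum_add_distrib]
    refine Finset.sum_congr rfl fun v _ => Finset.sum_congr rfl fun b _ =>
      Finset.sum_congr rfl fun d _ => ?_
    rw [Pi.add_apply, mul_add, Complex.add_re]; ring
  · simp

/-- `(v, b) ↦ (update v i b, v i)` -/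
def swapE (V : Type) [DecidableEq V] (i : Fin n) : (Fin n → V) × V ≃ (Fin n → V) × V where
  toFun p := (update p.1 i p.2, p.1 i)
  invFun p := (update p.1 i p.2, p.1 i)
  left_inv p := by simp
  right_inv p := by simp

theorem sum_update (F : (Fin n → V) → ℝ) (i : Fin n) :
    ∑ v : Fin n → V, ∑ b, F (update v i b) = Fintype.card V * ∑ v, F v := by
  have h := (swapE V i).sum_comp (fun p : (Fin n → V) × V => F p.1)
  rw [Fintype.sum_prod_type, Fintype.sum_prod_type] at h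
  rw [show (∑ v : Fin n → V, ∑ b, F (update v i b)) =
    ∑ x : Fin n → V, ∑ y, F ((swapE V i) (x, y)).1 from rfl, h, Finset.mul_sum]
  refine Finset.sum_congr rfl fun v _ => ?_
  simp

theorem tnSq_nonneg (D : (Fin n → V) → ℂ) : 0 ≤ tnSq D :=
  Finset.sum_nonneg fun _ _ => by positivity

theorem amgm {x y t : ℝ} (ht : 0 < t) : x * y ≤ (t * x ^ 2 + t⁻¹ * y ^ 2) / 2 := by
  have h : 0 ≤ t⁻¹ * (t * x - y) ^ 2 := by positivity
  have e : t⁻¹ * (t * x - y) ^ 2 = t * x ^ 2 + t⁻¹ * y ^ 2 - 2 * (x * y) := by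
    field_simp; ring
  linarith

theorem term_le {H t : ℝ} (hH : 0 ≤ H) (ht : 0 < t) {x : ℝ} (hx : |x| ≤ H) (z w : ℂ) :
    |x * (conj z * w).re| ≤ H * ((t * ‖z‖ ^ 2 + t⁻¹ * ‖w‖ ^ 2) / 2) := by
  rw [abs_mul]
  refine mul_le_mul hx ?_ (abs_nonneg _) hH
  refine (Complex.abs_re_le_norm _).trans ?_
  rw [norm_mul, Complex.norm_conj]
  exact amgm ht

theorem abs_b1_le {h : V → V → ℝ} {H t : ℝ} (hH : 0 ≤ H) (hh : ∀ a b, |h a b| ≤ H) (ht : 0 < t)
    (D E : (Fin n → V) → ℂ) :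
    |b1 h D E| ≤ n * (Fintype.card V * H) * ((t * tnSq D + t⁻¹ * tnSq E) / 2) := by
  have key : ∀ i : Fin n, |∑ v : Fin n → V, ∑ b, h (v i) b * (conj (D v) * E (update v i b)).re| ≤
      (Fintype.card V * H) * ((t * tnSq D + t⁻¹ * tnSq E) / 2) := by
    intro i
    calc |∑ v : Fin n → V, ∑ b, h (v i) b * (conj (D v) * E (update v i b)).re|
        ≤ ∑ v : Fin n → V, ∑ b, H * ((t * ‖D v‖ ^ 2 + t⁻¹ * ‖E (update v i b)‖ ^ 2) / 2) := by
          refine (Finset.abs_sum_le_sum_abs _ _).trans (Finset.sum_le_sum fun v _ => ?_)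
          refine (Finset.abs_sum_le_sum_abs _ _).trans (Finset.sum_le_sum fun b _ => ?_)
          exact term_le hH ht (hh _ _) _ _
      _ = H * t / 2 * (∑ v : Fin n → V, ∑ _b : V, ‖D v‖ ^ 2) +
          H * t⁻¹ / 2 * (∑ v : Fin n → V, ∑ b, ‖E (update v i b)‖ ^ 2) := by
          simp only [Finset.mul_sum, ← Finset.sum_add_distrib]
          refine Finset.sum_congr rfl fun v _ => Finset.sum_congr rfl fun b _ => ?_
          ring
      _ = (Fintype.card V * H) * ((t * tnSq D + t⁻¹ * tnSq E) / 2) := by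
          rw [sum_update (fun v => ‖E v‖ ^ 2) i]
          have : (∑ v : Fin n → V, ∑ _b : V, ‖D v‖ ^ 2) = Fintype.card V * tnSq D := by
            simp [tnSq, Finset.mul_sum]
          rw [this]
          simp only [tnSq]
          ring
  calc |b1 h D E| ≤ ∑ _i : Fin n, (Fintype.card V * H) * ((t * tnSq D + t⁻¹ * tnSq E) / 2) :=
        (Finset.abs_sum_le_sum_abs _ _).trans (Finset.sum_le_sum fun i _ => key i)
    _ = _ := by
        simp only [Finset.sum_const, Finset.card_univ, Fintype.card_fin, nsmul_eq_mul]; ring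

theorem abs_b2_le {W : V → V → V → V → ℝ} {H t : ℝ} (hH : 0 ≤ H) (hW : ∀ a b c d, |W a b c d| ≤ H)
    (ht : 0 < t) (D E : (Fin n → V) → ℂ) :
    |b2 W D E| ≤ n ^ 2 * ((Fintype.card V) ^ 2 * H) * ((t * tnSq D + t⁻¹ * tnSq E) / 2) := by
  have hnn : 0 ≤ (t * tnSq D + t⁻¹ * tnSq E) / 2 := by
    have := tnSq_nonneg D; have := tnSq_nonneg E; positivity
  have key : ∀ i j : Fin n, |if i < j then ∑ v : Fin n → V, ∑ b, ∑ d, W (v i) b (v j) d *
      (conj (D v) * E (update (update v i b) j d)).re else 0| ≤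
      ((Fintype.card V) ^ 2 * H) * ((t * tnSq D + t⁻¹ * tnSq E) / 2) := by
    intro i j
    split_ifs
    · calc |∑ v : Fin n → V, ∑ b, ∑ d, W (v i) b (v j) d *
            (conj (D v) * E (update (update v i b) j d)).re|
          ≤ ∑ v : Fin n → V, ∑ b, ∑ d, H * ((t * ‖D v‖ ^ 2 +
              t⁻¹ * ‖E (update (update v i b) j d)‖ ^ 2) / 2) := by
            refine (Finset.abs_sum_le_sum_abs _ _).trans (Finset.sum_le_sum fun v _ => ?_)
            refine (Finset.abs_sum_le_sum_abs _ _).trans (Finset.sum_le_sum fun b _ => ?_)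
            refine (Finset.abs_sum_le_sum_abs _ _).trans (Finset.sum_le_sum fun d _ => ?_)
            exact term_le hH ht (hW _ _ _ _) _ _
        _ = H * t / 2 * (∑ v : Fin n → V, ∑ _b : V, ∑ _d : V, ‖D v‖ ^ 2) +
            H * t⁻¹ / 2 * (∑ v : Fin n → V, ∑ b, ∑ d, ‖E (update (update v i b) j d)‖ ^ 2) := by
            simp only [Finset.mul_sum, ← Finset.sum_add_distrib]
            refine Finset.sum_congr rfl fun v _ => Finset.sum_congr rfl fun b _ =>
              Finset.sum_congr rfl fun d _ => ?_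
            ring
        _ = ((Fintype.card V) ^ 2 * H) * ((t * tnSq D + t⁻¹ * tnSq E) / 2) := by
            have e1 : (∑ v : Fin n → V, ∑ b, ∑ d, ‖E (update (update v i b) j d)‖ ^ 2) =
                (Fintype.card V) ^ 2 * tnSq E := by
              have h1 := sum_update (fun v : Fin n → V => ∑ d, ‖E (update v j d)‖ ^ 2) i
              have h2 := sum_update (fun v : Fin n → V => ‖E v‖ ^ 2) j
              rw [h1, h2]
              simp only [tnSq]; ring
            have e2 : (∑ v : Fin n → V, ∑ _b : V, ∑ _d : V, ‖D v‖ ^ 2) =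
                (Fintype.card V) ^ 2 * tnSq D := by
              simp only [Finset.sum_const, Finset.card_univ, nsmul_eq_mul, tnSq, Finset.mul_sum]
              refine Finset.sum_congr rfl fun v _ => ?_
              ring
            rw [e1, e2]; ring
    · rw [abs_zero]; positivity
  calc |b2 W D E| ≤ ∑ _i : Fin n, ∑ _j : Fin n,
        ((Fintype.card V) ^ 2 * H) * ((t * tnSq D + t⁻¹ * tnSq E) / 2) := by
        refine (Finset.abs_sum_le_sum_abs _ _).trans (Finset.sum_le_sum fun i _ => ?_)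
        exact (Finset.abs_sum_le_sum_abs _ _).trans (Finset.sum_le_sum fun j _ => key i j)
    _ = _ := by
        simp only [Finset.sum_const, Finset.card_univ, Fintype.card_fin, nsmul_eq_mul]; ring

/-- diagonal one-body form -/
theorem b1_diag (ε : V → ℝ) (D : (Fin n → V) → ℂ) :
    b1 (fun a b => if a = b then ε a else 0) D D = ∑ v : Fin n → V, (∑ i, ε (v i)) * ‖D v‖ ^ 2 := by
  unfold b1
  rw [Finset.sum_comm]
  refine Finset.sum_congr rfl fun v _ => ?_
  rw [Finset.sum_mul]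
  refine Finset.sum_congr rfl fun i _ => ?_
  rw [Finset.sum_eq_single (v i)]
  · beta_reduce
    rw [if_pos rfl, update_eq_self, Complex.conj_mul']
    norm_cast
  · intro b _ hb
    beta_reduce
    rw [if_neg (Ne.symm hb), zero_mul]
  · intro h; exact absurd (Finset.mem_univ _) h

end gen

/-! ### embedding along an injection of the orbitals -/

section emb

variable {U V : Type} [Fintype U] [DecidableEq U] [Fintype V] [DecidableEq V] {n : ℕ}

/-- extension by zero -/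
def ext (g : U → V) (c : (Fin n → U) → ℂ) : (Fin n → V) → ℂ :=
  Function.extend (fun f : Fin n → U => g ∘ f) c 0

variable {g : U → V} (hg : Injective g)

include hg

theorem comp_inj : Injective (fun f : Fin n → U => g ∘ f) := hg.comp_left

theorem ext_comp (c : (Fin n → U) → ℂ) (f : Fin n → U) : ext g c (g ∘ f) = c f :=
  (comp_inj hg).extend_apply c 0 f

omit hg [Fintype U] [DecidableEq U] [Fintype V] [DecidableEq V] in
theorem ext_not (c : (Fin n → U) → ℂ) {v : Fin n → V} (hv : ¬ ∃ f : Fin n → U, g ∘ f = v) :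
    ext g c v = 0 :=
  Function.extend_apply' _ _ _ hv

omit hg [Fintype U] [DecidableEq U] [Fintype V] [DecidableEq V] in
theorem range_iff (v : Fin n → V) : (∃ f : Fin n → U, g ∘ f = v) ↔ ∀ i, ∃ u, g u = v i := by
  constructor
  · rintro ⟨f, rfl⟩ i
    exact ⟨f i, rfl⟩
  · intro h
    choose f hf using h
    exact ⟨f, funext hf⟩

/-- sums over the embedded configurations -/
theorem sum_ext (F : (Fin n → V) → ℝ) (hF : ∀ v, (¬ ∃ f : Fin n → U, g ∘ f = v) → F v = 0) :
    ∑ v, F v = ∑ f : Fin n → U, F (g ∘ f) :=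
  (Fintype.sum_of_injective (fun f : Fin n → U => g ∘ f) (comp_inj hg) _ F
    (fun v hv => hF v hv) fun _ => rfl).symm

theorem sum_ext1 (F : V → ℝ) (hF : ∀ v, (¬ ∃ u, g u = v) → F v = 0) :
    ∑ v, F v = ∑ u : U, F (g u) :=
  (Fintype.sum_of_injective g hg _ F (fun v hv => hF v hv) fun _ => rfl).symm

theorem tnSq_ext (c : (Fin n → U) → ℂ) : tnSq (ext g c) = tnSq c := by
  unfold tnSq
  rw [sum_ext hg _ (fun v hv => by rw [ext_not c hv]; simp)]
  refine Finset.sum_congr rfl fun f _ => ?_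
  rw [ext_comp hg]

theorem anti_ext {c : (Fin n → U) → ℂ} (hc : AntiSym c) : AntiSym (ext g c) := by
  intro σ v
  by_cases hv : ∃ f : Fin n → U, g ∘ f = v
  · obtain ⟨f, rfl⟩ := hv
    rw [comp_assoc, ext_comp hg, ext_comp hg, hc]
  · have hv' : ¬ ∃ f : Fin n → U, g ∘ f = v ∘ σ := by
      rintro ⟨f, hf⟩
      refine hv ⟨f ∘ σ.symm, ?_⟩
      rw [← comp_assoc, hf, comp_assoc]
      simp
    rw [ext_not c hv, ext_not c hv', mul_zero]

omit hg in
theorem update_comp (f : Fin n → U) (i : Fin n) (u : U) :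
    update (g ∘ f) i (g u) = g ∘ update f i u := by
  rw [Function.comp_update]

omit hg [Fintype U] [DecidableEq U] [Fintype V] in
theorem ext_update_not (c : (Fin n → U) → ℂ) (v : Fin n → V) (i : Fin n) {b : V}
    (hb : ¬ ∃ u, g u = b) : ext g c (update v i b) = 0 := by
  refine ext_not c ?_
  rw [range_iff]
  intro h
  have := h i
  rw [update_self] at this
  exact hb this

theorem b1_ext (h : V → V → ℝ) (c d : (Fin n → U) → ℂ) :
    b1 h (ext g c) (ext g d) = b1 (fun a b => h (g a) (g b)) c d := by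
  unfold b1
  refine Finset.sum_congr rfl fun i _ => ?_
  rw [sum_ext hg _ (fun v hv => by rw [ext_not c hv]; simp)]
  refine Finset.sum_congr rfl fun f _ => ?_
  rw [sum_ext1 hg _ (fun b hb => by rw [ext_update_not d _ i hb]; simp)]
  refine Finset.sum_congr rfl fun u _ => ?_
  rw [update_comp, ext_comp hg, ext_comp hg, comp_apply]

theorem b2_ext (W : V → V → V → V → ℝ) (c d : (Fin n → U) → ℂ) :
    b2 W (ext g c) (ext g d) = b2 (fun a b a' b' => W (g a) (g b) (g a') (g b')) c d := by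
  unfold b2
  refine Finset.sum_congr rfl fun i _ => Finset.sum_congr rfl fun j _ => ?_
  by_cases hij : i < j
  · rw [if_pos hij, if_pos hij]
    rw [sum_ext hg _ (fun v hv => by rw [ext_not c hv]; simp)]
    refine Finset.sum_congr rfl fun f _ => ?_
    rw [sum_ext1 hg _ (fun b hb => ?_)]
    · refine Finset.sum_congr rfl fun u _ => ?_
      rw [sum_ext1 hg _ (fun b hb => by rw [ext_update_not d _ j hb]; simp)]
      refine Finset.sum_congr rfl fun u' _ => ?_
      rw [update_comp, update_comp, ext_comp hg, ext_comp hg, comp_apply, comp_apply]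
    · refine Finset.sum_eq_zero fun d' _ => ?_
      rw [update_comm hij.ne, ext_update_not d _ i hb]; simp
  · rw [if_neg hij, if_neg hij]

end emb

end Crest.Agent.R338.Sel

end
end

-- ▼ part R338/WP1
section

/-!
# Row 338, node WP (helper518), file 1: matrix elements of the designer potential

Product integrals on `Pos3`, the matrix elements `w1 (wpot ..) a b` (exactly diagonal selection
part, hopping part), core expectation.
-/

set_option autoImplicit false

open MeasureTheory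
open Crest.MathPhysics.ElectronicCoulomb

noncomputable section

namespace Crest.Agent.R338.WP

/-! ### product integrals -/

theorem integral_pr3 (f g u : ℝ → ℝ) :
    ∫ x : Pos3, f (x 0) * g (x 1) * u (x 2) = (∫ t, f t) * (∫ t, g t) * (∫ t, u t) := by
  have e : ∫ x : Pos3, f (x 0) * g (x 1) * u (x 2) =
      ∫ y : Fin 3 → ℝ, ∏ i, (![f, g, u] i) (y i) := by
    rw [← (EuclideanSpace.volume_preserving_symm_measurableEquiv_toLp (Fin 3)).integral_comp'
      (g := fun y : Fin 3 → ℝ => ∏ i, (![f, g, u] i) (y i))]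
    refine integral_congr_ae (Filter.Eventually.of_forall fun x => ?_)
    simp only [Fin.prod_univ_three]
    rfl
  rw [e, integral_fintype_prod_volume_eq_prod (fun i y => (![f, g, u] i) y)]
  simp [Fin.prod_univ_three]

theorem integrable_pr3 {f g u : ℝ → ℝ} (hf : Integrable f) (hg : Integrable g)
    (hu : Integrable u) : Integrable (fun x : Pos3 => f (x 0) * g (x 1) * u (x 2)) := by
  have h : Integrable (fun y : Fin 3 → ℝ => ∏ i, (![f, g, u] i) (y i)) := by
    apply Integrable.fintype_prod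
    intro i
    fin_cases i
    · exact hf
    · exact hg
    · exact hu
  have h2 := (EuclideanSpace.volume_preserving_symm_measurableEquiv_toLp (Fin 3)).integrable_comp_of_integrable h
  refine h2.congr (Filter.Eventually.of_forall fun x => ?_)
  simp only [Function.comp, Fin.prod_univ_three]
  rfl


theorem w1_pr3 (f g u : ℝ → ℝ) (a b : Idx) :
    w1 (fun x => f (x 0) * g (x 1) * u (x 2)) a b =
      (∫ t, f t * (HO.hf (a 0) t * HO.hf (b 0) t)) * (∫ t, g t * (HO.hf (a 1) t * HO.hf (b 1) t)) *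
        (∫ t, u t * (HO.hf (a 2) t * HO.hf (b 2) t)) := by
  rw [w1_eq, ← integral_pr3]
  refine integral_congr_ae (Filter.Eventually.of_forall fun x => ?_)
  simp only [HO.Phi, Fin.prod_univ_three]
  ring



/-! ### the selection functions of the interface are those of `Lag3` -/

theorem lag_eq (m : ℕ) (y : ℝ) : lag m y = Lag.lag m y := by
  unfold lag Lag.lag
  refine Finset.sum_congr rfl fun j _ => ?_
  rw [neg_pow y j]
  ring

theorem Dm_eq (m : ℕ) (x : ℝ) : Dm m x = Lag.Dsel m x := by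
  unfold Dm Lag.Dsel
  refine integral_congr_ae (Filter.Eventually.of_forall fun q => ?_)
  simp only [lag_eq]



/-! ### four Hermite functions against a Gaussian -/

/-- `∫ e^{-2t²} h_p h_q h_a h_b` -/
def G4 (p q a b : ℕ) : ℝ :=
  ∫ t : ℝ, Real.exp (-2 * t ^ 2) * (HO.hf p t * HO.hf q t) * (HO.hf a t * HO.hf b t)

theorem integrable_G4 (p q a b : ℕ) : Integrable
    (fun t : ℝ => Real.exp (-2 * t ^ 2) * (HO.hf p t * HO.hf q t) * (HO.hf a t * HO.hf b t)) := by
  have h := HO.integrable_poly_gauss (HO.hP p * HO.hP q * HO.hP a * HO.hP b) (b := 4) (by norm_num)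
  refine h.congr (Filter.Eventually.of_forall fun t => ?_)
  simp only [HO.hf, Polynomial.eval_mul]
  have e : Real.exp (-4 * t ^ 2) = Real.exp (-2 * t ^ 2) * Real.exp (-(t ^ 2) / 2) *
      Real.exp (-(t ^ 2) / 2) * Real.exp (-(t ^ 2) / 2) * Real.exp (-(t ^ 2) / 2) := by
    rw [← Real.exp_add, ← Real.exp_add, ← Real.exp_add, ← Real.exp_add]
    congr 1; ring
  rw [e]; ring




/-! ### the pieces of the potential -/

/-- Kronecker delta -/
def dl (a b : ℕ) : ℝ := if a = b then 1 else 0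

theorem vhop_eq (n k i j : ℕ) : vhop n k i j = fun x : Pos3 =>
    (Real.exp (-2 * (x 0) ^ 2) * (HO.hf (mi n k i) (x 0) * HO.hf (mi n k j) (x 0))) *
    (Real.exp (-2 * (x 1) ^ 2) * (HO.hf (n0' n k - mi n k i) (x 1) *
      HO.hf (n0' n k - mi n k j) (x 1))) * 1 := by
  funext x
  simp only [vhop, hf_eq, mul_one]

theorem w1_vhop (n k i j : ℕ) (a b : Idx) : w1 (vhop n k i j) a b =
    G4 (mi n k i) (mi n k j) (a 0) (b 0) *
      G4 (n0' n k - mi n k i) (n0' n k - mi n k j) (a 1) (b 1) * dl (a 2) (b 2) := by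
  rw [vhop_eq, w1_pr3 (fun t => Real.exp (-2 * t ^ 2) * (HO.hf (mi n k i) t * HO.hf (mi n k j) t))
    (fun t => Real.exp (-2 * t ^ 2) * (HO.hf (n0' n k - mi n k i) t * HO.hf (n0' n k - mi n k j) t))
    (fun _ => 1)]
  simp only [one_mul, HO.integral_hf_mul_hf]
  rfl

theorem integrable_vhop (n k i j : ℕ) (a b : Idx) :
    Integrable (fun x => vhop n k i j x * (orb a x * orb b x)) := by
  have h := integrable_pr3 (integrable_G4 (mi n k i) (mi n k j) (a 0) (b 0))
    (integrable_G4 (n0' n k - mi n k i) (n0' n k - mi n k j) (a 1) (b 1))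
    (HO.integrable_hf_mul_hf (a 2) (b 2))
  refine h.congr (Filter.Eventually.of_forall fun x => ?_)
  simp only [vhop_eq, orb_eq, HO.Phi, Fin.prod_univ_three]
  ring

/-- `∫ D_m h_a h_b` -/
def D2 (m a b : ℕ) : ℝ := ∫ t : ℝ, Dm m t * (HO.hf a t * HO.hf b t)

theorem integrable_D2 (m a b : ℕ) : Integrable (fun t : ℝ => Dm m t * (HO.hf a t * HO.hf b t)) := by
  simp only [Dm_eq]
  exact Lag.integrable_Dsel_hf m a b

theorem D2_diag (m a : ℕ) : D2 m a a = dl m a := by
  unfold D2 dl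
  simp only [Dm_eq]
  exact Lag.integral_Dsel_hf_sq m a

theorem w1_Dm0 (m : ℕ) (a b : Idx) : w1 (fun x => Dm m (x 0)) a b =
    D2 m (a 0) (b 0) * dl (a 1) (b 1) * dl (a 2) (b 2) := by
  have h := w1_pr3 (Dm m) (fun _ => 1) (fun _ => 1) a b
  simp only [mul_one, one_mul, HO.integral_hf_mul_hf] at h
  exact h

theorem w1_Dm2 (m : ℕ) (a b : Idx) : w1 (fun x => Dm m (x 2)) a b =
    dl (a 0) (b 0) * dl (a 1) (b 1) * D2 m (a 2) (b 2) := by
  have h := w1_pr3 (fun _ => 1) (fun _ => 1) (Dm m) a b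
  simp only [one_mul, HO.integral_hf_mul_hf] at h
  exact h

theorem integrable_Dm0 (m : ℕ) (a b : Idx) :
    Integrable (fun x : Pos3 => Dm m (x 0) * (orb a x * orb b x)) := by
  have h := integrable_pr3 (integrable_D2 m (a 0) (b 0)) (HO.integrable_hf_mul_hf (a 1) (b 1))
    (HO.integrable_hf_mul_hf (a 2) (b 2))
  refine h.congr (Filter.Eventually.of_forall fun x => ?_)
  simp only [orb_eq, HO.Phi, Fin.prod_univ_three]
  ring

theorem integrable_Dm2 (m : ℕ) (a b : Idx) :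
    Integrable (fun x : Pos3 => Dm m (x 2) * (orb a x * orb b x)) := by
  have h := integrable_pr3 (HO.integrable_hf_mul_hf (a 0) (b 0)) (HO.integrable_hf_mul_hf (a 1) (b 1))
    (integrable_D2 m (a 2) (b 2))
  refine h.congr (Filter.Eventually.of_forall fun x => ?_)
  simp only [orb_eq, HO.Phi, Fin.prod_univ_three]
  ring

/-! ### linearity -/

/-- `w` has finite matrix elements -/
def OKw (w : Pos3 → ℝ) : Prop := ∀ a b : Idx, Integrable (fun x => w x * (orb a x * orb b x))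

theorem OKw.add {w v : Pos3 → ℝ} (hw : OKw w) (hv : OKw v) : OKw (fun x => w x + v x) := by
  intro a b
  simp only [add_mul]
  exact (hw a b).add (hv a b)

theorem OKw.sub {w v : Pos3 → ℝ} (hw : OKw w) (hv : OKw v) : OKw (fun x => w x - v x) := by
  intro a b
  simp only [sub_mul]
  exact (hw a b).sub (hv a b)

theorem OKw.const_mul {w : Pos3 → ℝ} (hw : OKw w) (c : ℝ) : OKw (fun x => c * w x) := by
  intro a b
  simp only [mul_assoc]
  exact (hw a b).const_mul c

theorem OKw.zero : OKw (fun _ => 0) := by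
  intro a b
  simp

theorem OKw.sum {ι : Type*} (s : Finset ι) {w : ι → Pos3 → ℝ} (hw : ∀ i ∈ s, OKw (w i)) :
    OKw (fun x => ∑ i ∈ s, w i x) := by
  intro a b
  simp only [Finset.sum_mul]
  exact integrable_finsetSum _ fun i hi => hw i hi a b

theorem OKw.ite {p : Prop} [Decidable p] {w v : Pos3 → ℝ} (hw : OKw w) (hv : OKw v) :
    OKw (fun x => if p then w x else v x) := by
  split_ifs <;> assumption

theorem w1_add {w v : Pos3 → ℝ} (hw : OKw w) (hv : OKw v) (a b : Idx) :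
    w1 (fun x => w x + v x) a b = w1 w a b + w1 v a b := by
  unfold w1
  simp only [add_mul]
  exact integral_add (hw a b) (hv a b)

theorem w1_sub {w v : Pos3 → ℝ} (hw : OKw w) (hv : OKw v) (a b : Idx) :
    w1 (fun x => w x - v x) a b = w1 w a b - w1 v a b := by
  unfold w1
  simp only [sub_mul]
  exact integral_sub (hw a b) (hv a b)

theorem w1_const_mul (w : Pos3 → ℝ) (c : ℝ) (a b : Idx) :
    w1 (fun x => c * w x) a b = c * w1 w a b := by
  unfold w1
  simp only [mul_assoc]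
  exact integral_const_mul _ _

theorem w1_zero (a b : Idx) : w1 (fun _ => 0) a b = 0 := by
  unfold w1; simp

theorem w1_sum {ι : Type*} (s : Finset ι) {w : ι → Pos3 → ℝ} (hw : ∀ i ∈ s, OKw (w i)) (a b : Idx) :
    w1 (fun x => ∑ i ∈ s, w i x) a b = ∑ i ∈ s, w1 (w i) a b := by
  unfold w1
  simp only [Finset.sum_mul]
  exact integral_finsetSum _ fun i hi => hw i hi a b

theorem w1_ite {p : Prop} [Decidable p] (w v : Pos3 → ℝ) (a b : Idx) :
    w1 (fun x => if p then w x else v x) a b = if p then w1 w a b else w1 v a b := by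
  split_ifs <;> rfl


theorem okw_vhop (n k i j : ℕ) : OKw (vhop n k i j) := integrable_vhop n k i j
theorem okw_Dm0 (m : ℕ) : OKw (fun x => Dm m (x 0)) := integrable_Dm0 m
theorem okw_Dm2 (m : ℕ) : OKw (fun x => Dm m (x 2)) := integrable_Dm2 m

/-! ### the designer potential -/

theorem okw_hop (n k : ℕ) (A : ℕ → ℕ → ℝ) : OKw (fun x => ∑ i ∈ Finset.range n,
    ∑ j ∈ Finset.range n, if i < j then A i j * vhop n k i j x else 0) :=
  OKw.sum _ fun i _ => OKw.sum _ fun j _ => OKw.ite ((okw_vhop n k i j).const_mul _) OKw.zero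


/-- matrix elements of the hopping part -/
theorem w1_hop (n k : ℕ) (A : ℕ → ℕ → ℝ) (a b : Idx) : w1 (fun x => ∑ i ∈ Finset.range n,
    ∑ j ∈ Finset.range n, if i < j then A i j * vhop n k i j x else 0) a b =
    ∑ i ∈ Finset.range n, ∑ j ∈ Finset.range n, if i < j then A i j * w1 (vhop n k i j) a b else 0 := by
  rw [w1_sum _ fun i _ => OKw.sum _ fun j _ => OKw.ite ((okw_vhop n k i j).const_mul _) OKw.zero]
  refine Finset.sum_congr rfl fun i _ => ?_
  rw [w1_sum _ fun j _ => OKw.ite ((okw_vhop n k i j).const_mul _) OKw.zero]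
  refine Finset.sum_congr rfl fun j _ => ?_
  rw [w1_ite, w1_const_mul, w1_zero]

/-- matrix elements of the designer potential, general orbitals -/
theorem w1_wpot (n k : ℕ) (Lam : ℝ) (A : ℕ → ℕ → ℝ) (a' : ℕ → ℝ) (a b : Idx) :
    w1 (wpot n k Lam A a') a b =
      -Lam * (dl (a 0) (b 0) * dl (a 1) (b 1) * D2 0 (a 2) (b 2))
      - ∑ i ∈ Finset.range n, (Lam - a' i) *
          (D2 (mi n k i) (a 0) (b 0) * dl (a 1) (b 1) * dl (a 2) (b 2))
      + ∑ i ∈ Finset.range n, ∑ j ∈ Finset.range n,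
          if i < j then A i j * w1 (vhop n k i j) a b else 0 := by
  have h1 : OKw (fun x => -Lam * Dm 0 (x 2)) := (okw_Dm2 0).const_mul (-Lam)
  have h2 : OKw (fun x => ∑ i ∈ Finset.range n, (Lam - a' i) * Dm (mi n k i) (x 0)) :=
    OKw.sum _ fun i _ => (okw_Dm0 (mi n k i)).const_mul (Lam - a' i)
  have e : w1 (wpot n k Lam A a') a b = _ := w1_add (h1.sub h2) (okw_hop n k A) a b
  rw [e, w1_sub h1 h2, w1_const_mul, w1_Dm2, w1_hop,
    w1_sum _ fun i _ => (okw_Dm0 (mi n k i)).const_mul (Lam - a' i)]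
  congr 2
  refine Finset.sum_congr rfl fun i _ => ?_
  rw [w1_const_mul, w1_Dm0]

/-- inside one shell the selection part is exactly diagonal -/
theorem w1_wpot_shell (n k : ℕ) (Lam : ℝ) (A : ℕ → ℕ → ℝ) (a' : ℕ → ℝ) {a b : Idx}
    (hab : ∑ c, a c = ∑ c, b c) :
    w1 (wpot n k Lam A a') a b =
      (if a = b then -Lam * dl (a 2) 0 - ∑ i ∈ Finset.range n, (Lam - a' i) * dl (a 0) (mi n k i)
        else 0)
      + ∑ i ∈ Finset.range n, ∑ j ∈ Finset.range n,
          if i < j then A i j * w1 (vhop n k i j) a b else 0 := by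
  rw [w1_wpot]
  congr 1
  simp only [Fin.sum_univ_three] at hab
  by_cases h : a = b
  · subst h
    simp only [if_true, D2_diag, dl, if_true, one_mul, mul_one]
    congr 1
    · congr 1
      simp only [eq_comm]
    · refine Finset.sum_congr rfl fun i _ => ?_
      congr 1
      simp only [eq_comm]
  · rw [if_neg h]
    have h1 : dl (a 0) (b 0) * dl (a 1) (b 1) = 0 := by
      unfold dl
      by_cases h0 : a 0 = b 0
      · by_cases h1 : a 1 = b 1
        · exfalso
          apply h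
          funext c
          fin_cases c
          · exact h0
          · exact h1
          · show a 2 = b 2
            omega
        · rw [if_neg h1, mul_zero]
      · rw [if_neg h0, zero_mul]
    have h2 : dl (a 1) (b 1) * dl (a 2) (b 2) = 0 := by
      unfold dl
      by_cases h0 : a 1 = b 1
      · by_cases h1 : a 2 = b 2
        · exfalso
          apply h
          funext c
          fin_cases c
          · show a 0 = b 0
            omega
          · exact h0
          · exact h1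
        · rw [if_neg h1, mul_zero]
      · rw [if_neg h0, zero_mul]
    have h3 : ∀ i, (Lam - a' i) * (D2 (mi n k i) (a 0) (b 0) * dl (a 1) (b 1) * dl (a 2) (b 2)) = 0 := by
      intro i
      rw [mul_assoc (D2 _ _ _), h2]; ring
    simp only [h1, h3, zero_mul, mul_zero, Finset.sum_const_zero, sub_zero]

/-! ### core expectation -/


theorem mem_shell {n0 : ℕ} {c : Idx} : c ∈ shell n0 ↔ c 0 + c 1 + c 2 = n0 := by
  unfold shell
  rw [Finset.mem_filter, Fintype.mem_piFinset]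
  simp only [Finset.mem_range, Fin.sum_univ_three]
  constructor
  · exact fun h => h.2
  · intro h
    refine ⟨fun i => ?_, h⟩
    fin_cases i
    · show c 0 < n0 + 1
      omega
    · show c 1 < n0 + 1
      omega
    · show c 2 < n0 + 1
      omega








end Crest.Agent.R338.WP
end
end

-- ▼ part R338/Sel2
section

/-!
# Row 338, node BH2 (helper695), file 2: crude uniform bounds of the integrals

`abs_W4_le : |W4 a b c d| ≤ 50000`, `abs_fock_le`, `abs_w1_vhop_le : |w1 (vhop n k i j) a b| ≤ 625`.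
-/

set_option autoImplicit false

noncomputable section

open MeasureTheory Real Set
open Crest.MathPhysics.ElectronicCoulomb

namespace Crest.Agent.R338.Sel

/-! ### Coulomb forms -/

theorem integral_tau3 : ∫ τ in Ioi (1 : ℝ), τ ^ (-3 : ℝ) = 1 / 2 := by
  rw [integral_Ioi_rpow_of_lt (by norm_num) one_pos]
  norm_num

theorem abs_D_bound {f g : CE.P3 → ℝ} (hf : Integrable f) (hg : CE.Nice g) {F G C : ℝ}
    (hF : ∫ x, |f x| ≤ F) (hG : ∫ x, |g x| ≤ G) (hC : ∀ x, |g x| ≤ C) :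
    |CE.D f g| ≤ 2 / √π * (F * G + C * F * (√π) ^ 3 * (1 / 2)) := by
  have hC0 : 0 ≤ C := (abs_nonneg _).trans (hC 0)
  have hf0 : 0 ≤ ∫ x, |f x| := integral_nonneg fun _ => abs_nonneg _
  have hg0 : 0 ≤ ∫ x, |g x| := integral_nonneg fun _ => abs_nonneg _
  have hF0 : 0 ≤ F := hf0.trans hF
  rw [CE.D_eq_heat hf hg, abs_mul, abs_of_nonneg (by positivity : 0 ≤ 2 / √π)]
  refine mul_le_mul_of_nonneg_left ?_ (by positivity)
  have hQ := CE.integrableOn_Q hf hg
  have hQa : IntegrableOn (fun τ => CE.Q τ f g) (Ioc 0 1) := hQ.mono_set Ioc_subset_Ioi_self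
  have hQb : IntegrableOn (fun τ => CE.Q τ f g) (Ioi 1) :=
    hQ.mono_set (Ioi_subset_Ioi zero_le_one)
  rw [← Ioc_union_Ioi_eq_Ioi (zero_le_one' ℝ), setIntegral_union (by
    rw [Set.disjoint_left]; intro x hx hx'; exact absurd hx.2 (not_le.2 hx')) measurableSet_Ioi hQa hQb]
  refine (abs_add_le _ _).trans (add_le_add ?_ ?_)
  · have h1 : ‖∫ τ in Ioc (0 : ℝ) 1, CE.Q τ f g‖ ≤ (F * G) * (volume.real (Ioc (0 : ℝ) 1)) := by
      refine norm_setIntegral_le_of_norm_le_const (by simp) fun τ _ => ?_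
      refine (norm_integral_le_integral_norm _).trans ((CE.norm_Q_le_one hf hg.int τ).trans ?_)
      exact mul_le_mul hF hG hg0 hF0
    simpa using h1
  · have h2 : IntegrableOn (fun τ : ℝ => C * F * (√π) ^ 3 * τ ^ (-3 : ℝ)) (Ioi 1) :=
      (integrableOn_Ioi_rpow_of_lt (by norm_num) one_pos).const_mul _
    have h3 : ‖∫ τ in Ioi (1 : ℝ), CE.Q τ f g‖ ≤
        ∫ τ in Ioi (1 : ℝ), C * F * (√π) ^ 3 * τ ^ (-3 : ℝ) := by
      refine norm_integral_le_of_norm_le h2 ?_
      refine (ae_restrict_iff' measurableSet_Ioi).2 (Filter.Eventually.of_forall fun τ hτ => ?_)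
      have hτ0 : (0 : ℝ) < τ := lt_trans one_pos hτ
      refine (norm_integral_le_integral_norm _).trans
        ((CE.norm_Q_le_cube hf hg.int hC hτ0).trans ?_)
      have e : (√π / τ) ^ 3 = (√π) ^ 3 * τ ^ (-3 : ℝ) := by
        rw [Real.rpow_neg hτ0.le, div_pow]
        norm_num
        ring
      rw [e]
      have : 0 ≤ (√π) ^ 3 * τ ^ (-3 : ℝ) := by positivity
      calc C * (∫ x, |f x|) * ((√π) ^ 3 * τ ^ (-3 : ℝ)) ≤ C * F * ((√π) ^ 3 * τ ^ (-3 : ℝ)) := by
            gcongr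
        _ = _ := by ring
    rw [integral_const_mul, integral_tau3] at h3
    rw [Real.norm_eq_abs] at h3
    exact h3

/-! ### Hermite functions -/

theorem hf_sq_le_18 (m : ℕ) (s : ℝ) : HO.hf m s ^ 2 ≤ 18 := by
  refine (WKB.hf_sq_le_kap m s).trans ?_
  have h := Real.rpow_le_one_of_one_le_of_nonpos (WKB.one_le_kap m) (by norm_num : (-(1/3) : ℝ) ≤ 0)
  linarith

theorem abs_hf_le_5 (m : ℕ) (s : ℝ) : |HO.hf m s| ≤ 5 := by
  apply abs_le_of_sq_le_sq (by have := hf_sq_le_18 m s; norm_num; linarith) (by norm_num)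

theorem abs_phi_le (a : Idx) (x : CE.P3) : |CE.phi a x| ≤ 125 := by
  unfold CE.phi
  rw [Finset.abs_prod]
  calc ∏ c, |HO.hf (a c) (x c)| ≤ ∏ _c : Fin 3, (5 : ℝ) :=
        Finset.prod_le_prod (fun _ _ => abs_nonneg _) fun c _ => abs_hf_le_5 _ _
    _ = 125 := by norm_num [Finset.prod_const]

theorem abs_phi2_le (a b : Idx) (x : CE.P3) : |CE.phi a x * CE.phi b x| ≤ 15625 := by
  rw [abs_mul]
  calc |CE.phi a x| * |CE.phi b x| ≤ 125 * 125 :=
        mul_le_mul (abs_phi_le a x) (abs_phi_le b x) (abs_nonneg _) (by norm_num)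
    _ = 15625 := by norm_num

theorem integral_phi_self (a : Idx) : ∫ x, CE.phi a x * CE.phi a x = 1 := by
  have h := HO.integral_Phi_mul_Phi (ι := Fin 3) a a
  rw [if_pos rfl] at h
  exact h

theorem integral_abs_phi2_le (a b : Idx) : ∫ x, |CE.phi a x * CE.phi b x| ≤ 1 := by
  have ha := (Br.nice_phi a a).int
  have hb := (Br.nice_phi b b).int
  calc ∫ x, |CE.phi a x * CE.phi b x|
      ≤ ∫ x, ((1 / 2) * (CE.phi a x * CE.phi a x) + (1 / 2) * (CE.phi b x * CE.phi b x)) := by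
        refine integral_mono (Br.nice_phi a b).int.abs ((ha.const_mul _).add (hb.const_mul _))
          fun x => ?_
        simp only
        rw [abs_mul]
        have h1 := sq_abs (CE.phi a x)
        have h2 := sq_abs (CE.phi b x)
        nlinarith [sq_nonneg (|CE.phi a x| - |CE.phi b x|)]
    _ = 1 := by
        rw [integral_add (ha.const_mul _) (hb.const_mul _), integral_const_mul, integral_const_mul,
          integral_phi_self, integral_phi_self]
        norm_num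

/-- uniform bound of the two-electron integrals -/
theorem abs_W4_le (a b c d : Idx) : |W4 a b c d| ≤ 50000 := by
  rw [Br.W4_eq]
  unfold CE.W
  refine (abs_D_bound (Br.nice_phi a b).int (Br.nice_phi c d) (integral_abs_phi2_le a b)
    (integral_abs_phi2_le c d) (abs_phi2_le c d)).trans ?_
  have hp : 0 < √π := by positivity
  have h1 : (√π) ^ 2 = π := Real.sq_sqrt Real.pi_pos.le
  have h2 : 1 ≤ √π := by
    rw [Real.one_le_sqrt]; linarith [Real.pi_gt_three]
  have e : 2 / √π * (1 * 1 + 15625 * 1 * (√π) ^ 3 * (1 / 2)) = 2 / √π + 15625 * (√π) ^ 2 := by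
    field_simp
  rw [e, h1]
  have h3 : 2 / √π ≤ 2 := div_le_self (by norm_num) h2
  linarith [Real.pi_lt_d2]

/-- number of core orbitals -/
theorem card_core_le (n0 : ℕ) : ((core n0).card : ℝ) ≤ ((n0 : ℝ) + 2) ^ 3 := by
  have h := XF.card_core n0
  have h2 : (6 * ((core n0).card : ℕ) : ℝ) = (n0 : ℝ) * (n0 + 1) * (n0 + 2) := by exact_mod_cast h
  have h3 : (0 : ℝ) ≤ n0 := Nat.cast_nonneg _
  nlinarith [mul_nonneg h3 h3, mul_nonneg (mul_nonneg h3 h3) h3]

theorem abs_fock_le (n0 : ℕ) (a b : Idx) : |fock n0 a b| ≤ 150000 * ((n0 : ℝ) + 2) ^ 3 := by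
  unfold fock
  calc |∑ c ∈ core n0, (2 * W4 a b c c - W4 a c c b)|
      ≤ ∑ _c ∈ core n0, (150000 : ℝ) := by
        refine (Finset.abs_sum_le_sum_abs _ _).trans (Finset.sum_le_sum fun c _ => ?_)
        have h1 := abs_le.1 (abs_W4_le a b c c)
        have h2 := abs_le.1 (abs_W4_le a c c b)
        rw [abs_le]
        constructor <;> linarith
    _ = (core n0).card * 150000 := by simp
    _ ≤ ((n0 : ℝ) + 2) ^ 3 * 150000 := by gcongr; exact card_core_le n0
    _ = _ := by ring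

/-! ### hopping -/

theorem abs_G4_le (p q a b : ℕ) : |WP.G4 p q a b| ≤ 25 := by
  unfold WP.G4
  have hi : Integrable fun t => (25 : ℝ) * ((1 / 2) * (HO.hf a t * HO.hf a t) +
      (1 / 2) * (HO.hf b t * HO.hf b t)) :=
    (((HO.integrable_hf_mul_hf a a).const_mul _).add ((HO.integrable_hf_mul_hf b b).const_mul _)).const_mul _
  have h : ‖∫ t : ℝ, Real.exp (-2 * t ^ 2) * (HO.hf p t * HO.hf q t) * (HO.hf a t * HO.hf b t)‖ ≤
      ∫ t, (25 : ℝ) * ((1 / 2) * (HO.hf a t * HO.hf a t) + (1 / 2) * (HO.hf b t * HO.hf b t)) := by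
    refine norm_integral_le_of_norm_le hi (Filter.Eventually.of_forall fun t => ?_)
    rw [norm_mul, norm_mul, norm_mul, norm_mul]
    simp only [Real.norm_eq_abs, Real.abs_exp]
    have h1 : Real.exp (-2 * t ^ 2) ≤ 1 := Real.exp_le_one_iff.2 (by nlinarith [sq_nonneg t])
    have h2 := abs_hf_le_5 p t
    have h3 := abs_hf_le_5 q t
    have h4 : Real.exp (-2 * t ^ 2) * (|HO.hf p t| * |HO.hf q t|) ≤ 1 * (5 * 5) :=
      mul_le_mul h1 (mul_le_mul h2 h3 (abs_nonneg _) (by norm_num)) (by positivity) (by norm_num)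
    have h5 : |HO.hf a t| * |HO.hf b t| ≤ (1 / 2) * (HO.hf a t * HO.hf a t) +
        (1 / 2) * (HO.hf b t * HO.hf b t) := by
      have e1 := sq_abs (HO.hf a t)
      have e2 := sq_abs (HO.hf b t)
      nlinarith [sq_nonneg (|HO.hf a t| - |HO.hf b t|)]
    calc Real.exp (-2 * t ^ 2) * (|HO.hf p t| * |HO.hf q t|) * (|HO.hf a t| * |HO.hf b t|)
        ≤ (1 * (5 * 5)) * (|HO.hf a t| * |HO.hf b t|) := by gcongr
      _ ≤ (1 * (5 * 5)) * ((1 / 2) * (HO.hf a t * HO.hf a t) +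
        (1 / 2) * (HO.hf b t * HO.hf b t)) := by gcongr
      _ = _ := by norm_num
  rw [Real.norm_eq_abs] at h
  refine h.trans (le_of_eq ?_)
  rw [integral_const_mul, integral_add ((HO.integrable_hf_mul_hf a a).const_mul _)
    ((HO.integrable_hf_mul_hf b b).const_mul _), integral_const_mul, integral_const_mul,
    HO.integral_hf_mul_hf, HO.integral_hf_mul_hf]
  norm_num

theorem abs_w1_vhop_le (n k i j : ℕ) (a b : Idx) : |w1 (vhop n k i j) a b| ≤ 625 := by
  rw [WP.w1_vhop, abs_mul, abs_mul]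
  have h1 := abs_G4_le (mi n k i) (mi n k j) (a 0) (b 0)
  have h2 := abs_G4_le (n0' n k - mi n k i) (n0' n k - mi n k j) (a 1) (b 1)
  have h3 : |WP.dl (a 2) (b 2)| ≤ 1 := by
    unfold WP.dl; split_ifs <;> norm_num
  calc _ ≤ (25 : ℝ) * 25 * 1 :=
        mul_le_mul (mul_le_mul h1 h2 (abs_nonneg _) (by norm_num)) h3 (abs_nonneg _) (by norm_num)
    _ = 625 := by norm_num

end Crest.Agent.R338.Sel

end
end

-- ▼ part R338/Sel3
section

/-!
# Row 338, node BH2 (helper695), file 3: the sites inside the shell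
-/

set_option autoImplicit false
set_option linter.unusedSectionVars false

noncomputable section

open Function
open scoped ComplexConjugate BigOperators

namespace Crest.Agent.R338.Sel

/-! ### the site orbitals -/

theorem site_mem {n k i : ℕ} (hi : i < n) : site n k i ∈ shell (n0' n k) := by
  rw [XF.mem_shell]
  have := WC.mi_le n k hi
  simp only [site, Matrix.cons_val_zero, Matrix.cons_val_one, Matrix.cons_val]
  omega

theorem nu_strictMono (n : ℕ) : StrictMono (nu n) := by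
  intro i j h
  unfold nu
  have h1 : i ^ 2 < j ^ 2 := Nat.pow_lt_pow_left h (by norm_num)
  have h2 : 4 * n ^ 2 * i ≤ 4 * n ^ 2 * j := Nat.mul_le_mul_left _ h.le
  omega

theorem mi_inj {n k : ℕ} (hk : 1 ≤ k) : Injective (mi n k) := by
  intro i j h
  unfold mi at h
  have h1 : (k ^ 3 * nu n i) ^ 2 = (k ^ 3 * nu n j) ^ 2 := by omega
  have h2 : k ^ 3 * nu n i = k ^ 3 * nu n j := Nat.pow_left_injective (by norm_num) h1
  have h3 : 0 < k ^ 3 := by positivity
  exact (nu_strictMono n).injective (Nat.eq_of_mul_eq_mul_left h3 h2)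

theorem site_zero (n k i : ℕ) : site n k i 0 = mi n k i := rfl
theorem site_two (n k i : ℕ) : site n k i 2 = 0 := rfl

theorem site_inj {n k : ℕ} (hk : 1 ≤ k) : Injective (site n k) := by
  intro i j h
  exact mi_inj hk (by rw [← site_zero, ← site_zero, h])

/-- spin index -/
def sp (b : Bool) : Fin 2 := if b then 1 else 0

theorem sp_inj : Injective sp := by
  intro a b; cases a <;> cases b <;> simp [sp]

theorem sp_surj (s : Fin 2) : ∃ b, sp b = s := by
  fin_cases s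
  · exact ⟨false, rfl⟩
  · exact ⟨true, rfl⟩

/-- the injection of the site spin orbitals into the shell -/
def gS (n k : ℕ) (p : Fin n × Bool) : Val (n0' n k) :=
  (sp p.2, ⟨site n k p.1, site_mem p.1.isLt⟩)

theorem gS_inj {n k : ℕ} (hk : 1 ≤ k) : Injective (gS n k) := by
  rintro ⟨i, s⟩ ⟨j, t⟩ h
  have h1 : sp s = sp t := congrArg Prod.fst h
  have h2 : site n k i = site n k j := congrArg (fun x : Val (n0' n k) => x.2.1) h
  rw [Prod.mk.injEq]
  exact ⟨Fin.ext (site_inj hk h2), sp_inj h1⟩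

theorem range_gS {n k : ℕ} (x : Val (n0' n k)) :
    (∃ p, gS n k p = x) ↔ ∃ i < n, x.2.1 = site n k i := by
  constructor
  · rintro ⟨p, rfl⟩
    exact ⟨p.1, p.1.isLt, rfl⟩
  · rintro ⟨i, hi, h⟩
    obtain ⟨b, hb⟩ := sp_surj x.1
    exact ⟨(⟨i, hi⟩, b), Prod.ext hb (Subtype.ext h.symm)⟩

/-! ### the selection energy -/

/-- selection energy of an orbital -/
def eps (n k : ℕ) (Lam : ℝ) (x : Val (n0' n k)) : ℝ :=
  -Lam * WP.dl (x.2.1 2) 0 - ∑ i ∈ Finset.range n, Lam * WP.dl (x.2.1 0) (mi n k i)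

theorem sum_dl_site {n k : ℕ} (hk : 1 ≤ k) (f : ℕ → ℝ) {j : ℕ} (hj : j < n) :
    ∑ i ∈ Finset.range n, f i * WP.dl (mi n k j) (mi n k i) = f j := by
  rw [Finset.sum_eq_single j]
  · simp [WP.dl]
  · intro i _ hi
    rw [WP.dl, if_neg (fun h => hi (mi_inj hk h).symm), mul_zero]
  · intro h; exact absurd (Finset.mem_range.2 hj) h

theorem eps_site {n k : ℕ} (hk : 1 ≤ k) (Lam : ℝ) (p : Fin n × Bool) :
    eps n k Lam (gS n k p) = -2 * Lam := by
  unfold eps gS
  simp only [site_zero, site_two]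
  rw [sum_dl_site hk (fun _ => Lam) p.1.isLt, WP.dl, if_pos rfl]
  ring

theorem eps_ge {n k : ℕ} (hk : 1 ≤ k) {Lam : ℝ} (hL : 0 ≤ Lam) {x : Val (n0' n k)}
    (hx : ¬ ∃ p, gS n k p = x) : -Lam ≤ eps n k Lam x := by
  unfold eps
  rw [range_gS] at hx
  have hm := (XF.mem_shell _ _).1 x.2.2
  by_cases h2 : x.2.1 2 = 0
  · have h0 : ∑ i ∈ Finset.range n, Lam * WP.dl (x.2.1 0) (mi n k i) = 0 := by
      refine Finset.sum_eq_zero fun i hi => ?_
      rw [WP.dl, if_neg, mul_zero]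
      intro h
      refine hx ⟨i, Finset.mem_range.1 hi, ?_⟩
      funext c
      fin_cases c
      · exact h
      · show x.2.1 1 = n0' n k - mi n k i
        omega
      · exact h2
    rw [h0, WP.dl, if_pos h2]; linarith
  · rw [WP.dl, if_neg h2]
    have h3 : ∑ i ∈ Finset.range n, Lam * WP.dl (x.2.1 0) (mi n k i) ≤ Lam := by
      by_cases hex : ∃ j < n, x.2.1 0 = mi n k j
      · obtain ⟨j, hj, h⟩ := hex
        rw [h, sum_dl_site hk (fun _ => Lam) hj]
      · rw [Finset.sum_eq_zero]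
        · exact hL
        · intro i hi
          rw [WP.dl, if_neg, mul_zero]
          intro h
          exact hex ⟨i, Finset.mem_range.1 hi, h⟩
    linarith

theorem eps_ge2 {n k : ℕ} (hk : 1 ≤ k) {Lam : ℝ} (hL : 0 ≤ Lam) (x : Val (n0' n k)) :
    -2 * Lam ≤ eps n k Lam x := by
  by_cases h : ∃ p, gS n k p = x
  · obtain ⟨p, rfl⟩ := h
    rw [eps_site hk]
  · have := eps_ge hk hL h
    linarith

/-! ### the one-body matrix -/

/-- the rest of the one-body matrix -/
def hR (n k : ℕ) (A : ℕ → ℕ → ℝ) (a : ℕ → ℝ) (p p' : Val (n0' n k)) : ℝ :=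
  if p.1 = p'.1 then
    fock (n0' n k) p.2.1 p'.2.1 +
    (∑ i ∈ Finset.range n, ∑ j ∈ Finset.range n,
          if i < j then A i j * w1 (vhop n k i j) p.2.1 p'.2.1 else 0) +
    (if p = p' then ∑ i ∈ Finset.range n, a i * WP.dl (p.2.1 0) (mi n k i) else 0)
  else 0

/-- the one-body matrix of `shellForm` -/
def hV (n k : ℕ) (Lam : ℝ) (A : ℕ → ℕ → ℝ) (a : ℕ → ℝ) (p p' : Val (n0' n k)) : ℝ :=
  if p.1 = p'.1 then w1 (wpot n k Lam A a) p.2.1 p'.2.1 + fock (n0' n k) p.2.1 p'.2.1 else 0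

/-- the two-body tensor of `shellForm` -/
def WV (n k : ℕ) (p p' r r' : Val (n0' n k)) : ℝ :=
  if p.1 = p'.1 ∧ r.1 = r'.1 then W4 p.2.1 p'.2.1 r.2.1 r'.2.1 else 0

theorem shellForm_eq (n k : ℕ) (Lam : ℝ) (A : ℕ → ℕ → ℝ) (a : ℕ → ℝ) {N : ℕ}
    (D : (Fin N → Val (n0' n k)) → ℂ) :
    shellForm (n0' n k) (wpot n k Lam A a) D = b1 (hV n k Lam A a) D D + b2 (WV n k) D D := rfl

theorem hV_eq (n k : ℕ) (Lam : ℝ) (A : ℕ → ℕ → ℝ) (a : ℕ → ℝ) (p p' : Val (n0' n k)) :
    hV n k Lam A a p p' = (if p = p' then eps n k Lam p else 0) + hR n k A a p p' := by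
  unfold hV hR
  by_cases h1 : p.1 = p'.1
  · rw [if_pos h1, if_pos h1]
    have hs : ∑ c, p.2.1 c = ∑ c, p'.2.1 c := by
      have e1 := (XF.mem_shell _ _).1 p.2.2
      have e2 := (XF.mem_shell _ _).1 p'.2.2
      rw [Fin.sum_univ_three, Fin.sum_univ_three]; omega
    rw [WP.w1_wpot_shell n k Lam A a hs]
    by_cases h2 : p = p'
    · subst h2
      rw [if_pos rfl, if_pos rfl, if_pos rfl]
      unfold eps
      have : ∑ i ∈ Finset.range n, (Lam - a i) * WP.dl (p.2.1 0) (mi n k i) =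
          (∑ i ∈ Finset.range n, Lam * WP.dl (p.2.1 0) (mi n k i)) -
          ∑ i ∈ Finset.range n, a i * WP.dl (p.2.1 0) (mi n k i) := by
        rw [← Finset.sum_sub_distrib]
        exact Finset.sum_congr rfl fun i _ => by ring
      rw [this]; ring
    · have h3 : ¬ p.2.1 = p'.2.1 := fun h => h2 (Prod.ext h1 (Subtype.ext h))
      rw [if_neg h2, if_neg h2, if_neg h3]; ring
  · rw [if_neg h1, if_neg h1, if_neg (fun h => h1 (congrArg Prod.fst h))]; ring

theorem hV_site {n k : ℕ} (hk : 1 ≤ k) (Lam : ℝ) (A : ℕ → ℕ → ℝ) (a : ℕ → ℝ) (p q : Fin n × Bool) :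
    hV n k Lam A a (gS n k p) (gS n k q) =
      if p.2 = q.2 then BH.hSite n k Lam A a p.1 q.1 else 0 := by
  rw [hV_eq]
  unfold hR
  by_cases hs : p.2 = q.2
  · have hs' : (gS n k p).1 = (gS n k q).1 := by show sp p.2 = sp q.2; rw [hs]
    rw [if_pos hs, if_pos hs']
    unfold BH.hSite
    have e1 : fock (n0' n k) (gS n k p).2.1 (gS n k q).2.1 =
      fock (n0' n k) (site n k p.1) (site n k q.1) := rfl
    have e2 : ∀ i j, w1 (vhop n k i j) (gS n k p).2.1 (gS n k q).2.1 = Mhop n k i j p.1 q.1 :=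
      fun i j => rfl
    simp only [e2]
    rw [e1]
    by_cases hpq : p.1 = q.1
    · have : p = q := Prod.ext hpq hs
      subst this
      rw [if_pos rfl, if_pos rfl, if_pos rfl, eps_site hk]
      have e3 : ∑ i ∈ Finset.range n, a i * WP.dl ((gS n k p).2.1 0) (mi n k i) = a p.1 :=
        sum_dl_site hk a p.1.isLt
      rw [e3]; ring
    · have h3 : ¬ gS n k p = gS n k q := fun h => hpq (congrArg Prod.fst (gS_inj hk h))
      rw [if_neg h3, if_neg h3, if_neg hpq]; ring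
  · have hs' : ¬ (gS n k p).1 = (gS n k q).1 := fun h => hs (sp_inj h)
    have h3 : ¬ gS n k p = gS n k q := fun h => hs' (congrArg Prod.fst h)
    rw [if_neg hs, if_neg hs', if_neg h3]; ring

theorem WV_site {n k : ℕ} (p q r s : Fin n × Bool) :
    WV n k (gS n k p) (gS n k q) (gS n k r) (gS n k s) =
      if p.2 = q.2 ∧ r.2 = s.2 then BH.WSite n k p.1 q.1 r.1 s.1 else 0 := by
  unfold WV
  have h : ((gS n k p).1 = (gS n k q).1 ∧ (gS n k r).1 = (gS n k s).1) ↔
      (p.2 = q.2 ∧ r.2 = s.2) := by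
    show (sp p.2 = sp q.2 ∧ sp r.2 = sp s.2) ↔ _
    rw [sp_inj.eq_iff, sp_inj.eq_iff]
  by_cases hc : p.2 = q.2 ∧ r.2 = s.2
  · rw [if_pos hc, if_pos (h.2 hc)]; rfl
  · rw [if_neg hc, if_neg (fun h' => hc (h.1 h'))]

/-! ### bounds -/

theorem abs_hR_le {n k : ℕ} {A : ℕ → ℕ → ℝ} {a : ℕ → ℝ} {Amax : ℝ} (hA : ∀ i j, |A i j| ≤ Amax)
    (ha : ∀ i, |a i| ≤ Amax) (p p' : Val (n0' n k)) :
    |hR n k A a p p'| ≤ 150000 * ((n0' n k : ℝ) + 2) ^ 3 + n ^ 2 * (Amax * 625) + n * Amax := by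
  have hAm : 0 ≤ Amax := (abs_nonneg _).trans (ha 0)
  unfold hR
  split_ifs with h1 h2
  · refine (abs_add_le _ _).trans (add_le_add ((abs_add_le _ _).trans (add_le_add
      (abs_fock_le _ _ _) ?_)) ?_)
    · calc _ ≤ ∑ i ∈ Finset.range n, ∑ j ∈ Finset.range n, Amax * 625 := by
            refine (Finset.abs_sum_le_sum_abs _ _).trans (Finset.sum_le_sum fun i _ => ?_)
            refine (Finset.abs_sum_le_sum_abs _ _).trans (Finset.sum_le_sum fun j _ => ?_)
            split_ifs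
            · rw [abs_mul]
              exact mul_le_mul (hA i j) (abs_w1_vhop_le _ _ _ _ _ _) (abs_nonneg _) hAm
            · rw [abs_zero]; positivity
        _ = _ := by simp; ring
    · calc _ ≤ ∑ i ∈ Finset.range n, Amax * 1 := by
            refine (Finset.abs_sum_le_sum_abs _ _).trans (Finset.sum_le_sum fun i _ => ?_)
            rw [abs_mul]
            refine mul_le_mul (ha i) ?_ (abs_nonneg _) hAm
            unfold WP.dl; split_ifs <;> norm_num
        _ = _ := by simp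
  · rw [add_zero]
    refine ((abs_add_le _ _).trans (add_le_add
      (abs_fock_le _ _ _) ?_)).trans (le_add_of_nonneg_right (by positivity))
    calc _ ≤ ∑ i ∈ Finset.range n, ∑ j ∈ Finset.range n, Amax * 625 := by
            refine (Finset.abs_sum_le_sum_abs _ _).trans (Finset.sum_le_sum fun i _ => ?_)
            refine (Finset.abs_sum_le_sum_abs _ _).trans (Finset.sum_le_sum fun j _ => ?_)
            split_ifs
            · rw [abs_mul]
              exact mul_le_mul (hA i j) (abs_w1_vhop_le _ _ _ _ _ _) (abs_nonneg _) hAm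
            · rw [abs_zero]; positivity
        _ = _ := by simp; ring
  · rw [abs_zero]; positivity

theorem abs_WV_le {n k : ℕ} (p q r s : Val (n0' n k)) : |WV n k p q r s| ≤ 50000 := by
  unfold WV
  split_ifs
  · exact abs_W4_le _ _ _ _
  · norm_num

theorem card_Val (n0 : ℕ) : (Fintype.card (Val n0) : ℝ) = ((n0 : ℝ) + 1) * (n0 + 2) := by
  have h : Fintype.card (Val n0) = 2 * (shell n0).card := by
    rw [Fintype.card_prod, Fintype.card_fin, Fintype.card_coe]
  rw [h, XF.card_shell]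
  push_cast; ring

end Crest.Agent.R338.Sel

end
end

-- ▼ part R338/Sel4

/-!
# Row 338, node BH2 (helper695), file 4: `SelStmt`
-/

set_option autoImplicit false
set_option linter.unusedSectionVars false

noncomputable section

open Function
open scoped ComplexConjugate BigOperators

namespace Crest.Agent.R338.Sel

/-! ### forms on the sites -/

variable {n : ℕ}

/-- coefficient function of a site tensor -/
def cf (c : SX.X n) : (Fin n → Fin n × Bool) → ℂ := fun f => c f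

theorem cf_anti {c : SX.X n} (hc : c ∈ SX.antiS n) : AntiSym (cf c) := fun σ f => hc σ f

theorem tnSq_cf (c : SX.X n) : tnSq (cf c) = ‖c‖ ^ 2 := (SX.norm_sq_def c).symm

theorem b1_site (h : Fin n → Fin n → ℝ) (c : SX.X n) :
    b1 (fun a b : Fin n × Bool => if a.2 = b.2 then h a.1 b.1 else 0) (cf c) (cf c) =
      SX.site1 h c := by
  unfold b1 SX.site1
  rw [Finset.sum_comm]
  refine Finset.sum_congr rfl fun f _ => Finset.sum_congr rfl fun i _ => ?_
  rw [Fintype.sum_prod_type]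
  refine Finset.sum_congr rfl fun j _ => ?_
  rw [Finset.sum_eq_single (f i).2]
  · beta_reduce
    rw [if_pos rfl]; rfl
  · intro s _ hs
    beta_reduce
    rw [if_neg (Ne.symm hs), zero_mul]
  · intro h; exact absurd (Finset.mem_univ _) h

theorem b2_site (W : Fin n → Fin n → Fin n → Fin n → ℝ) (c : SX.X n) :
    b2 (fun a b a' b' : Fin n × Bool => if a.2 = b.2 ∧ a'.2 = b'.2 then W a.1 b.1 a'.1 b'.1 else 0)
      (cf c) (cf c) = SX.site2 W c := by
  unfold b2 SX.site2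
  have h1 : ∀ i j : Fin n, (if i < j then ∑ v : Fin n → Fin n × Bool, ∑ b, ∑ d,
      (if (v i).2 = b.2 ∧ (v j).2 = d.2 then W (v i).1 b.1 (v j).1 d.1 else 0) *
        (conj (cf c v) * cf c (update (update v i b) j d)).re else 0) =
      ∑ f : SX.Cfg n, if i < j then ∑ a, ∑ b, W (f i).1 a (f j).1 b *
        (conj (c f) * c (SX.mv (SX.mv f i a) j b)).re else 0 := by
    intro i j
    by_cases hij : i < j
    · simp only [if_pos hij]
      refine Finset.sum_congr rfl fun f _ => ?_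
      rw [Fintype.sum_prod_type]
      refine Finset.sum_congr rfl fun a _ => ?_
      rw [Finset.sum_eq_single (f i).2]
      · rw [Fintype.sum_prod_type]
        refine Finset.sum_congr rfl fun b _ => ?_
        rw [Finset.sum_eq_single (f j).2]
        · beta_reduce
          rw [if_pos ⟨rfl, rfl⟩]
          have e : update (update f i (a, (f i).2)) j (b, (f j).2) =
              SX.mv (SX.mv f i a) j b := by
            unfold SX.mv
            rw [update_of_ne hij.ne']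
          rw [e]; rfl
        · intro s _ hs
          rw [if_neg (fun h => hs h.2.symm), zero_mul]
        · intro h; exact absurd (Finset.mem_univ _) h
      · intro s _ hs
        refine Finset.sum_eq_zero fun b _ => ?_
        rw [if_neg (fun h => hs h.1.symm), zero_mul]
      · intro h; exact absurd (Finset.mem_univ _) h
    · simp [if_neg hij]
  rw [Finset.sum_congr rfl fun i _ => Finset.sum_congr rfl fun j _ => h1 i j]
  rw [Finset.sum_congr rfl fun i _ => Finset.sum_comm]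
  rw [Finset.sum_comm]

/-- the shell form of an embedded site tensor -/
theorem shellForm_ext {k : ℕ} (hk : 1 ≤ k) (Lam : ℝ) (A : ℕ → ℕ → ℝ) (a : ℕ → ℝ) (c : SX.X n) :
    shellForm (n0' n k) (wpot n k Lam A a) (ext (gS n k) (cf c)) =
      SX.siteForm (BH.hSite n k Lam A a) (BH.WSite n k) c := by
  rw [shellForm_eq, b1_ext (gS_inj hk), b2_ext (gS_inj hk), SX.siteForm, ← b1_site, ← b2_site]
  congr 1
  · congr 1
    funext p q
    exact hV_site hk Lam A a p q
  · congr 1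
    funext p q r s
    exact WV_site p q r s

/-! ### the split -/

/-- the site part of a tensor -/
def pr {k : ℕ} (D : (Fin n → Val (n0' n k)) → ℂ) : SX.X n :=
  WithLp.toLp 2 fun f => D (gS n k ∘ f)

theorem pr_anti {k : ℕ} {D : (Fin n → Val (n0' n k)) → ℂ} (hD : AntiSym D) :
    pr D ∈ SX.antiS n := by
  intro σ f
  exact hD σ (gS n k ∘ f)

/-- the non-site part -/
def qt {k : ℕ} (D : (Fin n → Val (n0' n k)) → ℂ) : (Fin n → Val (n0' n k)) → ℂ :=
  D - ext (gS n k) (cf (pr D))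

theorem split_eq {k : ℕ} (D : (Fin n → Val (n0' n k)) → ℂ) :
    D = ext (gS n k) (cf (pr D)) + qt D := by unfold qt; abel

theorem qt_site {k : ℕ} (hk : 1 ≤ k) (D : (Fin n → Val (n0' n k)) → ℂ) {v : Fin n → Val (n0' n k)}
    (hv : ∃ f : Fin n → Fin n × Bool, gS n k ∘ f = v) : qt D v = 0 := by
  obtain ⟨f, rfl⟩ := hv
  unfold qt
  rw [Pi.sub_apply, ext_comp (gS_inj hk)]
  show D (gS n k ∘ f) - D (gS n k ∘ f) = 0
  ring

theorem orth {k : ℕ} (hk : 1 ≤ k) (D : (Fin n → Val (n0' n k)) → ℂ) (v : Fin n → Val (n0' n k)) :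
    ‖D v‖ ^ 2 = ‖ext (gS n k) (cf (pr D)) v‖ ^ 2 + ‖qt D v‖ ^ 2 := by
  have h := congrFun (split_eq D) v
  rw [Pi.add_apply] at h
  by_cases hv : ∃ f : Fin n → Fin n × Bool, gS n k ∘ f = v
  · rw [qt_site hk D hv] at h ⊢
    rw [← add_zero (ext (gS n k) (cf (pr D)) v), ← h]; simp
  · rw [ext_not _ hv] at h ⊢
    rw [zero_add] at h
    rw [← h]; simp

theorem tnSq_split {k : ℕ} (hk : 1 ≤ k) (D : (Fin n → Val (n0' n k)) → ℂ) :
    tnSq D = tnSq (ext (gS n k) (cf (pr D))) + tnSq (qt D) := by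
  unfold tnSq
  rw [← Finset.sum_add_distrib]
  exact Finset.sum_congr rfl fun v _ => orth hk D v

theorem diag_split {k : ℕ} (hk : 1 ≤ k) {Lam : ℝ} (hL : 0 ≤ Lam)
    (D : (Fin n → Val (n0' n k)) → ℂ) :
    b1 (fun p q => if p = q then eps n k Lam p else 0) (ext (gS n k) (cf (pr D)))
        (ext (gS n k) (cf (pr D))) + (-2 * Lam * n + Lam) * tnSq (qt D) ≤
      b1 (fun p q => if p = q then eps n k Lam p else 0) D D := by
  rw [b1_diag, b1_diag, tnSq, Finset.mul_sum, ← Finset.sum_add_distrib]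
  refine Finset.sum_le_sum fun v _ => ?_
  rw [orth hk D v, mul_add]
  refine add_le_add le_rfl ?_
  by_cases hv : ∃ f : Fin n → Fin n × Bool, gS n k ∘ f = v
  · rw [qt_site hk D hv]; simp
  · refine mul_le_mul_of_nonneg_right ?_ (sq_nonneg _)
    have hv' : ∃ i, ¬ ∃ u, gS n k u = v i := by
      rw [range_iff] at hv
      push Not at hv
      obtain ⟨i, hi⟩ := hv
      exact ⟨i, fun ⟨u, hu⟩ => hi u hu⟩
    obtain ⟨i, hi⟩ := hv'
    have h1 := eps_ge hk hL hi
    have h2 : ∑ j ∈ Finset.univ.erase i, (-2 * Lam) ≤ ∑ j ∈ Finset.univ.erase i, eps n k Lam (v j) :=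
      Finset.sum_le_sum fun j _ => eps_ge2 hk hL (v j)
    rw [← Finset.add_sum_erase _ _ (Finset.mem_univ i)]
    have h3 : ∑ j ∈ (Finset.univ : Finset (Fin n)).erase i, (-2 * Lam) = -2 * Lam * n + 2 * Lam := by
      rw [Finset.sum_const, Finset.card_erase_of_mem (Finset.mem_univ i), Finset.card_univ,
        Fintype.card_fin, nsmul_eq_mul]
      have : 1 ≤ n := by have := i.isLt; omega
      rw [Nat.cast_sub this]
      push_cast; ring
    rw [h3] at h2
    linarith

/-! ### the lower bound -/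

/-- crude bound of the rest -/
theorem rest_bound {k : ℕ} {A : ℕ → ℕ → ℝ} {a : ℕ → ℝ} {H r t : ℝ} (hH : 0 ≤ H)
    (hh : ∀ p q, |hR n k A a p q| ≤ H)
    (hr : n * (Fintype.card (Val (n0' n k)) * H) +
      n ^ 2 * ((Fintype.card (Val (n0' n k)) : ℝ) ^ 2 * 50000) ≤ r) (ht : 0 < t)
    (D E : (Fin n → Val (n0' n k)) → ℂ) :
    |b1 (hR n k A a) D E + b2 (WV n k) D E| ≤ r * ((t * tnSq D + t⁻¹ * tnSq E) / 2) := by
  have hnn : 0 ≤ (t * tnSq D + t⁻¹ * tnSq E) / 2 := by
    have := tnSq_nonneg D; have := tnSq_nonneg E; positivity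
  have h1 := abs_b1_le hH hh ht D E
  have h2 := abs_b2_le (by norm_num : (0:ℝ) ≤ 50000) (fun p q r s => abs_WV_le (n := n) (k := k) p q r s)
    ht D E
  refine (abs_add_le _ _).trans ((add_le_add h1 h2).trans ?_)
  rw [← add_mul]
  exact mul_le_mul_of_nonneg_right hr hnn

theorem lower {k : ℕ} (hk : 1 ≤ k) {Lam H r : ℝ} {A : ℕ → ℕ → ℝ} {a : ℕ → ℝ} (hH : 0 ≤ H)
    (hh : ∀ p q, |hR n k A a p q| ≤ H)
    (hr : n * (Fintype.card (Val (n0' n k)) * H) +
      n ^ 2 * ((Fintype.card (Val (n0' n k)) : ℝ) ^ 2 * 50000) ≤ r) (hr0 : 0 < r)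
    (hLam : 2 * r + 4 ≤ Lam) {β : ℝ} (hβ : |β + 2 * Lam * n| ≤ 2)
    (hc : ∀ c ∈ SX.antiS n, β * ‖c‖ ^ 2 ≤ SX.siteForm (BH.hSite n k Lam A a) (BH.WSite n k) c)
    {D : (Fin n → Val (n0' n k)) → ℂ} (hD : AntiSym D) :
    (β - 2 * r ^ 2 / Lam) * tnSq D ≤ shellForm (n0' n k) (wpot n k Lam A a) D := by
  have hL0 : 0 < Lam := by linarith
  set p := ext (gS n k) (cf (pr D)) with hp
  set q := qt D with hq
  have hDpq : D = p + q := split_eq D
  -- split of the form
  have hmat : ∀ E F : (Fin n → Val (n0' n k)) → ℂ, b1 (hV n k Lam A a) E F =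
      b1 (fun x y => if x = y then eps n k Lam x else 0) E F + b1 (hR n k A a) E F := by
    intro E F
    rw [← b1_add_mat]
    congr 1
    funext x y
    exact hV_eq n k Lam A a x y
  have e1 : shellForm (n0' n k) (wpot n k Lam A a) D =
      b1 (fun x y => if x = y then eps n k Lam x else 0) D D +
      ((b1 (hR n k A a) p p + b2 (WV n k) p p) + (b1 (hR n k A a) p q + b2 (WV n k) p q) +
        (b1 (hR n k A a) q p + b2 (WV n k) q p) + (b1 (hR n k A a) q q + b2 (WV n k) q q)) := by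
    rw [shellForm_eq, hmat]
    have f1 : b1 (hR n k A a) D D = b1 (hR n k A a) p p + b1 (hR n k A a) p q +
        b1 (hR n k A a) q p + b1 (hR n k A a) q q := by
      rw [hDpq, b1_add_left, b1_add_right, b1_add_right]; ring
    have f2 : b2 (WV n k) D D = b2 (WV n k) p p + b2 (WV n k) p q +
        b2 (WV n k) q p + b2 (WV n k) q q := by
      rw [hDpq, b2_add_left, b2_add_right, b2_add_right]; ring
    rw [f1, f2]; ring
  have e2 : SX.siteForm (BH.hSite n k Lam A a) (BH.WSite n k) (pr D) =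
      b1 (fun x y => if x = y then eps n k Lam x else 0) p p +
        (b1 (hR n k A a) p p + b2 (WV n k) p p) := by
    rw [← shellForm_ext hk, shellForm_eq, hmat]; ring
  have h1 := hc (pr D) (pr_anti hD)
  rw [← tnSq_cf, ← tnSq_ext (gS_inj hk), ← hp, e2] at h1
  have h2 := diag_split hk hL0.le D
  rw [← hp, ← hq] at h2
  have hN := tnSq_split hk D
  rw [← hp, ← hq] at hN
  have hP0 := tnSq_nonneg p
  have hQ0 := tnSq_nonneg q
  -- the bounds
  set t := 2 * r / Lam with ht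
  have ht0 : 0 < t := by rw [ht]; positivity
  have k1 := (abs_le.1 (rest_bound hH hh hr ht0 p q)).1
  have k2 := (abs_le.1 (rest_bound hH hh hr (inv_pos.2 ht0) q p)).1
  have k3 := (abs_le.1 (rest_bound hH hh hr one_pos q q)).1
  rw [inv_inv] at k2
  rw [inv_one] at k3
  have ert : r * t = 2 * r ^ 2 / Lam := by rw [ht]; ring
  have ert' : r * t⁻¹ = Lam / 2 := by
    rw [ht]; field_simp
  have hβ1 := (abs_le.1 hβ).2
  rw [e1, hN]
  have m1 : r * ((t * tnSq p + t⁻¹ * tnSq q) / 2) = (r * t) * tnSq p / 2 + (r * t⁻¹) * tnSq q / 2 := by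
    ring
  have m2 : r * ((t⁻¹ * tnSq q + t * tnSq p) / 2) = (r * t) * tnSq p / 2 + (r * t⁻¹) * tnSq q / 2 := by
    ring
  have m3 : r * ((1 * tnSq q + 1 * tnSq q) / 2) = r * tnSq q := by ring
  rw [m1, ert, ert'] at k1
  rw [m2, ert, ert'] at k2
  rw [m3] at k3
  have hpos : 0 ≤ 2 * r ^ 2 / Lam := by positivity
  have m4 : (β - 2 * r ^ 2 / Lam) * (tnSq p + tnSq q) ≤
      β * tnSq p - 2 * r ^ 2 / Lam * tnSq p + (-2 * Lam * n + Lam - r - Lam / 2) * tnSq q := by
    have : (β - 2 * r ^ 2 / Lam) * tnSq q ≤ (-2 * Lam * n + Lam - r - Lam / 2) * tnSq q := by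
      refine mul_le_mul_of_nonneg_right ?_ hQ0
      linarith
    linarith
  refine m4.trans ?_
  linarith

/-! ### size of the constants -/

theorem n0'_ge {n k : ℕ} (hn : 2 ≤ n) (hk : 1 ≤ k) : 589824 ≤ n0' n k ∧ n ≤ n0' n k := by
  have hY : 192 ≤ Yn n := by
    unfold Yn
    have h3 : 2 ^ 3 ≤ n ^ 3 := Nat.pow_le_pow_left hn 3
    have h2 : 2 ^ 2 ≤ n ^ 2 := Nat.pow_le_pow_left hn 2
    omega
  have hYn : n ≤ Yn n := by
    unfold Yn
    nlinarith [Nat.pow_le_pow_left hn 2, Nat.zero_le (n ^ 3)]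
  have hk3 : 1 ≤ (k ^ 3) ^ 2 := Nat.one_le_pow _ _ (Nat.pos_of_ne_zero (by positivity))
  have h1 : Yn n ^ 2 * 16 ≤ n0' n k := by
    unfold n0'
    calc Yn n ^ 2 * 16 = 16 * 1 * Yn n ^ 2 := by ring
      _ ≤ 16 * (k ^ 3) ^ 2 * Yn n ^ 2 := by gcongr
  constructor
  · have : 192 ^ 2 ≤ Yn n ^ 2 := Nat.pow_le_pow_left hY 2
    omega
  · nlinarith

theorem r_bound {n k : ℕ} (hn : 2 ≤ n) (hk : 1 ≤ k) {Amax : ℝ} (hA : 1 ≤ Amax) :
    n * (Fintype.card (Val (n0' n k)) * (150000 * ((n0' n k : ℝ) + 2) ^ 3 + n ^ 2 * (Amax * 625) +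
        n * Amax)) + n ^ 2 * ((Fintype.card (Val (n0' n k)) : ℝ) ^ 2 * 50000) ≤
      ((n0' n k : ℝ) + Amax) ^ 10 := by
  obtain ⟨h1, h2⟩ := n0'_ge hn hk
  have h1' : (589824 : ℝ) ≤ n0' n k := by exact_mod_cast h1
  have h2' : (n : ℝ) ≤ n0' n k := by exact_mod_cast h2
  rw [card_Val]
  set N : ℝ := (n0' n k : ℝ) with hN
  set M : ℝ := N + Amax with hM
  have hM1 : (589824 : ℝ) ≤ M := by rw [hM]; linarith
  have hNM : N ≤ M := by rw [hM]; linarith
  have hAM : Amax ≤ M := by rw [hM]; linarith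
  have hnM : (n : ℝ) ≤ M := h2'.trans hNM
  have hn0 : (0 : ℝ) ≤ n := Nat.cast_nonneg _
  have hN0 : 0 ≤ N := by linarith
  have hM0 : 0 ≤ M := by linarith
  have hA0 : 0 ≤ Amax := by linarith
  have a1 : (N + 1) * (N + 2) ≤ 2 * M ^ 2 := by
    have : (N + 1) * (N + 2) ≤ (M + 1) * (M + 2) := by gcongr
    nlinarith
  have a1' : 0 ≤ (N + 1) * (N + 2) := by positivity
  have a2 : (N + 2) ^ 3 ≤ 2 * M ^ 3 := by
    have e : N + 2 ≤ (5 / 4) * M := by linarith
    calc (N + 2) ^ 3 ≤ ((5 / 4) * M) ^ 3 := by gcongr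
      _ = (125 / 64) * M ^ 3 := by ring
      _ ≤ _ := by
        have : 0 ≤ M ^ 3 := by positivity
        linarith
  have a3 : 150000 * (N + 2) ^ 3 + n ^ 2 * (Amax * 625) + n * Amax ≤ 301000 * M ^ 3 := by
    have e1 : (n : ℝ) ^ 2 * (Amax * 625) ≤ M ^ 2 * (M * 625) := by gcongr
    have e2 : (n : ℝ) * Amax ≤ M * M := by gcongr
    have e3 : M * M ≤ M ^ 3 := by nlinarith
    nlinarith
  have a3' : 0 ≤ 150000 * (N + 2) ^ 3 + n ^ 2 * (Amax * 625) + n * Amax := by positivity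
  calc n * ((N + 1) * (N + 2) * (150000 * (N + 2) ^ 3 + n ^ 2 * (Amax * 625) + n * Amax)) +
        n ^ 2 * (((N + 1) * (N + 2)) ^ 2 * 50000)
      ≤ M * ((2 * M ^ 2) * (301000 * M ^ 3)) + M ^ 2 * ((2 * M ^ 2) ^ 2 * 50000) := by
        gcongr
    _ = 802000 * M ^ 6 := by ring
    _ ≤ (M * M) * M ^ 6 := by
        have : 802000 ≤ M * M := by nlinarith
        have h6 : 0 ≤ M ^ 6 := by positivity
        exact mul_le_mul_of_nonneg_right this h6
    _ = M ^ 8 := by ring
    _ ≤ M ^ 10 := pow_le_pow_right₀ (by linarith) (by norm_num)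

/-- **`SelStmt`** -/
theorem selStmt : BH.SelStmt := by
  refine ⟨21, by norm_num, ?_⟩
  intro n k hn hk Lam Amax A a hA ha hAm hLam
  have hk1 : 1 ≤ k := by
    refine le_trans ?_ hk
    exact Nat.one_le_pow _ _ (by omega)
  obtain ⟨h1, h2⟩ := n0'_ge hn hk1
  have h1' : (589824 : ℝ) ≤ n0' n k := by exact_mod_cast h1
  set M : ℝ := (n0' n k : ℝ) + Amax with hM
  have hM1 : (589824 : ℝ) ≤ M := by rw [hM]; linarith
  have hM0 : 0 < M := by linarith
  have hr := r_bound hn hk1 hAm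
  rw [← hM] at hr
  have hr0 : 0 < M ^ 10 := by positivity
  have hone : 1 ≤ M ^ 20 := one_le_pow₀ (by linarith)
  have h20 : M ^ 10 ≤ M ^ 20 := pow_le_pow_right₀ (by linarith) (by norm_num)
  have hbig : 8 * M ^ 20 ≤ M ^ 21 := by
    rw [pow_succ M 20, mul_comm 8]
    gcongr
    linarith
  refine ⟨?_, ?_⟩
  · intro c hc
    exact ⟨ext (gS n k) (cf c), anti_ext (gS_inj hk1) (cf_anti hc),
      by rw [tnSq_ext (gS_inj hk1), tnSq_cf], shellForm_ext hk1 Lam A a c⟩
  · intro β hβ hc D hD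
    have hLam0 : 0 < Lam := lt_of_lt_of_le (by positivity) hLam
    have key := lower hk1 (Lam := Lam) (A := A) (a := a)
      (H := 150000 * ((n0' n k : ℝ) + 2) ^ 3 + n ^ 2 * (Amax * 625) + n * Amax)
      (r := M ^ 10) (by positivity) (fun p q => abs_hR_le hA ha p q) hr hr0 (by linarith) hβ hc hD
    refine le_trans ?_ key
    refine mul_le_mul_of_nonneg_right ?_ (tnSq_nonneg D)
    have : 2 * (M ^ 10) ^ 2 / Lam ≤ M ^ 21 / Lam := by
      refine div_le_div_of_nonneg_right ?_ hLam0.le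
      rw [← pow_mul]
      norm_num
      linarith
    linarith

end Crest.Agent.R338.Sel

end
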