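import Crest.Agent.R338.HO1b

-- ▼ part R338/HO1c
section

/-!
# Row 338, module HO1c (helper789): completeness of the product Hermite functions in `L²`

* `ae_zero_of_fourier` : an integrable function with vanishing Fourier transform is `0` a.e.
* `ae_zero_of_ortho` : `f ∈ L²` with `∫ Φ_α f = 0` for all `α` is `0` a.e.
-/

set_option autoImplicit false

open MeasureTheory Real SchwartzMap Filter Topology
open scoped Nat ContDiff FourierTransform

noncomputable section

namespace Crest.Agent.R338.HO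

open Crest.Agent.R335.HF (E)

section Fourier

variable {V : Type*} [NormedAddCommGroup V] [InnerProductSpace ℝ V] [FiniteDimensional ℝ V]
  [MeasurableSpace V] [BorelSpace V]

/-- injectivity of the Fourier transform on `L¹` -/
theorem ae_zero_of_fourier {G : V → ℂ} (hG : Integrable G) (h : ∀ ξ, 𝓕 G ξ = 0) :
    ∀ᵐ x, G x = 0 := by
  refine ae_eq_zero_of_integral_contDiff_smul_eq_zero hG.locallyIntegrable fun g hg hc => ?_
  have hg' : ContDiff ℝ ∞ (fun x => (g x : ℂ)) := Complex.ofRealCLM.contDiff.comp hg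
  have hc' : HasCompactSupport (fun x => (g x : ℂ)) := hc.comp_left (g := fun r : ℝ => (r : ℂ)) (by simp)
  let S : 𝓢(V, ℂ) := hc'.toSchwartzMap hg'
  have hS : ∀ x, S x = (g x : ℂ) := fun x => rfl
  have key := VectorFourier.integral_fourierIntegral_smul_eq_flip (L := innerₗ V) (μ := volume)
      (ν := volume) (f := fun x => (𝓕⁻ S : 𝓢(V, ℂ)) x) (g := G)
      Real.continuous_fourierChar continuous_inner (𝓕⁻ S : 𝓢(V, ℂ)).integrable hG
  have e1 : ∀ ξ, VectorFourier.fourierIntegral 𝐞 volume (innerₗ V)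
      (fun x => (𝓕⁻ S : 𝓢(V, ℂ)) x) ξ = S ξ := by
    intro ξ
    have h2 : 𝓕 (𝓕⁻ S : 𝓢(V, ℂ)) = S := FourierTransform.fourier_fourierInv_eq S
    have h3 : (𝓕 (𝓕⁻ S : 𝓢(V, ℂ)) : 𝓢(V, ℂ)) ξ = 𝓕 (fun x => (𝓕⁻ S : 𝓢(V, ℂ)) x) ξ := by
      rw [SchwartzMap.fourier_coe]
    rw [h2] at h3
    exact h3.symm
  have e2 : ∀ ξ, VectorFourier.fourierIntegral 𝐞 volume (innerₗ V).flip G ξ = 0 := by
    intro ξ
    have h4 : (innerₗ V).flip = innerₗ V := by
      ext x y; simp
    rw [h4]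
    exact h ξ
  simp only [e1, e2, smul_zero, integral_zero] at key
  rw [← key]
  refine integral_congr_ae (Eventually.of_forall fun x => ?_)
  simp [hS]

end Fourier

variable {ι : Type*} [Fintype ι] [DecidableEq ι]

/-- the functions `u` with `∫ u f = 0` -/
def Ann (f : E ι → ℂ) (u : E ι → ℝ) : Prop :=
  Integrable (fun x => (u x : ℂ) * f x) ∧ ∫ x, (u x : ℂ) * f x = 0

omit [DecidableEq ι] in
theorem Ann.add {f : E ι → ℂ} {u v : E ι → ℝ} (hu : Ann f u) (hv : Ann f v) : Ann f (u + v) := by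
  have e : (fun x => ((u + v) x : ℂ) * f x) = fun x => (u x : ℂ) * f x + (v x : ℂ) * f x := by
    ext x; simp [add_mul]
  refine ⟨by rw [e]; exact hu.1.add hv.1, ?_⟩
  rw [e, integral_add hu.1 hv.1, hu.2, hv.2, add_zero]

omit [DecidableEq ι] in
theorem Ann.smul {f : E ι → ℂ} {u : E ι → ℝ} (hu : Ann f u) (c : ℝ) : Ann f (c • u) := by
  have e : (fun x => ((c • u) x : ℂ) * f x) = fun x => (c : ℂ) * ((u x : ℂ) * f x) := by
    ext x; simp [mul_assoc]
  refine ⟨by rw [e]; exact hu.1.const_mul _, ?_⟩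
  rw [e, integral_const_mul, hu.2, mul_zero]

/-- span of the Hermite functions -/
def HV (ι : Type*) [Fintype ι] : Submodule ℝ (E ι → ℝ) := Submodule.span ℝ (Set.range Phi)

theorem mul_coord_mem {u : E ι → ℝ} (hu : u ∈ HV ι) (j : ι) : (fun x => x j * u x) ∈ HV ι := by
  induction hu using Submodule.span_induction with
  | mem u hu =>
    obtain ⟨α, rfl⟩ := hu
    have e : (fun x : E ι => x j * Phi α x) =
        √(((α j : ℝ) + 1) / 2) • Phi (Function.update α j (α j + 1)) +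
        √((α j : ℝ) / 2) • Phi (Function.update α j (α j - 1)) := by
      ext x; rw [x_mul_Phi]; simp
    rw [e]
    exact (HV ι).add_mem ((HV ι).smul_mem _ (Submodule.subset_span ⟨_, rfl⟩))
      ((HV ι).smul_mem _ (Submodule.subset_span ⟨_, rfl⟩))
  | zero =>
    have : (fun x : E ι => x j * (0 : E ι → ℝ) x) = 0 := by ext x; simp
    rw [this]; exact (HV ι).zero_mem
  | add u v _ _ hu hv =>
    have : (fun x : E ι => x j * (u + v) x) = (fun x => x j * u x) + fun x => x j * v x := by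
      ext x; simp [mul_add]
    rw [this]; exact (HV ι).add_mem hu hv
  | smul c u _ hu =>
    have : (fun x : E ι => x j * (c • u) x) = c • fun x => x j * u x := by
      ext x; simp; ring
    rw [this]; exact (HV ι).smul_mem c hu

theorem mul_inner_mem {u : E ι → ℝ} (hu : u ∈ HV ι) (ξ : E ι) :
    (fun x => inner ℝ x ξ * u x) ∈ HV ι := by
  have e : (fun x : E ι => inner ℝ x ξ * u x) = ∑ j, ξ j • fun x : E ι => x j * u x := by
    ext x
    simp only [PiLp.inner_apply, Finset.sum_apply, Pi.smul_apply, Finset.sum_mul, smul_eq_mul,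
      RCLike.inner_apply, conj_trivial]
    refine Finset.sum_congr rfl fun j _ => by ring
  rw [e]
  exact (HV ι).sum_mem fun j _ => (HV ι).smul_mem _ (mul_coord_mem hu j)

theorem inner_pow_mem (ξ : E ι) (k : ℕ) :
    (fun x => inner ℝ x ξ ^ k * Phi (0 : ι → ℕ) x) ∈ HV ι := by
  induction k with
  | zero =>
    have : (fun x : E ι => inner ℝ x ξ ^ 0 * Phi (0 : ι → ℕ) x) = Phi 0 := by ext x; simp
    rw [this]
    exact Submodule.subset_span (Set.mem_range_self (0 : ι → ℕ))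
  | succ k ih =>
    have := mul_inner_mem ih ξ
    convert this using 1
    ext x; ring

omit [DecidableEq ι] in
theorem ann_of_mem {f : E ι → ℂ} (hf : MemLp f 2 volume)
    (h : ∀ α : ι → ℕ, ∫ x, (Phi α x : ℂ) * f x = 0) {u : E ι → ℝ} (hu : u ∈ HV ι) : Ann f u := by
  induction hu using Submodule.span_induction with
  | mem u hu =>
    obtain ⟨α, rfl⟩ := hu
    exact ⟨(memLp_Phi α 2).integrable_mul hf, h α⟩
  | zero => exact ⟨by simp, by simp⟩
  | add u v _ _ hu hv => exact hu.add hv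
  | smul c u _ hu => exact hu.smul c

omit [DecidableEq ι] in
theorem Phi_zero_eq (x : E ι) : Phi (0 : ι → ℕ) x =
    (π ^ (-(1 / 4) : ℝ)) ^ Fintype.card ι * Real.exp (-(‖x‖ ^ 2) / 2) := by
  rw [Phi_eq]
  simp [hP_zero]

omit [DecidableEq ι] in
theorem Phi_zero_pos (x : E ι) : 0 < Phi (0 : ι → ℕ) x := by
  rw [Phi_zero_eq]; positivity

omit [DecidableEq ι] in
/-- `exp (c‖x‖) Φ_0 ∈ L²` -/
theorem memLp_exp_mul_Phi (c : ℝ) :
    MemLp (fun x : E ι => Real.exp (c * ‖x‖) * Phi (0 : ι → ℕ) x) 2 volume := by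
  have hcont : Continuous (fun x : E ι => Real.exp (c * ‖x‖) * Phi (0 : ι → ℕ) x) :=
    (Real.continuous_exp.comp (continuous_const.mul continuous_norm)).mul (continuous_Phi 0)
  set K : ℝ := (π ^ (-(1 / 4) : ℝ)) ^ Fintype.card ι with hK
  have hK0 : 0 < K := by positivity
  have hb : ∀ x : E ι, (Real.exp (c * ‖x‖) * Phi (0 : ι → ℕ) x) ^ 2 ≤
      (K * Real.exp (c ^ 2)) ^ 2 * Real.exp (-(‖x‖ ^ 2) / 2) := by
    intro x
    rw [Phi_zero_eq]
    have e1 : (Real.exp (c * ‖x‖) * (K * Real.exp (-(‖x‖ ^ 2) / 2))) ^ 2 =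
        K ^ 2 * Real.exp (2 * (c * ‖x‖) - ‖x‖ ^ 2) := by
      rw [mul_pow, mul_pow, ← Real.exp_nat_mul, ← Real.exp_nat_mul, mul_left_comm, ← Real.exp_add]
      congr 2
      push_cast; ring
    have e2 : (K * Real.exp (c ^ 2)) ^ 2 * Real.exp (-(‖x‖ ^ 2) / 2) =
        K ^ 2 * Real.exp (2 * c ^ 2 - ‖x‖ ^ 2 / 2) := by
      rw [mul_pow, ← Real.exp_nat_mul, mul_assoc, ← Real.exp_add]
      congr 2
      push_cast; ring
    rw [e1, e2]
    refine mul_le_mul_of_nonneg_left (Real.exp_le_exp.2 ?_) (by positivity)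
    nlinarith [sq_nonneg (2 * c - ‖x‖)]
  rw [memLp_two_iff_integrable_sq hcont.aestronglyMeasurable]
  have hi : Integrable (fun x : E ι => (K * Real.exp (c ^ 2)) ^ 2 * Real.exp (-(‖x‖ ^ 2) / 2)) :=
    ((gaussRS (E ι)).integrable (μ := volume)).const_mul _
  refine hi.mono' (hcont.pow 2).aestronglyMeasurable (Eventually.of_forall fun x => ?_)
  rw [Real.norm_eq_abs, abs_of_nonneg (by positivity)]
  exact hb x

theorem fourier_Phi_mul {f : E ι → ℂ} (hf : MemLp f 2 volume)
    (h : ∀ α : ι → ℕ, ∫ x, (Phi α x : ℂ) * f x = 0) (ξ : E ι) :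
    𝓕 (fun x => (Phi (0 : ι → ℕ) x : ℂ) * f x) ξ = 0 := by
  rw [Real.fourier_eq']
  -- partial sums
  let z : E ι → ℂ := fun x => ((-2 * π * inner ℝ x ξ : ℝ) : ℂ) * Complex.I
  have hz : ∀ x, ‖z x‖ ≤ (2 * π * ‖ξ‖) * ‖x‖ := by
    intro x
    simp only [z, norm_mul, Complex.norm_I, mul_one, Complex.norm_real, Real.norm_eq_abs]
    have h1 := abs_real_inner_le_norm x ξ
    have h2 : |(-2 : ℝ)| * |π| * |inner ℝ x ξ| = 2 * π * |inner ℝ x ξ| := by
      rw [abs_of_pos Real.pi_pos]; norm_num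
    rw [h2]
    have h3 : 2 * π * |inner ℝ x ξ| ≤ 2 * π * (‖x‖ * ‖ξ‖) :=
      mul_le_mul_of_nonneg_left h1 (by positivity)
    linarith
  have hann : ∀ k : ℕ, Ann f (fun x => inner ℝ x ξ ^ k * Phi (0 : ι → ℕ) x) :=
    fun k => ann_of_mem hf h (inner_pow_mem ξ k)
  have hterm : ∀ k : ℕ, Integrable (fun x => z x ^ k / k ! * ((Phi (0 : ι → ℕ) x : ℂ) * f x)) ∧
      ∫ x, z x ^ k / k ! * ((Phi (0 : ι → ℕ) x : ℂ) * f x) = 0 := by
    intro k
    have e : (fun x => z x ^ k / k ! * ((Phi (0 : ι → ℕ) x : ℂ) * f x)) =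
        fun x => ((-2 * π * Complex.I) ^ k / k !) *
          (((inner ℝ x ξ ^ k * Phi (0 : ι → ℕ) x : ℝ) : ℂ) * f x) := by
      ext x
      simp only [z]
      push_cast
      ring
    rw [e]
    exact ⟨(hann k).1.const_mul _, by rw [integral_const_mul, (hann k).2, mul_zero]⟩
  have hdom : Integrable (fun x => Real.exp ((2 * π * ‖ξ‖) * ‖x‖) * Phi (0 : ι → ℕ) x * ‖f x‖) :=
    (memLp_exp_mul_Phi (2 * π * ‖ξ‖)).integrable_mul hf.norm
  have lim : Tendsto (fun n : ℕ => ∫ x, (∑ k ∈ Finset.range n, z x ^ k / k !) *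
      ((Phi (0 : ι → ℕ) x : ℂ) * f x)) atTop
      (𝓝 (∫ x, Complex.exp (z x) * ((Phi (0 : ι → ℕ) x : ℂ) * f x))) := by
    refine tendsto_integral_of_dominated_convergence _ (fun n => ?_) hdom
      (fun n => Eventually.of_forall fun x => ?_) (Eventually.of_forall fun x => ?_)
    · have : (fun x => (∑ k ∈ Finset.range n, z x ^ k / k !) * ((Phi (0 : ι → ℕ) x : ℂ) * f x)) =
        fun x => ∑ k ∈ Finset.range n, z x ^ k / k ! * ((Phi (0 : ι → ℕ) x : ℂ) * f x) := by
        ext x; rw [Finset.sum_mul]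
      rw [this]
      exact (integrable_finsetSum _ fun k _ => (hterm k).1).aestronglyMeasurable
    · rw [norm_mul, norm_mul, Complex.norm_real, Real.norm_eq_abs, abs_of_pos (Phi_zero_pos x),
        mul_assoc]
      refine mul_le_mul_of_nonneg_right ?_ (mul_nonneg (Phi_zero_pos x).le (norm_nonneg _))
      calc ‖∑ k ∈ Finset.range n, z x ^ k / (k.factorial : ℂ)‖
          ≤ ∑ k ∈ Finset.range n, ‖z x ^ k / (k.factorial : ℂ)‖ := norm_sum_le _ _
        _ = ∑ k ∈ Finset.range n, ‖z x‖ ^ k / (k.factorial : ℝ) := by simp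
        _ ≤ Real.exp ‖z x‖ := Real.sum_le_exp_of_nonneg (norm_nonneg _) n
        _ ≤ _ := Real.exp_le_exp.2 (hz x)
    · refine Tendsto.mul_const _ ?_
      have := NormedSpace.expSeries_div_hasSum_exp (𝔸 := ℂ) (z x)
      rw [← Complex.exp_eq_exp_ℂ] at this
      exact this.tendsto_sum_nat
  have hzero : ∀ n : ℕ, ∫ x, (∑ k ∈ Finset.range n, z x ^ k / k !) *
      ((Phi (0 : ι → ℕ) x : ℂ) * f x) = 0 := by
    intro n
    simp only [Finset.sum_mul]
    rw [integral_finsetSum _ fun k _ => (hterm k).1]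
    exact Finset.sum_eq_zero fun k _ => (hterm k).2
  simp only [hzero] at lim
  have := tendsto_nhds_unique tendsto_const_nhds lim
  rw [this]
  refine integral_congr_ae (Eventually.of_forall fun x => ?_)
  simp [z]

/-- completeness of the Hermite functions -/
theorem ae_zero_of_ortho {f : E ι → ℂ} (hf : MemLp f 2 volume)
    (h : ∀ α : ι → ℕ, ∫ x, (Phi α x : ℂ) * f x = 0) : f =ᵐ[volume] 0 := by
  have hG : Integrable (fun x => (Phi (0 : ι → ℕ) x : ℂ) * f x) := (memLp_Phi 0 2).integrable_mul hf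
  have := ae_zero_of_fourier hG (fourier_Phi_mul hf h)
  filter_upwards [this] with x hx
  rcases mul_eq_zero.1 hx with h1 | h1
  · exact absurd (Complex.ofReal_eq_zero.1 h1) (Phi_zero_pos x).ne'
  · exact h1

end Crest.Agent.R338.HO
end
end

-- ▼ part R338/HO2

/-!
# Row 338, module HO2 (helper789): Hermite expansion and the harmonic oscillator form

`cf f α = ∫ Φ_α f` (Hermite coefficients).

* `hasSum_parseval`, `hasSum_cf_inner` : Parseval
* `cf_coord`, `cf_grad` : coefficients of `x_j f` and of the weak derivative `∂_j f`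
* `hasSum_osc` : `½∫|∇f|² + ½∫|x|²|f|² = ∑_α (|α| + d/2) |c_α|²`
-/

set_option autoImplicit false

open MeasureTheory Real SchwartzMap Filter Topology
open scoped Nat ContDiff FourierTransform ComplexConjugate

noncomputable section

namespace Crest.Agent.R338.HO

open Crest.Agent.R335.HF

variable {ι : Type*} [Fintype ι]

/-- Hermite coefficient -/
def cf (f : E ι → ℂ) (α : ι → ℕ) : ℂ := ∫ x, (Phi α x : ℂ) * f x

/-- Hermite functions as elements of `L²` -/
def PhiL (α : ι → ℕ) : Lp ℂ 2 (volume : Measure (E ι)) := (PhiS α).toLp 2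

section
variable [DecidableEq ι]

theorem inner_PhiL (α : ι → ℕ) {f : E ι → ℂ} (hf : MemLp f 2 volume) :
    inner ℂ (PhiL α) (hf.toLp f) = cf f α := by
  unfold PhiL cf
  rw [inner_schw]
  simp

theorem inner_PhiL' (α : ι → ℕ) (u : Lp ℂ 2 (volume : Measure (E ι))) :
    inner ℂ (PhiL α) u = cf (fun x => u x) α := by
  unfold PhiL cf
  rw [inner_schw']
  simp

omit [DecidableEq ι] in
theorem cf_Phi (α β : ι → ℕ) : cf (fun x => (Phi β x : ℂ)) α = if α = β then 1 else 0 := by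
  unfold cf
  have := integral_Phi_mul_Phi α β
  have h2 : ∫ x : E ι, (Phi α x : ℂ) * (Phi β x : ℂ) = ((∫ x : E ι, Phi α x * Phi β x : ℝ) : ℂ) := by
    rw [← integral_complex_ofReal]; simp
  rw [h2, this]; split_ifs <;> simp

theorem orthonormal_PhiL : Orthonormal ℂ (PhiL (ι := ι)) := by
  rw [orthonormal_iff_ite]
  intro α β
  have e : PhiL β = (memLp_Phi β 2).toLp (fun x => (Phi β x : ℂ)) := by
    unfold PhiL
    refine Lp.ext ?_
    filter_upwards [(PhiS β).coeFn_toLp 2 (volume : Measure (E ι)),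
      (memLp_Phi β 2).coeFn_toLp] with x h1 h2
    rw [h1, h2, PhiS_apply]
  rw [e, inner_PhiL, cf_Phi]

theorem orthogonal_PhiL : (Submodule.span ℂ (Set.range (PhiL (ι := ι))))ᗮ = ⊥ := by
  rw [Submodule.eq_bot_iff]
  intro u hu
  have h : ∀ α : ι → ℕ, cf (fun x => u x) α = 0 := by
    intro α
    rw [← inner_PhiL']
    exact (Submodule.mem_orthogonal _ _).1 hu _ (Submodule.subset_span ⟨α, rfl⟩)
  have := ae_zero_of_ortho (Lp.memLp u) h
  exact (Lp.eq_zero_iff_ae_eq_zero).2 this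

/-- the Hermite basis of `L²` -/
def hermBasis (ι : Type*) [Fintype ι] [DecidableEq ι] :
    HilbertBasis (ι → ℕ) ℂ (Lp ℂ 2 (volume : Measure (E ι))) :=
  HilbertBasis.mkOfOrthogonalEqBot orthonormal_PhiL orthogonal_PhiL

theorem coe_hermBasis : ⇑(hermBasis ι) = PhiL := HilbertBasis.coe_mkOfOrthogonalEqBot _ _

/-- polarized Parseval -/
theorem hasSum_cf_inner {f g : E ι → ℂ} (hf : MemLp f 2 volume) (hg : MemLp g 2 volume) :
    HasSum (fun α => conj (cf f α) * cf g α) (∫ x, conj (f x) * g x) := by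
  have h := (hermBasis ι).hasSum_inner_mul_inner (hf.toLp f) (hg.toLp g)
  rw [inner_toLp, coe_hermBasis] at h
  refine h.congr_fun ?_ |> fun h => h
  intro α
  rw [inner_PhiL, ← inner_conj_symm, inner_PhiL]

/-- Parseval -/
theorem hasSum_parseval {f : E ι → ℂ} (hf : MemLp f 2 volume) :
    HasSum (fun α => ‖cf f α‖ ^ 2) (∫ x, ‖f x‖ ^ 2) := by
  have h := hasSum_cf_inner hf hf
  have e : ∀ z : ℂ, conj z * z = ((‖z‖ ^ 2 : ℝ) : ℂ) := by
    intro z; rw [mul_comm, Complex.mul_conj, Complex.normSq_eq_norm_sq]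
  simp only [e] at h
  rw [integral_complex_ofReal] at h
  exact (Complex.hasSum_ofReal).1 h

/-- coefficients of `x_j f` -/
theorem cf_coord {f : E ι → ℂ} (hf : MemLp f 2 volume) (j : ι) (α : ι → ℕ) :
    cf (fun x => (x j : ℂ) * f x) α =
      √(((α j : ℝ) + 1) / 2) * cf f (Function.update α j (α j + 1)) +
      √((α j : ℝ) / 2) * cf f (Function.update α j (α j - 1)) := by
  unfold cf
  rw [← integral_const_mul, ← integral_const_mul, ← integral_add]
  · refine integral_congr_ae (Eventually.of_forall fun x => ?_)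
    have := x_mul_Phi α j x
    have h2 : (x j : ℂ) * (Phi α x : ℂ) = ((x j * Phi α x : ℝ) : ℂ) := by push_cast; ring
    simp only
    rw [show (Phi α x : ℂ) * ((x j : ℂ) * f x) = ((x j : ℂ) * (Phi α x : ℂ)) * f x by ring, h2, this]
    push_cast; ring
  · exact ((memLp_Phi _ 2).integrable_mul hf).const_mul _
  · exact ((memLp_Phi _ 2).integrable_mul hf).const_mul _

/-- coefficients of the weak derivative -/
theorem cf_grad {f : E ι → ℂ} {g : E ι → Gr ι ℂ} (h : IsH1 f g) (j : ι) (α : ι → ℕ) :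
    cf (fun x => g x j) α =
      √(((α j : ℝ) + 1) / 2) * cf f (Function.update α j (α j + 1)) -
      √((α j : ℝ) / 2) * cf f (Function.update α j (α j - 1)) := by
  have key := h.ibp_schwartz (PhiS α) j
  simp only [fderiv_PhiS, PhiS_apply, Complex.conj_ofReal] at key
  have e : cf (fun x => g x j) α = - ∫ x, ((√((α j : ℝ) / 2) * Phi (Function.update α j (α j - 1)) x -
      √(((α j : ℝ) + 1) / 2) * Phi (Function.update α j (α j + 1)) x : ℝ) : ℂ) * f x := by
    rw [key]; simp [cf]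
  rw [e]
  unfold cf
  rw [← integral_const_mul, ← integral_const_mul, ← integral_sub, ← integral_neg]
  · refine integral_congr_ae (Eventually.of_forall fun x => ?_)
    simp only
    push_cast; ring
  · exact ((memLp_Phi _ 2).integrable_mul h.memf).const_mul _
  · exact ((memLp_Phi _ 2).integrable_mul h.memf).const_mul _

theorem norm_parallel (a b : ℝ) (z w : ℂ) :
    ‖(a : ℂ) * z + b * w‖ ^ 2 + ‖(a : ℂ) * z - b * w‖ ^ 2 =
      2 * (a ^ 2 * ‖z‖ ^ 2 + b ^ 2 * ‖w‖ ^ 2) := by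
  have := parallelogram_law_with_norm ℝ ((a : ℂ) * z) (b * w)
  rw [norm_mul, norm_mul, Complex.norm_real, Complex.norm_real, Real.norm_eq_abs,
    Real.norm_eq_abs] at this
  rw [this, mul_pow, mul_pow, sq_abs, sq_abs]

omit [Fintype ι] in
theorem update_inj (j : ι) : Function.Injective (fun α : ι → ℕ => Function.update α j (α j + 1)) := by
  intro α β h
  simp only at h
  ext i
  by_cases hi : i = j
  · subst hi
    have := congrFun h i
    simp at this; exact this
  · have := congrFun h i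
    simpa [hi] using this

/-- one coordinate of the oscillator: `∫|x_j f|² + ∫|∂_j f|² = ∑_α (2α_j+1)|c_α|²` -/
theorem hasSum_osc_coord {f : E ι → ℂ} {g : E ι → Gr ι ℂ} (h : IsH1 f g) (j : ι)
    (hx : MemLp (fun x => (x j : ℂ) * f x) 2 volume) :
    HasSum (fun α : ι → ℕ => (2 * (α j : ℝ) + 1) * ‖cf f α‖ ^ 2)
      ((∫ x, ‖(x j : ℂ) * f x‖ ^ 2) + ∫ x, ‖g x j‖ ^ 2) := by
  have h1 := (hasSum_parseval hx).add (hasSum_parseval (h.memgi j))
  simp only [cf_coord h.memf, cf_grad h, norm_parallel] at h1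
  have s1 : ∀ α : ι → ℕ, √(((α j : ℝ) + 1) / 2) ^ 2 = ((α j : ℝ) + 1) / 2 := fun α =>
    Real.sq_sqrt (by positivity)
  have s2 : ∀ α : ι → ℕ, √((α j : ℝ) / 2) ^ 2 = (α j : ℝ) / 2 := fun α =>
    Real.sq_sqrt (by positivity)
  simp only [s1, s2] at h1
  let A : (ι → ℕ) → ℝ := fun α => ((α j : ℝ) + 1) * ‖cf f (Function.update α j (α j + 1))‖ ^ 2
  let B : (ι → ℕ) → ℝ := fun α => (α j : ℝ) * ‖cf f (Function.update α j (α j - 1))‖ ^ 2
  have hAB : HasSum (fun α => A α + B α) ((∫ x, ‖(x j : ℂ) * f x‖ ^ 2) + ∫ x, ‖g x j‖ ^ 2) := by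
    refine h1.congr_fun ?_ |> fun h => h
    intro α
    simp only [A, B]; ring
  have hA0 : ∀ α, 0 ≤ A α := fun α => by positivity
  have hB0 : ∀ α, 0 ≤ B α := fun α => by positivity
  have sA : Summable A := Summable.of_nonneg_of_le hA0 (fun α => le_add_of_nonneg_right (hB0 α))
    hAB.summable
  have sB : Summable B := Summable.of_nonneg_of_le hB0 (fun α => le_add_of_nonneg_left (hA0 α))
    hAB.summable
  have hA : HasSum (fun β : ι → ℕ => (β j : ℝ) * ‖cf f β‖ ^ 2) (∑' α, A α) := by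
    rw [← (update_inj j).hasSum_iff]
    · refine sA.hasSum.congr_fun ?_ |> fun h => h
      intro α
      simp [A]
    · intro β hβ
      have : β j = 0 := by
        by_contra hne
        apply hβ
        refine ⟨Function.update β j (β j - 1), ?_⟩
        ext i
        by_cases hi : i = j
        · subst hi; simp; omega
        · simp [hi]
      simp [this]
  have hB : HasSum (fun β : ι → ℕ => ((β j : ℝ) + 1) * ‖cf f β‖ ^ 2) (∑' α, B α) := by
    have h2 : HasSum B (∑' α, B α) := sB.hasSum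
    rw [← (update_inj j).hasSum_iff] at h2
    · refine h2.congr_fun ?_ |> fun h => h
      intro α
      simp [B]
    · intro β hβ
      have : β j = 0 := by
        by_contra hne
        apply hβ
        refine ⟨Function.update β j (β j - 1), ?_⟩
        ext i
        by_cases hi : i = j
        · subst hi; simp; omega
        · simp [hi]
      simp [B, this]
  have h3 := hA.add hB
  have e : (∑' α, A α) + ∑' α, B α = (∫ x, ‖(x j : ℂ) * f x‖ ^ 2) + ∫ x, ‖g x j‖ ^ 2 := by
    rw [← sA.tsum_add sB]; exact hAB.tsum_eq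
  rw [e] at h3
  refine h3.congr_fun ?_ |> fun h => h
  intro α; ring

/-- the oscillator form of a pair `(f, ∇f)` -/
def osc (f : E ι → ℂ) (g : E ι → Gr ι ℂ) : ℝ :=
  (1 / 2) * (∫ x, ‖g x‖ ^ 2) + (1 / 2) * ∫ x, ‖x‖ ^ 2 * ‖f x‖ ^ 2

/-- class of functions with `f, ∇f, x f ∈ L²` -/
structure IsOsc (f : E ι → ℂ) (g : E ι → Gr ι ℂ) : Prop where
  h1 : IsH1 f g
  hx : ∀ j, MemLp (fun x => (x j : ℂ) * f x) 2 volume

theorem osc_eq {f : E ι → ℂ} {g : E ι → Gr ι ℂ} (h : IsOsc f g) :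
    osc f g = ∑ j, (1 / 2) * ((∫ x, ‖(x j : ℂ) * f x‖ ^ 2) + ∫ x, ‖g x j‖ ^ 2) := by
  unfold osc
  rw [← Finset.mul_sum, Finset.sum_add_distrib]
  have e1 : ∫ x, ‖g x‖ ^ 2 = ∑ j, ∫ x, ‖g x j‖ ^ 2 := by
    rw [← integral_finsetSum _ fun j _ => (h.h1.memgi j).integrable_norm_pow (by norm_num) |> fun h => by simpa using h]
    refine integral_congr_ae (Eventually.of_forall fun x => ?_)
    simp only
    rw [PiLp.norm_sq_eq_of_L2]
  have e2 : ∫ x, ‖x‖ ^ 2 * ‖f x‖ ^ 2 = ∑ j, ∫ x, ‖(x j : ℂ) * f x‖ ^ 2 := by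
    rw [← integral_finsetSum _ fun j _ => (h.hx j).integrable_norm_pow (by norm_num) |> fun h => by simpa using h]
    refine integral_congr_ae (Eventually.of_forall fun x => ?_)
    simp only
    rw [EuclideanSpace.norm_sq_eq, Finset.sum_mul]
    refine Finset.sum_congr rfl fun j _ => ?_
    rw [norm_mul, mul_pow, Complex.norm_real]
  rw [e1, e2]; ring

/-- **the oscillator form in the Hermite basis** -/
theorem hasSum_osc {f : E ι → ℂ} {g : E ι → Gr ι ℂ} (h : IsOsc f g) :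
    HasSum (fun α : ι → ℕ => ((∑ j, (α j : ℝ)) + (Fintype.card ι : ℝ) / 2) * ‖cf f α‖ ^ 2)
      (osc f g) := by
  rw [osc_eq h]
  have h1 := hasSum_sum (s := Finset.univ) fun j _ => (hasSum_osc_coord h.h1 j (h.hx j)).mul_left (1 / 2)
  refine h1.congr_fun ?_ |> fun h => h
  intro α
  rw [Finset.sum_congr rfl fun j _ => show (1 / 2 : ℝ) * ((2 * (α j : ℝ) + 1) * ‖cf f α‖ ^ 2) =
    (α j : ℝ) * ‖cf f α‖ ^ 2 + 1 / 2 * ‖cf f α‖ ^ 2 by ring]
  rw [Finset.sum_add_distrib, ← Finset.sum_mul, Finset.sum_const, Finset.card_univ, nsmul_eq_mul]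
  ring

end

end Crest.Agent.R338.HO
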