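import Crest.Agent.R338.TA0
import Crest.Agent.R338.HO2
import Crest.Agent.R338.Fm1

-- ▼ part R338/HO3b
section

/-!
# Row 338, module HO3b (helper789): index combinatorics of the unperturbed problem

For an injective `ω : Fin N → Fin 2 × (Fin 3 → ℕ)` with `N = Nel n0 Nv` the total oscillator energy
`∑ (deg + 3/2)` is `EN n0 Nv` if the core is full and all degrees are `≤ n0`, and `≥ EN n0 Nv + 1`
otherwise.
-/

set_option autoImplicit false

open Finset

noncomputable section

namespace Crest.Agent.R338.HO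

open Crest.Agent.R338.TA

/-- all spin orbitals -/
abbrev OrbI := Fin 2 × (Fin 3 → ℕ)

/-- degree of an orbital -/
def odeg (o : OrbI) : ℕ := deg3 o.2

/-- spatial shell -/
def shell (n : ℕ) : Finset (Fin 3 → ℕ) :=
  ((Finset.univ : Finset (Sp n)).image Subtype.val).filter (fun m => deg3 m = n)

theorem mem_shell {n : ℕ} {m : Fin 3 → ℕ} : m ∈ shell n ↔ deg3 m = n := by
  unfold shell
  simp only [Finset.mem_filter, Finset.mem_image, Finset.mem_univ, true_and, Subtype.exists,
    exists_prop, exists_eq_right]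
  constructor
  · exact fun h => h.2
  · exact fun h => ⟨h.le, h⟩

theorem card_shell (n : ℕ) : (shell n).card = (n + 2).choose 2 := by
  have h1 := Finset.card_finsuppAntidiag_nat_eq_choose (s := (Finset.univ : Finset (Fin 3))) n
  have h2 : (shell n).card = ((Finset.univ : Finset (Fin 3)).finsuppAntidiag n).card := by
    refine Finset.card_nbij' (fun m => Finsupp.equivFunOnFinite.symm m) (fun f => ⇑f) ?_ ?_ ?_ ?_
    · intro m hm
      have := mem_shell.1 (Finset.mem_coe.1 hm)
      rw [Finset.mem_coe, Finset.mem_finsuppAntidiag]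
      refine ⟨?_, by simp⟩
      simp only [Finsupp.equivFunOnFinite_symm_apply_apply, Fin.sum_univ_three]
      exact this
    · intro f hf
      rw [Finset.mem_coe, Finset.mem_finsuppAntidiag] at hf
      rw [Finset.mem_coe, mem_shell]
      have := hf.1
      rw [Fin.sum_univ_three] at this
      exact this
    · intro m _; ext i; simp
    · intro f _; ext i; simp
  rw [h2, h1]
  simp only [Finset.card_univ, Fintype.card_fin]
  have : 3 + n - 1 = n + 2 := by omega
  rw [this]
  exact Nat.choose_symm_add (a := n) (b := 2)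

/-- the core orbitals -/
def core (n0 : ℕ) : Finset OrbI := Finset.univ ×ˢ ((Finset.range n0).biUnion shell)

theorem mem_core {n0 : ℕ} {o : OrbI} : o ∈ core n0 ↔ odeg o < n0 := by
  unfold core odeg
  simp [mem_shell]

theorem sum_core (n0 : ℕ) (f : ℕ → ℕ) :
    ∑ o ∈ core n0, f (odeg o) = ∑ n ∈ Finset.range n0, f n * (2 * (n + 2).choose 2) := by
  unfold core
  rw [Finset.sum_product]
  have e : ∀ s : Fin 2, ∑ m ∈ (Finset.range n0).biUnion shell, f (odeg (s, m)) =
      ∑ n ∈ Finset.range n0, f n * (n + 2).choose 2 := by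
    intro s
    rw [Finset.sum_biUnion]
    · refine Finset.sum_congr rfl fun n _ => ?_
      rw [← card_shell, Finset.sum_congr rfl fun m hm => show f (odeg (s, m)) = f n by
        rw [show odeg (s, m) = n from mem_shell.1 hm]]
      rw [Finset.sum_const, smul_eq_mul, mul_comm]
    · intro a _ b _ hab
      rw [Function.onFun, Finset.disjoint_left]
      intro m hm hm'
      exact hab ((mem_shell.1 hm).symm.trans (mem_shell.1 hm'))
  simp only [e, Finset.sum_const, Finset.card_univ, Fintype.card_fin, smul_eq_mul]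
  rw [Finset.mul_sum]
  refine Finset.sum_congr rfl fun n _ => by ring

theorem two_choose (n : ℕ) : 2 * (n + 2).choose 2 = (n + 1) * (n + 2) := by
  rw [Nat.choose_two_right]
  have : 2 ∣ (n + 2) * (n + 2 - 1) := by
    have := Nat.even_mul_pred_self (n + 2)
    exact this.two_dvd
  rw [Nat.mul_div_cancel' this]
  have : n + 2 - 1 = n + 1 := rfl
  rw [this]; ring

theorem sum_two_choose (n0 : ℕ) :
    ∑ n ∈ Finset.range n0, (n + 1) * (n + 2) = 2 * (n0 + 2).choose 3 := by
  induction n0 with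
  | zero => simp [Nat.choose]
  | succ n ih =>
    rw [Finset.sum_range_succ, ih, ← two_choose]
    have : (n + 1 + 2).choose 3 = (n + 2).choose 2 + (n + 2).choose 3 := Nat.choose_succ_succ _ _
    rw [this]; ring

theorem Nel_eq (n0 Nv : ℕ) : Nel n0 Nv = ∑ n ∈ Finset.range n0, (n + 1) * (n + 2) + Nv := by
  unfold Nel; rw [sum_two_choose]

/-- integer part of the unperturbed energy -/
def M0 (n0 Nv : ℕ) : ℕ := ∑ n ∈ Finset.range n0, n * ((n + 1) * (n + 2)) + Nv * n0

/-- the deficit of the core -/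
def K0 (n0 : ℕ) : ℕ := ∑ n ∈ Finset.range n0, (n0 - n) * ((n + 1) * (n + 2))

theorem Nel_mul (n0 Nv : ℕ) : Nel n0 Nv * n0 = K0 n0 + M0 n0 Nv := by
  rw [Nel_eq, K0, M0, ← add_assoc, ← Finset.sum_add_distrib, add_mul, Finset.sum_mul]
  congr 1
  refine Finset.sum_congr rfl fun n hn => ?_
  rw [← add_mul, Nat.sub_add_cancel (Finset.mem_range.1 hn).le]; ring

theorem sum_core_deficit (n0 : ℕ) : ∑ o ∈ core n0, (n0 - odeg o) = K0 n0 := by
  rw [sum_core n0 (fun n => n0 - n), K0]
  refine Finset.sum_congr rfl fun n _ => ?_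
  rw [two_choose]

theorem EN_eq (n0 Nv : ℕ) : EN n0 Nv = (M0 n0 Nv : ℝ) + (Nel n0 Nv : ℝ) * (3 / 2) := by
  rw [Nel_eq, M0, EN]
  push_cast
  rw [add_mul, Finset.sum_mul]
  have : ∀ n : ℕ, ((n : ℝ) + 3 / 2) * (n + 1) * (n + 2) =
      (n : ℝ) * (((n : ℝ) + 1) * (n + 2)) + (((n : ℝ) + 1) * (n + 2)) * (3 / 2) := fun n => by ring
  simp only [this, Finset.sum_add_distrib]
  ring

variable {N : ℕ}

/-- ground configurations: full core and all degrees `≤ n0` -/
def Ground (n0 : ℕ) (ω : Fin N → OrbI) : Prop :=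
  (∀ o : OrbI, odeg o < n0 → ∃ i, ω i = o) ∧ ∀ i, odeg (ω i) ≤ n0

theorem sum_deg_add (n0 : ℕ) (ω : Fin N → OrbI) :
    ∑ i, odeg (ω i) + ∑ i, (n0 - odeg (ω i)) = N * n0 + ∑ i, (odeg (ω i) - n0) := by
  rw [← Finset.sum_add_distrib]
  have : N * n0 = ∑ _i : Fin N, n0 := by simp
  rw [this, ← Finset.sum_add_distrib]
  refine Finset.sum_congr rfl fun i _ => by omega

theorem deficit_le (n0 : ℕ) {ω : Fin N → OrbI} (hω : Function.Injective ω) :
    ∑ i, (n0 - odeg (ω i)) ≤ K0 n0 := by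
  rw [← sum_core_deficit]
  have h1 : ∑ i, (n0 - odeg (ω i)) = ∑ o ∈ Finset.univ.image ω, (n0 - odeg o) := by
    rw [Finset.sum_image (fun a _ b _ h => hω h)]
  rw [h1, ← Finset.sum_filter_add_sum_filter_not _ (fun o => odeg o < n0)]
  have h2 : ∑ o ∈ (Finset.univ.image ω).filter (fun o => ¬ odeg o < n0), (n0 - odeg o) = 0 := by
    refine Finset.sum_eq_zero fun o ho => ?_
    have := (Finset.mem_filter.1 ho).2
    omega
  rw [h2, add_zero]
  refine Finset.sum_le_sum_of_subset fun o ho => ?_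
  exact mem_core.2 (Finset.mem_filter.1 ho).2

theorem deficit_lt (n0 : ℕ) {ω : Fin N → OrbI} (hω : Function.Injective ω) {o' : OrbI}
    (ho' : odeg o' < n0) (hn : ∀ i, ω i ≠ o') : ∑ i, (n0 - odeg (ω i)) < K0 n0 := by
  rw [← sum_core_deficit]
  have h1 : ∑ i, (n0 - odeg (ω i)) = ∑ o ∈ Finset.univ.image ω, (n0 - odeg o) := by
    rw [Finset.sum_image (fun a _ b _ h => hω h)]
  rw [h1, ← Finset.sum_filter_add_sum_filter_not _ (fun o => odeg o < n0)]
  have h2 : ∑ o ∈ (Finset.univ.image ω).filter (fun o => ¬ odeg o < n0), (n0 - odeg o) = 0 := by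
    refine Finset.sum_eq_zero fun o ho => ?_
    have := (Finset.mem_filter.1 ho).2
    omega
  rw [h2, add_zero]
  refine Finset.sum_lt_sum_of_subset (i := o') (fun o ho => ?_) (mem_core.2 ho') ?_ ?_ ?_
  · exact mem_core.2 (Finset.mem_filter.1 ho).2
  · intro hmem
    obtain ⟨i, _, hi⟩ := Finset.mem_image.1 (Finset.mem_filter.1 hmem).1
    exact hn i hi
  · omega
  · intro j _ _; exact Nat.zero_le _

theorem sum_deg_ground {n0 Nv : ℕ} {ω : Fin (Nel n0 Nv) → OrbI} (hω : Function.Injective ω)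
    (hg : Ground n0 ω) : ∑ i, odeg (ω i) = M0 n0 Nv := by
  have h1 := sum_deg_add n0 ω
  have h2 : ∑ i, (odeg (ω i) - n0) = 0 := Finset.sum_eq_zero fun i _ => by
    have := hg.2 i; omega
  have h3 : ∑ i, (n0 - odeg (ω i)) = K0 n0 := by
    rw [← sum_core_deficit]
    have h1 : ∑ i, (n0 - odeg (ω i)) = ∑ o ∈ Finset.univ.image ω, (n0 - odeg o) := by
      rw [Finset.sum_image (fun a _ b _ h => hω h)]
    rw [h1]
    symm
    refine Finset.sum_subset ?_ ?_
    · intro o ho
      obtain ⟨i, hi⟩ := hg.1 o (mem_core.1 ho)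
      exact Finset.mem_image.2 ⟨i, Finset.mem_univ i, hi⟩
    · intro o _ ho
      have : ¬ odeg o < n0 := fun h => ho (mem_core.2 h)
      omega
  have h4 := Nel_mul n0 Nv
  omega

theorem sum_deg_not_ground {n0 Nv : ℕ} {ω : Fin (Nel n0 Nv) → OrbI} (hω : Function.Injective ω)
    (hg : ¬ Ground n0 ω) : M0 n0 Nv + 1 ≤ ∑ i, odeg (ω i) := by
  have h1 := sum_deg_add n0 ω
  have h4 := Nel_mul n0 Nv
  unfold Ground at hg
  rw [not_and_or] at hg
  rcases hg with hg | hg
  · push Not at hg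
    obtain ⟨o, ho, hn⟩ := hg
    have h3 := deficit_lt n0 hω ho hn
    omega
  · push Not at hg
    obtain ⟨i, hi⟩ := hg
    have h3 := deficit_le n0 hω
    have h5 : odeg (ω i) - n0 ≤ ∑ i, (odeg (ω i) - n0) :=
      Finset.single_le_sum (f := fun i => odeg (ω i) - n0) (fun _ _ => Nat.zero_le _)
        (Finset.mem_univ i)
    omega

/-- energy of a configuration -/
def econf (ω : Fin N → OrbI) : ℝ := ((∑ i, odeg (ω i) : ℕ) : ℝ) + (N : ℝ) * (3 / 2)

theorem econf_ground {n0 Nv : ℕ} {ω : Fin (Nel n0 Nv) → OrbI} (hω : Function.Injective ω)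
    (hg : Ground n0 ω) : econf ω = EN n0 Nv := by
  rw [econf, sum_deg_ground hω hg, EN_eq]

theorem econf_not_ground {n0 Nv : ℕ} {ω : Fin (Nel n0 Nv) → OrbI} (hω : Function.Injective ω)
    (hg : ¬ Ground n0 ω) : EN n0 Nv + 1 ≤ econf ω := by
  have h : ((M0 n0 Nv + 1 : ℕ) : ℝ) ≤ ((∑ i, odeg (ω i) : ℕ) : ℝ) :=
    Nat.cast_le.2 (sum_deg_not_ground hω hg)
  rw [econf, EN_eq]
  push_cast at h ⊢
  linarith

end Crest.Agent.R338.HO
end
end

-- ▼ part R338/HO3

/-!
# Row 338, module HO3 (helper789): the N-body oscillator, antisymmetry and the gap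

See `osc_split`, `hosc_wav`, `nsq_wav`.
-/

set_option autoImplicit false

open MeasureTheory Filter Topology
open scoped ENNReal ComplexConjugate

noncomputable section

namespace Crest.Agent.R338.HO

open Crest.Agent.R338.TA Crest.Agent.R338.Fm
open Crest.MathPhysics.ElectronicCoulomb
open Crest.Agent.R335.HF (IsH1 Gr cgrad IsH1.sub isH1_of_contDiff isH1_of_contDiff_compact)

variable {N n0 : ℕ}

/-! ### permutations -/

/-- relabelling as a linear isometry -/
def permL (σ : Equiv.Perm (Fin N)) : Config N ≃ₗᵢ[ℝ] Config N :=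
  LinearIsometryEquiv.piLpCongrLeft 2 ℝ ℝ (Equiv.prodCongr σ (Equiv.refl (Fin 3))).symm

theorem permL_apply (σ : Equiv.Perm (Fin N)) (x : Config N) : permL σ x = permConfig σ x := by
  unfold permL permConfig
  ext ic
  rw [LinearIsometryEquiv.piLpCongrLeft_apply]
  rfl

theorem integral_perm (σ : Equiv.Perm (Fin N)) (g : Config N → ℂ) :
    ∫ x, g (permConfig σ x) = ∫ x, g x := by
  have h := (permL σ).measurePreserving
  have h2 := h.integral_comp (permL σ).toHomeomorph.measurableEmbedding g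
  simp only [permL_apply] at h2
  exact h2

/-- the multi-index of a tuple of orbitals -/
def aidx (m : Fin N → Fin 3 → ℕ) : Fin N × Fin 3 → ℕ := fun ic => m ic.1 ic.2

theorem Phi_perm (σ : Equiv.Perm (Fin N)) (α : Fin N × Fin 3 → ℕ) (x : Config N) :
    Phi (fun ic => α (σ ic.1, ic.2)) (permConfig σ x) = Phi α x := by
  unfold Phi permConfig
  simp only
  exact Fintype.prod_equiv (Equiv.prodCongr σ (Equiv.refl (Fin 3))) _ _ (fun ic => rfl)

/-- antisymmetry of the coefficients -/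
theorem cf_perm {Ψ : Wave N} (h : IsFermionic Ψ) (σ : Equiv.Perm (Fin N)) (s : Spin N)
    (α : Fin N × Fin 3 → ℕ) :
    cf (Ψ (fun i => s (σ i))) (fun ic => α (σ ic.1, ic.2)) =
      ((Equiv.Perm.sign σ : ℤ) : ℂ) * cf (Ψ s) α := by
  unfold cf
  rw [← integral_perm σ, ← integral_const_mul]
  refine integral_congr_ae (Eventually.of_forall fun x => ?_)
  simp only
  rw [Phi_perm, h.2 σ s x]
  ring

/-- coefficients at repeated orbitals vanish -/
theorem cf_eq_zero_of_rep {Ψ : Wave N} (h : IsFermionic Ψ) (s : Spin N) (m : Fin N → Fin 3 → ℕ)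
    (hn : ¬ Function.Injective (fun i => (s i, m i))) : cf (Ψ s) (aidx m) = 0 := by
  unfold Function.Injective at hn
  push Not at hn
  obtain ⟨i, j, hij, hne⟩ := hn
  have hs : s i = s j := (Prod.ext_iff.1 hij).1
  have hm : m i = m j := (Prod.ext_iff.1 hij).2
  have key := cf_perm h (Equiv.swap i j) s (aidx m)
  have e1 : (fun k => s (Equiv.swap i j k)) = s := by
    funext k
    by_cases h1 : k = i
    · subst h1; rw [Equiv.swap_apply_left]; exact hs.symm
    · by_cases h2 : k = j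
      · subst h2; rw [Equiv.swap_apply_right]; exact hs
      · rw [Equiv.swap_apply_of_ne_of_ne h1 h2]
  have e2 : (fun ic : Fin N × Fin 3 => aidx m (Equiv.swap i j ic.1, ic.2)) = aidx m := by
    funext ic
    obtain ⟨k, c⟩ := ic
    unfold aidx
    simp only
    by_cases h1 : k = i
    · subst h1; rw [Equiv.swap_apply_left, hm]
    · by_cases h2 : k = j
      · subst h2; rw [Equiv.swap_apply_right, hm]
      · rw [Equiv.swap_apply_of_ne_of_ne h1 h2]
  rw [e1, e2, Equiv.Perm.sign_swap hne] at key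
  simp only [Units.val_neg, Units.val_one, Int.cast_neg, Int.cast_one, neg_mul, one_mul] at key
  exact self_eq_neg.1 key

/-! ### waves in the oscillator class -/

/-- waves with weak gradient and `x Ψ ∈ L²` -/
def WaveOsc (Ψ : Wave N) (Γ : Spin N → Config N → CG N) : Prop := ∀ s, IsOsc (Ψ s) (Γ s)

/-- the oscillator form of a wave -/
def hosc (Ψ : Wave N) (Γ : Spin N → Config N → CG N) : ℝ := ∑ s, osc (Ψ s) (Γ s)

theorem hosc_eq (Ψ : Wave N) (Γ : Spin N → Config N → CG N) :
    hosc Ψ Γ = (1 / 2) * dir Γ + (1 / 2) * ∑ s, ∫ x, ‖x‖ ^ 2 * ‖Ψ s x‖ ^ 2 := by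
  unfold hosc osc dir
  rw [Finset.sum_add_distrib, Finset.mul_sum, Finset.mul_sum]

theorem WaveOsc.waveH1 {Ψ : Wave N} {Γ : Spin N → Config N → CG N} (h : WaveOsc Ψ Γ) :
    WaveH1 Ψ Γ := fun s => (h s).h1

theorem IsOsc.sub {ι : Type*} [Fintype ι] [DecidableEq ι]
    {f f' : EuclideanSpace ℝ ι → ℂ} {g g' : EuclideanSpace ℝ ι → Gr ι ℂ}
    (h : IsOsc f g) (h' : IsOsc f' g') :
    IsOsc (fun x => f x - f' x) (fun x => g x - g' x) where
  h1 := h.h1.sub h'.h1
  hx j := by
    have := (h.hx j).sub (h'.hx j)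
    refine this.congr_norm ?_ (Eventually.of_forall fun x => ?_)
    · have e : (fun x : EuclideanSpace ℝ ι => (x j : ℂ) * (f x - f' x)) =
        (fun x => (x j : ℂ) * f x) - fun x => (x j : ℂ) * f' x := by
        funext x; simp [mul_sub]
      rw [e]; exact this.aestronglyMeasurable
    · simp [mul_sub]

theorem WaveOsc.sub {Ψ Ψ' : Wave N} {Γ Γ' : Spin N → Config N → CG N} (h : WaveOsc Ψ Γ)
    (h' : WaveOsc Ψ' Γ') :
    WaveOsc (fun s x => Ψ s x - Ψ' s x) (fun s x => Γ s x - Γ' s x) := fun s => (h s).sub (h' s)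

/-- expansion of the norm -/
theorem hasSum_nsq {Ψ : Wave N} (h : ∀ s, MemLp (Ψ s) 2 volume) :
    HasSum (fun α : Fin N × Fin 3 → ℕ => ∑ s, ‖cf (Ψ s) α‖ ^ 2) (nsq Ψ) := by
  unfold nsq
  exact hasSum_sum fun s _ => hasSum_parseval (h s)

/-- energy of a multi-index -/
def ea (α : Fin N × Fin 3 → ℕ) : ℝ := (∑ j, (α j : ℝ)) + (Fintype.card (Fin N × Fin 3) : ℝ) / 2

/-- expansion of the oscillator form -/
theorem hasSum_hosc {Ψ : Wave N} {Γ : Spin N → Config N → CG N} (h : WaveOsc Ψ Γ) :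
    HasSum (fun α : Fin N × Fin 3 → ℕ => ea α * ∑ s, ‖cf (Ψ s) α‖ ^ 2) (hosc Ψ Γ) := by
  unfold hosc
  have := hasSum_sum (s := Finset.univ) fun s _ => hasSum_osc (h s)
  refine this.congr_fun ?_ |> fun h => h
  intro α
  rw [Finset.mul_sum]; rfl

/-- the tuple of orbitals of `(s, α)` -/
def orb (s : Spin N) (α : Fin N × Fin 3 → ℕ) : Fin N → OrbI := fun i => (s i, fun c => α (i, c))

theorem ea_eq (s : Spin N) (α : Fin N × Fin 3 → ℕ) : ea α = econf (orb s α) := by
  unfold ea econf orb odeg deg3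
  rw [Fintype.sum_prod_type]
  simp only [Fin.sum_univ_three, Fintype.card_prod, Fintype.card_fin]
  push_cast
  ring


theorem cf_eq_zero_of_not_inj {Ψ : Wave N} (h : IsFermionic Ψ) (s : Spin N)
    (α : Fin N × Fin 3 → ℕ) (hn : ¬ Function.Injective (orb s α)) : cf (Ψ s) α = 0 :=
  cf_eq_zero_of_rep h s (fun i c => α (i, c)) hn

/-! ### waves of tensors -/

/-- all degrees are `≤ n0` -/
def Low (n0 : ℕ) (α : Fin N × Fin 3 → ℕ) : Prop := ∀ i : Fin N, deg3 (fun c => α (i, c)) ≤ n0

open Classical in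
/-- extension of a tensor to all multi-indices by zero -/
def ext (C : Ten N n0) (s : Spin N) (α : Fin N × Fin 3 → ℕ) : ℂ :=
  if h : Low n0 α then C (fun i => (s i, ⟨fun c => α (i, c), h i⟩)) else 0

/-- multi-index of low orbitals -/
def lidx (m : Fin N → Sp n0) : Fin N × Fin 3 → ℕ := fun ic => (m ic.1).1 ic.2

theorem lidx_low (m : Fin N → Sp n0) : Low n0 (lidx m) := fun i => (m i).2

theorem lidx_injective : Function.Injective (lidx : (Fin N → Sp n0) → _) := by
  intro m m' h
  funext i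
  apply Subtype.ext
  funext c
  exact congrFun h (i, c)

theorem exists_lidx {α : Fin N × Fin 3 → ℕ} (h : Low n0 α) : ∃ m : Fin N → Sp n0, lidx m = α :=
  ⟨fun i => ⟨fun c => α (i, c), h i⟩, rfl⟩

theorem ext_lidx (C : Ten N n0) (s : Spin N) (m : Fin N → Sp n0) :
    ext C s (lidx m) = C (fun i => (s i, m i)) := by
  unfold ext
  rw [dif_pos (lidx_low m)]
  rfl

theorem ext_not_low (C : Ten N n0) (s : Spin N) {α : Fin N × Fin 3 → ℕ} (h : ¬ Low n0 α) :
    ext C s α = 0 := by
  unfold ext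
  rw [dif_neg h]

theorem wav_eq (C : Ten N n0) (s : Spin N) :
    wav C s = fun x => ∑ m : Fin N → Sp n0, C (fun i => (s i, m i)) * (Phi (lidx m) x : ℂ) := rfl

theorem integrable_Phi_mul {ι : Type*} [Fintype ι] (α : ι → ℕ) {f : EuclideanSpace ℝ ι → ℂ}
    (hf : MemLp f 2 volume) : Integrable (fun x => (Phi α x : ℂ) * f x) :=
  (memLp_Phi α 2).integrable_mul hf

theorem cf_wav (C : Ten N n0) (s : Spin N) (α : Fin N × Fin 3 → ℕ) :
    cf (wav C s) α = ext C s α := by
  rw [wav_eq]
  unfold cf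
  have e : ∀ x, (Phi α x : ℂ) * ∑ m : Fin N → Sp n0, C (fun i => (s i, m i)) * (Phi (lidx m) x : ℂ) =
      ∑ m : Fin N → Sp n0, C (fun i => (s i, m i)) * ((Phi α x : ℂ) * (Phi (lidx m) x : ℂ)) := by
    intro x
    rw [Finset.mul_sum]
    refine Finset.sum_congr rfl fun m _ => by ring
  simp only [e]
  rw [integral_finsetSum _ fun m _ => (integrable_Phi_mul α (memLp_Phi (lidx m) 2)).const_mul _]
  have e2 : ∀ m : Fin N → Sp n0, ∫ x, C (fun i => (s i, m i)) * ((Phi α x : ℂ) * (Phi (lidx m) x : ℂ)) =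
      C (fun i => (s i, m i)) * (if α = lidx m then 1 else 0) := by
    intro m
    rw [integral_const_mul]
    congr 1
    exact cf_Phi α (lidx m)
  simp only [e2]
  by_cases h : Low n0 α
  · obtain ⟨m, rfl⟩ := exists_lidx h
    rw [ext_lidx, Finset.sum_eq_single m]
    · simp
    · intro m' _ hne
      rw [if_neg (fun h => hne (lidx_injective h).symm), mul_zero]
    · simp
  · rw [ext_not_low C s h]
    refine Finset.sum_eq_zero fun m _ => ?_
    rw [if_neg (fun h' => h (by rw [h']; exact lidx_low m)), mul_zero]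

/-- classical gradient of a tensor wave -/
def gwav (C : Ten N n0) : Spin N → Config N → CG N := fun s => cgrad (wav C s)

/-- Schwartz function of a tensor wave -/
def wavS (C : Ten N n0) (s : Spin N) : SchwartzMap (Config N) ℂ :=
  ∑ m : Fin N → Sp n0, C (fun i => (s i, m i)) • PhiS (lidx m)

theorem wavS_coe (C : Ten N n0) (s : Spin N) : (wavS C s : Config N → ℂ) = wav C s := by
  rw [wav_eq]
  funext x
  unfold wavS
  rw [sum_apply]
  simp

/-- Schwartz functions are in the oscillator class -/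
theorem isOsc_schwartz {ι : Type*} [Fintype ι] [DecidableEq ι]
    (f : SchwartzMap (EuclideanSpace ℝ ι) ℂ) : IsOsc (f : EuclideanSpace ℝ ι → ℂ) (cgrad f) where
  h1 := by
    refine isH1_of_contDiff (f.smooth 1) (f.memLp 2 volume) ?_
    refine Crest.Agent.R335.HF.memLp_of_comp fun i => ?_
    have := (LineDeriv.lineDerivOp (EuclideanSpace.single i (1 : ℝ) : EuclideanSpace ℝ ι) f :
      SchwartzMap (EuclideanSpace ℝ ι) ℂ).memLp 2 (volume : Measure (EuclideanSpace ℝ ι))
    have e : ((LineDeriv.lineDerivOp (EuclideanSpace.single i (1 : ℝ) : EuclideanSpace ℝ ι) f :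
      SchwartzMap (EuclideanSpace ℝ ι) ℂ) : EuclideanSpace ℝ ι → ℂ) =
        fun x => fderiv ℝ f x (EuclideanSpace.single i (1 : ℝ)) := by
      ext x; exact SchwartzMap.lineDerivOp_apply_eq_fderiv _ _ _
    rw [e] at this
    exact this
  hx j := by
    have htg : Function.HasTemperateGrowth (fun x : EuclideanSpace ℝ ι => (x j : ℂ)) :=
      Function.Complex.hasTemperateGrowth_ofReal.comp (htg_coord j)
    have := (SchwartzMap.smulLeftCLM ℂ (fun x : EuclideanSpace ℝ ι => (x j : ℂ)) f).memLp 2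
      (volume : Measure (EuclideanSpace ℝ ι))
    have e : (SchwartzMap.smulLeftCLM ℂ (fun x : EuclideanSpace ℝ ι => (x j : ℂ)) f :
        EuclideanSpace ℝ ι → ℂ) = fun x => (x j : ℂ) * f x := by
      ext x; rw [SchwartzMap.smulLeftCLM_apply_apply htg]; rfl
    rwa [e] at this



theorem waveOsc_wav (C : Ten N n0) : WaveOsc (wav C) (gwav C) := by
  intro s
  have := isOsc_schwartz (wavS C s)
  rw [wavS_coe] at this
  exact this

theorem sum_tensor {β : Type*} [AddCommMonoid β] (F : (Fin N → Orb n0) → β) :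
    ∑ ω, F ω = ∑ s : Spin N, ∑ m : Fin N → Sp n0, F (fun i => (s i, m i)) := by
  rw [← Fintype.sum_prod_type' (f := fun (s : Spin N) (m : Fin N → Sp n0) => F (fun i => (s i, m i)))]
  refine Fintype.sum_equiv (Equiv.arrowProdEquivProdArrow (Fin N) (fun _ => Fin 2) (fun _ => Sp n0))
    _ _ (fun ω => rfl)

/-- a function of `(s, α)` supported on low multi-indices sums to the finite sum -/
theorem hasSum_low (G : Spin N → (Fin N × Fin 3 → ℕ) → ℝ)
    (h : ∀ s α, ¬ Low n0 α → G s α = 0) :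
    HasSum (fun α => ∑ s, G s α) (∑ s : Spin N, ∑ m : Fin N → Sp n0, G s (lidx m)) := by
  refine hasSum_sum fun s _ => ?_
  rw [← lidx_injective.hasSum_iff (f := G s)]
  · exact hasSum_fintype _
  · intro α hα
    exact h s α fun hl => hα (exists_lidx hl)

theorem memLp_wav (C : Ten N n0) (s : Spin N) : MemLp (wav C s) 2 volume :=
  (waveOsc_wav C s).h1.memf

theorem hasSum_ext_sq (C : Ten N n0) :
    HasSum (fun α : Fin N × Fin 3 → ℕ => ∑ s, ‖ext C s α‖ ^ 2) (tsq C) := by
  have := hasSum_low (n0 := n0) (fun s α => ‖ext C s α‖ ^ 2) (fun s α h => by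
    simp [ext_not_low C s h])
  unfold tsq
  rw [sum_tensor]
  simp only [ext_lidx] at this
  exact this

/-- the norm of a tensor wave -/
theorem nsq_wav (C : Ten N n0) : nsq (wav C) = tsq C := by
  have h1 := hasSum_nsq (memLp_wav C)
  simp only [cf_wav] at h1
  exact h1.unique (hasSum_ext_sq C)

/-! ### antisymmetric, full core -/

theorem anti_rep {C : Ten N n0} (hA : Anti C) {ω : Fin N → Orb n0}
    (hn : ¬ Function.Injective ω) : C ω = 0 := by
  unfold Function.Injective at hn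
  push Not at hn
  obtain ⟨i, j, hij, hne⟩ := hn
  have key := hA (Equiv.swap i j) ω
  have e1 : (fun k => ω (Equiv.swap i j k)) = ω := by
    funext k
    by_cases h1 : k = i
    · subst h1; rw [Equiv.swap_apply_left]; exact hij.symm
    · by_cases h2 : k = j
      · subst h2; rw [Equiv.swap_apply_right]; exact hij
      · rw [Equiv.swap_apply_of_ne_of_ne h1 h2]
  rw [e1, Equiv.Perm.sign_swap hne] at key
  simp only [Units.val_neg, Units.val_one, Int.cast_neg, Int.cast_one, neg_mul, one_mul] at key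
  exact self_eq_neg.1 key

/-- inclusion of low orbitals in all orbitals -/
def up (o : Orb n0) : OrbI := (o.1, o.2.1)

theorem up_injective : Function.Injective (up : Orb n0 → OrbI) := by
  intro a b h
  have h1 := (Prod.ext_iff.1 h).1
  have h2 := (Prod.ext_iff.1 h).2
  exact Prod.ext h1 (Subtype.ext h2)

theorem orb_lidx (s : Spin N) (m : Fin N → Sp n0) :
    orb s (lidx m) = fun i => up (s i, m i) := rfl

theorem ground_of_core {ω : Fin N → Orb n0}
    (h : ∀ o : Orb n0, deg3 o.2.1 < n0 → ∃ i, ω i = o) : Ground n0 (fun i => up (ω i)) := by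
  constructor
  · intro o ho
    obtain ⟨i, hi⟩ := h (o.1, ⟨o.2, (show deg3 o.2 < n0 from ho).le⟩) ho
    refine ⟨i, ?_⟩
    simp only [hi]; rfl
  · intro i
    exact (ω i).2.2

theorem core_of_ground {ω : Fin N → Orb n0} (h : Ground n0 (fun i => up (ω i))) :
    ∀ o : Orb n0, deg3 o.2.1 < n0 → ∃ i, ω i = o := by
  intro o ho
  obtain ⟨i, hi⟩ := h.1 (up o) ho
  exact ⟨i, up_injective hi⟩

/-- where the extension is nonzero the configuration is injective and ground -/
theorem ext_ne_zero {C : Ten N n0} (hA : Anti C) (hC : CoreFull C) {s : Spin N}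
    {α : Fin N × Fin 3 → ℕ} (h : ext C s α ≠ 0) :
    Function.Injective (orb s α) ∧ Ground n0 (orb s α) := by
  have hl : Low n0 α := by
    by_contra hl; exact h (ext_not_low C s hl)
  obtain ⟨m, rfl⟩ := exists_lidx hl
  rw [ext_lidx] at h
  rw [orb_lidx]
  constructor
  · have : Function.Injective (fun i => (s i, m i)) := by
      by_contra hn; exact h (anti_rep hA hn)
    exact up_injective.comp this
  · exact ground_of_core (hC _ h)

/-- energy of a full-core tensor wave -/
theorem hosc_wav {n0 Nv : ℕ} {C : Ten (Nel n0 Nv) n0} (hA : Anti C) (hC : CoreFull C) :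
    hosc (wav C) (gwav C) = EN n0 Nv * tsq C := by
  have h1 := hasSum_hosc (waveOsc_wav C)
  simp only [cf_wav] at h1
  have h2 := (hasSum_ext_sq C).mul_left (EN n0 Nv)
  refine h1.unique (h2.congr_fun ?_ |> fun h => h)
  intro α
  rw [Finset.mul_sum, Finset.mul_sum]
  refine Finset.sum_congr rfl fun s _ => ?_
  by_cases h : ext C s α = 0
  · simp [h]
  · obtain ⟨hi, hg⟩ := ext_ne_zero hA hC h
    rw [ea_eq s α, econf_ground hi hg]

/-! ### the ground part of a fermionic wave -/

open Classical in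
/-- the ground part of a wave as a tensor -/
def gsT (Ψ : Wave N) (n0 : ℕ) : Ten N n0 := fun ω =>
  if (∀ o : Orb n0, deg3 o.2.1 < n0 → ∃ i, ω i = o) then
    cf (Ψ (fun i => (ω i).1)) (lidx (fun i => (ω i).2)) else 0

theorem coreFull_gsT (Ψ : Wave N) (n0 : ℕ) : CoreFull (gsT Ψ n0) := by
  intro ω hω
  by_contra hn
  exact hω (by unfold gsT; rw [if_neg hn])

theorem anti_gsT {Ψ : Wave N} (h : IsFermionic Ψ) (n0 : ℕ) : Anti (gsT Ψ n0) := by
  intro σ ω
  have hiff : (∀ o : Orb n0, deg3 o.2.1 < n0 → ∃ i, ω (σ i) = o) ↔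
      (∀ o : Orb n0, deg3 o.2.1 < n0 → ∃ i, ω i = o) := by
    constructor
    · intro h1 o ho
      obtain ⟨i, hi⟩ := h1 o ho
      exact ⟨σ i, hi⟩
    · intro h1 o ho
      obtain ⟨i, hi⟩ := h1 o ho
      exact ⟨σ.symm i, by simpa using hi⟩
  unfold gsT
  by_cases hc : ∀ o : Orb n0, deg3 o.2.1 < n0 → ∃ i, ω i = o
  · rw [if_pos hc, if_pos (hiff.2 hc)]
    exact cf_perm h σ (fun i => (ω i).1) (lidx (fun i => (ω i).2))
  · rw [if_neg hc, if_neg (fun h' => hc (hiff.1 h')), mul_zero]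

theorem ext_gsT_ground (Ψ : Wave N) {s : Spin N} {α : Fin N × Fin 3 → ℕ}
    (hg : Ground n0 (orb s α)) : ext (gsT Ψ n0) s α = cf (Ψ s) α := by
  have hl : Low n0 α := hg.2
  obtain ⟨m, rfl⟩ := exists_lidx hl
  rw [ext_lidx]
  unfold gsT
  rw [if_pos]
  exact core_of_ground hg

theorem ext_gsT_not_ground (Ψ : Wave N) {s : Spin N} {α : Fin N × Fin 3 → ℕ}
    (hg : ¬ Ground n0 (orb s α)) : ext (gsT Ψ n0) s α = 0 := by
  by_cases hl : Low n0 α
  · obtain ⟨m, rfl⟩ := exists_lidx hl
    rw [ext_lidx]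
    unfold gsT
    rw [if_neg]
    intro hc
    exact hg (ground_of_core hc)
  · exact ext_not_low _ _ hl

theorem cf_sub {f f' : Config N → ℂ} (h : MemLp f 2 volume) (h' : MemLp f' 2 volume)
    (α : Fin N × Fin 3 → ℕ) : cf (fun x => f x - f' x) α = cf f α - cf f' α := by
  unfold cf
  rw [← integral_sub (integrable_Phi_mul α h) (integrable_Phi_mul α h')]
  refine integral_congr_ae (Eventually.of_forall fun x => ?_)
  simp only [mul_sub]

/-- **splitting of a fermionic wave into ground part and rest; the gap is `1`** -/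
theorem osc_split {n0 Nv : ℕ} {Ψ : Wave (Nel n0 Nv)}
    {Γ : Spin (Nel n0 Nv) → Config (Nel n0 Nv) → CG (Nel n0 Nv)}
    (hF : IsFermionic Ψ) (h : WaveOsc Ψ Γ) :
    WaveOsc (fun s x => Ψ s x - wav (gsT Ψ n0) s x) (fun s x => Γ s x - gwav (gsT Ψ n0) s x) ∧
    nsq Ψ = tsq (gsT Ψ n0) + nsq (fun s x => Ψ s x - wav (gsT Ψ n0) s x) ∧
    hosc Ψ Γ = EN n0 Nv * tsq (gsT Ψ n0) +
      hosc (fun s x => Ψ s x - wav (gsT Ψ n0) s x) (fun s x => Γ s x - gwav (gsT Ψ n0) s x) ∧
    (EN n0 Nv + 1) * nsq (fun s x => Ψ s x - wav (gsT Ψ n0) s x) ≤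
      hosc (fun s x => Ψ s x - wav (gsT Ψ n0) s x) (fun s x => Γ s x - gwav (gsT Ψ n0) s x) := by
  set C := gsT Ψ n0 with hCdef
  have hq : WaveOsc (fun s x => Ψ s x - wav C s x) (fun s x => Γ s x - gwav C s x) :=
    h.sub (waveOsc_wav C)
  have hcq : ∀ s α, cf (fun x => Ψ s x - wav C s x) α = cf (Ψ s) α - ext C s α := by
    intro s α
    rw [cf_sub (h s).h1.memf (memLp_wav C s), cf_wav]
  have hsplit : ∀ s α, ‖cf (Ψ s) α‖ ^ 2 = ‖ext C s α‖ ^ 2 + ‖cf (Ψ s) α - ext C s α‖ ^ 2 := by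
    intro s α
    by_cases hg : Ground n0 (orb s α)
    · rw [hCdef, ext_gsT_ground Ψ hg]; simp
    · rw [hCdef, ext_gsT_not_ground Ψ hg]; simp
  have s1 := hasSum_nsq (fun s => (h s).h1.memf)
  have s2 := hasSum_ext_sq C
  have s3 := hasSum_nsq (Ψ := fun s x => Ψ s x - wav C s x) (fun s => (hq s).h1.memf)
  simp only [hcq] at s3
  have t1 := hasSum_hosc h
  have t2 := hasSum_hosc (waveOsc_wav C)
  simp only [cf_wav] at t2
  have t3 := hasSum_hosc hq
  simp only [hcq] at t3
  refine ⟨hq, ?_, ?_, ?_⟩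
  · refine s1.unique ((s2.add s3).congr_fun ?_ |> fun h => h)
    intro α
    rw [← Finset.sum_add_distrib]
    exact Finset.sum_congr rfl fun s _ => hsplit s α
  · rw [← hosc_wav (anti_gsT hF n0) (coreFull_gsT Ψ n0)]
    refine t1.unique ((t2.add t3).congr_fun ?_ |> fun h => h)
    intro α
    rw [← mul_add, ← Finset.sum_add_distrib]
    congr 1
    exact Finset.sum_congr rfl fun s _ => hsplit s α
  · refine hasSum_le (fun α => ?_) (s3.mul_left (EN n0 Nv + 1)) t3
    rw [Finset.mul_sum, Finset.mul_sum]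
    refine Finset.sum_le_sum fun s _ => ?_
    by_cases hg : Ground n0 (orb s α)
    · rw [hCdef, ext_gsT_ground Ψ hg]; simp
    · by_cases hi : Function.Injective (orb s α)
      · refine mul_le_mul_of_nonneg_right ?_ (by positivity)
        rw [ea_eq s α]
        exact econf_not_ground hi hg
      · have h0 := cf_eq_zero_of_not_inj hF s α hi
        rw [h0, hCdef, ext_gsT_not_ground Ψ hg]; simp

end Crest.Agent.R338.HO
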