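import Crest.Agent.R338.TA0
import Crest.Agent.R338.Fm1

-- ▼ part R338/TA1
section

/-!
# Row 338, node TA (helper64): waves with Schwartz components
-/

set_option autoImplicit false

open MeasureTheory SchwartzMap
open scoped ContDiff ENNReal ComplexConjugate

noncomputable section

namespace Crest.Agent.R338.TA

open Crest.MathPhysics.ElectronicCoulomb
open Crest.Agent.R338.HO Crest.Agent.R338.Fm
open Crest.Agent.R335.HF (IsH1 Gr E kin cgrad)

variable {N : ℕ}

/-- waves with Schwartz components -/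
abbrev SW (N : ℕ) := Spin N → 𝓢(Config N, ℂ)

/-- the underlying wave -/
def toW (u : SW N) : Wave N := fun s x => u s x

@[simp] theorem toW_apply (u : SW N) (s : Spin N) (x : Config N) : toW u s x = u s x := rfl

/-- `(z, w) ↦ Re (conj z * w)` as a real bilinear map -/
def reB : ℂ →L[ℝ] ℂ →L[ℝ] ℝ :=
  LinearMap.mkContinuous₂ (LinearMap.mk₂ ℝ (fun z w : ℂ => (conj z * w).re)
    (fun z z' w => by simp [add_mul]) (fun c z w => by simp [mul_assoc])
    (fun z w w' => by simp [mul_add]) (fun c z w => by simp; ring)) 1 (by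
      intro z w
      simp only [LinearMap.mk₂_apply, one_mul]
      calc |(conj z * w).re| ≤ ‖conj z * w‖ := Complex.abs_re_le_norm _
        _ = ‖z‖ * ‖w‖ := by rw [norm_mul, RCLike.norm_conj])

@[simp] theorem reB_apply (z w : ℂ) : reB z w = (conj z * w).re := rfl

theorem reB_self (z : ℂ) : (conj z * z).re = ‖z‖ ^ 2 := by
  rw [mul_comm, Complex.mul_conj, Complex.ofReal_re, Complex.normSq_eq_norm_sq]

theorem abs_reB_le (z w : ℂ) : |(conj z * w).re| ≤ ‖z‖ * ‖w‖ := by
  calc |(conj z * w).re| ≤ ‖conj z * w‖ := Complex.abs_re_le_norm _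
    _ = ‖z‖ * ‖w‖ := by rw [norm_mul, RCLike.norm_conj]

/-- the real overlap density, summed over the spins -/
def rho (u v : SW N) (x : Config N) : ℝ := ∑ s, (conj (u s x) * v s x).re

/-- the overlap density as a Schwartz function -/
def rhoS (u v : SW N) : 𝓢(Config N, ℝ) := ∑ s, SchwartzMap.pairing reB (u s) (v s)

theorem rhoS_apply (u v : SW N) (x : Config N) : rhoS u v x = rho u v x := by
  unfold rhoS rho
  rw [sum_apply]
  rfl

theorem rhoS_coe (u v : SW N) : (rhoS u v : Config N → ℝ) = rho u v := by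
  ext x; exact rhoS_apply u v x

theorem rho_self (u : SW N) (x : Config N) : rho u u x = ∑ s, ‖u s x‖ ^ 2 := by
  unfold rho
  exact Finset.sum_congr rfl fun s _ => reB_self _

theorem rho_self_nonneg (u : SW N) (x : Config N) : 0 ≤ rho u u x := by
  rw [rho_self]; positivity

theorem rho_add (u v : SW N) (x : Config N) :
    rho (u + v) (u + v) x = rho u u x + 2 * rho u v x + rho v v x := by
  unfold rho
  rw [Finset.mul_sum, ← Finset.sum_add_distrib, ← Finset.sum_add_distrib]
  refine Finset.sum_congr rfl fun s _ => ?_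
  simp only [Pi.add_apply, add_apply, map_add, Complex.mul_re, Complex.add_re,
    Complex.add_im, Complex.conj_re, Complex.conj_im]
  ring

theorem abs_rho_le (u v : SW N) (x : Config N) : |rho u v x| ≤ ∑ s, ‖u s x‖ * ‖v s x‖ := by
  unfold rho
  refine (Finset.abs_sum_le_sum_abs _ _).trans (Finset.sum_le_sum fun s _ => abs_reB_le _ _)

theorem abs_rho_le_sqrt (u v : SW N) (x : Config N) :
    |rho u v x| ≤ √(rho u u x) * √(rho v v x) := by
  refine (abs_rho_le u v x).trans ?_
  rw [rho_self, rho_self]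
  exact Real.sum_mul_le_sqrt_mul_sqrt _ _ _

/-- squared `L²` norm -/
def nq (u : SW N) : ℝ := nsq (toW u)

/-- Dirichlet integral -/
def dq (u : SW N) : ℝ := dir fun s => cgrad (u s)

theorem nq_nonneg (u : SW N) : 0 ≤ nq u := nsq_nonneg _

theorem dq_nonneg (u : SW N) : 0 ≤ dq u := dir_nonneg _


theorem memLp_cgrad (f : 𝓢(Config N, ℂ)) (p : ℝ≥0∞) : MemLp (cgrad f) p volume := by
  refine Crest.Agent.R335.HF.memLp_of_comp fun i => ?_
  have h := (LineDeriv.lineDerivOp (EuclideanSpace.single i (1 : ℝ)) f : 𝓢(Config N, ℂ)).memLp p volume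
  have e : (fun x => cgrad f x i) =
      (LineDeriv.lineDerivOp (EuclideanSpace.single i (1 : ℝ)) f : 𝓢(Config N, ℂ)) := by
    ext x
    rw [SchwartzMap.lineDerivOp_apply_eq_fderiv]
    rfl
  rw [e]; exact h

theorem isH1_sw (f : 𝓢(Config N, ℂ)) : IsH1 (f : Config N → ℂ) (cgrad f) :=
  Crest.Agent.R335.HF.isH1_of_contDiff (f.smooth 1) (f.memLp 2 volume) (memLp_cgrad f 2)

theorem waveH1_toW (u : SW N) : WaveH1 (toW u) (fun s => cgrad (u s)) := fun s => isH1_sw (u s)

theorem integrable_norm_sq_sw (f : 𝓢(Config N, ℂ)) : Integrable (fun x => ‖f x‖ ^ 2) :=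
  (f.memLp 2 volume).integrable_norm_pow (by norm_num)

theorem integrable_rho (u v : SW N) : Integrable (rho u v) := by
  rw [← rhoS_coe]; exact (rhoS u v).integrable

theorem nq_eq (u : SW N) : nq u = ∫ x, rho u u x := by
  unfold nq nsq
  simp only [toW_apply]
  rw [← integral_finsetSum _ fun s _ => integrable_norm_sq_sw (u s)]
  refine integral_congr_ae (Filter.Eventually.of_forall fun x => ?_)
  simp only [rho_self]

/-- gradient density -/
def gden (u : SW N) (x : Config N) : ℝ := ∑ s, ‖cgrad (u s) x‖ ^ 2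

theorem gden_nonneg (u : SW N) (x : Config N) : 0 ≤ gden u x := by unfold gden; positivity

theorem integrable_cgrad_sq (f : 𝓢(Config N, ℂ)) : Integrable (fun x => ‖cgrad f x‖ ^ 2) :=
  (memLp_cgrad f 2).integrable_norm_pow (by norm_num)

theorem integrable_gden (u : SW N) : Integrable (gden u) :=
  integrable_finsetSum _ fun s _ => integrable_cgrad_sq (u s)

theorem dq_eq (u : SW N) : dq u = ∫ x, gden u x := by
  unfold dq dir gden
  rw [← integral_finsetSum _ fun s _ => integrable_cgrad_sq (u s)]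

/-- the energy of a Schwartz wave -/
theorem energy_toW {W : Config N → ℝ} (u : SW N)
    (hW : ∀ s, Integrable (fun x => W x * ‖u s x‖ ^ 2)) :
    energy W (toW u) = (1 / 2) * dq u + ∫ x, W x * rho u u x := by
  rw [(waveH1_toW u).energy_eq]
  congr 1
  simp only [toW_apply]
  rw [← integral_finsetSum _ fun s _ => hW s]
  refine integral_congr_ae (Filter.Eventually.of_forall fun x => ?_)
  simp only [rho_self, Finset.mul_sum]

end Crest.Agent.R338.TA
end
end

-- ▼ part R338/TA2

/-!
# Row 338, node TA (helper64): Cauchy-Schwarz estimates for overlap densities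
-/

set_option autoImplicit false

open MeasureTheory SchwartzMap
open scoped ContDiff ENNReal ComplexConjugate

noncomputable section

namespace Crest.Agent.R338.TA

open Crest.MathPhysics.ElectronicCoulomb
open Crest.Agent.R338.HO Crest.Agent.R338.Fm
open Crest.Agent.R335.HF (IsH1 Gr E kin cgrad)

variable {N : ℕ}

/-- weighted Cauchy-Schwarz -/
theorem cs_weight {α : Type*} [MeasurableSpace α] {μ : Measure α} {g a b c : α → ℝ}
    (hg : ∀ x, 0 ≤ g x) (ha : ∀ x, 0 ≤ a x) (hb : ∀ x, 0 ≤ b x)
    (hc : ∀ x, |c x| ≤ √(a x) * √(b x))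
    (hga : Integrable (fun x => g x * a x) μ) (hgb : Integrable (fun x => g x * b x) μ) :
    |∫ x, g x * c x ∂μ| ≤ √(∫ x, g x * a x ∂μ) * √(∫ x, g x * b x ∂μ) := by
  have hA : MemLp (fun x => √(g x * a x)) (ENNReal.ofReal 2) μ := by
    rw [show ENNReal.ofReal 2 = (2 : ℝ≥0∞) by simp]
    refine (memLp_two_iff_integrable_sq (Real.continuous_sqrt.comp_aestronglyMeasurable
      hga.aestronglyMeasurable)).2 (hga.congr (Filter.Eventually.of_forall fun x => ?_))
    exact (Real.sq_sqrt (mul_nonneg (hg x) (ha x))).symm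
  have hB : MemLp (fun x => √(g x * b x)) (ENNReal.ofReal 2) μ := by
    rw [show ENNReal.ofReal 2 = (2 : ℝ≥0∞) by simp]
    refine (memLp_two_iff_integrable_sq (Real.continuous_sqrt.comp_aestronglyMeasurable
      hgb.aestronglyMeasurable)).2 (hgb.congr (Filter.Eventually.of_forall fun x => ?_))
    exact (Real.sq_sqrt (mul_nonneg (hg x) (hb x))).symm
  have hpq : (2 : ℝ).HolderConjugate 2 := Real.HolderConjugate.two_two
  have h1 := integral_mul_le_Lp_mul_Lq_of_nonneg hpq
    (Filter.Eventually.of_forall fun x => Real.sqrt_nonneg (g x * a x))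
    (Filter.Eventually.of_forall fun x => Real.sqrt_nonneg (g x * b x)) hA hB
  have e1 : ∀ x, √(g x * a x) ^ (2 : ℝ) = g x * a x := fun x => by
    rw [Real.rpow_two, Real.sq_sqrt (mul_nonneg (hg x) (ha x))]
  have e2 : ∀ x, √(g x * b x) ^ (2 : ℝ) = g x * b x := fun x => by
    rw [Real.rpow_two, Real.sq_sqrt (mul_nonneg (hg x) (hb x))]
  simp only [e1, e2] at h1
  rw [← Real.sqrt_eq_rpow, ← Real.sqrt_eq_rpow] at h1
  refine le_trans ?_ h1
  have hint : Integrable (fun x => √(g x * a x) * √(g x * b x)) μ := by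
    have hA' : MemLp (fun x => √(g x * a x)) 2 μ := by
      rwa [show ENNReal.ofReal 2 = (2 : ℝ≥0∞) by simp] at hA
    have hB' : MemLp (fun x => √(g x * b x)) 2 μ := by
      rwa [show ENNReal.ofReal 2 = (2 : ℝ≥0∞) by simp] at hB
    exact hA'.integrable_mul hB'
  refine (abs_integral_le_integral_abs).trans
    (integral_mono_of_nonneg (Filter.Eventually.of_forall fun x => abs_nonneg _) hint
      (Filter.Eventually.of_forall fun x => ?_))
  simp only [abs_mul, abs_of_nonneg (hg x)]
  rw [Real.sqrt_mul (hg x), Real.sqrt_mul (hg x)]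
  calc g x * |c x| ≤ g x * (√(a x) * √(b x)) := mul_le_mul_of_nonneg_left (hc x) (hg x)
    _ = √(g x) * √(a x) * (√(g x) * √(b x)) := by
      have := Real.mul_self_sqrt (hg x)
      nth_rewrite 1 [← this]; ring


/-- bounded weights -/
theorem abs_int_bdd_le {G : Config N → ℝ} {B : ℝ} (hB : ∀ x, |G x| ≤ B) (u v : SW N) :
    |∫ x, G x * rho u v x| ≤ B * (√(nq u) * √(nq v)) := by
  have hB0 : 0 ≤ B := (abs_nonneg _).trans (hB 0)
  have hc : ∀ x, |G x * rho u v x| ≤ √(B * rho u u x) * √(B * rho v v x) := by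
    intro x
    rw [abs_mul, Real.sqrt_mul hB0, Real.sqrt_mul hB0]
    calc |G x| * |rho u v x| ≤ B * (√(rho u u x) * √(rho v v x)) :=
          mul_le_mul (hB x) (abs_rho_le_sqrt u v x) (abs_nonneg _) hB0
      _ = √B * √(rho u u x) * (√B * √(rho v v x)) := by
        have := Real.mul_self_sqrt hB0
        nth_rewrite 1 [← this]; ring
  have h := cs_weight (μ := (volume : Measure (Config N))) (g := fun _ => 1)
    (a := fun x => B * rho u u x) (b := fun x => B * rho v v x) (c := fun x => G x * rho u v x)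
    (fun _ => zero_le_one) (fun x => mul_nonneg hB0 (rho_self_nonneg u x))
    (fun x => mul_nonneg hB0 (rho_self_nonneg v x)) hc
    (by simpa using (integrable_rho u u).const_mul B)
    (by simpa using (integrable_rho v v).const_mul B)
  simp only [one_mul, integral_const_mul, ← nq_eq] at h
  refine h.trans_eq ?_
  rw [Real.sqrt_mul hB0, Real.sqrt_mul hB0]
  have := Real.mul_self_sqrt hB0
  nth_rewrite 3 [← this]; ring

theorem integrable_bdd_rho {G : Config N → ℝ} {B : ℝ} (hB : ∀ x, |G x| ≤ B)
    (hG : AEStronglyMeasurable G volume) (u v : SW N) :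
    Integrable (fun x => G x * rho u v x) :=
  (integrable_rho u v).bdd_mul hG (Filter.Eventually.of_forall fun x => hB x)

/-- cross gradient density -/
def xden (u v : SW N) (x : Config N) : ℝ := ∑ s, ‖cgrad (u s) x‖ * ‖v s x‖

theorem xden_nonneg (u v : SW N) (x : Config N) : 0 ≤ xden u v x := by unfold xden; positivity

theorem xden_le (u v : SW N) (x : Config N) : xden u v x ≤ √(gden u x) * √(rho v v x) := by
  unfold xden gden
  rw [rho_self]
  exact Real.sum_mul_le_sqrt_mul_sqrt _ _ _

theorem integrable_xden (u v : SW N) : Integrable (xden u v) := by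
  refine integrable_finsetSum _ fun s _ => ?_
  have h1 : MemLp (fun x => ‖cgrad (u s) x‖) 2 (volume : Measure (Config N)) :=
    (memLp_cgrad (u s) 2).norm
  have h2 : MemLp (fun x => ‖v s x‖) 2 (volume : Measure (Config N)) := ((v s).memLp 2 volume).norm
  exact h1.integrable_mul h2

theorem int_xden_le (u v : SW N) : ∫ x, xden u v x ≤ √(dq u) * √(nq v) := by
  have h := cs_weight (μ := (volume : Measure (Config N))) (g := fun _ => 1) (a := gden u)
    (b := rho v v) (c := xden u v) (fun _ => zero_le_one) (gden_nonneg u) (rho_self_nonneg v)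
    (fun x => by rw [abs_of_nonneg (xden_nonneg u v x)]; exact xden_le u v x)
    (by simpa using integrable_gden u) (by simpa using integrable_rho v v)
  simp only [one_mul, ← nq_eq, ← dq_eq] at h
  exact (le_abs_self _).trans h

/-- embedding of one electron coordinate -/
def emb (i : Fin N) (y : Pos3) : Config N :=
  WithLp.toLp 2 (fun jc : Fin N × Fin 3 => if jc.1 = i then y jc.2 else 0)

theorem norm_emb (i : Fin N) (y : Pos3) : ‖emb i y‖ = ‖y‖ := by
  have h : ‖emb i y‖ ^ 2 = ‖y‖ ^ 2 := by
    rw [EuclideanSpace.norm_sq_eq, EuclideanSpace.norm_sq_eq, Fintype.sum_prod_type]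
    rw [Finset.sum_eq_single i]
    · simp [emb]
    · intro j _ hj
      simp [emb, hj]
    · simp
  exact (sq_eq_sq₀ (norm_nonneg _) (norm_nonneg _)).1 h

/-- operator norm of the derivative is bounded by the norm of the gradient vector -/
theorem norm_fderiv_apply_le (f : 𝓢(Config N, ℂ)) (x y : Config N) :
    ‖fderiv ℝ f x y‖ ≤ ‖cgrad (f : Config N → ℂ) x‖ * ‖y‖ := by
  have e : y = ∑ i, y i • EuclideanSpace.single i (1 : ℝ) := by
    ext j
    simp [Finset.sum_apply, Pi.single_apply]
  have e2 : fderiv ℝ f x y = ∑ i, y i • cgrad (f : Config N → ℂ) x i := by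
    conv_lhs => rw [e]
    rw [map_sum]
    refine Finset.sum_congr rfl fun i _ => ?_
    rw [map_smul]; rfl
  rw [e2]
  calc ‖∑ i, y i • cgrad (f : Config N → ℂ) x i‖ ≤ ∑ i, ‖cgrad (f : Config N → ℂ) x i‖ * |y i| := by
        refine (norm_sum_le _ _).trans (Finset.sum_le_sum fun i _ => ?_)
        rw [norm_smul, Real.norm_eq_abs, mul_comm]
    _ ≤ √(∑ i, ‖cgrad (f : Config N → ℂ) x i‖ ^ 2) * √(∑ i, |y i| ^ 2) :=
        Real.sum_mul_le_sqrt_mul_sqrt _ _ _
    _ = _ := by
      rw [EuclideanSpace.norm_eq y, PiLp.norm_eq_of_L2]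
      simp only [Real.norm_eq_abs]

theorem hasFDerivAt_rho (u v : SW N) (x y : Config N) :
    fderiv ℝ (rhoS u v) x y =
      ∑ s, ((conj (fderiv ℝ (u s) x y) * v s x).re + (conj (u s x) * fderiv ℝ (v s) x y).re) := by
  have h : ∀ s, HasFDerivAt (fun x => (conj (u s x) * v s x).re)
      (reB.precompR (Config N) (u s x) (fderiv ℝ (v s) x) +
        reB.precompL (Config N) (fderiv ℝ (u s) x) (v s x)) x := by
    intro s
    have h1 := (u s).hasFDerivAt x
    have h2 := (v s).hasFDerivAt x
    exact reB.hasFDerivAt_of_bilinear h1 h2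
  have h2 : HasFDerivAt (rhoS u v : Config N → ℝ)
      (∑ s, (reB.precompR (Config N) (u s x) (fderiv ℝ (v s) x) +
        reB.precompL (Config N) (fderiv ℝ (u s) x) (v s x))) x := by
    rw [rhoS_coe]
    have := HasFDerivAt.fun_sum (u := Finset.univ) fun s _ => h s
    exact this
  rw [h2.fderiv]
  simp only [sum_apply, add_apply,
    ContinuousLinearMap.precompR_apply, ContinuousLinearMap.precompL_apply, reB_apply]
  refine Finset.sum_congr rfl fun s _ => ?_
  rw [add_comm]; rfl

theorem abs_fderiv_rho_le (u v : SW N) (x y : Config N) :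
    |fderiv ℝ (rhoS u v) x y| ≤ (xden u v x + xden v u x) * ‖y‖ := by
  rw [hasFDerivAt_rho]
  unfold xden
  rw [← Finset.sum_add_distrib, Finset.sum_mul]
  refine (Finset.abs_sum_le_sum_abs _ _).trans (Finset.sum_le_sum fun s _ => ?_)
  refine (abs_add_le _ _).trans ?_
  have h1 := (abs_reB_le (fderiv ℝ (u s) x y) (v s x)).trans
    (mul_le_mul_of_nonneg_right (norm_fderiv_apply_le (u s) x y) (norm_nonneg _))
  have h2 := (abs_reB_le (u s x) (fderiv ℝ (v s) x y)).trans
    (mul_le_mul_of_nonneg_left (norm_fderiv_apply_le (v s) x y) (norm_nonneg _))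
  calc _ ≤ _ := add_le_add h1 h2
    _ = _ := by ring

/-- the `div F` form bound on `N` bodies -/
theorem abs_int_divF_le {F : Pos3 → Pos3} {kF : ℝ} (hk : 0 ≤ kF) (hF : ∀ x, ‖F x‖ ≤ kF)
    (i : Fin N) (u v : SW N) :
    |∫ x, fderiv ℝ (rhoS u v) x (emb i (F (elPos i x)))| ≤
      kF * (√(dq u) * √(nq v) + √(nq u) * √(dq v)) := by
  have hb : ∀ x, |fderiv ℝ (rhoS u v) x (emb i (F (elPos i x)))| ≤
      kF * (xden u v x + xden v u x) := by
    intro x
    refine (abs_fderiv_rho_le u v x _).trans ?_
    rw [norm_emb, mul_comm]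
    exact mul_le_mul_of_nonneg_right (hF _)
      (add_nonneg (xden_nonneg _ _ _) (xden_nonneg _ _ _))
  have hi : Integrable (fun x => kF * (xden u v x + xden v u x)) :=
    ((integrable_xden u v).add (integrable_xden v u)).const_mul _
  refine (abs_integral_le_integral_abs).trans ?_
  refine (integral_mono_of_nonneg (Filter.Eventually.of_forall fun x => abs_nonneg _) hi
    (Filter.Eventually.of_forall hb)).trans ?_
  rw [integral_const_mul, integral_add (integrable_xden u v) (integrable_xden v u)]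
  refine mul_le_mul_of_nonneg_left (add_le_add (int_xden_le u v) ?_) hk
  rw [mul_comm]; exact int_xden_le v u

end Crest.Agent.R338.TA
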