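import Crest.Agent.R338.TA2
import Crest.Agent.R338.TA3
import Crest.Agent.R338.Fm2a
import Crest.Agent.R338.HO3

-- ▼ part R338/TA4
section

/-!
# Row 338, node TA (helper64): smooth cut-offs and the IMS formula
-/

set_option autoImplicit false

open MeasureTheory SchwartzMap Filter
open scoped ContDiff ENNReal ComplexConjugate Topology

noncomputable section

namespace Crest.Agent.R338.TA

open Crest.MathPhysics.ElectronicCoulomb
open Crest.Agent.R338.HO Crest.Agent.R338.Fm
open Crest.Agent.R335.HF (IsH1 Gr E kin cgrad)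

variable {N : ℕ}

/-! ### multiplication of Schwartz waves by real functions -/

/-- multiply all components by a real function of temperate growth -/
def mulW (J : Config N → ℝ) (u : SW N) : SW N := fun s => SchwartzMap.smulLeftCLM ℂ J (u s)

theorem mulW_apply {J : Config N → ℝ} (hJ : J.HasTemperateGrowth) (u : SW N) (s : Spin N)
    (x : Config N) : mulW J u s x = (J x : ℂ) * u s x := by
  unfold mulW
  rw [SchwartzMap.smulLeftCLM_apply_apply hJ]
  simp

theorem rho_mulW {J : Config N → ℝ} (hJ : J.HasTemperateGrowth) (u : SW N) (x : Config N) :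
    rho (mulW J u) (mulW J u) x = J x ^ 2 * rho u u x := by
  rw [rho_self, rho_self, Finset.mul_sum]
  refine Finset.sum_congr rfl fun s _ => ?_
  rw [mulW_apply hJ, norm_mul, Complex.norm_real, mul_pow, Real.norm_eq_abs, sq_abs]

theorem cgrad_mul_apply {J : Config N → ℝ} {f : 𝓢(Config N, ℂ)} {x : Config N}
    (hJ : DifferentiableAt ℝ J x) (ic : Fin N × Fin 3) :
    cgrad (fun y => (J y : ℂ) * f y) x ic =
      (J x : ℂ) * cgrad (f : Config N → ℂ) x ic + ((cgrad J x ic : ℝ) : ℂ) * f x := by
  have h1 : HasFDerivAt (fun y => J y • f y)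
      (J x • fderiv ℝ f x + (fderiv ℝ J x).smulRight (f x)) x :=
    hJ.hasFDerivAt.smul (f.hasFDerivAt x)
  have e : (fun y => (J y : ℂ) * f y) = fun y => J y • f y := by
    funext y; simp
  rw [e]
  unfold cgrad
  simp only [PiLp.toLp_apply]
  rw [h1.fderiv]
  simp [ContinuousLinearMap.smulRight_apply]

/-- expansion of the squared gradient of a product -/
theorem norm_cgrad_mul_sq {J : Config N → ℝ} {f : 𝓢(Config N, ℂ)} {x : Config N}
    (hJ : DifferentiableAt ℝ J x) :
    ‖cgrad (fun y => (J y : ℂ) * f y) x‖ ^ 2 =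
      J x ^ 2 * ‖cgrad (f : Config N → ℂ) x‖ ^ 2 + (∑ ic, cgrad J x ic ^ 2) * ‖f x‖ ^ 2 +
        2 * ∑ ic, (J x * cgrad J x ic) * (conj (f x) * cgrad (f : Config N → ℂ) x ic).re := by
  rw [PiLp.norm_sq_eq_of_L2, PiLp.norm_sq_eq_of_L2, Finset.mul_sum, Finset.sum_mul, Finset.mul_sum,
    ← Finset.sum_add_distrib, ← Finset.sum_add_distrib]
  refine Finset.sum_congr rfl fun ic _ => ?_
  rw [cgrad_mul_apply hJ]
  have e : ∀ z : ℂ, ‖z‖ ^ 2 = z.re ^ 2 + z.im ^ 2 := fun z => by
    rw [← Complex.normSq_eq_norm_sq, Complex.normSq_apply]; ring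
  rw [e, e, e]
  simp only [Complex.add_re, Complex.add_im, Complex.mul_re, Complex.mul_im, Complex.ofReal_re,
    Complex.ofReal_im, Complex.conj_re, Complex.conj_im]
  ring

/-! ### the pair `J = sin (π Θ / 2)`, `Jb = cos (π Θ / 2)` -/

/-- inner cut-off -/
def Jin (Th : Config N → ℝ) (x : Config N) : ℝ := Real.sin (Real.pi / 2 * Th x)

/-- outer cut-off -/
def Jout (Th : Config N → ℝ) (x : Config N) : ℝ := Real.cos (Real.pi / 2 * Th x)

theorem Jin_sq_add (Th : Config N → ℝ) (x : Config N) : Jin Th x ^ 2 + Jout Th x ^ 2 = 1 :=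
  Real.sin_sq_add_cos_sq _

section
variable {Th : Config N → ℝ}

theorem contDiff_Jin (h : ContDiff ℝ ∞ Th) : ContDiff ℝ ∞ (Jin Th) :=
  Real.contDiff_sin.comp (contDiff_const.mul h)

theorem contDiff_Jout (h : ContDiff ℝ ∞ Th) : ContDiff ℝ ∞ (Jout Th) :=
  Real.contDiff_cos.comp (contDiff_const.mul h)

theorem supp_Jin (hc : HasCompactSupport Th) : HasCompactSupport (Jin Th) :=
  hc.comp_left (g := fun t => Real.sin (Real.pi / 2 * t)) (by simp)

theorem htg_Jin (h : ContDiff ℝ ∞ Th) (hc : HasCompactSupport Th) :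
    (Jin Th).HasTemperateGrowth :=
  ((supp_Jin hc).toSchwartzMap (contDiff_Jin h)).hasTemperateGrowth

theorem htg_Jout (h : ContDiff ℝ ∞ Th) (hc : HasCompactSupport Th) :
    (Jout Th).HasTemperateGrowth := by
  have h1 : ContDiff ℝ ∞ (fun x => Jout Th x - 1) := (contDiff_Jout h).sub contDiff_const
  have h2 : HasCompactSupport (fun x => Jout Th x - 1) :=
    hc.comp_left (g := fun t => Real.cos (Real.pi / 2 * t) - 1) (by simp)
  have h3 := (h2.toSchwartzMap h1).hasTemperateGrowth
  have h4 := h3.add (Function.HasTemperateGrowth.const (1 : ℝ))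
  have e : ((h2.toSchwartzMap h1 : 𝓢(Config N, ℝ)) : Config N → ℝ) + (fun _ => (1 : ℝ)) = Jout Th := by
    funext x
    change (Jout Th x - 1) + 1 = Jout Th x
    ring
  rwa [e] at h4

theorem cgrad_Jin (h : ContDiff ℝ ∞ Th) (x : Config N) (ic : Fin N × Fin 3) :
    cgrad (Jin Th) x ic = Jout Th x * (Real.pi / 2 * cgrad Th x ic) := by
  have h1 : HasFDerivAt Th (fderiv ℝ Th x) x :=
    ((h.differentiable (by simp)) x).hasFDerivAt
  have h2 : HasFDerivAt (Jin Th) (Real.cos (Real.pi / 2 * Th x) • ((Real.pi / 2) • fderiv ℝ Th x)) x :=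
    (h1.const_mul (Real.pi / 2)).sin
  unfold cgrad
  simp only [PiLp.toLp_apply]
  rw [h2.fderiv]
  simp [Jout]

theorem cgrad_Jout (h : ContDiff ℝ ∞ Th) (x : Config N) (ic : Fin N × Fin 3) :
    cgrad (Jout Th) x ic = -(Jin Th x * (Real.pi / 2 * cgrad Th x ic)) := by
  have h1 : HasFDerivAt Th (fderiv ℝ Th x) x :=
    ((h.differentiable (by simp)) x).hasFDerivAt
  have h2 : HasFDerivAt (Jout Th)
      (-Real.sin (Real.pi / 2 * Th x) • ((Real.pi / 2) • fderiv ℝ Th x)) x :=
    (h1.const_mul (Real.pi / 2)).cos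
  unfold cgrad
  simp only [PiLp.toLp_apply]
  rw [h2.fderiv]
  simp [Jin]

theorem norm_cgrad_pair (h : ContDiff ℝ ∞ Th) (f : 𝓢(Config N, ℂ)) (x : Config N) :
    ‖cgrad (fun y => (Jin Th y : ℂ) * f y) x‖ ^ 2 + ‖cgrad (fun y => (Jout Th y : ℂ) * f y) x‖ ^ 2 =
      ‖cgrad (f : Config N → ℂ) x‖ ^ 2 +
        (Real.pi / 2) ^ 2 * (∑ ic, cgrad Th x ic ^ 2) * ‖f x‖ ^ 2 := by
  have hi : DifferentiableAt ℝ (Jin Th) x := (contDiff_Jin h).differentiable (by simp) x
  have ho : DifferentiableAt ℝ (Jout Th) x := (contDiff_Jout h).differentiable (by simp) x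
  rw [norm_cgrad_mul_sq hi, norm_cgrad_mul_sq ho]
  have e1 : (∑ ic, cgrad (Jin Th) x ic ^ 2) + (∑ ic, cgrad (Jout Th) x ic ^ 2) =
      (Real.pi / 2) ^ 2 * ∑ ic, cgrad Th x ic ^ 2 := by
    rw [← Finset.sum_add_distrib, Finset.mul_sum]
    refine Finset.sum_congr rfl fun ic _ => ?_
    rw [cgrad_Jin h, cgrad_Jout h]
    have := Jin_sq_add Th x
    linear_combination (Real.pi / 2 * cgrad Th x ic) ^ 2 * this
  have e2 : (∑ ic, (Jin Th x * cgrad (Jin Th) x ic) * (conj (f x) * cgrad (f : Config N → ℂ) x ic).re) +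
      (∑ ic, (Jout Th x * cgrad (Jout Th) x ic) * (conj (f x) * cgrad (f : Config N → ℂ) x ic).re) = 0 := by
    rw [← Finset.sum_add_distrib]
    refine Finset.sum_eq_zero fun ic _ => ?_
    rw [cgrad_Jin h, cgrad_Jout h]
    ring
  have := Jin_sq_add Th x
  linear_combination ‖cgrad (f : Config N → ℂ) x‖ ^ 2 * this + ‖f x‖ ^ 2 * e1 + 2 * e2

/-- the IMS identity for the Dirichlet integrals -/
theorem ims (h : ContDiff ℝ ∞ Th) (hc : HasCompactSupport Th) {B : ℝ}
    (hB : ∀ x, ∑ ic, cgrad Th x ic ^ 2 ≤ B) (u : SW N) :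
    dq (mulW (Jin Th) u) + dq (mulW (Jout Th) u) ≤ dq u + (Real.pi / 2) ^ 2 * B * nq u := by
  rw [dq_eq, dq_eq, dq_eq, nq_eq, ← integral_add (integrable_gden _) (integrable_gden _),
    ← integral_const_mul, ← integral_add (integrable_gden _) ((integrable_rho u u).const_mul _)]
  refine integral_mono ((integrable_gden _).add (integrable_gden _))
    ((integrable_gden _).add ((integrable_rho u u).const_mul _)) fun x => ?_
  simp only [gden, rho_self]
  rw [← Finset.sum_add_distrib, Finset.mul_sum, ← Finset.sum_add_distrib]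
  refine Finset.sum_le_sum fun s _ => ?_
  have ei : (mulW (Jin Th) u s : Config N → ℂ) = fun y => (Jin Th y : ℂ) * u s y := by
    funext y; exact mulW_apply (htg_Jin h hc) u s y
  have eo : (mulW (Jout Th) u s : Config N → ℂ) = fun y => (Jout Th y : ℂ) * u s y := by
    funext y; exact mulW_apply (htg_Jout h hc) u s y
  rw [ei, eo, norm_cgrad_pair h]
  have := hB x
  have h2 : 0 ≤ (Real.pi / 2) ^ 2 * ‖u s x‖ ^ 2 := by positivity
  nlinarith

theorem nq_pair (h : ContDiff ℝ ∞ Th) (hc : HasCompactSupport Th) (u : SW N) :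
    nq (mulW (Jin Th) u) + nq (mulW (Jout Th) u) = nq u := by
  rw [nq_eq, nq_eq, nq_eq, ← integral_add (integrable_rho _ _) (integrable_rho _ _)]
  refine integral_congr_ae (Eventually.of_forall fun x => ?_)
  simp only [rho_mulW (htg_Jin h hc), rho_mulW (htg_Jout h hc)]
  rw [← add_mul, Jin_sq_add, one_mul]

theorem rho_pair (h : ContDiff ℝ ∞ Th) (hc : HasCompactSupport Th) (u : SW N) (x : Config N) :
    rho (mulW (Jin Th) u) (mulW (Jin Th) u) x + rho (mulW (Jout Th) u) (mulW (Jout Th) u) x =
      rho u u x := by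
  rw [rho_mulW (htg_Jin h hc), rho_mulW (htg_Jout h hc), ← add_mul, Jin_sq_add, one_mul]

end

/-! ### the product cut-off -/

/-- one-dimensional cut-off: `1` on `[-R, R]`, `0` off `(-2R, 2R)` -/
def th (R t : ℝ) : ℝ := Real.smoothTransition (2 - t / R) * Real.smoothTransition (2 + t / R)

theorem contDiff_th (R : ℝ) : ContDiff ℝ ∞ (th R) := by
  unfold th
  exact (Real.smoothTransition.contDiff.comp (contDiff_const.sub (contDiff_id.div_const R))).mul
    (Real.smoothTransition.contDiff.comp (contDiff_const.add (contDiff_id.div_const R)))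

theorem th_nonneg (R t : ℝ) : 0 ≤ th R t :=
  mul_nonneg (Real.smoothTransition.nonneg _) (Real.smoothTransition.nonneg _)

theorem th_le_one (R t : ℝ) : th R t ≤ 1 :=
  mul_le_one₀ (Real.smoothTransition.le_one _) (Real.smoothTransition.nonneg _)
    (Real.smoothTransition.le_one _)

theorem th_eq_one {R t : ℝ} (hR : 0 < R) (h : |t| ≤ R) : th R t = 1 := by
  have h1 := abs_le.1 h
  unfold th
  rw [Real.smoothTransition.one_of_one_le, Real.smoothTransition.one_of_one_le, one_mul]
  · have : -1 ≤ t / R := by rw [le_div_iff₀ hR]; linarith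
    linarith
  · have : t / R ≤ 1 := by rw [div_le_iff₀ hR]; linarith
    linarith

theorem th_eq_zero {R t : ℝ} (hR : 0 < R) (h : 2 * R ≤ |t|) : th R t = 0 := by
  unfold th
  rcases le_abs.1 h with h1 | h1
  · rw [Real.smoothTransition.zero_of_nonpos, zero_mul]
    have : 2 ≤ t / R := by rw [le_div_iff₀ hR]; linarith
    linarith
  · rw [mul_comm, Real.smoothTransition.zero_of_nonpos, zero_mul]
    have : t / R ≤ -2 := by rw [div_le_iff₀ hR]; linarith
    linarith

theorem exists_deriv_sT_bound : ∃ M : ℝ, 0 ≤ M ∧ ∀ t, |deriv Real.smoothTransition t| ≤ M := by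
  have hcont : Continuous (deriv Real.smoothTransition) :=
    (Real.smoothTransition.contDiff (n := 1)).continuous_deriv (by simp)
  obtain ⟨M, hM⟩ := (isCompact_Icc (a := (0 : ℝ)) (b := 1)).exists_bound_of_continuousOn
    hcont.continuousOn
  refine ⟨max M 0, le_max_right _ _, fun t => ?_⟩
  by_cases ht : t ∈ Set.Icc (0 : ℝ) 1
  · have := hM t ht
    rw [Real.norm_eq_abs] at this
    exact this.trans (le_max_left _ _)
  · have : deriv Real.smoothTransition t = 0 := by
      rw [Set.mem_Icc, not_and_or] at ht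
      rcases ht with ht | ht
      · push Not at ht
        have h1 : Real.smoothTransition =ᶠ[𝓝 t] fun _ => 0 := by
          filter_upwards [Iio_mem_nhds ht] with y hy
          exact Real.smoothTransition.zero_of_nonpos (le_of_lt hy)
        rw [h1.deriv_eq, deriv_const]
      · push Not at ht
        have h1 : Real.smoothTransition =ᶠ[𝓝 t] fun _ => 1 := by
          filter_upwards [Ioi_mem_nhds ht] with y hy
          exact Real.smoothTransition.one_of_one_le (le_of_lt hy)
        rw [h1.deriv_eq, deriv_const]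
    rw [this, abs_zero]
    exact le_max_right _ _

theorem exists_deriv_th_bound : ∃ M : ℝ, 0 ≤ M ∧ ∀ R, 0 < R → ∀ t, |deriv (th R) t| ≤ M / R := by
  obtain ⟨M, hM0, hM⟩ := exists_deriv_sT_bound
  refine ⟨2 * M, by positivity, fun R hR t => ?_⟩
  have hd : ∀ y, HasDerivAt Real.smoothTransition (deriv Real.smoothTransition y) y := fun y =>
    ((Real.smoothTransition.contDiff (n := 1)).differentiable (by simp) y).hasDerivAt
  have h1 : HasDerivAt (fun t : ℝ => 2 - t / R) (-(1 / R)) t := by
    simpa using ((hasDerivAt_id t).div_const R).const_sub 2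
  have h2 : HasDerivAt (fun t : ℝ => 2 + t / R) (1 / R) t := by
    simpa using ((hasDerivAt_id t).div_const R).const_add 2
  have h3 := ((hd (2 - t / R)).comp t h1).mul ((hd (2 + t / R)).comp t h2)
  have e : th R = (Real.smoothTransition ∘ fun t => 2 - t / R) *
      (Real.smoothTransition ∘ fun t => 2 + t / R) := by
    funext y; simp [th]
  rw [e, h3.deriv]
  simp only [Function.comp]
  have a1 := hM (2 - t / R)
  have a2 := hM (2 + t / R)
  have b1 : |Real.smoothTransition (2 + t / R)| ≤ 1 := by
    rw [abs_of_nonneg (Real.smoothTransition.nonneg _)]; exact Real.smoothTransition.le_one _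
  have b2 : |Real.smoothTransition (2 - t / R)| ≤ 1 := by
    rw [abs_of_nonneg (Real.smoothTransition.nonneg _)]; exact Real.smoothTransition.le_one _
  have hR' : |1 / R| = 1 / R := abs_of_pos (by positivity)
  refine (abs_add_le _ _).trans ?_
  rw [abs_mul, abs_mul, abs_mul, abs_mul, abs_neg, hR']
  have c1 : |deriv Real.smoothTransition (2 - t / R)| * (1 / R) * |Real.smoothTransition (2 + t / R)| ≤
      M * (1 / R) * 1 := by gcongr
  have c2 : |Real.smoothTransition (2 - t / R)| * (|deriv Real.smoothTransition (2 + t / R)| * (1 / R)) ≤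
      1 * (M * (1 / R)) := by gcongr
  calc _ ≤ M * (1 / R) * 1 + 1 * (M * (1 / R)) := add_le_add c1 c2
    _ = 2 * M / R := by ring

/-- the product cut-off -/
def Theta (R : ℝ) (x : Config N) : ℝ := ∏ ic : Fin N × Fin 3, th R (x ic)

theorem contDiff_Theta (R : ℝ) : ContDiff ℝ ∞ (Theta R : Config N → ℝ) := by
  unfold Theta
  refine contDiff_prod fun ic _ => ?_
  exact (contDiff_th R).comp (EuclideanSpace.proj ic : Config N →L[ℝ] ℝ).contDiff



theorem Theta_eq_one {R : ℝ} (hR : 0 < R) {x : Config N} (h : ∀ ic, |x ic| ≤ R) :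
    Theta R x = 1 :=
  Finset.prod_eq_one fun ic _ => th_eq_one hR (h ic)

theorem Theta_eq_zero {R : ℝ} (hR : 0 < R) {x : Config N} (h : ∃ ic, 2 * R ≤ |x ic|) :
    Theta R x = 0 := by
  obtain ⟨ic, h⟩ := h
  exact Finset.prod_eq_zero (Finset.mem_univ ic) (th_eq_zero hR h)

theorem supp_Theta {R : ℝ} (hR : 0 < R) : HasCompactSupport (Theta R : Config N → ℝ) := by
  refine HasCompactSupport.of_support_subset_isCompact
    (isCompact_closedBall (0 : Config N) (√(∑ _ic : Fin N × Fin 3, (2 * R) ^ 2))) ?_
  intro x hx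
  rw [Function.mem_support] at hx
  rw [mem_closedBall_zero_iff, EuclideanSpace.norm_eq]
  refine Real.sqrt_le_sqrt (Finset.sum_le_sum fun ic _ => ?_)
  by_contra hcon
  apply hx
  refine Theta_eq_zero hR ⟨ic, ?_⟩
  push Not at hcon
  have h2 : (2 * R) ^ 2 < |x ic| ^ 2 := by simpa using hcon
  exact (lt_of_pow_lt_pow_left₀ 2 (abs_nonneg _) h2).le

theorem Theta_perm (R : ℝ) (σ : Equiv.Perm (Fin N)) (x : Config N) :
    Theta R (permConfig σ x) = Theta R x := by
  unfold Theta permConfig
  rw [Fintype.prod_prod_type, Fintype.prod_prod_type]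
  exact Equiv.prod_comp σ (fun i => ∏ c : Fin 3, th R (x (i, c)))

theorem exists_cgrad_Theta_bound : ∃ M : ℝ, 0 ≤ M ∧ ∀ (N : ℕ) (R : ℝ), 0 < R →
    ∀ x : Config N, ∑ ic, cgrad (Theta R : Config N → ℝ) x ic ^ 2 ≤ M * N / R ^ 2 := by
  obtain ⟨M, hM0, hM⟩ := exists_deriv_th_bound
  refine ⟨3 * M ^ 2, by positivity, fun N R hR x => ?_⟩
  have key : ∀ ic, |cgrad (Theta R : Config N → ℝ) x ic| ≤ M / R := by
    intro ic
    -- derivative along a coordinate line
    have hT : HasFDerivAt (Theta R : Config N → ℝ) (fderiv ℝ (Theta R) x) x :=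
      ((contDiff_Theta R).differentiable (by simp) x).hasFDerivAt
    have h2 := hT.hasLineDerivAt (EuclideanSpace.single ic (1 : ℝ))
    have e : (fun t : ℝ => Theta R (x + t • EuclideanSpace.single ic (1 : ℝ))) =
        fun t : ℝ => th R (x ic + t) * ∏ jd ∈ Finset.univ.erase ic, th R (x jd) := by
      funext t
      unfold Theta
      rw [← Finset.mul_prod_erase Finset.univ _ (Finset.mem_univ ic)]
      congr 1
      · simp
      · refine Finset.prod_congr rfl fun jd hjd => ?_
        have : jd ≠ ic := Finset.ne_of_mem_erase hjd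
        simp [this]
    have h3 : HasDerivAt (fun t : ℝ => th R (x ic + t) * ∏ jd ∈ Finset.univ.erase ic, th R (x jd))
        (deriv (th R) (x ic) * ∏ jd ∈ Finset.univ.erase ic, th R (x jd)) 0 := by
      have h0 : HasDerivAt (fun t : ℝ => x ic + t) 1 0 := (hasDerivAt_id (0 : ℝ)).const_add (x ic)
      have h1 : HasDerivAt (th R) (deriv (th R) (x ic + 0)) (x ic + 0) :=
        ((contDiff_th R).differentiable (by simp) _).hasDerivAt
      have h2 := (h1.comp (0 : ℝ) h0).mul_const (∏ jd ∈ Finset.univ.erase ic, th R (x jd))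
      refine h2.congr_deriv ?_
      rw [add_zero]; ring
    have h4 : fderiv ℝ (Theta R : Config N → ℝ) x (EuclideanSpace.single ic (1 : ℝ)) =
        deriv (th R) (x ic) * ∏ jd ∈ Finset.univ.erase ic, th R (x jd) := by
      have h2' : HasDerivAt (fun t : ℝ => Theta R (x + t • EuclideanSpace.single ic (1 : ℝ)))
        (fderiv ℝ (Theta R : Config N → ℝ) x (EuclideanSpace.single ic (1 : ℝ))) 0 := h2
      rw [e] at h2'
      exact h2'.unique h3
    have h5 : cgrad (Theta R : Config N → ℝ) x ic =
        fderiv ℝ (Theta R : Config N → ℝ) x (EuclideanSpace.single ic (1 : ℝ)) := rfl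
    rw [h5, h4, abs_mul]
    have h6 : |∏ jd ∈ Finset.univ.erase ic, th R (x jd)| ≤ 1 := by
      rw [abs_of_nonneg (Finset.prod_nonneg fun _ _ => th_nonneg _ _)]
      exact Finset.prod_le_one (fun _ _ => th_nonneg _ _) fun _ _ => th_le_one _ _
    calc |deriv (th R) (x ic)| * |∏ jd ∈ Finset.univ.erase ic, th R (x jd)| ≤ M / R * 1 :=
          mul_le_mul (hM R hR _) h6 (abs_nonneg _) (by positivity)
      _ = M / R := mul_one _
  calc ∑ ic, cgrad (Theta R : Config N → ℝ) x ic ^ 2 ≤ ∑ _ic : Fin N × Fin 3, (M / R) ^ 2 := by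
        refine Finset.sum_le_sum fun ic _ => ?_
        rw [← sq_abs]
        exact pow_le_pow_left₀ (abs_nonneg _) (key ic) 2
    _ = 3 * M ^ 2 * N / R ^ 2 := by
        rw [Finset.sum_const, Finset.card_univ, Fintype.card_prod, Fintype.card_fin,
          Fintype.card_fin, nsmul_eq_mul]
        push_cast
        ring

end Crest.Agent.R338.TA
end
end

-- ▼ part R338/TA5
section

/-!
# Row 338, node TA (helper64): Coulomb integrability for Schwartz waves, the three forms
-/

set_option autoImplicit false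

open MeasureTheory SchwartzMap Filter
open scoped ContDiff ENNReal ComplexConjugate Topology

noncomputable section

namespace Crest.Agent.R338.TA

open Crest.MathPhysics.ElectronicCoulomb
open Crest.Agent.R338.HO Crest.Agent.R338.Fm
open Crest.Agent.R335.HF (IsH1 Gr E kin cgrad)

variable {N : ℕ}

/-- position of electron `i` as a continuous linear map -/
def elL (i : Fin N) : Config N →L[ℝ] Pos3 :=
  LinearMap.toContinuousLinearMap
    { toFun := fun x => elPos i x
      map_add' := fun x y => by ext c; simp [elPos]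
      map_smul' := fun a x => by ext c; simp [elPos] }

@[simp] theorem elL_apply (i : Fin N) (x : Config N) : elL i x = elPos i x := rfl

theorem continuous_elPos (i : Fin N) : Continuous (elPos i : Config N → Pos3) := (elL i).continuous

theorem elPos_single (i : Fin N) (c : Fin 3) :
    elPos i (EuclideanSpace.single (i, c) (1 : ℝ)) = EuclideanSpace.single c (1 : ℝ) := by
  ext d
  simp [elPos, Prod.ext_iff]

theorem elPos_single_ne {i j : Fin N} (h : i ≠ j) (c : Fin 3) :
    elPos j (EuclideanSpace.single (i, c) (1 : ℝ)) = 0 := by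
  ext d
  simp [elPos, Ne.symm h]

theorem int_part_le (f : 𝓢(Config N, ℂ)) (κ : Fin 3 → Fin N × Fin 3) (hκ : Function.Injective κ) :
    ∫ x, ∑ c, ‖cgrad (f : Config N → ℂ) x (κ c)‖ ^ 2 ≤ ∫ x, ‖cgrad (f : Config N → ℂ) x‖ ^ 2 := by
  refine integral_mono_of_nonneg (Eventually.of_forall fun x => by positivity)
    (integrable_cgrad_sq f) (Eventually.of_forall fun x => ?_)
  simp only
  rw [PiLp.norm_sq_eq_of_L2]
  have := Finset.sum_le_sum_of_subset_of_nonneg (s := Finset.univ.image κ) (t := Finset.univ)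
    (f := fun i => ‖cgrad (f : Config N → ℂ) x i‖ ^ 2) (Finset.subset_univ _)
    (fun _ _ _ => by positivity)
  rwa [Finset.sum_image (fun a _ b _ h => hκ h)] at this

/-- Coulomb integrability and bound for one component -/
theorem coul_sw (f : 𝓢(Config N, ℂ)) (L : Config N →L[ℝ] Pos3) (i : Fin N)
    (hL : ∀ c, L (EuclideanSpace.single (i, c) (1 : ℝ)) = EuclideanSpace.single c (1 : ℝ))
    (a : Pos3) : Integrable (fun x => ‖f x‖ ^ 2 / ‖L x - a‖) ∧
      ∫ x, ‖f x‖ ^ 2 / ‖L x - a‖ ≤
        (1 / 2) * (∫ x, ‖cgrad (f : Config N → ℂ) x‖ ^ 2) + (1 / 2) * ∫ x, ‖f x‖ ^ 2 := by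
  have h := coulomb_le (isH1_sw f) L (fun c => (i, c)) hL a one_pos
  refine ⟨h.1, h.2.trans ?_⟩
  have := int_part_le f (fun c => (i, c)) (fun a b h => (Prod.ext_iff.1 h).2)
  have e : (1 : ℝ) / (2 * 1) = 1 / 2 := by norm_num
  rw [e]
  linarith

/-- Coulomb weight of a Schwartz wave -/
theorem coul_rho (u : SW N) (L : Config N →L[ℝ] Pos3) (i : Fin N)
    (hL : ∀ c, L (EuclideanSpace.single (i, c) (1 : ℝ)) = EuclideanSpace.single c (1 : ℝ))
    (a : Pos3) : Integrable (fun x => 1 / ‖L x - a‖ * rho u u x) ∧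
      ∫ x, 1 / ‖L x - a‖ * rho u u x ≤ (1 / 2) * (dq u + nq u) := by
  have e : (fun x => 1 / ‖L x - a‖ * rho u u x) = fun x => ∑ s, ‖u s x‖ ^ 2 / ‖L x - a‖ := by
    funext x
    rw [rho_self, Finset.mul_sum]
    exact Finset.sum_congr rfl fun s _ => by ring
  rw [e]
  refine ⟨integrable_finsetSum _ fun s _ => (coul_sw (u s) L i hL a).1, ?_⟩
  rw [integral_finsetSum _ fun s _ => (coul_sw (u s) L i hL a).1]
  have h1 : ∀ s, ∫ x, ‖u s x‖ ^ 2 / ‖L x - a‖ ≤ (1 / 2) * (∫ x, ‖cgrad (u s : Config N → ℂ) x‖ ^ 2) +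
      (1 / 2) * ∫ x, ‖u s x‖ ^ 2 := fun s => (coul_sw (u s) L i hL a).2
  refine (Finset.sum_le_sum fun s _ => h1 s).trans_eq ?_
  rw [Finset.sum_add_distrib, ← Finset.mul_sum, ← Finset.mul_sum]
  unfold dq nq dir nsq
  simp only [toW_apply]
  ring

/-- mixed integrability from diagonal integrability -/
theorem integrable_mixed {g : Config N → ℝ} (hg : ∀ x, 0 ≤ g x) (hm : AEStronglyMeasurable g volume)
    {u v : SW N} (hu : Integrable (fun x => g x * rho u u x))
    (hv : Integrable (fun x => g x * rho v v x)) : Integrable (fun x => g x * rho u v x) := by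
  refine Integrable.mono' (hu.add hv) (hm.mul (integrable_rho u v).aestronglyMeasurable)
    (Eventually.of_forall fun x => ?_)
  rw [Real.norm_eq_abs, abs_mul, abs_of_nonneg (hg x)]
  have h1 := abs_rho_le_sqrt u v x
  have h2 : √(rho u u x) * √(rho v v x) ≤ rho u u x + rho v v x := by
    have a1 := Real.sq_sqrt (rho_self_nonneg u x)
    have a2 := Real.sq_sqrt (rho_self_nonneg v x)
    nlinarith [sq_nonneg (√(rho u u x) - √(rho v v x)), Real.sqrt_nonneg (rho u u x),
      Real.sqrt_nonneg (rho v v x)]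
  calc g x * |rho u v x| ≤ g x * (rho u u x + rho v v x) :=
        mul_le_mul_of_nonneg_left (h1.trans h2) (hg x)
    _ = g x * rho u u x + g x * rho v v x := by ring

/-! ### the `H¹` norm -/

/-- squared `H¹` norm -/
def h1q (u : SW N) : ℝ := nq u + dq u

theorem h1q_nonneg (u : SW N) : 0 ≤ h1q u := add_nonneg (nq_nonneg u) (dq_nonneg u)

theorem nq_le_h1q (u : SW N) : nq u ≤ h1q u := le_add_of_nonneg_right (dq_nonneg u)

theorem dq_le_h1q (u : SW N) : dq u ≤ h1q u := le_add_of_nonneg_left (nq_nonneg u)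

/-! ### the Coulomb repulsion -/

/-- the electronic repulsion -/
def repul (x : Config N) : ℝ :=
  ∑ i : Fin N, ∑ j : Fin N, if i < j then 1 / ‖elPos i x - elPos j x‖ else 0

theorem repul_nonneg (x : Config N) : 0 ≤ repul x := by
  unfold repul
  refine Finset.sum_nonneg fun i _ => Finset.sum_nonneg fun j _ => ?_
  split_ifs <;> positivity

theorem measurable_repul : Measurable (repul : Config N → ℝ) := by
  unfold repul
  refine Finset.measurable_sum _ fun i _ => Finset.measurable_sum _ fun j _ => ?_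
  split_ifs
  · exact measurable_const.div
      ((continuous_elPos i).sub (continuous_elPos j)).norm.measurable
  · exact measurable_const

theorem hL_pair {i j : Fin N} (h : i ≠ j) (c : Fin 3) :
    (elL i - elL j) (EuclideanSpace.single (i, c) (1 : ℝ)) = EuclideanSpace.single c (1 : ℝ) := by
  rw [ContinuousLinearMap.sub_apply, elL_apply, elL_apply, elPos_single, elPos_single_ne h, sub_zero]

theorem pair_rho (u : SW N) {i j : Fin N} (h : i ≠ j) :
    Integrable (fun x => 1 / ‖elPos i x - elPos j x‖ * rho u u x) ∧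
      ∫ x, 1 / ‖elPos i x - elPos j x‖ * rho u u x ≤ (1 / 2) * (dq u + nq u) := by
  have := coul_rho u (elL i - elL j) i (hL_pair h) 0
  simpa only [sub_zero, ContinuousLinearMap.sub_apply, elL_apply] using this

theorem one_rho (u : SW N) (i : Fin N) (a : Pos3) :
    Integrable (fun x => 1 / ‖elPos i x - a‖ * rho u u x) :=
  (coul_rho u (elL i) i (fun c => elPos_single i c) a).1

theorem repul_mul (x : Config N) (t : ℝ) : repul x * t =
    ∑ i : Fin N, ∑ j : Fin N, if i < j then 1 / ‖elPos i x - elPos j x‖ * t else 0 := by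
  unfold repul
  rw [Finset.sum_mul]
  refine Finset.sum_congr rfl fun i _ => ?_
  rw [Finset.sum_mul]
  refine Finset.sum_congr rfl fun j _ => ?_
  split_ifs <;> simp

theorem integrable_repul_self (u : SW N) : Integrable (fun x => repul x * rho u u x) := by
  simp only [repul_mul]
  refine integrable_finsetSum _ fun i _ => integrable_finsetSum _ fun j _ => ?_
  by_cases h : i < j
  · simp only [if_pos h]; exact (pair_rho u h.ne).1
  · simp only [if_neg h]; exact integrable_zero _ _ _

theorem integrable_repul (u v : SW N) : Integrable (fun x => repul x * rho u v x) :=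
  integrable_mixed repul_nonneg measurable_repul.aestronglyMeasurable
    (integrable_repul_self u) (integrable_repul_self v)

theorem int_repul_self_le (u : SW N) : ∫ x, repul x * rho u u x ≤ (N : ℝ) ^ 2 * h1q u := by
  have h0 : 0 ≤ h1q u := h1q_nonneg u
  simp only [repul_mul]
  rw [integral_finsetSum]
  · refine (Finset.sum_le_sum fun i _ => ?_ : _ ≤ ∑ _i : Fin N, (N : ℝ) * h1q u).trans_eq ?_
    · rw [integral_finsetSum]
      · refine (Finset.sum_le_sum fun j _ => ?_ : _ ≤ ∑ _j : Fin N, h1q u).trans_eq ?_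
        · by_cases h : i < j
          · simp only [if_pos h]
            have := (pair_rho u h.ne).2
            unfold h1q at *
            linarith
          · simp only [if_neg h, integral_zero]; exact h0
        · simp
      · intro j _
        by_cases h : i < j
        · simp only [if_pos h]; exact (pair_rho u h.ne).1
        · simp only [if_neg h]; exact integrable_zero _ _ _
    · simp; ring
  · intro i _
    refine integrable_finsetSum _ fun j _ => ?_
    by_cases h : i < j
    · simp only [if_pos h]; exact (pair_rho u h.ne).1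
    · simp only [if_neg h]; exact integrable_zero _ _ _

theorem abs_int_repul_le (u v : SW N) :
    |∫ x, repul x * rho u v x| ≤ (N : ℝ) ^ 2 * (√(h1q u) * √(h1q v)) := by
  have h := cs_weight (μ := (volume : Measure (Config N))) (g := repul) (a := rho u u)
    (b := rho v v) (c := rho u v) repul_nonneg (rho_self_nonneg u) (rho_self_nonneg v)
    (abs_rho_le_sqrt u v) (integrable_repul_self u) (integrable_repul_self v)
  refine h.trans ?_
  have hN : (0 : ℝ) ≤ (N : ℝ) ^ 2 := by positivity
  calc √(∫ x, repul x * rho u u x) * √(∫ x, repul x * rho v v x)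
      ≤ √((N : ℝ) ^ 2 * h1q u) * √((N : ℝ) ^ 2 * h1q v) :=
        mul_le_mul (Real.sqrt_le_sqrt (int_repul_self_le u)) (Real.sqrt_le_sqrt (int_repul_self_le v))
          (Real.sqrt_nonneg _) (Real.sqrt_nonneg _)
    _ = (N : ℝ) ^ 2 * (√(h1q u) * √(h1q v)) := by
      rw [Real.sqrt_mul hN, Real.sqrt_mul hN]
      have := Real.mul_self_sqrt hN
      nth_rewrite 3 [← this]; ring

/-! ### one-body sums -/

/-- sum of a one-body function over the electrons -/
def osum (g : Pos3 → ℝ) (x : Config N) : ℝ := ∑ i : Fin N, g (elPos i x)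

theorem measurable_osum {g : Pos3 → ℝ} (hg : Measurable g) :
    Measurable (osum g : Config N → ℝ) :=
  Finset.measurable_sum _ fun i _ => hg.comp (continuous_elPos i).measurable

theorem abs_osum_le {g : Pos3 → ℝ} {B : ℝ} (h : ∀ x, |g x| ≤ B) (x : Config N) :
    |osum g x| ≤ N * B := by
  unfold osum
  refine (Finset.abs_sum_le_sum_abs _ _).trans
    ((Finset.sum_le_sum fun i _ => h (elPos i x)).trans_eq ?_)
  simp

/-- the scaled potential -/
theorem pot_eq (lam : ℝ) {K : ℕ} (P : Fin K → Pos3) (x : Config N) :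
    lam * unitNucleiPotential P x = osum (Vnuc lam P) x + lam * repul x := by
  unfold unitNucleiPotential osum Vnuc repul
  rw [mul_add, Finset.mul_sum]
  congr 1
  refine Finset.sum_congr rfl fun i _ => ?_
  rw [Finset.mul_sum]
  refine Finset.sum_congr rfl fun α _ => ?_
  ring

theorem measurable_Vnuc (lam : ℝ) {K : ℕ} (P : Fin K → Pos3) : Measurable (Vnuc lam P) := by
  unfold Vnuc
  refine Finset.measurable_sum _ fun α _ => ?_
  exact (measurable_const.div (continuous_id.sub continuous_const).norm.measurable).neg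

theorem integrable_Vnuc_self (lam : ℝ) {K : ℕ} (P : Fin K → Pos3) (u : SW N) :
    Integrable (fun x => osum (Vnuc lam P) x * rho u u x) := by
  have e : (fun x => osum (Vnuc lam P) x * rho u u x) =
      fun x => ∑ i : Fin N, ∑ α : Fin K, (-lam) * (1 / ‖elPos i x - P α‖ * rho u u x) := by
    funext x
    unfold osum Vnuc
    rw [Finset.sum_mul]
    refine Finset.sum_congr rfl fun i _ => ?_
    rw [Finset.sum_mul]
    refine Finset.sum_congr rfl fun α _ => ?_
    ring
  rw [e]
  exact integrable_finsetSum _ fun i _ => integrable_finsetSum _ fun α _ =>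
    (one_rho u i (P α)).const_mul _

theorem integrable_Vnuc_mixed {lam : ℝ} (hl : 0 < lam) {K : ℕ} (P : Fin K → Pos3) (u v : SW N) :
    Integrable (fun x => osum (Vnuc lam P) x * rho u v x) := by
  have h0 : ∀ x : Config N, 0 ≤ -osum (Vnuc lam P) x := by
    intro x
    unfold osum Vnuc
    rw [neg_nonneg]
    refine Finset.sum_nonpos fun i _ => Finset.sum_nonpos fun α _ => ?_
    have : 0 ≤ lam / ‖elPos i x - P α‖ := by positivity
    linarith
  have h := integrable_mixed (g := fun x => -osum (Vnuc lam P) x) h0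
    (measurable_osum (measurable_Vnuc lam P)).neg.aestronglyMeasurable (u := u) (v := v)
    (by simpa [neg_mul] using (integrable_Vnuc_self lam P u).neg)
    (by simpa [neg_mul] using (integrable_Vnuc_self lam P v).neg)
  simpa [neg_mul] using h.neg

/-- admissibility of Schwartz waves -/
theorem integrable_pot (lam : ℝ) {K : ℕ} (P : Fin K → Pos3) (u : SW N) (s : Spin N) :
    Integrable (fun x => lam * unitNucleiPotential P x * ‖u s x‖ ^ 2) := by
  have e : (fun x => lam * unitNucleiPotential P x * ‖u s x‖ ^ 2) = fun x =>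
      (∑ i : Fin N, ∑ α : Fin K, (-lam) * (‖u s x‖ ^ 2 / ‖elPos i x - P α‖)) +
        ∑ i : Fin N, ∑ j : Fin N, if i < j then lam * (‖u s x‖ ^ 2 / ‖elPos i x - elPos j x‖) else 0 := by
    funext x
    unfold unitNucleiPotential
    rw [mul_add, add_mul]
    congr 1
    · rw [Finset.mul_sum, Finset.sum_mul]
      refine Finset.sum_congr rfl fun i _ => ?_
      rw [Finset.mul_sum, Finset.sum_mul]
      exact Finset.sum_congr rfl fun α _ => by ring
    · rw [Finset.mul_sum, Finset.sum_mul]
      refine Finset.sum_congr rfl fun i _ => ?_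
      rw [Finset.mul_sum, Finset.sum_mul]
      refine Finset.sum_congr rfl fun j _ => ?_
      split_ifs
      · ring
      · ring
  rw [e]
  refine (integrable_finsetSum _ fun i _ => integrable_finsetSum _ fun α _ =>
    ((coul_sw (u s) (elL i) i (fun c => elPos_single i c) (P α)).1).const_mul _).add
    (integrable_finsetSum _ fun i _ => integrable_finsetSum _ fun j _ => ?_)
  by_cases h : i < j
  · simp only [if_pos h]
    have := (coul_sw (u s) (elL i - elL j) i (hL_pair h.ne) 0).1
    simp only [sub_zero, ContinuousLinearMap.sub_apply, elL_apply] at this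
    exact this.const_mul _
  · simp only [if_neg h]; exact integrable_zero _ _ _

end Crest.Agent.R338.TA
end
end

-- ▼ part R338/TA6

/-!
# Row 338, node TA (helper64): the perturbation form, near and far regions
-/

set_option autoImplicit false

open MeasureTheory SchwartzMap Filter
open scoped ContDiff ENNReal ComplexConjugate Topology

noncomputable section

namespace Crest.Agent.R338.TA

open Crest.MathPhysics.ElectronicCoulomb
open Crest.Agent.R338.HO Crest.Agent.R338.Fm
open Crest.Agent.R335.HF (IsH1 Gr E kin cgrad)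

variable {N : ℕ}

theorem Iadd {f g : Config N → ℝ} (hf : Integrable f) (hg : Integrable g) :
    Integrable (fun x => f x + g x) := hf.add hg

/-- the singular remainder `Vnuc - Vs` -/
def kk (lam : ℝ) {K : ℕ} (P : Fin K → Pos3) (Vs : Pos3 → ℝ) (x : Pos3) : ℝ := Vnuc lam P x - Vs x

/-- weak divergence form on `N` bodies -/
def NB0 (N : ℕ) (k : Pos3 → ℝ) (F : Pos3 → Pos3) : Prop :=
  ∀ (i : Fin N) (f : 𝓢(Config N, ℝ)),
    ∫ x, k (elPos i x) * f x = - ∫ x, fderiv ℝ f x (emb i (F (elPos i x)))

/-- the oscillator form of a Schwartz wave -/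
def hoscS (u : SW N) : ℝ := hosc (toW u) (fun s => cgrad (u s))

/-- the weight `½‖x‖²` is integrable against densities -/
theorem integrable_normsq_rho (u : SW N) : Integrable (fun x => ‖x‖ ^ 2 * rho u u x) := by
  have h := (rhoS u u).integrable_pow_mul (volume : Measure (Config N)) 2
  refine h.congr (Eventually.of_forall fun x => ?_)
  simp only
  rw [rhoS_apply, Real.norm_eq_abs, abs_of_nonneg (rho_self_nonneg u x)]

theorem hoscS_eq (u : SW N) : hoscS u = (1 / 2) * dq u + (1 / 2) * ∫ x, ‖x‖ ^ 2 * rho u u x := by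
  unfold hoscS
  rw [hosc_eq]
  congr 2
  have hs : ∀ s, Integrable (fun x => ‖x‖ ^ 2 * ‖u s x‖ ^ 2) := by
    intro s
    refine Integrable.mono' (integrable_normsq_rho u) ?_ (Eventually.of_forall fun x => ?_)
    · exact ((continuous_norm.pow 2).mul ((u s).continuous.norm.pow 2)).aestronglyMeasurable
    · rw [Real.norm_eq_abs, abs_of_nonneg (by positivity)]
      refine mul_le_mul_of_nonneg_left ?_ (by positivity)
      rw [rho_self]
      exact Finset.single_le_sum (f := fun s => ‖u s x‖ ^ 2) (fun _ _ => by positivity)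
        (Finset.mem_univ s)
  simp only [toW_apply]
  rw [← integral_finsetSum _ fun s _ => hs s]
  refine integral_congr_ae (Eventually.of_forall fun x => ?_)
  simp only [rho_self, Finset.mul_sum]

/-- the perturbation form -/
def bF (lam : ℝ) (w k : Pos3 → ℝ) (u v : SW N) : ℝ :=
  lam * (∫ x, osum w x * rho u v x) + lam * (∫ x, repul x * rho u v x) + ∫ x, osum k x * rho u v x

section
variable {lam : ℝ} {K : ℕ} {P : Fin K → Pos3} {n0 : ℕ} {Vs w : Pos3 → ℝ} {F : Pos3 → Pos3}
  {C0 R eps1 eps2 kF W : ℝ}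

theorem integrable_osum_w (h : NucOK lam P n0 Vs w F C0 R eps1 eps2 kF W) (u v : SW N) :
    Integrable (fun x => osum w x * rho u v x) :=
  integrable_bdd_rho (abs_osum_le h.w_le) (measurable_osum h.w_cont.measurable).aestronglyMeasurable
    u v

theorem integrable_osum_Vs (h : NucOK lam P n0 Vs w F C0 R eps1 eps2 kF W) (u v : SW N) :
    Integrable (fun x => osum Vs x * rho u v x) := by
  obtain ⟨B, hB⟩ := h.Vs_bdd
  exact integrable_bdd_rho (abs_osum_le hB)
    (measurable_osum h.Vs_cont.measurable).aestronglyMeasurable u v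

theorem osum_kk (x : Config N) : osum (kk lam P Vs) x = osum (Vnuc lam P) x - osum Vs x := by
  unfold osum kk
  rw [Finset.sum_sub_distrib]

theorem integrable_osum_kk (h : NucOK lam P n0 Vs w F C0 R eps1 eps2 kF W) (u v : SW N) :
    Integrable (fun x => osum (kk lam P Vs) x * rho u v x) := by
  simp only [osum_kk, sub_mul]
  exact (integrable_Vnuc_mixed h.lam_pos P u v).sub (integrable_osum_Vs h u v)

theorem bF_add (h : NucOK lam P n0 Vs w F C0 R eps1 eps2 kF W) (u v : SW N) :
    bF lam w (kk lam P Vs) (u + v) (u + v) = bF lam w (kk lam P Vs) u u +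
      2 * bF lam w (kk lam P Vs) u v + bF lam w (kk lam P Vs) v v := by
  have key : ∀ g : Config N → ℝ, (∀ a b : SW N, Integrable (fun x => g x * rho a b x)) →
      ∫ x, g x * rho (u + v) (u + v) x = (∫ x, g x * rho u u x) + 2 * (∫ x, g x * rho u v x) +
        ∫ x, g x * rho v v x := by
    intro g hg
    rw [← integral_const_mul, ← integral_add (hg u u) ((hg u v).const_mul 2),
      ← integral_add (Iadd (hg u u) ((hg u v).const_mul 2)) (hg v v)]
    refine integral_congr_ae (Eventually.of_forall fun x => ?_)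
    simp only
    rw [rho_add]; ring
  unfold bF
  rw [key _ (integrable_osum_w h), key _ integrable_repul, key _ (integrable_osum_kk h)]
  ring

/-- bound of the singular part -/
theorem abs_int_kk_le (h : NucOK lam P n0 Vs w F C0 R eps1 eps2 kF W)
    (hk : NB0 N (kk lam P Vs) F) (u v : SW N) :
    |∫ x, osum (kk lam P Vs) x * rho u v x| ≤
      N * (kF * (√(dq u) * √(nq v) + √(nq u) * √(dq v))) := by
  have hi : ∀ i : Fin N, Integrable (fun x => kk lam P Vs (elPos i x) * rho u v x) := by
    intro i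
    unfold kk
    simp only [sub_mul]
    refine Integrable.sub ?_ ?_
    · have e : (fun x => Vnuc lam P (elPos i x) * rho u v x) =
          fun x => ∑ α : Fin K, (-lam) * (1 / ‖elPos i x - P α‖ * rho u v x) := by
        funext x
        unfold Vnuc
        rw [Finset.sum_mul]
        exact Finset.sum_congr rfl fun α _ => by ring
      rw [e]
      refine integrable_finsetSum _ fun α _ => Integrable.const_mul ?_ _
      refine integrable_mixed (fun x => by positivity) ?_ (one_rho u i (P α)) (one_rho v i (P α))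
      exact (measurable_const.div ((continuous_elPos i).sub continuous_const).norm.measurable).aestronglyMeasurable
    · obtain ⟨B, hB⟩ := h.Vs_bdd
      exact integrable_bdd_rho (fun x => hB _)
        (h.Vs_cont.comp (continuous_elPos i)).aestronglyMeasurable u v
  have e : (∫ x, osum (kk lam P Vs) x * rho u v x) =
      ∑ i : Fin N, ∫ x, kk lam P Vs (elPos i x) * rho u v x := by
    rw [← integral_finsetSum _ fun i _ => hi i]
    refine integral_congr_ae (Eventually.of_forall fun x => ?_)
    simp only [osum, Finset.sum_mul]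
  rw [e]
  refine (Finset.abs_sum_le_sum_abs _ _).trans ((Finset.sum_le_sum fun i _ => ?_ :
    _ ≤ ∑ _i : Fin N, kF * (√(dq u) * √(nq v) + √(nq u) * √(dq v))).trans_eq (by simp))
  have := hk i (rhoS u v)
  simp only [rhoS_coe] at this
  rw [this, abs_neg]
  have h2 := abs_int_divF_le h.kF_nonneg h.F_le i u v
  simpa only [rhoS_coe] using h2

/-- the form bound of the perturbation -/
theorem abs_bF_le (h : NucOK lam P n0 Vs w F C0 R eps1 eps2 kF W)
    (hk : NB0 N (kk lam P Vs) F) (u v : SW N) :
    |bF lam w (kk lam P Vs) u v| ≤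
      (lam * N * W + lam * N ^ 2 + 2 * N * kF) * (√(h1q u) * √(h1q v)) := by
  have hl := h.lam_pos
  have hW := h.W_nonneg
  have hkF := h.kF_nonneg
  have n1 : √(nq u) ≤ √(h1q u) := Real.sqrt_le_sqrt (nq_le_h1q u)
  have n2 : √(nq v) ≤ √(h1q v) := Real.sqrt_le_sqrt (nq_le_h1q v)
  have d1 : √(dq u) ≤ √(h1q u) := Real.sqrt_le_sqrt (dq_le_h1q u)
  have d2 : √(dq v) ≤ √(h1q v) := Real.sqrt_le_sqrt (dq_le_h1q v)
  have s1 := Real.sqrt_nonneg (nq u)
  have s2 := Real.sqrt_nonneg (nq v)
  have s3 := Real.sqrt_nonneg (dq u)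
  have s4 := Real.sqrt_nonneg (dq v)
  have a1 : |∫ x, osum w x * rho u v x| ≤ N * W * (√(h1q u) * √(h1q v)) :=
    (abs_int_bdd_le (abs_osum_le h.w_le) u v).trans
      (mul_le_mul_of_nonneg_left (mul_le_mul n1 n2 s2 (Real.sqrt_nonneg _)) (by positivity))
  have a2 := abs_int_repul_le u v
  have a3 : |∫ x, osum (kk lam P Vs) x * rho u v x| ≤ 2 * N * kF * (√(h1q u) * √(h1q v)) := by
    refine (abs_int_kk_le h hk u v).trans ?_
    have b1 : √(dq u) * √(nq v) ≤ √(h1q u) * √(h1q v) := mul_le_mul d1 n2 s2 (Real.sqrt_nonneg _)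
    have b2 : √(nq u) * √(dq v) ≤ √(h1q u) * √(h1q v) := mul_le_mul n1 d2 s4 (Real.sqrt_nonneg _)
    calc N * (kF * (√(dq u) * √(nq v) + √(nq u) * √(dq v)))
        ≤ N * (kF * (√(h1q u) * √(h1q v) + √(h1q u) * √(h1q v))) := by gcongr
      _ = _ := by ring
  unfold bF
  refine (abs_add_le _ _).trans ?_
  refine (add_le_add (abs_add_le _ _) le_rfl).trans ?_
  rw [abs_mul, abs_mul, abs_of_pos hl]
  calc lam * |∫ x, osum w x * rho u v x| + lam * |∫ x, repul x * rho u v x| +
        |∫ x, osum (kk lam P Vs) x * rho u v x|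
      ≤ lam * (N * W * (√(h1q u) * √(h1q v))) + lam * ((N : ℝ) ^ 2 * (√(h1q u) * √(h1q v))) +
        2 * N * kF * (√(h1q u) * √(h1q v)) := by gcongr
    _ = _ := by ring

/-- the energy of a Schwartz wave in terms of the pieces -/
theorem energy_split (h : NucOK lam P n0 Vs w F C0 R eps1 eps2 kF W) (u : SW N) :
    energy (fun x => lam * unitNucleiPotential P x) (toW u) =
      (1 / 2) * dq u + (∫ x, osum Vs x * rho u u x) + lam * (∫ x, repul x * rho u u x) +
        ∫ x, osum (kk lam P Vs) x * rho u u x := by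
  rw [energy_toW u (integrable_pot lam P u)]
  have e : (∫ x, lam * unitNucleiPotential P x * rho u u x) =
      (∫ x, osum Vs x * rho u u x) + lam * (∫ x, repul x * rho u u x) +
        ∫ x, osum (kk lam P Vs) x * rho u u x := by
    rw [← integral_const_mul, ← integral_add (integrable_osum_Vs h u u)
      ((integrable_repul u u).const_mul lam), ← integral_add (Iadd (integrable_osum_Vs h u u)
      ((integrable_repul u u).const_mul lam)) (integrable_osum_kk h u u)]
    refine integral_congr_ae (Eventually.of_forall fun x => ?_)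
    simp only
    rw [pot_eq, osum_kk]
    ring
  rw [e]; ring

theorem sum_norm_elPos (x : Config N) : ∑ i : Fin N, ‖elPos i x‖ ^ 2 = ‖x‖ ^ 2 := by
  rw [EuclideanSpace.norm_sq_eq, Fintype.sum_prod_type]
  refine Finset.sum_congr rfl fun i _ => ?_
  rw [EuclideanSpace.norm_sq_eq]
  rfl

/-- NEAR region: lower bound by the oscillator form and the perturbation form -/
theorem near_lower (h : NucOK lam P n0 Vs w F C0 R eps1 eps2 kF W) (u : SW N)
    (hu : ∀ s x, u s x ≠ 0 → ∀ ic, |x ic| ≤ 2 * R) :
    hoscS u + bF lam w (kk lam P Vs) u u - N * (C0 + eps2) * nq u ≤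
      energy (fun x => lam * unitNucleiPotential P x) (toW u) := by
  rw [energy_split h, hoscS_eq]
  unfold bF
  have key : (1 / 2) * (∫ x, ‖x‖ ^ 2 * rho u u x) + lam * (∫ x, osum w x * rho u u x) -
      N * (C0 + eps2) * nq u ≤ ∫ x, osum Vs x * rho u u x := by
    rw [nq_eq, ← integral_const_mul, ← integral_const_mul, ← integral_const_mul,
      ← integral_add ((integrable_normsq_rho u).const_mul _) ((integrable_osum_w h u u).const_mul _),
      ← integral_sub (Iadd ((integrable_normsq_rho u).const_mul _)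
        ((integrable_osum_w h u u).const_mul _)) ((integrable_rho u u).const_mul _)]
    refine integral_mono ((Iadd ((integrable_normsq_rho u).const_mul _)
        ((integrable_osum_w h u u).const_mul _)).sub ((integrable_rho u u).const_mul _))
        (integrable_osum_Vs h u u) fun x => ?_
    simp only
    by_cases hx : rho u u x = 0
    · rw [hx]; simp
    · -- some component does not vanish
      have h1 : ∃ s, u s x ≠ 0 := by
        by_contra hcon
        push Not at hcon
        apply hx
        rw [rho_self]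
        exact Finset.sum_eq_zero fun s _ => by rw [hcon s]; simp
      obtain ⟨s, hs⟩ := h1
      have h2 := hu s x hs
      have h3 : ∀ i : Fin N, -(C0 + eps2) + ‖elPos i x‖ ^ 2 / 2 + lam * w (elPos i x) ≤
          Vs (elPos i x) := by
        intro i
        have := (abs_le.1 (h.N1 (elPos i x) (fun c => h2 (i, c)))).1
        linarith
      have h4 := Finset.sum_le_sum fun (i : Fin N) (_ : i ∈ Finset.univ) => h3 i
      simp only [Finset.sum_add_distrib, Finset.sum_const, Finset.card_univ, Fintype.card_fin,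
        nsmul_eq_mul, ← Finset.sum_div, ← Finset.mul_sum, sum_norm_elPos] at h4
      have h5 := rho_self_nonneg u x
      have h6 : (N * -(C0 + eps2) + ‖x‖ ^ 2 / 2 + lam * osum w x) * rho u u x ≤
          osum Vs x * rho u u x := mul_le_mul_of_nonneg_right h4 h5
      linarith
  linarith

/-- FAR region -/
theorem far_lower (h : NucOK lam P n0 Vs w F C0 R eps1 eps2 kF W)
    (hk : NB0 N (kk lam P Vs) F) (u : SW N)
    (hu : ∀ s x, u s x ≠ 0 → ∃ ic, R < |x ic|) :
    (-(N * C0) + R ^ 2 / 4 - N * (lam * W + eps2) - 2 * N ^ 2 * kF ^ 2) * nq u ≤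
      energy (fun x => lam * unitNucleiPotential P x) (toW u) := by
  rw [energy_split h]
  have hW := h.W_nonneg
  have hl := h.lam_pos
  have key : (-(N * C0) + R ^ 2 / 4 - N * (lam * W + eps2)) * nq u ≤ ∫ x, osum Vs x * rho u u x := by
    rw [nq_eq, ← integral_const_mul]
    refine integral_mono ((integrable_rho u u).const_mul _) (integrable_osum_Vs h u u) fun x => ?_
    by_cases hx : rho u u x = 0
    · simp only [hx]; simp
    · have h1 : ∃ s, u s x ≠ 0 := by
        by_contra hcon
        push Not at hcon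
        apply hx
        rw [rho_self]
        exact Finset.sum_eq_zero fun s _ => by rw [hcon s]; simp
      obtain ⟨s, hs⟩ := h1
      obtain ⟨⟨i0, c0⟩, hc0⟩ := hu s x hs
      have hlow : ∀ y : Pos3, -(C0 + (lam * W + eps2)) ≤ Vs y := by
        intro y
        by_cases hy : ∀ c, |y c| ≤ 2 * R
        · have h2 := (abs_le.1 (h.N1 y hy)).1
          have h3 := (abs_le.1 (h.w_le y)).1
          have h4 : lam * (-W) ≤ lam * w y := mul_le_mul_of_nonneg_left h3 hl.le
          have h5 : 0 ≤ ‖y‖ ^ 2 / 2 := by positivity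
          linarith
        · push Not at hy
          obtain ⟨c, hc⟩ := hy
          have hR := h.one_le_R
          have h2 := h.N2 y ⟨c, by linarith⟩
          have h3 : 0 ≤ R ^ 2 / 4 := by positivity
          have h4 : 0 ≤ lam * W + eps2 := by have := h.eps2_nonneg; positivity
          linarith
      have hfar : R ^ 2 / 4 - C0 ≤ Vs (elPos i0 x) := by
        have := h.N2 (elPos i0 x) ⟨c0, hc0.le⟩
        linarith
      have hsum : -(N * C0) + R ^ 2 / 4 - N * (lam * W + eps2) ≤ osum Vs x := by
        unfold osum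
        rw [← Finset.add_sum_erase Finset.univ _ (Finset.mem_univ i0)]
        have h6 : ∑ i ∈ Finset.univ.erase i0, Vs (elPos i x) ≥
            ∑ _i ∈ Finset.univ.erase i0, -(C0 + (lam * W + eps2)) :=
          Finset.sum_le_sum fun i _ => hlow _
        rw [Finset.sum_const, Finset.card_erase_of_mem (Finset.mem_univ i0), Finset.card_univ,
          Fintype.card_fin, nsmul_eq_mul] at h6
        have hN : 1 ≤ N := Nat.one_le_iff_ne_zero.2 (by rintro rfl; exact i0.elim0)
        rw [Nat.cast_sub hN] at h6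
        have h7 : 0 ≤ lam * W + eps2 := by have := h.eps2_nonneg; positivity
        push_cast at h6
        linarith
      exact mul_le_mul_of_nonneg_right hsum (rho_self_nonneg u x)
  have hrep : 0 ≤ lam * ∫ x, repul x * rho u u x :=
    mul_nonneg hl.le (integral_nonneg fun x => mul_nonneg (repul_nonneg x) (rho_self_nonneg u x))
  have hkk := (abs_le.1 (abs_int_kk_le h hk u u)).1
  have hkF := h.kF_nonneg
  -- `½ D - 2 N kF √D √n ≥ - 2 N² kF² n`
  have hsq : -(2 * (N : ℝ) ^ 2 * kF ^ 2 * nq u) ≤
      (1 / 2) * dq u - N * (kF * (√(dq u) * √(nq u) + √(nq u) * √(dq u))) := by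
    have e1 := Real.sq_sqrt (dq_nonneg u)
    have e2 := Real.sq_sqrt (nq_nonneg u)
    have e3 : (√(dq u) - 2 * N * kF * √(nq u)) ^ 2 =
        dq u - 4 * N * kF * (√(dq u) * √(nq u)) + 4 * (N : ℝ) ^ 2 * kF ^ 2 * nq u := by
      calc (√(dq u) - 2 * N * kF * √(nq u)) ^ 2 = √(dq u) ^ 2 -
            4 * N * kF * (√(dq u) * √(nq u)) + 4 * (N : ℝ) ^ 2 * kF ^ 2 * √(nq u) ^ 2 := by ring
        _ = _ := by rw [e1, e2]
    have e4 := sq_nonneg (√(dq u) - 2 * N * kF * √(nq u))
    rw [e3] at e4
    linarith
  linarith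

end

end Crest.Agent.R338.TA
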