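import Crest.Agent.R338.HO2
import Crest.Agent.R338.HO3
import Crest.Agent.R338.Fm2a
import Crest.Prelude.Def_CoulombHamiltonian
import Crest.Agent.R335.HMoll
import Crest.Agent.R335.HFourier
import Mathlib
import Crest.Agent.R338.Fm1
import Crest.Agent.R338.Fm3
import Crest.Agent.R338.TA3
import Crest.Agent.R335.HSliceB
import Crest.Agent.R338.TA2
import Crest.Agent.R338.TA6

-- ▼ part R338/TL1
section

/-!
# Row 338, module TL1 (helper490): Hermite tails

If the Hermite coefficients of a Schwartz function `f` vanish for `α j > n`, then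
`∫ |x_j|^{2k} |f|² ≤ (2 (n + k))^k ∫ |f|²` and
`∫_{|x_j| ≥ ρ} |f|² ≤ (2 (n + k))^k / ρ^{2k} ∫ |f|²`.
-/

set_option autoImplicit false

open MeasureTheory Real SchwartzMap Filter Topology
open scoped Nat ContDiff FourierTransform ComplexConjugate LineDeriv

noncomputable section

namespace Crest.Agent.R338.TL

open Crest.Agent.R335.HF Crest.Agent.R338.HO

variable {ι : Type*} [Fintype ι]

theorem htg_coordC (j : ι) : Function.HasTemperateGrowth (fun x : E ι => ((x j : ℝ) : ℂ)) :=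
  Function.Complex.hasTemperateGrowth_ofReal.comp (htg_coord j)

/-- multiplication by a coordinate on Schwartz functions -/
def mulX (j : ι) (f : 𝓢(E ι, ℂ)) : 𝓢(E ι, ℂ) :=
  SchwartzMap.smulLeftCLM ℂ (fun x : E ι => ((x j : ℝ) : ℂ)) f

@[simp] theorem mulX_apply (j : ι) (f : 𝓢(E ι, ℂ)) (x : E ι) : mulX j f x = (x j : ℂ) * f x := by
  unfold mulX
  rw [SchwartzMap.smulLeftCLM_apply_apply (htg_coordC j)]
  simp

variable [DecidableEq ι]

theorem isH1_schwartz (f : 𝓢(E ι, ℂ)) : IsH1 (f : E ι → ℂ) (cgrad f) := by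
  refine isH1_of_contDiff (f.smooth 1) (f.memLp 2 _) (memLp_of_comp fun i => ?_)
  have : (fun x => cgrad (f : E ι → ℂ) x i) =
      (∂_{EuclideanSpace.single i (1 : ℝ)} f : 𝓢(E ι, ℂ)) := by
    ext x
    rw [cgrad_apply, SchwartzMap.lineDerivOp_apply_eq_fderiv]
  rw [this]
  exact SchwartzMap.memLp _ 2 _

theorem isOsc_schwartz (f : 𝓢(E ι, ℂ)) : IsOsc (f : E ι → ℂ) (cgrad f) := by
  refine ⟨isH1_schwartz f, fun j => ?_⟩
  have : (fun x => (x j : ℂ) * f x) = (mulX j f : E ι → ℂ) := by ext x; simp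
  rw [this]
  exact SchwartzMap.memLp _ 2 _

/-- one step -/
theorem step {j : ι} {n : ℕ} {f : 𝓢(E ι, ℂ)} (hf : ∀ α : ι → ℕ, n < α j → cf f α = 0) :
    (∫ x, ‖mulX j f x‖ ^ 2) ≤ (2 * (n : ℝ) + 1) * ∫ x, ‖f x‖ ^ 2 := by
  have h := isOsc_schwartz f
  have h1 := hasSum_osc_coord h.h1 j (h.hx j)
  have h2 := (hasSum_parseval (f.memLp 2 (volume : Measure (E ι)))).mul_left (2 * (n : ℝ) + 1)
  have h3 := hasSum_le (fun α : ι → ℕ => ?_) h1 h2
  · refine le_trans ?_ h3
    have e : ∫ x, ‖mulX j f x‖ ^ 2 = ∫ x, ‖(x j : ℂ) * f x‖ ^ 2 := by simp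
    rw [e]
    exact le_add_of_nonneg_right (integral_nonneg fun x => by positivity)
  · by_cases hα : n < α j
    · rw [hf α hα]; simp
    · have : (α j : ℝ) ≤ n := by exact_mod_cast not_lt.1 hα
      exact mul_le_mul_of_nonneg_right (by linarith) (by positivity)

theorem step_coef {j : ι} {n : ℕ} {f : 𝓢(E ι, ℂ)} (hf : ∀ α : ι → ℕ, n < α j → cf f α = 0) :
    ∀ α : ι → ℕ, n + 1 < α j → cf (mulX j f) α = 0 := by
  intro α hα
  have e : (mulX j f : E ι → ℂ) = fun x => (x j : ℂ) * f x := by ext x; simp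
  rw [e, cf_coord (f.memLp 2 (volume : Measure (E ι))) j α, hf, hf]
  · simp
  · simp; omega
  · simp; omega

/-- iterated multiplication -/
def mulXk (j : ι) : ℕ → 𝓢(E ι, ℂ) → 𝓢(E ι, ℂ)
  | 0, f => f
  | k + 1, f => mulX j (mulXk j k f)

omit [DecidableEq ι] in
@[simp] theorem mulXk_apply (j : ι) (k : ℕ) (f : 𝓢(E ι, ℂ)) (x : E ι) :
    mulXk j k f x = (x j : ℂ) ^ k * f x := by
  induction k with
  | zero => simp [mulXk]
  | succ k ih => simp only [mulXk, mulX_apply, ih, pow_succ]; ring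

theorem mulXk_coef {j : ι} {n : ℕ} {f : 𝓢(E ι, ℂ)} (hf : ∀ α : ι → ℕ, n < α j → cf f α = 0)
    (k : ℕ) : ∀ α : ι → ℕ, n + k < α j → cf (mulXk j k f) α = 0 := by
  induction k with
  | zero => simpa [mulXk] using hf
  | succ k ih =>
    intro α hα
    exact step_coef ih α (by omega)

theorem moment {j : ι} {n : ℕ} {f : 𝓢(E ι, ℂ)} (hf : ∀ α : ι → ℕ, n < α j → cf f α = 0)
    (k : ℕ) : ∀ l, l ≤ k →
      (∫ x, ‖mulXk j l f x‖ ^ 2) ≤ (2 * ((n : ℝ) + k)) ^ l * ∫ x, ‖f x‖ ^ 2 := by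
  intro l
  induction l with
  | zero => intro _; simp [mulXk]
  | succ l ih =>
    intro hl
    have h1 := step (mulXk_coef hf l)
    have h2 := ih (by omega)
    have h3 : 0 ≤ ∫ x, ‖mulXk j l f x‖ ^ 2 := integral_nonneg fun x => by positivity
    have h4 : ((n + l : ℕ) : ℝ) + 1 ≤ (n : ℝ) + k := by
      have : n + l + 1 ≤ n + k := by omega
      exact_mod_cast this
    have h5 : 0 ≤ (((n + l : ℕ)) : ℝ) := by positivity
    calc (∫ x, ‖mulXk j (l + 1) f x‖ ^ 2)
        ≤ (2 * (((n + l : ℕ)) : ℝ) + 1) * ∫ x, ‖mulXk j l f x‖ ^ 2 := h1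
      _ ≤ (2 * ((n : ℝ) + k)) * ((2 * ((n : ℝ) + k)) ^ l * ∫ x, ‖f x‖ ^ 2) := by
          gcongr
          linarith
      _ = _ := by rw [pow_succ]; ring

theorem moment' {j : ι} {n : ℕ} {f : 𝓢(E ι, ℂ)} (hf : ∀ α : ι → ℕ, n < α j → cf f α = 0)
    (k : ℕ) : (∫ x, (x j) ^ (2 * k) * ‖f x‖ ^ 2) ≤ (2 * ((n : ℝ) + k)) ^ k * ∫ x, ‖f x‖ ^ 2 := by
  refine le_trans (le_of_eq ?_) (moment hf k k le_rfl)
  refine integral_congr_ae (Eventually.of_forall fun x => ?_)
  simp only [mulXk_apply]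
  rw [norm_mul, norm_pow, Complex.norm_real, mul_pow, ← pow_mul, mul_comm k 2, Real.norm_eq_abs,
    pow_mul |x.ofLp j|, sq_abs, ← pow_mul]

omit [DecidableEq ι] in
theorem norm_mulXk_sq (j : ι) (k : ℕ) (f : 𝓢(E ι, ℂ)) (x : E ι) :
    ‖mulXk j k f x‖ ^ 2 = (x j) ^ (2 * k) * ‖f x‖ ^ 2 := by
  simp only [mulXk_apply]
  rw [norm_mul, norm_pow, Complex.norm_real, mul_pow, ← pow_mul, mul_comm k 2, Real.norm_eq_abs,
    pow_mul |x.ofLp j|, sq_abs, ← pow_mul]

omit [DecidableEq ι] in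
theorem integrable_sq (f : 𝓢(E ι, ℂ)) : Integrable (fun x => ‖f x‖ ^ 2) := by
  have h := (f.memLp 2 (volume : Measure (E ι))).integrable_norm_pow (by norm_num)
  simpa using h

omit [DecidableEq ι] in
theorem integrable_moment (j : ι) (k : ℕ) (f : 𝓢(E ι, ℂ)) :
    Integrable (fun x => (x j) ^ (2 * k) * ‖f x‖ ^ 2) :=
  (integrable_sq (mulXk j k f)).congr (Eventually.of_forall fun x => norm_mulXk_sq j k f x)

/-- **tail bound** -/
theorem tail {j : ι} {n : ℕ} {f : 𝓢(E ι, ℂ)} (hf : ∀ α : ι → ℕ, n < α j → cf f α = 0)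
    (k : ℕ) {ρ : ℝ} (hρ : 0 < ρ) :
    (∫ x, (if ρ ≤ |x j| then ‖f x‖ ^ 2 else 0)) ≤
      (2 * ((n : ℝ) + k)) ^ k / ρ ^ (2 * k) * ∫ x, ‖f x‖ ^ 2 := by
  have h1 := moment' hf k
  have h2 : ∀ x : E ι, (if ρ ≤ |x j| then ‖f x‖ ^ 2 else 0) ≤
      (ρ ^ (2 * k))⁻¹ * ((x j) ^ (2 * k) * ‖f x‖ ^ 2) := by
    intro x
    split_ifs with h
    · have h3 : ρ ^ (2 * k) ≤ (x j) ^ (2 * k) := by
        rw [← Even.pow_abs (even_two_mul k) (x j)]
        exact pow_le_pow_left₀ hρ.le h _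
      rw [← mul_assoc]
      have h4 : 0 < ρ ^ (2 * k) := by positivity
      have h5 : 1 ≤ (ρ ^ (2 * k))⁻¹ * (x j) ^ (2 * k) := by
        rw [inv_mul_eq_div, one_le_div h4]; exact h3
      nlinarith [sq_nonneg ‖f x‖]
    · have : 0 ≤ (x j) ^ (2 * k) := by rw [pow_mul]; positivity
      positivity
  calc (∫ x, (if ρ ≤ |x j| then ‖f x‖ ^ 2 else 0))
      ≤ ∫ x, (ρ ^ (2 * k))⁻¹ * ((x j) ^ (2 * k) * ‖f x‖ ^ 2) := by
        refine integral_mono_of_nonneg (Eventually.of_forall fun x => ?_)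
          ((integrable_moment j k f).const_mul _) (Eventually.of_forall h2)
        simp only [Pi.zero_apply]
        split_ifs <;> positivity
    _ = (ρ ^ (2 * k))⁻¹ * ∫ x, ((x j) ^ (2 * k) * ‖f x‖ ^ 2) := integral_const_mul _ _
    _ ≤ (ρ ^ (2 * k))⁻¹ * ((2 * ((n : ℝ) + k)) ^ k * ∫ x, ‖f x‖ ^ 2) := by gcongr
    _ = _ := by ring

end Crest.Agent.R338.TL
end
private theorem rz_84e09d2ef5 : type_of% @_root_.Crest.Agent.R338.TL.mulXk.eq_def := @_root_.Crest.Agent.R338.TL.mulXk.eq_def -- L79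
private theorem rz_cd1bdad0b9 : type_of% @_root_.Crest.Agent.R338.TL.mulXk.eq_1 := @_root_.Crest.Agent.R338.TL.mulXk.eq_1 -- L79
end

-- ▼ part R338/TL2
section

/-!
# Row 338, module TL2 (helper490): the trial wave `wav C`: Fermi symmetry, Coulomb integrability,
tails.
-/

set_option autoImplicit false

open MeasureTheory Real SchwartzMap Filter Topology
open scoped Nat ContDiff ComplexConjugate

noncomputable section

namespace Crest.Agent.R338.TL

open Crest.MathPhysics.ElectronicCoulomb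
open Crest.Agent.R335.HF Crest.Agent.R338.HO Crest.Agent.R338.TA Crest.Agent.R338.Fm

variable {N n0 : ℕ}

/-! ### Fermi symmetry -/

theorem lidx_comp (σ : Equiv.Perm (Fin N)) (m : Fin N → Sp n0) :
    lidx (fun i => m (σ i)) = fun ic : Fin N × Fin 3 => lidx m (σ ic.1, ic.2) := rfl

theorem wav_perm {C : Ten N n0} (hA : Anti C) (σ : Equiv.Perm (Fin N)) (s : Spin N)
    (x : Config N) :
    wav C (fun i => s (σ i)) (permConfig σ x) = ((Equiv.Perm.sign σ : ℤ) : ℂ) * wav C s x := by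
  rw [wav_eq, wav_eq, Finset.mul_sum]
  symm
  refine Fintype.sum_equiv (Equiv.arrowCongr σ.symm (Equiv.refl (Sp n0))) _ _ (fun m => ?_)
  have e1 : (Equiv.arrowCongr σ.symm (Equiv.refl (Sp n0))) m = fun i => m (σ i) := by
    funext i; simp [Equiv.arrowCongr]
  rw [e1, lidx_comp, Phi_perm σ (lidx m) x]
  have h := hA σ (fun i => (s i, m i))
  rw [h]
  ring

theorem isFermionic_wav {C : Ten N n0} (hA : Anti C) : IsFermionic (wav C) :=
  ⟨memLp_wav C, fun σ s x => wav_perm hA σ s x⟩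

/-! ### Coulomb integrability -/

/-- position of electron `i` as a continuous linear map -/
def posL (i : Fin N) : Config N →L[ℝ] Pos3 := prk (fun c => (i, c))

theorem posL_apply (i : Fin N) (x : Config N) : posL i x = elPos i x := by
  ext c; simp [posL, elPos]

theorem posL_single (i : Fin N) (c : Fin 3) :
    posL i (EuclideanSpace.single (i, c) (1 : ℝ)) = EuclideanSpace.single c (1 : ℝ) := by
  ext d
  simp [posL, prk_apply]

theorem posL_single_ne {i j : Fin N} (h : i ≠ j) (c : Fin 3) :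
    posL j (EuclideanSpace.single (i, c) (1 : ℝ)) = 0 := by
  ext d
  simp [posL, prk_apply, h.symm]

theorem integrable_en {f : Config N → ℂ} {g : Config N → Gr (Fin N × Fin 3) ℂ} (h : IsH1 f g)
    (i : Fin N) (a : Pos3) : Integrable (fun x => ‖f x‖ ^ 2 / ‖elPos i x - a‖) := by
  have := (coulomb_le h (posL i) (fun c => (i, c)) (posL_single i) a one_pos).1
  simpa only [posL_apply] using this

theorem integrable_ee {f : Config N → ℂ} {g : Config N → Gr (Fin N × Fin 3) ℂ} (h : IsH1 f g)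
    {i j : Fin N} (hij : i ≠ j) : Integrable (fun x => ‖f x‖ ^ 2 / ‖elPos i x - elPos j x‖) := by
  have := (coulomb_le h (posL i - posL j) (fun c => (i, c)) (fun c => by
    rw [sub_apply, posL_single, posL_single_ne hij, sub_zero]) 0 one_pos).1
  simpa only [sub_apply, posL_apply, sub_zero] using this

/-- one-particle Coulomb integrability -/
theorem integrable_c3 {f : Pos3 → ℂ} {g : Pos3 → Gr (Fin 3) ℂ} (h : IsH1 f g) (a : Pos3) :
    Integrable (fun x => ‖f x‖ ^ 2 / ‖x - a‖) := by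
  have := (coulomb_le h (ContinuousLinearMap.id ℝ Pos3) id (fun c => rfl) a one_pos).1
  simpa using this

theorem integrable_Phi_div (a b : Fin 3 → ℕ) (c : Pos3) :
    Integrable (fun x : Pos3 => (1 / ‖x - c‖) * (Phi a x * Phi b x)) := by
  have ha := integrable_c3 (TL.isH1_schwartz (PhiS a)) c
  have hb := integrable_c3 (TL.isH1_schwartz (PhiS b)) c
  refine (ha.add hb).mono' ?_ (Eventually.of_forall fun x => ?_)
  · refine AEStronglyMeasurable.mul ?_ ?_
    · exact (((continuous_id.sub continuous_const).norm).measurable.const_div 1).aestronglyMeasurable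
    · exact ((continuous_Phi a).mul (continuous_Phi b)).aestronglyMeasurable
  · simp only [PhiS_apply, Complex.norm_real, Pi.add_apply, Real.norm_eq_abs, sq_abs]
    rw [abs_mul, abs_of_nonneg (show (0:ℝ) ≤ 1 / ‖x - c‖ by positivity), ← add_div, one_div,
      inv_mul_eq_div]
    refine div_le_div_of_nonneg_right ?_ (norm_nonneg _)
    rw [abs_le]
    constructor <;> nlinarith [sq_nonneg (Phi a x + Phi b x), sq_nonneg (Phi a x - Phi b x),
      sq_nonneg (Phi a x), sq_nonneg (Phi b x)]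

/-! ### weighted integrals of the trial wave -/

/-- `J C G = ∑_s ∫ G |wav C s|²` -/
def J (C : Ten N n0) (G : Config N → ℝ) : ℝ := ∑ s : Spin N, ∫ x, G x * ‖wav C s x‖ ^ 2

/-- integrability -/
def JI (C : Ten N n0) (G : Config N → ℝ) : Prop :=
  ∀ s : Spin N, Integrable (fun x => G x * ‖wav C s x‖ ^ 2)

theorem JI.add {C : Ten N n0} {G G' : Config N → ℝ} (h : JI C G) (h' : JI C G') :
    JI C (fun x => G x + G' x) := fun s =>
  ((h s).add (h' s)).congr (Eventually.of_forall fun _ => (add_mul _ _ _).symm)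

theorem JI.sub {C : Ten N n0} {G G' : Config N → ℝ} (h : JI C G) (h' : JI C G') :
    JI C (fun x => G x - G' x) := fun s =>
  ((h s).sub (h' s)).congr (Eventually.of_forall fun _ => (sub_mul _ _ _).symm)

theorem JI.const_mul {C : Ten N n0} {G : Config N → ℝ} (h : JI C G) (c : ℝ) :
    JI C (fun x => c * G x) := fun s => by
  simpa only [mul_assoc] using (h s).const_mul c

theorem JI.sum {β : Type*} {C : Ten N n0} (t : Finset β) {G : β → Config N → ℝ}
    (h : ∀ b ∈ t, JI C (G b)) : JI C (fun x => ∑ b ∈ t, G b x) := fun s => by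
  simp only [Finset.sum_mul]
  exact integrable_finsetSum _ fun b hb => h b hb s

theorem J_add {C : Ten N n0} {G G' : Config N → ℝ} (h : JI C G) (h' : JI C G') :
    J C (fun x => G x + G' x) = J C G + J C G' := by
  unfold J
  rw [← Finset.sum_add_distrib]
  refine Finset.sum_congr rfl fun s _ => ?_
  rw [← integral_add (h s) (h' s)]
  simp only [add_mul]


theorem J_const_mul (C : Ten N n0) (G : Config N → ℝ) (c : ℝ) :
    J C (fun x => c * G x) = c * J C G := by
  unfold J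
  rw [Finset.mul_sum]
  refine Finset.sum_congr rfl fun s _ => ?_
  rw [← integral_const_mul]
  simp only [mul_assoc]

theorem J_sum {β : Type*} {C : Ten N n0} (t : Finset β) {G : β → Config N → ℝ}
    (h : ∀ b ∈ t, JI C (G b)) : J C (fun x => ∑ b ∈ t, G b x) = ∑ b ∈ t, J C (G b) := by
  unfold J
  rw [Finset.sum_comm]
  refine Finset.sum_congr rfl fun s _ => ?_
  rw [← integral_finsetSum _ fun b hb => h b hb s]
  simp only [Finset.sum_mul]

theorem J_mono {C : Ten N n0} {G G' : Config N → ℝ} (h : JI C G) (h' : JI C G')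
    (hle : ∀ x, G x ≤ G' x) : J C G ≤ J C G' := by
  unfold J
  refine Finset.sum_le_sum fun s _ => integral_mono (h s) (h' s) fun x => ?_
  exact mul_le_mul_of_nonneg_right (hle x) (by positivity)

theorem J_one (C : Ten N n0) : J C (fun _ => 1) = tsq C := by
  rw [← nsq_wav]
  unfold J nsq
  simp

theorem integrable_wav_sq (C : Ten N n0) (s : Spin N) : Integrable (fun x => ‖wav C s x‖ ^ 2) := by
  have h := integrable_sq (wavS C s)
  rwa [wavS_coe] at h

theorem JI_bdd (C : Ten N n0) {G : Config N → ℝ} (hG : AEStronglyMeasurable G volume) {B : ℝ}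
    (hB : ∀ x, |G x| ≤ B) : JI C G := fun s =>
  (integrable_wav_sq C s).bdd_mul hG (Eventually.of_forall fun x => hB x)

theorem JI_const (C : Ten N n0) (c : ℝ) : JI C (fun _ => c) :=
  JI_bdd C aestronglyMeasurable_const (fun _ => le_rfl)

theorem continuous_elPos (i : Fin N) : Continuous (elPos i : Config N → Pos3) := by
  have : (elPos i : Config N → Pos3) = posL i := by funext x; rw [posL_apply]
  rw [this]; exact (posL i).continuous

/-! ### tails of the trial wave -/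

theorem wav_coef (C : Ten N n0) (s : Spin N) (ic : Fin N × Fin 3) :
    ∀ α : Fin N × Fin 3 → ℕ, n0 < α ic → cf (wavS C s) α = 0 := by
  intro α hα
  rw [wavS_coe, cf_wav, ext_not_low]
  intro hl
  have h := hl ic.1
  unfold deg3 at h
  simp only at h
  have h2 : α (ic.1, ic.2) ≤ α (ic.1, 0) + α (ic.1, 1) + α (ic.1, 2) := by
    generalize ic.2 = c
    fin_cases c <;> simp <;> omega
  have h3 : α ic = α (ic.1, ic.2) := rfl
  omega

theorem J_tail (C : Ten N n0) (ic : Fin N × Fin 3) (k : ℕ) {ρ : ℝ} (hρ : 0 < ρ) :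
    J C (fun x => if ρ ≤ |x ic| then 1 else 0) ≤
      (2 * ((n0 : ℝ) + k)) ^ k / ρ ^ (2 * k) * tsq C := by
  rw [← nsq_wav]
  unfold J nsq
  rw [Finset.mul_sum]
  refine Finset.sum_le_sum fun s _ => ?_
  have h := tail (wav_coef C s ic) k hρ
  rw [wavS_coe] at h
  refine le_trans (le_of_eq ?_) h
  refine integral_congr_ae (Eventually.of_forall fun x => ?_)
  simp only [ite_mul, one_mul, zero_mul]

theorem JI_tail (C : Ten N n0) (ic : Fin N × Fin 3) (ρ : ℝ) :
    JI C (fun x => if ρ ≤ |x ic| then (1 : ℝ) else 0) := by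
  refine JI_bdd C (B := 1) ?_ fun x => ?_
  · refine (Measurable.ite ?_ measurable_const measurable_const).aestronglyMeasurable
    refine measurableSet_le measurable_const ?_
    have : Continuous (fun x : Config N => |x ic|) := by fun_prop
    exact this.measurable
  · simp only
    split_ifs <;> simp

end Crest.Agent.R338.TL
end
end

-- ▼ part R338/Dens0
section

/-!
Row 338 (S0529), node H1DENSITY (helper490), part 0: permutations of configurations, `H¹` calculus
on `Config n` (complex), elementary inequalities.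
-/

set_option autoImplicit false

open MeasureTheory Filter Set Crest.MathPhysics.ElectronicCoulomb
open scoped ENNReal Topology ContDiff

noncomputable section
namespace Crest.Agent.R338.Dens
open Crest.Agent.R335 Crest.Agent.R335.HF

variable {n : ℕ}

theorem kineticOne_eq_kin (f : Config n → ℂ) : kineticOne f = kin f := rfl

/-- relabelling of the electrons as a linear isometry -/
def permL (σ : Equiv.Perm (Fin n)) : Config n ≃ₗᵢ[ℝ] Config n :=
  LinearIsometryEquiv.piLpCongrLeft 2 ℝ ℝ (Equiv.prodCongr σ.symm (Equiv.refl (Fin 3)))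

theorem permL_apply (σ : Equiv.Perm (Fin n)) (x : Config n) : permL σ x = permConfig σ x := by
  ext ⟨i, c⟩
  simp [permL, permConfig, LinearIsometryEquiv.piLpCongrLeft_apply, Equiv.piCongrLeft']

theorem permConfig_apply (σ : Equiv.Perm (Fin n)) (x : Config n) (i : Fin n) (c : Fin 3) :
    permConfig σ x (i, c) = x (σ i, c) := rfl

theorem permConfig_permConfig (σ τ : Equiv.Perm (Fin n)) (x : Config n) :
    permConfig τ (permConfig σ x) = permConfig (σ * τ) x := by
  ext ⟨i, c⟩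
  simp [permConfig_apply]



theorem permConfig_eq_permL (σ : Equiv.Perm (Fin n)) : permConfig σ = permL σ :=
  funext fun x => (permL_apply σ x).symm

theorem mp_perm (σ : Equiv.Perm (Fin n)) :
    MeasurePreserving (permConfig σ) (volume : Measure (Config n)) volume := by
  rw [permConfig_eq_permL]
  exact (permL σ).measurePreserving

theorem me_perm (σ : Equiv.Perm (Fin n)) : MeasurableEmbedding (permConfig σ) := by
  rw [permConfig_eq_permL]
  exact (permL σ).toHomeomorph.measurableEmbedding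


theorem integral_perm {F : Type*} [NormedAddCommGroup F] [NormedSpace ℝ F]
    (σ : Equiv.Perm (Fin n)) (f : Config n → F) :
    ∫ x, f (permConfig σ x) = ∫ x, f x :=
  (mp_perm σ).integral_comp (me_perm σ) f

theorem memLp_perm {F : Type*} [NormedAddCommGroup F] {f : Config n → F} {p : ℝ≥0∞}
    (hF : MemLp f p volume) (σ : Equiv.Perm (Fin n)) : MemLp (fun x => f (permConfig σ x)) p volume :=
  hF.comp_measurePreserving (mp_perm σ)

theorem contDiff_perm (σ : Equiv.Perm (Fin n)) : ContDiff ℝ ∞ (permConfig σ) := by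
  rw [permConfig_eq_permL]
  exact (permL σ).contDiff

/-! ### gradients of permuted functions -/

theorem permL_symm_single (σ : Equiv.Perm (Fin n)) (i : Fin n) (c : Fin 3) :
    (permL σ).symm (EuclideanSpace.single (σ.symm i, c) (1 : ℝ)) =
      EuclideanSpace.single (i, c) (1 : ℝ) := by
  rw [LinearIsometryEquiv.symm_apply_eq, permL_apply]
  ext ⟨j, d⟩
  rw [permConfig_apply]
  simp only [PiLp.single_apply, Prod.mk.injEq]
  have e : (j = σ.symm i ∧ d = c) ↔ (σ j = i ∧ d = c) := by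
    rw [Equiv.eq_symm_apply]
  by_cases h : σ j = i ∧ d = c
  · rw [if_pos (e.2 h), if_pos h]
  · rw [if_neg (fun h' => h (e.1 h')), if_neg h]

/-- gradient of the permuted function -/
def permGr (σ : Equiv.Perm (Fin n)) (v : Gr (Fin n × Fin 3) ℂ) : Gr (Fin n × Fin 3) ℂ :=
  WithLp.toLp 2 fun ic => v (σ.symm ic.1, ic.2)

theorem permGr_apply (σ : Equiv.Perm (Fin n)) (v : Gr (Fin n × Fin 3) ℂ) (i : Fin n) (c : Fin 3) :
    permGr σ v (i, c) = v (σ.symm i, c) := rfl

theorem norm_permGr (σ : Equiv.Perm (Fin n)) (v : Gr (Fin n × Fin 3) ℂ) :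
    ‖permGr σ v‖ ^ 2 = ‖v‖ ^ 2 := by
  rw [PiLp.norm_sq_eq_of_L2, PiLp.norm_sq_eq_of_L2]
  exact Equiv.sum_comp (Equiv.prodCongr σ.symm (Equiv.refl (Fin 3)))
    (fun ic : Fin n × Fin 3 => ‖v ic‖ ^ 2)

theorem isH1_perm {f : Config n → ℂ} {g : Config n → Gr (Fin n × Fin 3) ℂ} (h : IsH1 f g)
    (σ : Equiv.Perm (Fin n)) :
    IsH1 (fun x => f (permConfig σ x)) (fun x => permGr σ (g (permConfig σ x))) where
  memf := memLp_perm h.memf σ
  memg := memLp_of_comp fun ⟨i, c⟩ => by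
    simp only [permGr_apply]
    exact memLp_perm (h.memgi (σ.symm i, c)) σ
  ibp := fun φ h1 h2 ⟨i, c⟩ => by
    set ψ : Config n → ℝ := fun y => φ ((permL σ).symm y) with hψ
    have hψ1 : ContDiff ℝ ∞ ψ := h1.comp (permL σ).symm.contDiff
    have hψ2 : HasCompactSupport ψ := h2.comp_homeomorph (permL σ).symm.toHomeomorph
    have key := h.ibp ψ hψ1 hψ2 (σ.symm i, c)
    have e1 : ∀ x, fderiv ℝ φ x (EuclideanSpace.single (i, c) (1 : ℝ)) =
        fderiv ℝ ψ (permConfig σ x) (EuclideanSpace.single (σ.symm i, c) (1 : ℝ)) := by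
      intro x
      have h3 : DifferentiableAt ℝ φ ((permL σ).symm (permConfig σ x)) :=
        (h1.differentiable (by simp)) _
      have h4 : HasFDerivAt (fun y : Config n => (permL σ).symm y)
          ((permL σ).symm.toContinuousLinearEquiv : Config n →L[ℝ] Config n) (permConfig σ x) :=
        ((permL σ).symm.toContinuousLinearEquiv.hasFDerivAt)
      have h5 := (h3.hasFDerivAt.comp (permConfig σ x) h4).fderiv
      have h6 : fderiv ℝ ψ (permConfig σ x) = _ := h5
      rw [h6]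
      have h7 : (permL σ).symm (permConfig σ x) = x := by
        rw [← permL_apply, LinearIsometryEquiv.symm_apply_apply]
      rw [h7]
      have h8 := permL_symm_single σ i c
      simp only [ContinuousLinearMap.comp_apply]
      congr 1
      exact h8.symm
    have e2 : ∀ x, φ x = ψ (permConfig σ x) := by
      intro x
      simp only [hψ]
      rw [← permL_apply, LinearIsometryEquiv.symm_apply_apply]
    simp only [permGr_apply]
    calc ∫ x, fderiv ℝ φ x (EuclideanSpace.single (i, c) (1 : ℝ)) • f (permConfig σ x)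
        = ∫ x, (fun y => fderiv ℝ ψ y (EuclideanSpace.single (σ.symm i, c) (1 : ℝ)) • f y)
            (permConfig σ x) := by
          refine integral_congr_ae (Eventually.of_forall fun x => ?_)
          simp only [e1]
      _ = ∫ y, fderiv ℝ ψ y (EuclideanSpace.single (σ.symm i, c) (1 : ℝ)) • f y :=
          integral_perm σ (fun y => fderiv ℝ ψ y
            (EuclideanSpace.single (σ.symm i, c) (1 : ℝ)) • f y)
      _ = - ∫ y, ψ y • g y (σ.symm i, c) := key
      _ = - ∫ x, (fun y => ψ y • g y (σ.symm i, c)) (permConfig σ x) := by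
          rw [integral_perm σ (fun y => ψ y • g y (σ.symm i, c))]
      _ = - ∫ x, φ x • g (permConfig σ x) (σ.symm i, c) := by
          congr 1
          refine integral_congr_ae (Eventually.of_forall fun x => ?_)
          simp only [e2]

/-! ### elementary inequality -/

theorem abs_sq_add_sub_le {F : Type*} [NormedAddCommGroup F] (a b : F) {t : ℝ} (ht : 0 < t) :
    |‖a + b‖ ^ 2 - ‖a‖ ^ 2| ≤ t * ‖a‖ ^ 2 + (1 + 1 / t) * ‖b‖ ^ 2 := by
  have h1 : ‖a + b‖ ≤ ‖a‖ + ‖b‖ := norm_add_le a b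
  have h2 : ‖a‖ ≤ ‖a + b‖ + ‖b‖ := by
    have := norm_sub_le (a + b) b
    simpa using this
  have h3 : 2 * ‖a‖ * ‖b‖ ≤ t * ‖a‖ ^ 2 + 1 / t * ‖b‖ ^ 2 := by
    have h4 : 0 ≤ (t * ‖a‖ - ‖b‖) ^ 2 / t := by positivity
    have h5 : (t * ‖a‖ - ‖b‖) ^ 2 / t = t * ‖a‖ ^ 2 - 2 * ‖a‖ * ‖b‖ + 1 / t * ‖b‖ ^ 2 := by
      field_simp
      ring
    linarith
  have ha := norm_nonneg a
  have hb := norm_nonneg b
  have hab := norm_nonneg (a + b)
  rw [abs_le]
  constructor
  · have : ‖a‖ ^ 2 ≤ ‖a + b‖ ^ 2 + (2 * ‖a‖ * ‖b‖ + ‖b‖ ^ 2) := by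
      rcases le_total ‖a‖ ‖b‖ with h | h
      · nlinarith
      · have : (‖a‖ - ‖b‖) ^ 2 ≤ ‖a + b‖ ^ 2 := by
          apply pow_le_pow_left₀ (by linarith) (by linarith)
        nlinarith
    nlinarith
  · have : ‖a + b‖ ^ 2 ≤ (‖a‖ + ‖b‖) ^ 2 := pow_le_pow_left₀ hab h1 2
    nlinarith

theorem norm_sq_sum_le {ι F : Type*} [NormedAddCommGroup F] (s : Finset ι) (v : ι → F) :
    ‖∑ i ∈ s, v i‖ ^ 2 ≤ s.card * ∑ i ∈ s, ‖v i‖ ^ 2 := by
  have h1 : ‖∑ i ∈ s, v i‖ ≤ ∑ i ∈ s, ‖v i‖ := norm_sum_le s v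
  have h2 : (∑ i ∈ s, ‖v i‖) ^ 2 ≤ s.card * ∑ i ∈ s, ‖v i‖ ^ 2 :=
    sq_sum_le_card_mul_sum_sq
  exact (pow_le_pow_left₀ (norm_nonneg _) h1 2).trans h2

/-- perturbation of weighted square integrals -/
theorem abs_integral_sub_le {α F : Type*} [MeasurableSpace α] {μ : Measure α}
    [NormedAddCommGroup F] {w : α → ℝ} {f r : α → F} {t : ℝ} (ht : 0 < t)
    (hf : Integrable (fun x => w x * ‖f x‖ ^ 2) μ) (hr : Integrable (fun x => w x * ‖r x‖ ^ 2) μ)
    (hfr : Integrable (fun x => w x * ‖f x + r x‖ ^ 2) μ) :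
    |(∫ x, w x * ‖f x + r x‖ ^ 2 ∂μ) - ∫ x, w x * ‖f x‖ ^ 2 ∂μ| ≤
      t * (∫ x, |w x| * ‖f x‖ ^ 2 ∂μ) + (1 + 1 / t) * ∫ x, |w x| * ‖r x‖ ^ 2 ∂μ := by
  have hf' : Integrable (fun x => |w x| * ‖f x‖ ^ 2) μ := by
    refine hf.norm.congr (Eventually.of_forall fun x => ?_)
    simp
  have hr' : Integrable (fun x => |w x| * ‖r x‖ ^ 2) μ := by
    refine hr.norm.congr (Eventually.of_forall fun x => ?_)
    simp
  rw [← integral_sub hfr hf, ← integral_const_mul, ← integral_const_mul,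
    ← integral_add (hf'.const_mul t) (hr'.const_mul _)]
  refine (abs_integral_le_integral_abs).trans ?_
  refine integral_mono (hfr.sub hf).abs ((hf'.const_mul t).add (hr'.const_mul _)) fun x => ?_
  have h := abs_sq_add_sub_le (f x) (r x) ht
  have e : w x * ‖f x + r x‖ ^ 2 - w x * ‖f x‖ ^ 2 = w x * (‖f x + r x‖ ^ 2 - ‖f x‖ ^ 2) := by ring
  simp only [e, abs_mul]
  calc |w x| * |‖f x + r x‖ ^ 2 - ‖f x‖ ^ 2|
      ≤ |w x| * (t * ‖f x‖ ^ 2 + (1 + 1 / t) * ‖r x‖ ^ 2) :=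
        mul_le_mul_of_nonneg_left h (abs_nonneg _)
    _ = t * (|w x| * ‖f x‖ ^ 2) + (1 + 1 / t) * (|w x| * ‖r x‖ ^ 2) := by ring

end Crest.Agent.R338.Dens
end
end

-- ▼ part R338/Dens1
section

/-!
Row 338 (S0529), node H1DENSITY (helper490), part 1: `C_c^∞` is dense in `H¹(Config n; ℂ)`.
-/

set_option autoImplicit false
set_option linter.unusedSectionVars false

open MeasureTheory Filter Set Crest.MathPhysics.ElectronicCoulomb
open scoped ENNReal Topology ContDiff

noncomputable section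
namespace Crest.Agent.R338.Dens
open Crest.Agent.R335 Crest.Agent.R335.HF

variable {ι : Type*} [Fintype ι] [DecidableEq ι]

/-- `∫ ‖u‖²` and the `L²` norm -/
theorem integral_sq_eq {F : Type*} [NormedAddCommGroup F] {u : E ι → F}
    (hu : AEStronglyMeasurable u volume) :
    ∫ x, ‖u x‖ ^ 2 = ((eLpNorm u 2 volume) ^ 2).toReal := by
  have e := integral_eq_lintegral_of_nonneg_ae (f := fun x => ‖u x‖ ^ 2)
      (μ := (volume : Measure (E ι))) (Eventually.of_forall fun x => by positivity)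
      (hu.norm.pow 2)
  rw [e]
  congr 1
  rw [eLpNorm_eq_lintegral_rpow_enorm_toReal (by norm_num) (by norm_num)]
  simp only [ENNReal.toReal_ofNat, ENNReal.rpow_ofNat]
  rw [← ENNReal.rpow_natCast, ← ENNReal.rpow_mul]
  norm_num

theorem tendsto_integral_sq {F : Type*} [NormedAddCommGroup F] {u : ℕ → E ι → F}
    (hu : ∀ k, AEStronglyMeasurable (u k) volume)
    (h : Tendsto (fun k => eLpNorm (u k) 2 volume) atTop (𝓝 0)) :
    Tendsto (fun k => ∫ x, ‖u k x‖ ^ 2) atTop (𝓝 0) := by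
  simp only [integral_sq_eq (hu _)]
  have h1 := (ENNReal.continuous_pow 2).tendsto (0 : ℝ≥0∞)
  have h2 := h1.comp h
  have h3 := (ENNReal.tendsto_toReal (a := (0 : ℝ≥0∞) ^ 2) (by simp)).comp h2
  simpa [Function.comp_def] using h3

/-- `C_c^∞` functions are dense in `H¹` (complex valued) -/
theorem exists_approx_one {f : E ι → ℂ} {g : E ι → Gr ι ℂ} (h : IsH1 f g) {ε : ℝ} (hε : 0 < ε) :
    ∃ φ : E ι → ℂ, ContDiff ℝ ∞ φ ∧ HasCompactSupport φ ∧ IsH1 φ (cgrad φ) ∧
      ∫ x, ‖φ x - f x‖ ^ 2 ≤ ε ∧ ∫ x, ‖cgrad φ x - g x‖ ^ 2 ≤ ε := by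
  obtain ⟨φ, hφ, hφ1, hφ2, -⟩ := H1.approx h.re_H1
  obtain ⟨ψ, hψ, hψ1, hψ2, -⟩ := H1.approx h.im_H1
  have hgr : ∀ {χ : E ι → ℝ}, Test univ χ → MemLp (gr χ) 2 volume := by
    intro χ hχ
    have h1 := isH1_of_contDiff_compact (F := ℝ) (hχ.smooth.of_le (by simp)) hχ.cpt
    exact (isH1_iff_H1.1 h1).memg
  have t1 := tendsto_integral_sq (u := fun k x => φ k x - (f x).re)
    (fun k => ((hφ k).smooth.continuous.aestronglyMeasurable.sub h.re_H1.memf.1)) hφ1
  have t2 := tendsto_integral_sq (u := fun k x => ψ k x - (f x).im)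
    (fun k => ((hψ k).smooth.continuous.aestronglyMeasurable.sub h.im_H1.memf.1)) hψ1
  have t3 := tendsto_integral_sq (u := fun k x => gr (φ k) x - gre g x)
    (fun k => ((hgr (hφ k)).1.sub h.re_H1.memg.1)) hφ2
  have t4 := tendsto_integral_sq (u := fun k x => gr (ψ k) x - gim g x)
    (fun k => ((hgr (hψ k)).1.sub h.im_H1.memg.1)) hψ2
  have hε2 : 0 < ε / 2 := by positivity
  obtain ⟨k, ⟨hk1, hk2⟩, hk3, hk4⟩ := (((t1.eventually_le_const hε2).and
    (t2.eventually_le_const hε2)).and ((t3.eventually_le_const hε2).and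
      (t4.eventually_le_const hε2))).exists
  set Φ : E ι → ℂ := fun x => (φ k x : ℂ) + Complex.I * (ψ k x : ℂ) with hΦ
  have c1 : ContDiff ℝ ∞ Φ :=
    (Complex.ofRealCLM.contDiff.comp (hφ k).smooth).add
      (contDiff_const.mul (Complex.ofRealCLM.contDiff.comp (hψ k).smooth))
  have c2 : HasCompactSupport Φ := by
    refine HasCompactSupport.add ?_ ?_
    · exact (hφ k).cpt.comp_left (g := fun r : ℝ => (r : ℂ)) (by simp)
    · exact (hψ k).cpt.comp_left (g := fun r : ℝ => Complex.I * (r : ℂ)) (by simp)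
  have c3 : IsH1 Φ (cgrad Φ) := isH1_of_contDiff_compact (c1.of_le (by simp)) c2
  refine ⟨Φ, c1, c2, c3, ?_, ?_⟩
  · have e : ∀ x, ‖Φ x - f x‖ ^ 2 = ‖φ k x - (f x).re‖ ^ 2 + ‖ψ k x - (f x).im‖ ^ 2 := by
      intro x
      rw [← Complex.normSq_eq_norm_sq, Complex.normSq_apply]
      simp only [hΦ, Complex.sub_re, Complex.add_re, Complex.ofReal_re, Complex.mul_re,
        Complex.I_re, Complex.I_im, Complex.ofReal_im, Complex.sub_im, Complex.add_im,
        Complex.mul_im, Real.norm_eq_abs, sq_abs]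
      ring
    simp only [e]
    rw [integral_add]
    · linarith
    · exact (((hφ k).smooth.continuous.memLp_of_hasCompactSupport (hφ k).cpt).sub
        h.re_H1.memf).integrable_norm_pow (by norm_num)
    · exact (((hψ k).smooth.continuous.memLp_of_hasCompactSupport (hψ k).cpt).sub
        h.im_H1.memf).integrable_norm_pow (by norm_num)
  · have ed : ∀ x v, fderiv ℝ Φ x v = (fderiv ℝ (φ k) x v : ℂ) + Complex.I *
        (fderiv ℝ (ψ k) x v : ℂ) := by
      intro x v
      have a1 : HasFDerivAt (fun x => (φ k x : ℂ)) (Complex.ofRealCLM.comp (fderiv ℝ (φ k) x)) x :=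
        (Complex.ofRealCLM.hasFDerivAt).comp x
          (((hφ k).smooth.differentiable (by simp)) x).hasFDerivAt
      have a2 : HasFDerivAt (fun x => (ψ k x : ℂ)) (Complex.ofRealCLM.comp (fderiv ℝ (ψ k) x)) x :=
        (Complex.ofRealCLM.hasFDerivAt).comp x
          (((hψ k).smooth.differentiable (by simp)) x).hasFDerivAt
      have a3 := a1.add (a2.const_mul Complex.I)
      have a4 : fderiv ℝ Φ x = _ := a3.fderiv
      rw [a4]
      simp
    have e : ∀ x, ‖cgrad Φ x - g x‖ ^ 2 = ‖gr (φ k) x - gre g x‖ ^ 2 +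
        ‖gr (ψ k) x - gim g x‖ ^ 2 := by
      intro x
      rw [PiLp.norm_sq_eq_of_L2, PiLp.norm_sq_eq_of_L2, PiLp.norm_sq_eq_of_L2,
        ← Finset.sum_add_distrib]
      refine Finset.sum_congr rfl fun i _ => ?_
      rw [← Complex.normSq_eq_norm_sq, Complex.normSq_apply]
      simp only [PiLp.sub_apply, cgrad_apply, ed, Complex.sub_re, Complex.add_re,
        Complex.ofReal_re, Complex.mul_re, Complex.I_re, Complex.I_im, Complex.ofReal_im,
        Complex.sub_im, Complex.add_im, Complex.mul_im, Real.norm_eq_abs, sq_abs, gr_apply, pd,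
        gre, gim]
      ring
    simp only [e]
    rw [integral_add]
    · linarith
    · exact ((hgr (hφ k)).sub h.re_H1.memg).integrable_norm_pow (by norm_num)
    · exact ((hgr (hψ k)).sub h.im_H1.memg).integrable_norm_pow (by norm_num)

end Crest.Agent.R338.Dens
end
end

-- ▼ part R338/Dens2
section

/-!
Row 338 (S0529), node H1DENSITY (helper490), part 2: the antisymmetrizer and antisymmetric
`C_c^∞` approximation of admissible waves; convergence of norm and energy.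
-/

set_option autoImplicit false
set_option linter.unusedSectionVars false

open MeasureTheory Filter Set Crest.MathPhysics.ElectronicCoulomb
open scoped ENNReal Topology ContDiff

noncomputable section
namespace Crest.Agent.R338.Dens
open Crest.Agent.R335 Crest.Agent.R335.HF

variable {n : ℕ}

/-- exact antisymmetry of a wave (the second part of `IsFermionic`) -/
def Anti (Ψ : Wave n) : Prop :=
  ∀ (σ : Equiv.Perm (Fin n)) (s : Spin n) (x : Config n),
    Ψ (fun i => s (σ i)) (permConfig σ x) = ((Equiv.Perm.sign σ : ℤ) : ℂ) * Ψ s x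

/-- the antisymmetrizer -/
def anti (Φ : Wave n) : Wave n := fun s x =>
  ∑ σ : Equiv.Perm (Fin n), (((n.factorial : ℂ))⁻¹ * ((Equiv.Perm.sign σ : ℤ) : ℂ)) •
    Φ (fun i => s (σ i)) (permConfig σ x)

theorem sign_mul_self (σ : Equiv.Perm (Fin n)) :
    ((Equiv.Perm.sign σ : ℤ) : ℂ) * ((Equiv.Perm.sign σ : ℤ) : ℂ) = 1 := by
  rw [← Int.cast_mul]
  have : (Equiv.Perm.sign σ : ℤ) * (Equiv.Perm.sign σ : ℤ) = 1 := by
    rcases Int.units_eq_one_or (Equiv.Perm.sign σ) with h | h <;> simp [h]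
  rw [this]; simp

theorem norm_sign (σ : Equiv.Perm (Fin n)) : ‖((Equiv.Perm.sign σ : ℤ) : ℂ)‖ = 1 := by
  rcases Int.units_eq_one_or (Equiv.Perm.sign σ) with h | h <;> simp [h]

theorem anti_anti (Φ : Wave n) : Anti (anti Φ) := by
  intro τ s x
  unfold anti
  rw [Finset.mul_sum]
  refine Fintype.sum_equiv (Equiv.mulLeft τ) _ _ fun σ => ?_
  simp only [Equiv.coe_mulLeft, permConfig_permConfig, smul_eq_mul]
  have e1 : (fun i => s (τ (σ i))) = fun i => s ((τ * σ) i) := rfl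
  have e2 : (((Equiv.Perm.sign (τ * σ) : ℤˣ) : ℤ) : ℂ) =
      ((Equiv.Perm.sign τ : ℤ) : ℂ) * ((Equiv.Perm.sign σ : ℤ) : ℂ) := by
    rw [Equiv.Perm.sign_mul]; push_cast; rfl
  rw [e1, e2]
  have h := sign_mul_self τ
  generalize ((Equiv.Perm.sign τ : ℤ) : ℂ) = a at *
  generalize ((Equiv.Perm.sign σ : ℤ) : ℂ) = b at *
  generalize Φ (fun i => s ((τ * σ) i)) (permConfig (τ * σ) x) = z at *
  linear_combination (((n.factorial : ℂ))⁻¹ * b * z) * (-h)

theorem anti_of_anti {Ψ : Wave n} (h : Anti Ψ) : anti Ψ = Ψ := by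
  funext s x
  unfold anti
  have e : ∀ σ : Equiv.Perm (Fin n), (((n.factorial : ℂ))⁻¹ * ((Equiv.Perm.sign σ : ℤ) : ℂ)) •
      Ψ (fun i => s (σ i)) (permConfig σ x) = ((n.factorial : ℂ))⁻¹ * Ψ s x := by
    intro σ
    rw [h σ s x, smul_eq_mul]
    have := sign_mul_self σ
    linear_combination (((n.factorial : ℂ))⁻¹ * Ψ s x) * this
  simp only [e]
  rw [Finset.sum_const, Finset.card_univ, Fintype.card_perm, Fintype.card_fin, nsmul_eq_mul,
    ← mul_assoc, mul_inv_cancel₀, one_mul]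
  exact_mod_cast n.factorial_ne_zero

theorem anti_sub (Φ Ψ : Wave n) (s : Spin n) (x : Config n) :
    anti (fun s x => Φ s x - Ψ s x) s x = anti Φ s x - anti Ψ s x := by
  unfold anti
  rw [← Finset.sum_sub_distrib]
  refine Finset.sum_congr rfl fun σ _ => ?_
  rw [smul_sub]

/-- gradient of the antisymmetrized wave -/
def antiGr (G : Spin n → Config n → Gr (Fin n × Fin 3) ℂ) (s : Spin n) (x : Config n) :
    Gr (Fin n × Fin 3) ℂ :=
  ∑ σ : Equiv.Perm (Fin n), (((n.factorial : ℂ))⁻¹ * ((Equiv.Perm.sign σ : ℤ) : ℂ)) •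
    permGr σ (G (fun i => s (σ i)) (permConfig σ x))

theorem isH1_anti {Φ : Wave n} {G : Spin n → Config n → Gr (Fin n × Fin 3) ℂ}
    (h : ∀ s, IsH1 (Φ s) (G s)) (s : Spin n) : IsH1 (anti Φ s) (antiGr G s) :=
  IsH1.finset_sum Finset.univ fun σ _ => (isH1_perm (h fun i => s (σ i)) σ).const_smul _

theorem norm_coef (σ : Equiv.Perm (Fin n)) :
    ‖((n.factorial : ℂ))⁻¹ * ((Equiv.Perm.sign σ : ℤ) : ℂ)‖ = ((n.factorial : ℝ))⁻¹ := by
  rw [norm_mul, norm_sign, mul_one, norm_inv, Complex.norm_natCast]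

theorem norm_sum_coef_le {F : Type*} [NormedAddCommGroup F] [NormedSpace ℂ F]
    (v : Equiv.Perm (Fin n) → F) :
    ‖∑ σ : Equiv.Perm (Fin n), (((n.factorial : ℂ))⁻¹ * ((Equiv.Perm.sign σ : ℤ) : ℂ)) • v σ‖ ^ 2 ≤
      ∑ σ : Equiv.Perm (Fin n), ((n.factorial : ℝ))⁻¹ * ‖v σ‖ ^ 2 := by
  refine (norm_sq_sum_le Finset.univ _).trans ?_
  rw [Finset.card_univ, Fintype.card_perm, Fintype.card_fin, Finset.mul_sum]
  refine (Finset.sum_congr rfl fun σ _ => ?_).le
  rw [norm_smul, norm_coef, mul_pow]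
  have : (n.factorial : ℝ) ≠ 0 := by exact_mod_cast n.factorial_ne_zero
  field_simp

theorem integral_anti_le {Φ : Wave n} (h : ∀ s, MemLp (Φ s) 2 volume) {ε : ℝ}
    (hε : ∀ s, ∫ x, ‖Φ s x‖ ^ 2 ≤ ε) (s : Spin n) (hs : MemLp (anti Φ s) 2 volume) :
    ∫ x, ‖anti Φ s x‖ ^ 2 ≤ ε := by
  have i1 : ∀ σ : Equiv.Perm (Fin n), Integrable
      (fun x => ((n.factorial : ℝ))⁻¹ * ‖Φ (fun i => s (σ i)) (permConfig σ x)‖ ^ 2) volume :=
    fun σ => ((memLp_perm (h _) σ).integrable_norm_pow (by norm_num)).const_mul _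
  calc ∫ x, ‖anti Φ s x‖ ^ 2
      ≤ ∫ x, ∑ σ : Equiv.Perm (Fin n), ((n.factorial : ℝ))⁻¹ *
          ‖Φ (fun i => s (σ i)) (permConfig σ x)‖ ^ 2 :=
        integral_mono (hs.integrable_norm_pow (by norm_num)) (integrable_finsetSum _ fun σ _ => i1 σ)
          fun x => norm_sum_coef_le (fun σ => Φ (fun i => s (σ i)) (permConfig σ x))
    _ = ∑ σ : Equiv.Perm (Fin n), ((n.factorial : ℝ))⁻¹ * ∫ x, ‖Φ (fun i => s (σ i)) x‖ ^ 2 := by
        rw [integral_finsetSum _ fun σ _ => i1 σ]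
        refine Finset.sum_congr rfl fun σ _ => ?_
        rw [integral_const_mul, integral_perm σ (fun x => ‖Φ (fun i => s (σ i)) x‖ ^ 2)]
    _ ≤ ∑ σ : Equiv.Perm (Fin n), ((n.factorial : ℝ))⁻¹ * ε := by
        refine Finset.sum_le_sum fun σ _ => ?_
        exact mul_le_mul_of_nonneg_left (hε _) (by positivity)
    _ = ε := by
        rw [Finset.sum_const, Finset.card_univ, Fintype.card_perm, Fintype.card_fin, nsmul_eq_mul,
          ← mul_assoc, mul_inv_cancel₀, one_mul]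
        exact_mod_cast n.factorial_ne_zero

theorem integral_antiGr_le {G : Spin n → Config n → Gr (Fin n × Fin 3) ℂ}
    (h : ∀ s, MemLp (G s) 2 volume) {ε : ℝ}
    (hε : ∀ s, ∫ x, ‖G s x‖ ^ 2 ≤ ε) (s : Spin n) (hs : MemLp (antiGr G s) 2 volume) :
    ∫ x, ‖antiGr G s x‖ ^ 2 ≤ ε := by
  have i1 : ∀ σ : Equiv.Perm (Fin n), Integrable
      (fun x => ((n.factorial : ℝ))⁻¹ * ‖G (fun i => s (σ i)) (permConfig σ x)‖ ^ 2) volume :=
    fun σ => ((memLp_perm (h _) σ).integrable_norm_pow (by norm_num)).const_mul _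
  calc ∫ x, ‖antiGr G s x‖ ^ 2
      ≤ ∫ x, ∑ σ : Equiv.Perm (Fin n), ((n.factorial : ℝ))⁻¹ *
          ‖G (fun i => s (σ i)) (permConfig σ x)‖ ^ 2 :=
        integral_mono (hs.integrable_norm_pow (by norm_num)) (integrable_finsetSum _ fun σ _ => i1 σ)
          fun x => by
            refine (norm_sum_coef_le
              (fun σ => permGr σ (G (fun i => s (σ i)) (permConfig σ x)))).trans ?_
            refine (Finset.sum_congr rfl fun σ _ => ?_).le
            rw [norm_permGr]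
    _ = ∑ σ : Equiv.Perm (Fin n), ((n.factorial : ℝ))⁻¹ * ∫ x, ‖G (fun i => s (σ i)) x‖ ^ 2 := by
        rw [integral_finsetSum _ fun σ _ => i1 σ]
        refine Finset.sum_congr rfl fun σ _ => ?_
        rw [integral_const_mul, integral_perm σ (fun x => ‖G (fun i => s (σ i)) x‖ ^ 2)]
    _ ≤ ∑ σ : Equiv.Perm (Fin n), ((n.factorial : ℝ))⁻¹ * ε := by
        refine Finset.sum_le_sum fun σ _ => ?_
        exact mul_le_mul_of_nonneg_left (hε _) (by positivity)
    _ = ε := by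
        rw [Finset.sum_const, Finset.card_univ, Fintype.card_perm, Fintype.card_fin, nsmul_eq_mul,
          ← mul_assoc, mul_inv_cancel₀, one_mul]
        exact_mod_cast n.factorial_ne_zero

theorem contDiff_anti {Φ : Wave n} (h : ∀ s, ContDiff ℝ ∞ (Φ s)) (s : Spin n) :
    ContDiff ℝ ∞ (anti Φ s) := by
  unfold anti
  refine ContDiff.sum fun σ _ => ?_
  have h1 : ContDiff ℝ ∞ (fun x : Config n => Φ (fun i => s (σ i)) (permConfig σ x)) :=
    (h _).comp (contDiff_perm σ)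
  exact (contDiff_const (c := (((n.factorial : ℂ))⁻¹ * ((Equiv.Perm.sign σ : ℤ) : ℂ)))).mul h1

theorem hasCompactSupport_anti {Φ : Wave n} (h : ∀ s, HasCompactSupport (Φ s)) (s : Spin n) :
    HasCompactSupport (anti Φ s) := by
  have key : ∀ t : Finset (Equiv.Perm (Fin n)), HasCompactSupport (fun x =>
      ∑ σ ∈ t, (((n.factorial : ℂ))⁻¹ * ((Equiv.Perm.sign σ : ℤ) : ℂ)) •
        Φ (fun i => s (σ i)) (permConfig σ x)) := by
    intro t
    classical
    induction t using Finset.induction_on with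
    | empty =>
      simp only [Finset.sum_empty]
      exact (HasCompactSupport.zero : HasCompactSupport (0 : Config n → ℂ))
    | insert σ t hσ ih =>
      simp only [Finset.sum_insert hσ]
      refine HasCompactSupport.add ?_ ih
      have h1 : HasCompactSupport (fun x => Φ (fun i => s (σ i)) (permConfig σ x)) := by
        have := (h fun i => s (σ i)).comp_homeomorph (permL σ).toHomeomorph
        have e : ((Φ fun i => s (σ i)) ∘ ⇑(permL σ).toHomeomorph) =
            fun x => Φ (fun i => s (σ i)) (permConfig σ x) := by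
          funext x
          show Φ (fun i => s (σ i)) (permL σ x) = _
          rw [permL_apply]
        rwa [e] at this
      exact h1.comp_left (g := fun z : ℂ =>
        (((n.factorial : ℂ))⁻¹ * ((Equiv.Perm.sign σ : ℤ) : ℂ)) • z) (by simp)
  exact key Finset.univ

/-- antisymmetric `C_c^∞` approximation in `H¹` -/
theorem exists_anti_approx {Ψ : Wave n} (hA : Anti Ψ)
    {G : Spin n → Config n → Gr (Fin n × Fin 3) ℂ} (hG : ∀ s, IsH1 (Ψ s) (G s)) {ε : ℝ}
    (hε : 0 < ε) :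
    ∃ (Φ : Wave n) (L : Spin n → Config n → Gr (Fin n × Fin 3) ℂ), Anti Φ ∧
      (∀ s, ContDiff ℝ ∞ (Φ s)) ∧ (∀ s, HasCompactSupport (Φ s)) ∧
      (∀ s, IsH1 (fun x => Φ s x - Ψ s x) (L s)) ∧
      (∀ s, ∫ x, ‖Φ s x - Ψ s x‖ ^ 2 ≤ ε) ∧ (∀ s, ∫ x, ‖L s x‖ ^ 2 ≤ ε) := by
  choose φ h1 h2 h3 h4 h5 using fun s => exists_approx_one (hG s) hε
  have hR : ∀ s, IsH1 (fun x => φ s x - Ψ s x) (fun x => cgrad (φ s) x - G s x) :=
    fun s => (h3 s).sub (hG s)
  have hAR := isH1_anti (Φ := fun s x => φ s x - Ψ s x) (G := fun s x => cgrad (φ s) x - G s x) hR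
  have e : ∀ s, anti (fun s x => φ s x - Ψ s x) s = fun x => anti φ s x - Ψ s x := by
    intro s
    funext x
    rw [anti_sub, anti_of_anti hA]
  refine ⟨anti φ, antiGr fun s x => cgrad (φ s) x - G s x, anti_anti φ, contDiff_anti h1,
    hasCompactSupport_anti h2, fun s => ?_, fun s => ?_, fun s => ?_⟩
  · rw [← e s]; exact hAR s
  · have := integral_anti_le (Φ := fun s x => φ s x - Ψ s x) (fun s => (hR s).memf) h4 s
      (hAR s).memf
    rwa [e s] at this
  · exact integral_antiGr_le (fun s => (hR s).memg) h5 s (hAR s).memg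

end Crest.Agent.R338.Dens
end
end

-- ▼ part R338/Dens3
section

/-!
Row 338 (S0529), node H1DENSITY (helper490), part 3: density of antisymmetric `C_c^∞` waves for the
energy form of a form bounded potential.

Main results: `exists_cc_approx`, `infEnergyGE_of_cc`.
-/

set_option autoImplicit false
set_option linter.unusedSectionVars false

open MeasureTheory Filter Set Crest.MathPhysics.ElectronicCoulomb
open scoped ENNReal Topology ContDiff

noncomputable section
namespace Crest.Agent.R338.Dens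
open Crest.Agent.R335 Crest.Agent.R335.HF

variable {n : ℕ}

/-- `W` is form bounded with respect to the `H¹` norm. -/
def FormBdd (W : Config n → ℝ) : Prop :=
  ∃ C : ℝ, 0 ≤ C ∧ ∀ (f : Config n → ℂ) (g : Config n → Gr (Fin n × Fin 3) ℂ), IsH1 f g →
    Integrable (fun x => W x * ‖f x‖ ^ 2) ∧
      ∫ x, |W x| * ‖f x‖ ^ 2 ≤ C * ((∫ x, ‖f x‖ ^ 2) + ∫ x, ‖g x‖ ^ 2)

theorem kineticOne_lt_top_iff {f : Config n → ℂ} : kineticOne f < ⊤ ↔ ∃ g, IsH1 f g := by
  rw [kineticOne_eq_kin]; exact kin_lt_top_iff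

theorem kineticOne_toReal {f : Config n → ℂ} {g : Config n → Gr (Fin n × Fin 3) ℂ}
    (h : IsH1 f g) : (kineticOne f).toReal = (1 / 2) * ∫ x, ‖g x‖ ^ 2 := by
  rw [kineticOne_eq_kin]; exact h.kin_toReal

theorem kinetic_lt_top_iff {Ψ : Wave n} : kinetic Ψ < ⊤ ↔ ∃ G : Spin n → Config n →
    Gr (Fin n × Fin 3) ℂ, ∀ s, IsH1 (Ψ s) (G s) := by
  unfold kinetic
  rw [ENNReal.sum_lt_top]
  constructor
  · intro h
    choose G hG using fun s => kineticOne_lt_top_iff.1 (h s (Finset.mem_univ s))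
    exact ⟨G, hG⟩
  · rintro ⟨G, hG⟩ s -
    exact kineticOne_lt_top_iff.2 ⟨G s, hG s⟩

theorem kinetic_toReal {Ψ : Wave n} {G : Spin n → Config n → Gr (Fin n × Fin 3) ℂ}
    (h : ∀ s, IsH1 (Ψ s) (G s)) : (kinetic Ψ).toReal = ∑ s, (1 / 2) * ∫ x, ‖G s x‖ ^ 2 := by
  unfold kinetic
  rw [ENNReal.toReal_sum]
  · exact Finset.sum_congr rfl fun s _ => kineticOne_toReal (h s)
  · intro s _
    exact (kineticOne_lt_top_iff.2 ⟨_, h s⟩).ne

theorem lint_sq_ne_top {F : Type*} [NormedAddCommGroup F] {f : Config n → F}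
    (h : MemLp f 2 volume) : ∫⁻ x, ‖f x‖ₑ ^ 2 ≠ ⊤ := by
  have h2 := h.eLpNorm_lt_top
  rw [eLpNorm_lt_top_iff_lintegral_rpow_enorm_lt_top (by norm_num) (by norm_num)] at h2
  simp only [ENNReal.toReal_ofNat, ENNReal.rpow_ofNat] at h2
  exact h2.ne

theorem lint_sq_toReal {F : Type*} [NormedAddCommGroup F] {f : Config n → F}
    (h : AEStronglyMeasurable f volume) : (∫⁻ x, ‖f x‖ₑ ^ 2).toReal = ∫ x, ‖f x‖ ^ 2 := by
  have e := integral_eq_lintegral_of_nonneg_ae (f := fun x => ‖f x‖ ^ 2)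
    (μ := (volume : Measure (Config n))) (Eventually.of_forall fun x => by positivity)
    (h.norm.pow 2)
  rw [e]
  congr 1
  refine lintegral_congr fun x => ?_
  rw [enorm_sq_eq_ofReal]


theorem normSq_toReal {Ψ : Wave n} (h : ∀ s, MemLp (Ψ s) 2 volume) :
    (normSq Ψ).toReal = ∑ s, ∫ x, ‖Ψ s x‖ ^ 2 := by
  unfold normSq
  rw [ENNReal.toReal_sum fun s _ => lint_sq_ne_top (h s)]
  exact Finset.sum_congr rfl fun s _ => lint_sq_toReal (h s).1

theorem isAdmissible_of {W : Config n → ℝ} (hW : FormBdd W) {Ψ : Wave n} (hA : Anti Ψ)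
    {G : Spin n → Config n → Gr (Fin n × Fin 3) ℂ} (h : ∀ s, IsH1 (Ψ s) (G s)) :
    IsAdmissible W Ψ := by
  obtain ⟨C, -, hC⟩ := hW
  exact ⟨⟨fun s => (h s).memf, hA⟩, kinetic_lt_top_iff.2 ⟨G, h⟩, fun s => (hC _ _ (h s)).1⟩

/-- choice of the parameters -/
theorem exists_small (A : ℝ) {ε : ℝ} (hε : 0 < ε) :
    ∃ t > 0, ∃ r > 0, t * |A| + (1 + 1 / t) * r ≤ ε := by
  refine ⟨ε / (2 * (|A| + 1)), by positivity, ?_⟩
  set t := ε / (2 * (|A| + 1)) with ht
  have ht0 : 0 < t := by positivity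
  refine ⟨ε / (2 * (1 + 1 / t)), by positivity, ?_⟩
  have h1 : t * |A| ≤ ε / 2 := by
    rw [ht, div_mul_eq_mul_div, div_le_iff₀ (by positivity)]
    have := abs_nonneg A
    nlinarith
  have h2 : (1 + 1 / t) * (ε / (2 * (1 + 1 / t))) = ε / 2 := by
    have : (1 + 1 / t) ≠ 0 := by positivity
    field_simp
  linarith

/-- **Density**: an antisymmetric wave of finite kinetic energy is approximated in norm and energy
by exactly antisymmetric waves with `C_c^∞` components. -/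
theorem exists_cc_approx {W : Config n → ℝ} (hW : FormBdd W) {Ψ : Wave n} (hΨ : IsFermionic Ψ)
    (hk : kinetic Ψ < ⊤) {ε : ℝ} (hε : 0 < ε) :
    ∃ Φ : Wave n, (∀ s, ContDiff ℝ ∞ (Φ s)) ∧ (∀ s, HasCompactSupport (Φ s)) ∧
      IsAdmissible W Φ ∧ |(normSq Φ).toReal - (normSq Ψ).toReal| ≤ ε ∧
      |energy W Φ - energy W Ψ| ≤ ε := by
  obtain ⟨G, hG⟩ := kinetic_lt_top_iff.1 hk
  obtain ⟨C, hC0, hC⟩ := hW
  -- total size
  set S : ℝ := (Fintype.card (Spin n) : ℝ) with hS
  have hSpos : 0 < S := by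
    rw [hS]
    exact_mod_cast Fintype.card_pos
  set A : ℝ := ∑ s, ((∫ x, ‖Ψ s x‖ ^ 2) + (∫ x, ‖G s x‖ ^ 2)) with hA
  have hAs : ∀ s, (∫ x, ‖Ψ s x‖ ^ 2) + (∫ x, ‖G s x‖ ^ 2) ≤ A := by
    intro s
    refine Finset.single_le_sum (f := fun s => (∫ x, ‖Ψ s x‖ ^ 2) + (∫ x, ‖G s x‖ ^ 2))
      (fun s _ => ?_) (Finset.mem_univ s)
    exact add_nonneg (integral_nonneg fun x => by positivity)
      (integral_nonneg fun x => by positivity)
  have hA0 : 0 ≤ A := Finset.sum_nonneg fun s _ =>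
    add_nonneg (integral_nonneg fun x => by positivity) (integral_nonneg fun x => by positivity)
  -- parameters
  obtain ⟨t, ht, r, hr, htr⟩ := exists_small (((C + 1) * A)) (ε := ε / (2 * S)) (by positivity)
  set δ : ℝ := r / (2 * C + 2) with hδ
  have hδ0 : 0 < δ := by positivity
  obtain ⟨Φ, L, a1, a2, a3, a4, a5, a6⟩ := exists_anti_approx hΨ.2 hG hδ0
  have hΦ : ∀ s, IsH1 (Φ s) (fun x => G s x + L s x) := by
    intro s
    refine ((hG s).add (a4 s)).congr (Eventually.of_forall fun x => ?_)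
      (Eventually.of_forall fun x => rfl)
    simp
  have hδr : δ ≤ r := by
    rw [hδ, div_le_iff₀ (by positivity)]
    nlinarith
  have hCδ : C * (δ + δ) ≤ r := by
    have e : δ * (2 * C + 2) = r := by
      rw [hδ]; field_simp
    nlinarith
  -- the three estimates per spin component
  have k1 : ∀ s, |(∫ x, ‖Φ s x‖ ^ 2) - ∫ x, ‖Ψ s x‖ ^ 2| ≤ ε / (2 * S) := by
    intro s
    have h := abs_integral_sub_le (μ := (volume : Measure (Config n))) (w := fun _ => (1 : ℝ))
      (f := Ψ s) (r := fun x => Φ s x - Ψ s x) ht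
      (by simpa using (hG s).memf.integrable_norm_pow (by norm_num))
      (by simpa using (a4 s).memf.integrable_norm_pow (by norm_num))
      (by simpa using (hΦ s).memf.integrable_norm_pow (by norm_num))
    simp only [one_mul, add_sub_cancel, abs_one] at h
    refine h.trans ((add_le_add ?_ ?_).trans htr)
    · refine mul_le_mul_of_nonneg_left ?_ ht.le
      refine le_trans ?_ (le_abs_self _)
      have h1 := hAs s
      have h2 : 0 ≤ ∫ x, ‖G s x‖ ^ 2 := integral_nonneg fun x => by positivity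
      nlinarith
    · exact mul_le_mul_of_nonneg_left ((a5 s).trans hδr) (by positivity)
  have k2 : ∀ s, |(∫ x, ‖G s x + L s x‖ ^ 2) - ∫ x, ‖G s x‖ ^ 2| ≤ ε / (2 * S) := by
    intro s
    have h := abs_integral_sub_le (μ := (volume : Measure (Config n))) (w := fun _ => (1 : ℝ))
      (f := G s) (r := L s) ht
      (by simpa using (hG s).memg.integrable_norm_pow (by norm_num))
      (by simpa using (a4 s).memg.integrable_norm_pow (by norm_num))
      (by simpa using (hΦ s).memg.integrable_norm_pow (by norm_num))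
    simp only [one_mul, abs_one] at h
    refine h.trans ((add_le_add ?_ ?_).trans htr)
    · refine mul_le_mul_of_nonneg_left ?_ ht.le
      refine le_trans ?_ (le_abs_self _)
      have h1 := hAs s
      have h2 : 0 ≤ ∫ x, ‖Ψ s x‖ ^ 2 := integral_nonneg fun x => by positivity
      nlinarith
    · exact mul_le_mul_of_nonneg_left ((a6 s).trans hδr) (by positivity)
  have k3 : ∀ s, |(∫ x, W x * ‖Φ s x‖ ^ 2) - ∫ x, W x * ‖Ψ s x‖ ^ 2| ≤ ε / (2 * S) := by
    intro s
    have h := abs_integral_sub_le (μ := (volume : Measure (Config n))) (w := W)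
      (f := Ψ s) (r := fun x => Φ s x - Ψ s x) ht
      (hC _ _ (hG s)).1 (hC _ _ (a4 s)).1 (by simpa using (hC _ _ (hΦ s)).1)
    simp only [add_sub_cancel] at h
    refine h.trans ((add_le_add ?_ ?_).trans htr)
    · refine mul_le_mul_of_nonneg_left ?_ ht.le
      refine le_trans ?_ (le_abs_self _)
      have h1 := (hC _ _ (hG s)).2
      have h2 := mul_le_mul_of_nonneg_left (hAs s) hC0
      nlinarith
    · refine mul_le_mul_of_nonneg_left ?_ (by positivity)
      refine ((hC _ _ (a4 s)).2.trans ?_).trans hCδ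
      exact mul_le_mul_of_nonneg_left (add_le_add (a5 s) (a6 s)) hC0
  have hsum : ∑ _s : Spin n, ε / (2 * S) = ε / 2 := by
    rw [Finset.sum_const, Finset.card_univ, nsmul_eq_mul, ← hS]
    field_simp
  refine ⟨Φ, a2, a3, isAdmissible_of ⟨C, hC0, hC⟩ a1 hΦ, ?_, ?_⟩
  · rw [normSq_toReal fun s => (hΦ s).memf, normSq_toReal hΨ.1, ← Finset.sum_sub_distrib]
    refine (Finset.abs_sum_le_sum_abs _ _).trans ((Finset.sum_le_sum fun s _ => k1 s).trans ?_)
    rw [hsum]; linarith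
  · unfold energy potentialEnergy
    rw [kinetic_toReal hΦ, kinetic_toReal hG]
    have e1 : |(∑ s, (1 / 2) * ∫ x, ‖G s x + L s x‖ ^ 2) - ∑ s, (1 / 2) * ∫ x, ‖G s x‖ ^ 2| ≤
        ε / 2 := by
      rw [← Finset.sum_sub_distrib]
      refine (Finset.abs_sum_le_sum_abs _ _).trans ?_
      rw [← hsum]
      refine Finset.sum_le_sum fun s _ => ?_
      rw [← mul_sub, abs_mul]
      have h1 := k2 s
      have h2 := abs_nonneg ((∫ x, ‖G s x + L s x‖ ^ 2) - ∫ x, ‖G s x‖ ^ 2)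
      rw [abs_of_pos (by norm_num : (0 : ℝ) < 1 / 2)]
      linarith
    have e2 : |(∑ s, ∫ x, W x * ‖Φ s x‖ ^ 2) - ∑ s, ∫ x, W x * ‖Ψ s x‖ ^ 2| ≤ ε / 2 := by
      rw [← Finset.sum_sub_distrib]
      refine (Finset.abs_sum_le_sum_abs _ _).trans ?_
      rw [← hsum]
      exact Finset.sum_le_sum fun s _ => k3 s
    rw [abs_le] at e1 e2 ⊢
    constructor <;> linarith [e1.1, e1.2, e2.1, e2.2]

/-- It suffices to prove lower bounds for antisymmetric waves with `C_c^∞` components. -/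
theorem infEnergyGE_of_cc {W : Config n → ℝ} (hW : FormBdd W) {b : ℝ}
    (h : ∀ Φ : Wave n, Anti Φ → (∀ s, ContDiff ℝ ∞ (Φ s)) → (∀ s, HasCompactSupport (Φ s)) →
      b * (normSq Φ).toReal ≤ energy W Φ) : InfEnergyGE W b := by
  intro Ψ hΨ hn
  by_contra hlt
  push Not at hlt
  set η : ℝ := (b - energy W Ψ) / (2 * (|b| + 1)) with hη
  have hη0 : 0 < η := by
    have : 0 < b - energy W Ψ := by linarith
    positivity
  obtain ⟨Φ, c1, c2, c3, c4, c5⟩ := exists_cc_approx hW hΨ.1 hΨ.2.1 hη0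
  have h1 := h Φ c3.1.2 c1 c2
  rw [hn, ENNReal.toReal_one] at c4
  rw [abs_le] at c4 c5
  have h2 : b * (normSq Φ).toReal ≥ b - |b| * η := by
    have e : b * (normSq Φ).toReal = b + b * ((normSq Φ).toReal - 1) := by ring
    have h3 : |b * ((normSq Φ).toReal - 1)| ≤ |b| * η := by
      rw [abs_mul]
      exact mul_le_mul_of_nonneg_left (abs_le.2 c4) (abs_nonneg b)
    rw [abs_le] at h3
    linarith [h3.1]
  have h4 : (|b| + 1) * η = (b - energy W Ψ) / 2 := by
    rw [hη]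
    have : |b| + 1 ≠ 0 := by positivity
    field_simp
  have h5 : b - |b| * η ≤ energy W Ψ + η := by linarith [c5.2]
  linarith

end Crest.Agent.R338.Dens
end
end

-- ▼ part R338/Fm2b
section

/-!
# Row 338, node II.0 (F2): Coulomb terms on configuration space (helper271)

Coulomb inequality for `1/|x_i - a|` and `1/|x_i - x_j|`, form boundedness of the potentials of
unit nuclei, admissible waves = fermionic waves of finite kinetic energy.
-/

set_option autoImplicit false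
set_option linter.unusedSectionVars false

open MeasureTheory Filter Topology
open scoped ContDiff ENNReal
open Crest.MathPhysics.ElectronicCoulomb
open Crest.Agent.R335.HF (IsH1 Gr E kin cgrad)

noncomputable section

namespace Crest.Agent.R338.Fm

variable {n : ℕ}

/-- position of electron `i` as a continuous linear map -/
def elPosL (i : Fin n) : Config n →L[ℝ] Pos3 :=
  LinearMap.toContinuousLinearMap
    { toFun := fun x => elPos i x
      map_add' := fun x y => by ext c; simp [elPos]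
      map_smul' := fun r x => by ext c; simp [elPos] }

@[simp] theorem elPosL_apply (i : Fin n) (x : Config n) : elPosL i x = elPos i x := rfl

@[simp] theorem elPos_apply (i : Fin n) (x : Config n) (c : Fin 3) : elPos i x c = x (i, c) := rfl

theorem continuous_elPos (i : Fin n) : Continuous (elPos i) := (elPosL i).continuous

theorem measurable_elPos (i : Fin n) : Measurable (elPos i) := (continuous_elPos i).measurable

theorem elPosL_single (i : Fin n) (c : Fin 3) :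
    elPosL i (EuclideanSpace.single (i, c) (1 : ℝ)) = EuclideanSpace.single c (1 : ℝ) := by
  ext d
  simp [elPos, Pi.single_apply]

theorem elPosL_single_ne {i j : Fin n} (h : j ≠ i) (c : Fin 3) :
    elPosL j (EuclideanSpace.single (i, c) (1 : ℝ)) = 0 := by
  ext d
  simp [elPos, Pi.single_apply, h]

theorem sum_coord_le (i : Fin n) (y : CG n) : ∑ c, ‖y (i, c)‖ ^ 2 ≤ ‖y‖ ^ 2 := by
  rw [PiLp.norm_sq_eq_of_L2, Fintype.sum_prod_type]
  exact Finset.single_le_sum (f := fun j => ∑ c, ‖y (j, c)‖ ^ 2)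
    (fun j _ => Finset.sum_nonneg fun _ _ => by positivity) (Finset.mem_univ i)


theorem integrable_sum_coord {f : Config n → ℂ} {g : Config n → CG n} (h : IsH1 f g) (i : Fin n) :
    Integrable (fun x => ∑ c, ‖g x (i, c)‖ ^ 2) :=
  integrable_finsetSum _ fun c _ =>
    (Crest.Agent.R335.HF.memLp_comp h.memg (i, c)).integrable_norm_pow (by norm_num)

theorem integral_sum_coord_le {f : Config n → ℂ} {g : Config n → CG n} (h : IsH1 f g) (i : Fin n) :
    ∫ x, ∑ c, ‖g x (i, c)‖ ^ 2 ≤ ∫ x, ‖g x‖ ^ 2 :=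
  integral_mono (integrable_sum_coord h i) (h.memg.integrable_norm_pow (by norm_num))
    fun x => sum_coord_le i (g x)

/-- Coulomb inequality, electron–nucleus, with the gradient of electron `i` only -/
theorem coulomb_nuc_i {f : Config n → ℂ} {g : Config n → CG n} (h : IsH1 f g) (i : Fin n)
    (a : Pos3) : Integrable (fun x => ‖f x‖ ^ 2 / ‖elPos i x - a‖) ∧
      ∫ x, ‖f x‖ ^ 2 / ‖elPos i x - a‖ ≤
        Real.sqrt (∫ x, ‖f x‖ ^ 2) * Real.sqrt (∫ x, ∑ c, ‖g x (i, c)‖ ^ 2) :=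
  ⟨(coulomb_le h (elPosL i) (fun c => (i, c)) (elPosL_single i) a one_pos).1,
    coulomb_le_sqrt h (elPosL i) (fun c => (i, c)) (elPosL_single i) a⟩

/-- Coulomb inequality, electron–electron -/
theorem coulomb_pair_i {f : Config n → ℂ} {g : Config n → CG n} (h : IsH1 f g) {i j : Fin n}
    (hij : i ≠ j) : Integrable (fun x => ‖f x‖ ^ 2 / ‖elPos i x - elPos j x‖) ∧
      ∫ x, ‖f x‖ ^ 2 / ‖elPos i x - elPos j x‖ ≤
        Real.sqrt (∫ x, ‖f x‖ ^ 2) * Real.sqrt (∫ x, ∑ c, ‖g x (i, c)‖ ^ 2) := by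
  have hL : ∀ c, (elPosL i - elPosL j : Config n →L[ℝ] Pos3)
      (EuclideanSpace.single (i, c) (1 : ℝ)) = EuclideanSpace.single c (1 : ℝ) := fun c => by
    rw [ContinuousLinearMap.sub_apply, elPosL_single, elPosL_single_ne hij.symm, sub_zero]
  have e : ∀ x, (elPosL i - elPosL j : Config n →L[ℝ] Pos3) x - 0 = elPos i x - elPos j x :=
    fun x => by rw [sub_zero]; rfl
  have h1 := (coulomb_le h (elPosL i - elPosL j) (fun c => (i, c)) hL 0 one_pos).1
  have h2 := coulomb_le_sqrt h (elPosL i - elPosL j) (fun c => (i, c)) hL 0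
  simp only [e] at h1 h2
  exact ⟨h1, h2⟩

theorem coulomb_nuc {f : Config n → ℂ} {g : Config n → CG n} (h : IsH1 f g) (i : Fin n)
    (a : Pos3) : ∫ x, ‖f x‖ ^ 2 / ‖elPos i x - a‖ ≤
        Real.sqrt (∫ x, ‖f x‖ ^ 2) * Real.sqrt (∫ x, ‖g x‖ ^ 2) :=
  (coulomb_nuc_i h i a).2.trans (mul_le_mul_of_nonneg_left
    (Real.sqrt_le_sqrt (integral_sum_coord_le h i)) (Real.sqrt_nonneg _))

theorem coulomb_pair {f : Config n → ℂ} {g : Config n → CG n} (h : IsH1 f g) {i j : Fin n}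
    (hij : i ≠ j) : ∫ x, ‖f x‖ ^ 2 / ‖elPos i x - elPos j x‖ ≤
        Real.sqrt (∫ x, ‖f x‖ ^ 2) * Real.sqrt (∫ x, ‖g x‖ ^ 2) :=
  (coulomb_pair_i h hij).2.trans (mul_le_mul_of_nonneg_left
    (Real.sqrt_le_sqrt (integral_sum_coord_le h i)) (Real.sqrt_nonneg _))

theorem sqrt_mul_sqrt_le_half (A B : ℝ) (hA : 0 ≤ A) (hB : 0 ≤ B) :
    Real.sqrt A * Real.sqrt B ≤ (A + B) / 2 := by
  have := sq_nonneg (Real.sqrt A - Real.sqrt B)
  have e1 := Real.sq_sqrt hA
  have e2 := Real.sq_sqrt hB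
  nlinarith

/-! ### form bounded potentials -/

open Crest.Agent.R338.Dens (FormBdd)

theorem FormBdd.neg {W : Config n → ℝ} (h : FormBdd W) : FormBdd (fun x => -W x) := by
  obtain ⟨C, hC, h⟩ := h
  refine ⟨C, hC, fun f g hf => ?_⟩
  obtain ⟨h1, h2⟩ := h f g hf
  have h3 : Integrable (fun x => -(W x * ‖f x‖ ^ 2)) := h1.neg
  refine ⟨by simpa only [neg_mul] using h3, by simpa only [abs_neg] using h2⟩

theorem FormBdd.integrable_abs {W : Config n → ℝ} {f : Config n → ℂ}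
    (h : Integrable (fun x => W x * ‖f x‖ ^ 2)) : Integrable (fun x => |W x| * ‖f x‖ ^ 2) := by
  refine h.norm.congr (Eventually.of_forall fun x => ?_)
  simp only [Real.norm_eq_abs, abs_mul, abs_of_nonneg (sq_nonneg ‖f x‖)]

theorem FormBdd.add {W W' : Config n → ℝ} (h : FormBdd W) (h' : FormBdd W') :
    FormBdd (fun x => W x + W' x) := by
  obtain ⟨C, hC, h⟩ := h
  obtain ⟨C', hC', h'⟩ := h'
  refine ⟨C + C', add_nonneg hC hC', fun f g hf => ?_⟩
  obtain ⟨h1, h2⟩ := h f g hf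
  obtain ⟨h3, h4⟩ := h' f g hf
  have h5' : Integrable (fun x => W x * ‖f x‖ ^ 2 + W' x * ‖f x‖ ^ 2) := h1.add h3
  have h5 : Integrable (fun x => (W x + W' x) * ‖f x‖ ^ 2) := by
    simpa only [add_mul] using h5'
  refine ⟨h5, ?_⟩
  have h6 : ∫ x, |W x + W' x| * ‖f x‖ ^ 2 ≤
      ∫ x, (|W x| * ‖f x‖ ^ 2 + |W' x| * ‖f x‖ ^ 2) := by
    refine integral_mono (FormBdd.integrable_abs h5)
      ((FormBdd.integrable_abs h1).add (FormBdd.integrable_abs h3)) fun x => ?_
    show |W x + W' x| * ‖f x‖ ^ 2 ≤ |W x| * ‖f x‖ ^ 2 + |W' x| * ‖f x‖ ^ 2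
    rw [← add_mul]
    exact mul_le_mul_of_nonneg_right (abs_add_le _ _) (by positivity)
  rw [integral_add (FormBdd.integrable_abs h1) (FormBdd.integrable_abs h3)] at h6
  rw [add_mul]
  linarith

theorem FormBdd.const_mul {W : Config n → ℝ} (h : FormBdd W) (c : ℝ) :
    FormBdd (fun x => c * W x) := by
  obtain ⟨C, hC, h⟩ := h
  refine ⟨|c| * C, by positivity, fun f g hf => ?_⟩
  obtain ⟨h1, h2⟩ := h f g hf
  refine ⟨by simpa only [mul_assoc] using h1.const_mul c, ?_⟩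
  have e : ∫ x, |c * W x| * ‖f x‖ ^ 2 = |c| * ∫ x, |W x| * ‖f x‖ ^ 2 := by
    rw [← integral_const_mul]
    refine integral_congr_ae (Eventually.of_forall fun x => ?_)
    simp only [abs_mul]; ring
  rw [e, mul_assoc]
  exact mul_le_mul_of_nonneg_left h2 (abs_nonneg c)

theorem FormBdd.zero : FormBdd (fun _ : Config n => (0 : ℝ)) :=
  ⟨0, le_rfl, fun f g _ => by simp⟩

theorem FormBdd.sum {α : Type*} (s : Finset α) {W : α → Config n → ℝ}
    (h : ∀ a ∈ s, FormBdd (W a)) : FormBdd (fun x => ∑ a ∈ s, W a x) := by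
  classical
  induction s using Finset.induction_on with
  | empty => simpa using FormBdd.zero (n := n)
  | insert a s ha ih =>
    have h1 := FormBdd.add (h a (Finset.mem_insert_self a s))
      (ih fun b hb => h b (Finset.mem_insert_of_mem hb))
    simpa only [Finset.sum_insert ha] using h1


theorem FormBdd.nuc (i : Fin n) (a : Pos3) : FormBdd (fun x => 1 / ‖elPos i x - a‖) := by
  refine ⟨1, zero_le_one, fun f g hf => ?_⟩
  have h1 := coulomb_nuc_i hf i a
  have e : (fun x => 1 / ‖elPos i x - a‖ * ‖f x‖ ^ 2) = fun x => ‖f x‖ ^ 2 / ‖elPos i x - a‖ := by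
    funext x; ring
  have e' : (fun x => |1 / ‖elPos i x - a‖| * ‖f x‖ ^ 2) =
      fun x => ‖f x‖ ^ 2 / ‖elPos i x - a‖ := by
    funext x; rw [abs_of_nonneg (by positivity)]; ring
  rw [e, e']
  refine ⟨h1.1, (coulomb_nuc hf i a).trans ?_⟩
  have hA : 0 ≤ ∫ x, ‖f x‖ ^ 2 := integral_nonneg fun x => by positivity
  have hB : 0 ≤ ∫ x, ‖g x‖ ^ 2 := integral_nonneg fun x => by positivity
  have := sqrt_mul_sqrt_le_half _ _ hA hB
  linarith

theorem FormBdd.pair {i j : Fin n} (hij : i ≠ j) :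
    FormBdd (fun x => 1 / ‖elPos i x - elPos j x‖) := by
  refine ⟨1, zero_le_one, fun f g hf => ?_⟩
  have h1 := coulomb_pair_i hf hij
  have e : (fun x => 1 / ‖elPos i x - elPos j x‖ * ‖f x‖ ^ 2) =
      fun x => ‖f x‖ ^ 2 / ‖elPos i x - elPos j x‖ := by
    funext x; ring
  have e' : (fun x => |1 / ‖elPos i x - elPos j x‖| * ‖f x‖ ^ 2) =
      fun x => ‖f x‖ ^ 2 / ‖elPos i x - elPos j x‖ := by
    funext x; rw [abs_of_nonneg (by positivity)]; ring
  rw [e, e']
  refine ⟨h1.1, (coulomb_pair hf hij).trans ?_⟩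
  have hA : 0 ≤ ∫ x, ‖f x‖ ^ 2 := integral_nonneg fun x => by positivity
  have hB : 0 ≤ ∫ x, ‖g x‖ ^ 2 := integral_nonneg fun x => by positivity
  have := sqrt_mul_sqrt_le_half _ _ hA hB
  linarith

theorem formBdd_unitNuclei {K : ℕ} (R : Fin K → Pos3) :
    FormBdd (unitNucleiPotential (n := n) R) := by
  refine FormBdd.add (W := fun x => ∑ i : Fin n, ∑ α : Fin K, -(1 / ‖elPos i x - R α‖))
    (W' := fun x => ∑ i : Fin n, ∑ j : Fin n,
      if i < j then 1 / ‖elPos i x - elPos j x‖ else 0) ?_ ?_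
  · exact FormBdd.sum _ fun i _ => FormBdd.sum _ fun α _ => FormBdd.neg (FormBdd.nuc i (R α))
  · refine FormBdd.sum _ fun i _ => FormBdd.sum _ fun j _ => ?_
    by_cases hij : i < j
    · simp only [hij, if_true]; exact FormBdd.pair hij.ne
    · simp only [hij, if_false]; exact FormBdd.zero

theorem formBdd_scaled {K : ℕ} (lam : ℝ) (R : Fin K → Pos3) :
    FormBdd (fun x : Config n => lam * unitNucleiPotential R x) :=
  FormBdd.const_mul (formBdd_unitNuclei R) lam




end Crest.Agent.R338.Fm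
end
end

-- ▼ part R338/TL3
section

/-!
# Row 338, module TL3 (helper490): `TheoremAUpper` modulo the matrix elements of `wav C`
-/

set_option autoImplicit false

open MeasureTheory Real SchwartzMap Filter Topology
open scoped Nat ContDiff ComplexConjugate

noncomputable section

namespace Crest.Agent.R338.TL

open Crest.MathPhysics.ElectronicCoulomb
open Crest.Agent.R335.HF Crest.Agent.R338.HO Crest.Agent.R338.TA Crest.Agent.R338.Fm

variable {N n0 : ℕ}

/-- one-body matrix elements -/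
def OneB (C : Ten N n0) : Prop :=
  ∀ g : Pos3 → ℝ, AEStronglyMeasurable g volume →
    (∀ a b : Sp n0, Integrable (fun x => g x * (Phi a.1 x * Phi b.1 x))) →
    JI C (fun x => ∑ i, g (elPos i x)) ∧
    J C (fun x => ∑ i, g (elPos i x)) = oneF (fun a b => ∫ x, g x * (Phi a.1 x * Phi b.1 x)) C

/-- the electronic repulsion -/
def rep (x : Config N) : ℝ :=
  ∑ i : Fin N, ∑ j : Fin N, if i < j then 1 / ‖elPos i x - elPos j x‖ else 0

/-- two-body matrix elements -/
def TwoB (C : Ten N n0) : Prop :=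
  J C rep = twoF (fun a b c d => W4 a.1 b.1 c.1 d.1) C

/-! ### integrability -/

theorem JI_congr {C : Ten N n0} {G G' : Config N → ℝ} (h : JI C G) (e : ∀ x, G x = G' x) :
    JI C G' := by
  have : G' = G := funext fun x => (e x).symm
  rw [this]; exact h

theorem JI_normsq (C : Ten N n0) : JI C (fun x => ‖x‖ ^ 2) := by
  have h : JI C (fun x => ∑ ic : Fin N × Fin 3, (x ic) ^ 2) := by
    refine JI.sum _ fun ic _ s => ?_
    have := integrable_moment ic 1 (wavS C s)
    rw [wavS_coe] at this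
    simpa using this
  refine JI_congr h fun x => ?_
  rw [EuclideanSpace.norm_sq_eq]
  simp [sq_abs]

theorem JI_nuc (C : Ten N n0) (i : Fin N) (a : Pos3) :
    JI C (fun x => 1 / ‖elPos i x - a‖) := fun s =>
  (integrable_en (waveOsc_wav C s).h1 i a).congr (Eventually.of_forall fun x => by
    simp only; ring)

theorem JI_pair (C : Ten N n0) {i j : Fin N} (hij : i ≠ j) :
    JI C (fun x => 1 / ‖elPos i x - elPos j x‖) := fun s =>
  (integrable_ee (waveOsc_wav C s).h1 hij).congr (Eventually.of_forall fun x => by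
    simp only; ring)

theorem JI_rep (C : Ten N n0) : JI C rep := by
  unfold rep
  refine JI.sum _ fun i _ => JI.sum _ fun j _ => ?_
  by_cases h : i < j
  · simp only [if_pos h]; exact JI_pair C h.ne
  · simp only [if_neg h]; exact JI_const C 0

theorem JI_Vnuc (C : Ten N n0) (lam : ℝ) {K : ℕ} (P : Fin K → Pos3) (i : Fin N) :
    JI C (fun x => Vnuc lam P (elPos i x)) := by
  unfold Vnuc
  refine JI.sum _ fun α _ => ?_
  refine JI_congr ((JI_nuc C i (P α)).const_mul (-lam)) fun x => ?_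
  ring

theorem pot_eq (lam : ℝ) {K : ℕ} (P : Fin K → Pos3) (x : Config N) :
    lam * unitNucleiPotential P x = ∑ i, Vnuc lam P (elPos i x) + lam * rep x := by
  unfold unitNucleiPotential Vnuc rep
  rw [mul_add, Finset.mul_sum]
  congr 1
  refine Finset.sum_congr rfl fun i _ => ?_
  rw [Finset.mul_sum]
  refine Finset.sum_congr rfl fun α _ => ?_
  ring

theorem JI_pot (C : Ten N n0) (lam : ℝ) {K : ℕ} (P : Fin K → Pos3) :
    JI C (fun x => lam * unitNucleiPotential P x) :=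
  JI_congr ((JI.sum Finset.univ fun i _ => JI_Vnuc C lam P i).add ((JI_rep C).const_mul lam))
    fun x => (pot_eq lam P x).symm

theorem isAdmissible_wav {C : Ten N n0} (hA : Anti C) (lam : ℝ) {K : ℕ} (P : Fin K → Pos3) :
    IsAdmissible (fun x => lam * unitNucleiPotential P x) (wav C) :=
  ⟨isFermionic_wav hA, (waveOsc_wav C).waveH1.kinetic_lt_top, JI_pot C lam P⟩

theorem measurable_Vnuc (lam : ℝ) {K : ℕ} (P : Fin K → Pos3) : Measurable (Vnuc lam P) := by
  unfold Vnuc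
  refine Finset.measurable_sum _ fun α _ => ?_
  refine Measurable.neg ?_
  exact ((continuous_id.sub continuous_const).norm).measurable.const_div lam

theorem integrable_Vnuc_Phi (lam : ℝ) {K : ℕ} (P : Fin K → Pos3) (a b : Fin 3 → ℕ) :
    Integrable (fun x : Pos3 => Vnuc lam P x * (Phi a x * Phi b x)) := by
  have h : Integrable (fun x : Pos3 => ∑ α, (-lam) * ((1 / ‖x - P α‖) * (Phi a x * Phi b x))) :=
    integrable_finsetSum _ fun α _ => (integrable_Phi_div a b (P α)).const_mul _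
  refine h.congr (Eventually.of_forall fun x => ?_)
  simp only [Vnuc, Finset.sum_mul]
  refine Finset.sum_congr rfl fun α _ => ?_
  ring

theorem integrable_PhiPhi (a b : Fin 3 → ℕ) :
    Integrable (fun x : Pos3 => Phi a x * Phi b x) := by
  have h := (memLp_Phi (ι := Fin 3) a 2).integrable_mul (memLp_Phi b 2)
  have h2 := h.re
  refine h2.congr (Eventually.of_forall fun x => ?_)
  simp

/-! ### the main estimate -/

theorem elPos_normsq (x : Config N) : ‖x‖ ^ 2 = ∑ i, ‖elPos i x‖ ^ 2 := by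
  rw [EuclideanSpace.norm_sq_eq, Fintype.sum_prod_type]
  refine Finset.sum_congr rfl fun i _ => ?_
  rw [EuclideanSpace.norm_sq_eq]
  rfl

section main

variable {lam : ℝ} {K : ℕ} {P : Fin K → Pos3} {Vs w : Pos3 → ℝ}
    {F : Pos3 → Pos3} {C0 R eps1 eps2 kF W : ℝ}

theorem Vs_le (h : NucOK lam P n0 Vs w F C0 R eps1 eps2 kF W) (y : Pos3) :
    Vs y ≤ (1 / 2) * ‖y‖ ^ 2 + ((eps2 - C0) + lam * w y) +
      (C0 + W) * ∑ c : Fin 3, (if 2 * R ≤ |y c| then (1 : ℝ) else 0) := by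
  have hs0 : ∀ c : Fin 3, (0 : ℝ) ≤ (if 2 * R ≤ |y c| then (1 : ℝ) else 0) := fun c => by
    split_ifs <;> norm_num
  have hC := h.C0_nonneg
  have hW := h.W_nonneg
  have hs := Finset.sum_nonneg fun c (_ : c ∈ Finset.univ) => hs0 c
  by_cases hy : ∀ c, |y c| ≤ 2 * R
  · have h1 := (abs_le.1 (h.N1 y hy)).2
    have h2 : 0 ≤ (C0 + W) * ∑ c : Fin 3, (if 2 * R ≤ |y c| then (1 : ℝ) else 0) :=
      mul_nonneg (add_nonneg hC hW) hs
    linarith
  · push Not at hy
    obtain ⟨c, hc⟩ := hy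
    have h1 : (1 : ℝ) ≤ ∑ c : Fin 3, (if 2 * R ≤ |y c| then (1 : ℝ) else 0) := by
      have := Finset.single_le_sum (fun c _ => hs0 c) (Finset.mem_univ c)
      rw [if_pos hc.le] at this
      exact this
    have h2 : C0 + W ≤ (C0 + W) * ∑ c : Fin 3, (if 2 * R ≤ |y c| then (1 : ℝ) else 0) :=
      le_mul_of_one_le_right (add_nonneg hC hW) h1
    have h3 : -W ≤ lam * w y := by
      have h4 := (abs_le.1 (h.w_le y)).1
      have h5 := h.lam_le
      have h6 := h.lam_pos
      nlinarith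
    have h4 := h.Vs_nonpos y
    have h5 := h.eps2_nonneg
    have h6 : 0 ≤ (1 / 2) * ‖y‖ ^ 2 := by positivity
    linarith

theorem JI_Vs (C : Ten N n0) (h : NucOK lam P n0 Vs w F C0 R eps1 eps2 kF W) :
    JI C (fun x => ∑ i, Vs (elPos i x)) := by
  obtain ⟨B, hB⟩ := h.Vs_bdd
  exact JI.sum _ fun i _ => JI_bdd C (h.Vs_cont.comp (continuous_elPos i)).aestronglyMeasurable
    fun _ => hB _

theorem JI_w (C : Ten N n0) (h : NucOK lam P n0 Vs w F C0 R eps1 eps2 kF W) :
    JI C (fun x => ∑ i, w (elPos i x)) :=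
  JI.sum _ fun i _ => JI_bdd C (h.w_cont.comp (continuous_elPos i)).aestronglyMeasurable
    fun _ => h.w_le _

theorem J_Vs_le (C : Ten N n0) (h : NucOK lam P n0 Vs w F C0 R eps1 eps2 kF W) (k : ℕ) :
    J C (fun x => ∑ i, Vs (elPos i x)) ≤
      (1 / 2) * J C (fun x => ‖x‖ ^ 2) + (N * (eps2 - C0)) * tsq C +
        lam * J C (fun x => ∑ i, w (elPos i x)) +
        (C0 + W) * (((N * 3 : ℕ) : ℝ) * ((2 * ((n0 : ℝ) + k)) ^ k / (2 * R) ^ (2 * k) * tsq C)) := by
  have hR : 0 < 2 * R := by have := h.one_le_R; linarith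
  have i1 := (JI_normsq C).const_mul (1 / 2)
  have i2 := (JI_const C 1).const_mul (N * (eps2 - C0))
  have i3 := (JI_w C h).const_mul lam
  have i4 : JI C (fun x => ∑ ic : Fin N × Fin 3, if 2 * R ≤ |x ic| then (1 : ℝ) else 0) :=
    JI.sum _ fun ic _ => JI_tail C ic (2 * R)
  have i5 := i4.const_mul (C0 + W)
  have i6 := ((i1.add i2).add i3).add i5
  have h1 := J_mono (JI_Vs C h) i6 (fun x => ?_)
  · refine h1.trans ?_
    rw [J_add ((i1.add i2).add i3) i5, J_add (i1.add i2) i3, J_add i1 i2, J_const_mul,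
      J_const_mul, J_const_mul, J_const_mul, J_one,
      J_sum _ (fun ic _ => JI_tail C ic (2 * R))]
    have h2 : ∑ ic : Fin N × Fin 3, J C (fun x => if 2 * R ≤ |x ic| then (1 : ℝ) else 0) ≤
        ((N * 3 : ℕ) : ℝ) * ((2 * ((n0 : ℝ) + k)) ^ k / (2 * R) ^ (2 * k) * tsq C) := by
      refine (Finset.sum_le_card_nsmul _ _ _ fun ic _ => J_tail C ic k hR).trans_eq ?_
      rw [nsmul_eq_mul, Finset.card_univ, Fintype.card_prod, Fintype.card_fin, Fintype.card_fin]
    have h3 : 0 ≤ C0 + W := add_nonneg h.C0_nonneg h.W_nonneg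
    have h4 := mul_le_mul_of_nonneg_left h2 h3
    linarith
  · have h2 : ∑ i, Vs (elPos i x) ≤ ∑ i, ((1 / 2) * ‖elPos i x‖ ^ 2 +
        ((eps2 - C0) + lam * w (elPos i x)) +
          (C0 + W) * ∑ c : Fin 3, (if 2 * R ≤ |elPos i x c| then (1 : ℝ) else 0)) :=
      Finset.sum_le_sum fun i _ => Vs_le h (elPos i x)
    refine h2.trans_eq ?_
    rw [elPos_normsq, Fintype.sum_prod_type]
    simp only [Finset.sum_add_distrib, ← Finset.mul_sum, Finset.sum_const, Finset.card_univ,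
      Fintype.card_fin, nsmul_eq_mul, elPos]
    ring_nf

/-- the energy of the trial state -/
theorem energy_wav_le (h : NucOK lam P n0 Vs w F C0 R eps1 eps2 kF W) {Nv : ℕ}
    {C : Ten (Nel n0 Nv) n0} (hA : Anti C) (hC : CoreFull C) (h1 : OneB C) (h2 : TwoB C) (k : ℕ) :
    energy (fun x => lam * unitNucleiPotential P x) (wav C) ≤
      (EN n0 Nv - Nel n0 Nv * C0 + (Nel n0 Nv : ℝ) * Fintype.card (Sp n0) * eps1 +
        Nel n0 Nv * eps2) * tsq C + lam * BF w C +
        (C0 + W) * (((Nel n0 Nv * 3 : ℕ) : ℝ) *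
          ((2 * ((n0 : ℝ) + k)) ^ k / (2 * R) ^ (2 * k) * tsq C)) := by
  have e0 := (waveOsc_wav C).waveH1.energy_eq (W := fun x => lam * unitNucleiPotential P x)
  have e1 : (∑ s, ∫ x, lam * unitNucleiPotential P x * ‖wav C s x‖ ^ 2) =
      J C (fun x => lam * unitNucleiPotential P x) := rfl
  have e2 : J C (fun x => lam * unitNucleiPotential P x) =
      J C (fun x => ∑ i, Vnuc lam P (elPos i x)) + lam * J C rep := by
    rw [← J_const_mul, ← J_add (JI.sum _ fun i _ => JI_Vnuc C lam P i) ((JI_rep C).const_mul lam)]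
    congr 1
    funext x
    exact pot_eq lam P x
  have e3 := hosc_wav hA hC
  rw [hosc_eq] at e3
  have e4 : (∑ s, ∫ x, ‖x‖ ^ 2 * ‖wav C s x‖ ^ 2) = J C (fun x => ‖x‖ ^ 2) := rfl
  rw [e4] at e3
  rw [e1, e2] at e0
  -- the singular part
  obtain ⟨B, hB⟩ := h.Vs_bdd
  have iVs : ∀ a b : Fin 3 → ℕ, Integrable (fun x => Vs x * (Phi a x * Phi b x)) := fun a b =>
    (integrable_PhiPhi a b).bdd_mul h.Vs_cont.aestronglyMeasurable
      (Eventually.of_forall fun x => hB x)
  have iD : ∀ a b : Sp n0, Integrable (fun x => (Vnuc lam P x - Vs x) * (Phi a.1 x * Phi b.1 x)) := by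
    intro a b
    have := (integrable_Vnuc_Phi lam P a.1 b.1).sub (iVs a.1 b.1)
    exact this.congr (Eventually.of_forall fun x => (sub_mul _ _ _).symm)
  obtain ⟨d1, d2⟩ := h1 (fun x => Vnuc lam P x - Vs x)
    ((measurable_Vnuc lam P).sub h.Vs_cont.measurable).aestronglyMeasurable iD
  have d3 : J C (fun x => ∑ i, Vnuc lam P (elPos i x)) =
      J C (fun x => ∑ i, (Vnuc lam P (elPos i x) - Vs (elPos i x))) +
        J C (fun x => ∑ i, Vs (elPos i x)) := by
    rw [← J_add d1 (JI_Vs C h)]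
    congr 1
    funext x
    rw [← Finset.sum_add_distrib]
    refine Finset.sum_congr rfl fun i _ => ?_
    ring
  have d4 : J C (fun x => ∑ i, (Vnuc lam P (elPos i x) - Vs (elPos i x))) ≤
      (Nel n0 Nv : ℝ) * Fintype.card (Sp n0) * eps1 * tsq C := by
    rw [d2]
    exact (le_abs_self _).trans (abs_oneF_le (fun a b => h.N3 a.1 b.1 a.2 b.2) C)
  have d5 := J_Vs_le C h k
  -- the smooth part
  have iw : ∀ a b : Sp n0, Integrable (fun x => w x * (Phi a.1 x * Phi b.1 x)) := fun a b =>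
    (integrable_PhiPhi a.1 b.1).bdd_mul h.w_cont.aestronglyMeasurable
      (Eventually.of_forall fun x => h.w_le x)
  obtain ⟨-, w2⟩ := h1 w h.w_cont.aestronglyMeasurable iw
  have w3 : BF w C = J C (fun x => ∑ i, w (elPos i x)) + J C rep := by
    rw [w2, h2]; rfl
  rw [e0, w3, d3]
  nlinarith [e3, d4, d5]

end main

end Crest.Agent.R338.TL
end
end

-- ▼ part R338/TL4
section

/-!
# Row 338, module TL4 (helper490): constants; `TheoremAUpper` from the matrix elements
-/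

set_option autoImplicit false

open MeasureTheory Real Filter Topology

noncomputable section

namespace Crest.Agent.R338.TL

open Crest.MathPhysics.ElectronicCoulomb
open Crest.Agent.R335.HF Crest.Agent.R338.HO Crest.Agent.R338.TA Crest.Agent.R338.Fm

theorem card_Sp_le (n0 : ℕ) : Fintype.card (Sp n0) ≤ (n0 + 1) ^ 3 := by
  have h := Fintype.card_le_of_injective (fun (m : Sp n0) (c : Fin 3) => (⟨m.1 c, by
    have h := m.2
    unfold deg3 at h
    fin_cases c <;> simp <;> omega⟩ : Fin (n0 + 1))) (by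
    intro a b h
    apply Subtype.ext
    funext c
    have := congrFun h c
    simpa using this)
  simpa using h

section
variable {n0 Nv : ℕ} {W : ℝ}

theorem two_le_sizeP (hW : 0 ≤ W) : 2 ≤ sizeP n0 Nv W := by
  unfold sizeP
  have h1 : (0 : ℝ) ≤ Nel n0 Nv := by positivity
  have h2 : (0 : ℝ) ≤ n0 := by positivity
  linarith

theorem Nel_le_sizeP (hW : 0 ≤ W) : (Nel n0 Nv : ℝ) ≤ sizeP n0 Nv W := by
  unfold sizeP
  have h2 : (0 : ℝ) ≤ n0 := by positivity
  linarith

theorem n0_le_sizeP (hW : 0 ≤ W) : (n0 : ℝ) + 1 ≤ sizeP n0 Nv W := by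
  unfold sizeP
  have h1 : (0 : ℝ) ≤ Nel n0 Nv := by positivity
  linarith

theorem W_le_sizeP : W ≤ sizeP n0 Nv W := by
  unfold sizeP
  have h1 : (0 : ℝ) ≤ Nel n0 Nv := by positivity
  have h2 : (0 : ℝ) ≤ n0 := by positivity
  linarith

theorem const1 (hW : 0 ≤ W) : (Nel n0 Nv : ℝ) * Fintype.card (Sp n0) ≤ sizeP n0 Nv W ^ 4 := by
  have h2 := two_le_sizeP (n0 := n0) (Nv := Nv) hW
  have h1 : (Fintype.card (Sp n0) : ℝ) ≤ sizeP n0 Nv W ^ 3 := by
    have h3 : (Fintype.card (Sp n0) : ℝ) ≤ ((n0 : ℝ) + 1) ^ 3 := by exact_mod_cast card_Sp_le n0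
    exact h3.trans (pow_le_pow_left₀ (by positivity) (n0_le_sizeP hW) 3)
  calc (Nel n0 Nv : ℝ) * Fintype.card (Sp n0) ≤ sizeP n0 Nv W * sizeP n0 Nv W ^ 3 :=
        mul_le_mul (Nel_le_sizeP hW) h1 (by positivity) (by linarith)
    _ = _ := by ring

theorem const2 (hW : 0 ≤ W) (k : ℕ) : 2 * ((n0 : ℝ) + k) ≤ sizeP n0 Nv W ^ (k + 2) := by
  have h2 := two_le_sizeP (n0 := n0) (Nv := Nv) hW
  have hn := n0_le_sizeP (n0 := n0) (Nv := Nv) hW
  set S := sizeP n0 Nv W with hS
  have h3 : ((k : ℝ) + 1) ≤ S ^ k := by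
    have h4 : ((k : ℝ) + 1) ≤ 2 ^ k := by exact_mod_cast Nat.lt_two_pow_self (n := k)
    exact h4.trans (pow_le_pow_left₀ (by norm_num) h2 k)
  have h5 : (n0 : ℝ) + k ≤ S * ((k : ℝ) + 1) := by
    have h6 : (0 : ℝ) ≤ k := by positivity
    nlinarith
  calc 2 * ((n0 : ℝ) + k) ≤ S * (S * ((k : ℝ) + 1)) := by
        have h7 : 0 ≤ S * ((k : ℝ) + 1) := by positivity
        have h8 : (0 : ℝ) ≤ (n0 : ℝ) + k := by positivity
        exact mul_le_mul h2 h5 h8 (by linarith)
    _ ≤ S * (S * S ^ k) := by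
        have : 0 ≤ S := by linarith
        gcongr
    _ = _ := by ring

theorem const3 {C0 R : ℝ} (hW : 0 ≤ W) (hC0 : 0 ≤ C0) (hR : 1 ≤ R) (k : ℕ) :
    (C0 + W) * (((Nel n0 Nv * 3 : ℕ) : ℝ) *
      ((2 * ((n0 : ℝ) + k)) ^ k / (2 * R) ^ (2 * k) * 1)) ≤
      sizeP n0 Nv W ^ (k * (k + 2) + 4) * ((C0 + 1) / R ^ (2 * k)) := by
  have h2 := two_le_sizeP (n0 := n0) (Nv := Nv) hW
  have hN := Nel_le_sizeP (n0 := n0) (Nv := Nv) hW
  have hw := W_le_sizeP (n0 := n0) (Nv := Nv) (W := W)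
  have hc := const2 (n0 := n0) (Nv := Nv) hW k
  set S := sizeP n0 Nv W with hS
  have hS0 : 0 ≤ S := by linarith
  have a1 : C0 + W ≤ S * (C0 + 1) := by nlinarith
  have a2 : (((Nel n0 Nv * 3 : ℕ)) : ℝ) ≤ S * S ^ 2 := by
    push_cast
    have : (3 : ℝ) ≤ S ^ 2 := by nlinarith
    exact mul_le_mul hN this (by norm_num) hS0
  have a3 : (2 * ((n0 : ℝ) + k)) ^ k ≤ S ^ (k * (k + 2)) := by
    rw [mul_comm k (k + 2), pow_mul]
    exact pow_le_pow_left₀ (by positivity) hc k
  have a4 : (2 * ((n0 : ℝ) + k)) ^ k / (2 * R) ^ (2 * k) * 1 ≤ S ^ (k * (k + 2)) / R ^ (2 * k) := by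
    rw [mul_one]
    have hR0 : 0 < R := by linarith
    refine div_le_div₀ (by positivity) a3 (by positivity) ?_
    exact pow_le_pow_left₀ hR0.le (by linarith) _
  have hR0 : 0 < R := by linarith
  calc (C0 + W) * (((Nel n0 Nv * 3 : ℕ) : ℝ) *
      ((2 * ((n0 : ℝ) + k)) ^ k / (2 * R) ^ (2 * k) * 1))
      ≤ (S * (C0 + 1)) * ((S * S ^ 2) * (S ^ (k * (k + 2)) / R ^ (2 * k))) := by
        refine mul_le_mul a1 (mul_le_mul a2 a4 (by positivity) (by positivity)) (by positivity)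
          (by positivity)
    _ = _ := by rw [pow_add]; ring

end

/-- **`TheoremAUpper` from the matrix elements of tensor waves** -/
theorem theoremAUpper_of
    (h1 : ∀ (n0 Nv : ℕ) (C : Ten (Nel n0 Nv) n0), OneB C)
    (h2 : ∀ (n0 Nv : ℕ) (C : Ten (Nel n0 Nv) n0), TwoB C) : TheoremAUpper := by
  intro k
  refine ⟨k * (k + 2) + 4, ?_⟩
  intro lam K P n0 Nv Vs w F C0 R eps1 eps2 kF W beta hN hNv1 hNv2 hC
  obtain ⟨C, hA, hF, ht, hB⟩ := hC
  have hadm := isAdmissible_wav hA lam P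
  have hE := energy_wav_le hN hA hF (h1 n0 Nv C) (h2 n0 Nv C) k
  have hn : nsq (wav C) = 1 := by rw [nsq_wav, ht]
  refine infEnergyLE_of hadm (by rw [hn]; exact one_pos) ?_
  rw [hn, mul_one]
  rw [ht] at hE
  refine hE.trans ?_
  have hS := two_le_sizeP (n0 := n0) (Nv := Nv) hN.W_nonneg
  have c1 := const1 (n0 := n0) (Nv := Nv) hN.W_nonneg
  have c3 := const3 (n0 := n0) (Nv := Nv) hN.W_nonneg hN.C0_nonneg hN.one_le_R k
  have cN := Nel_le_sizeP (n0 := n0) (Nv := Nv) hN.W_nonneg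
  set S := sizeP n0 Nv W with hSd
  have hS1 : 1 ≤ S := by linarith
  have hp : S ^ 4 ≤ S ^ (k * (k + 2) + 4) := pow_le_pow_right₀ hS1 (by omega)
  have hp1 : S ≤ S ^ (k * (k + 2) + 4) := by
    calc S = S ^ 1 := (pow_one S).symm
      _ ≤ _ := pow_le_pow_right₀ hS1 (by omega)
  have e1 : (Nel n0 Nv : ℝ) * Fintype.card (Sp n0) * eps1 ≤ S ^ (k * (k + 2) + 4) * eps1 :=
    mul_le_mul_of_nonneg_right (c1.trans hp) hN.eps1_nonneg
  have e2 : (Nel n0 Nv : ℝ) * eps2 ≤ S ^ (k * (k + 2) + 4) * eps2 :=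
    mul_le_mul_of_nonneg_right (cN.trans hp1) hN.eps2_nonneg
  have e3 : lam * BF w C ≤ lam * beta := mul_le_mul_of_nonneg_left hB hN.lam_pos.le
  have e4 : S ^ (k * (k + 2) + 4) * (eps1 + eps2 + (C0 + 1) / R ^ (2 * k)) =
      S ^ (k * (k + 2) + 4) * eps1 + S ^ (k * (k + 2) + 4) * eps2 +
        S ^ (k * (k + 2) + 4) * ((C0 + 1) / R ^ (2 * k)) := by ring
  rw [e4]
  linarith

end Crest.Agent.R338.TL
end
end

-- ▼ part R338/Fm4
section

/-!
# Row 338, node II.0: the `n`-body form of (N0) (helper271)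

For `f` Schwartz on configuration space and electron `i`,
`∫ (Vnuc - Vs)(x_i) f = - ∫ df(emb_i F(x_i))`.
-/

set_option autoImplicit false
set_option linter.unusedSectionVars false

open MeasureTheory Filter Topology
open scoped ContDiff ENNReal SchwartzMap
open Crest.MathPhysics.ElectronicCoulomb
open Crest.Agent.R335
open Crest.Agent.R335.HF (IsH1 Gr E kin cgrad)

noncomputable section

namespace Crest.Agent.R338.Fm

section general

variable {ι : Type*} [Fintype ι] [DecidableEq ι]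

/-- Japanese bracket `(1 + |x|²)^{-k}` -/
def jap (k : ℕ) (x : E ι) : ℝ := ((1 + ‖x‖ ^ 2) ^ k)⁻¹

theorem jap_pos (k : ℕ) (x : E ι) : 0 < jap k x := by unfold jap; positivity

theorem jap_mul (k l : ℕ) (x : E ι) : jap k x * jap l x = jap (k + l) x := by
  unfold jap; rw [pow_add, mul_inv]

theorem jap_le_one (k : ℕ) (x : E ι) : jap k x ≤ 1 := by
  unfold jap
  exact inv_le_one_of_one_le₀ (one_le_pow₀ (by nlinarith [sq_nonneg ‖x‖]))

theorem contDiff_jap (k : ℕ) : ContDiff ℝ ∞ (jap k : E ι → ℝ) := by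
  unfold jap
  refine ContDiff.inv (ContDiff.pow (contDiff_const.add (contDiff_norm_sq ℝ)) k) fun x => ?_
  positivity

theorem continuous_jap (k : ℕ) : Continuous (jap k : E ι → ℝ) := (contDiff_jap k).continuous

theorem integrable_jap {k : ℕ} (hk : Fintype.card ι < 2 * k) : Integrable (jap k : E ι → ℝ) := by
  have h := integrable_rpow_neg_one_add_norm_sq (μ := (volume : Measure (E ι)))
    (r := ((2 * k : ℕ) : ℝ)) (by
      rw [finrank_euclideanSpace]; exact_mod_cast hk)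
  refine h.congr (Eventually.of_forall fun x => ?_)
  have e : -(((2 * k : ℕ) : ℝ)) / 2 = -(k : ℝ) := by push_cast; ring
  simp only [e, jap]
  rw [Real.rpow_neg (by positivity), Real.rpow_natCast]

theorem memLp_jap {k : ℕ} (hk : Fintype.card ι < 4 * k) : MemLp (jap k : E ι → ℝ) 2 volume := by
  rw [memLp_two_iff_integrable_sq (continuous_jap k).aestronglyMeasurable]
  have := integrable_jap (ι := ι) (k := k + k) (by omega)
  refine this.congr (Eventually.of_forall fun x => ?_)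
  show jap (k + k) x = jap k x ^ 2
  rw [← jap_mul]; ring

theorem hasFDerivAt_jap (k : ℕ) (x : E ι) :
    HasFDerivAt (jap k : E ι → ℝ)
      (-(((1 + ‖x‖ ^ 2) ^ k) ^ 2)⁻¹ • (((k : ℝ) * (1 + ‖x‖ ^ 2) ^ (k - 1)) •
        ((2 : ℝ) • (innerSL ℝ x)))) x := by
  have h1 : HasFDerivAt (fun y : E ι => 1 + ‖y‖ ^ 2) ((2 : ℝ) • (innerSL ℝ x)) x := by
    have := (hasStrictFDerivAt_norm_sq x).hasFDerivAt.const_add 1
    refine this.congr_fderiv ?_
    ext v; simp
  have h2 : HasFDerivAt (fun y : E ι => (1 + ‖y‖ ^ 2) ^ k)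
      (((k : ℝ) * (1 + ‖x‖ ^ 2) ^ (k - 1)) • ((2 : ℝ) • (innerSL ℝ x))) x := by
    have := h1.pow k
    refine this.congr_fderiv ?_
    ext v; simp
  exact (hasDerivAt_inv (by positivity : (1 + ‖x‖ ^ 2) ^ k ≠ 0)).comp_hasFDerivAt x h2

theorem abs_fderiv_jap_le (k : ℕ) (x v : E ι) :
    |fderiv ℝ (jap k : E ι → ℝ) x v| ≤ k * jap k x * ‖v‖ := by
  rw [(hasFDerivAt_jap k x).fderiv]
  simp only [ContinuousLinearMap.smul_apply, smul_eq_mul, innerSL_apply_apply]
  have hq : 0 < 1 + ‖x‖ ^ 2 := by positivity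
  have hin : |inner ℝ x v| ≤ ‖x‖ * ‖v‖ := abs_real_inner_le_norm x v
  rcases Nat.eq_zero_or_pos k with rfl | hk
  · simp
  have e : (1 + ‖x‖ ^ 2) ^ (k - 1) = (1 + ‖x‖ ^ 2) ^ k / (1 + ‖x‖ ^ 2) := by
    rw [eq_div_iff hq.ne', ← pow_succ, Nat.sub_add_cancel hk]
  have e2 : |-(((1 + ‖x‖ ^ 2) ^ k) ^ 2)⁻¹ * ((k : ℝ) * (1 + ‖x‖ ^ 2) ^ (k - 1) *
      (2 * inner ℝ x v))| = (k * jap k x) * (2 * |inner ℝ x v| / (1 + ‖x‖ ^ 2)) := by
    rw [e, abs_mul, abs_mul, abs_mul, abs_mul, abs_neg, abs_inv, abs_two,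
      abs_of_pos (by positivity : 0 < ((1 + ‖x‖ ^ 2) ^ k) ^ 2), Nat.abs_cast,
      abs_of_pos (by positivity : 0 < (1 + ‖x‖ ^ 2) ^ k / (1 + ‖x‖ ^ 2))]
    unfold jap
    field_simp
  rw [e2]
  refine mul_le_mul_of_nonneg_left ?_ (by have := jap_pos k x; positivity)
  rw [div_le_iff₀ hq]
  nlinarith [sq_nonneg (‖x‖ - 1), norm_nonneg v, norm_nonneg x, mul_nonneg (norm_nonneg v) (sq_nonneg (‖x‖ - 1))]

theorem isH1_jap {k : ℕ} (hk : Fintype.card ι < 4 * k) :
    IsH1 (fun x : E ι => ((jap k x : ℝ) : ℂ)) (cgrad (fun x : E ι => ((jap k x : ℝ) : ℂ))) := by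
  have hc : ContDiff ℝ ∞ (fun x : E ι => ((jap k x : ℝ) : ℂ)) :=
    Complex.ofRealCLM.contDiff.comp (contDiff_jap k)
  have m1 : MemLp (fun x : E ι => ((jap k x : ℝ) : ℂ)) 2 volume := (memLp_jap hk).ofReal
  refine Crest.Agent.R335.HF.isH1_of_contDiff (hc.of_le (by simp)) m1 ?_
  refine Crest.Agent.R335.HF.memLp_of_comp fun i => ?_
  have hfd : ∀ x : E ι, cgrad (fun x : E ι => ((jap k x : ℝ) : ℂ)) x i =
      ((fderiv ℝ (jap k : E ι → ℝ) x (EuclideanSpace.single i (1 : ℝ)) : ℝ) : ℂ) := by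
    intro x
    have h1 : HasFDerivAt (fun x : E ι => ((jap k x : ℝ) : ℂ))
        (Complex.ofRealCLM.comp (fderiv ℝ (jap k : E ι → ℝ) x)) x :=
      Complex.ofRealCLM.hasFDerivAt.comp x
        (((contDiff_jap k).differentiable (by simp)) x).hasFDerivAt
    rw [Crest.Agent.R335.HF.cgrad_apply, h1.fderiv]
    rfl
  refine MemLp.of_le_mul (c := (k : ℝ)) m1 ?_ (Eventually.of_forall fun x => ?_)
  · have : Continuous (cgrad (fun x : E ι => ((jap k x : ℝ) : ℂ))) :=
      Crest.Agent.R335.HF.continuous_cgrad (hc.of_le (by simp))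
    exact ((EuclideanSpace.proj (𝕜 := ℂ) i).continuous.comp this).aestronglyMeasurable
  · rw [hfd, Complex.norm_real, Complex.norm_real, Real.norm_eq_abs, Real.norm_eq_abs,
      abs_of_pos (jap_pos k x)]
    have := abs_fderiv_jap_le k x (EuclideanSpace.single i (1 : ℝ))
    simpa using this

theorem one_add_sq_pow_le (k : ℕ) (t : ℝ) :
    (1 + t ^ 2) ^ k ≤ 2 ^ k * (1 + t ^ (2 * k)) := by
  have h := add_pow_le (zero_le_one' ℝ) (sq_nonneg t) k
  rw [one_pow, ← pow_mul] at h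
  refine h.trans (mul_le_mul_of_nonneg_right ?_ ?_)
  · exact pow_le_pow_right₀ (by norm_num) (Nat.sub_le k 1)
  · have := (even_two_mul k).pow_nonneg t
    linarith

/-- Schwartz functions decay faster than any Japanese bracket -/
theorem schwartz_decay {F : Type*} [NormedAddCommGroup F] [NormedSpace ℝ F] (f : 𝓢(E ι, F))
    (k : ℕ) : ∃ C : ℝ, 0 ≤ C ∧ (∀ x, ‖f x‖ ≤ C * jap k x) ∧ ∀ x, ‖fderiv ℝ f x‖ ≤ C * jap k x := by
  have key : ∀ m : ℕ, ∃ C : ℝ, 0 ≤ C ∧ ∀ x, ‖iteratedFDeriv ℝ m f x‖ ≤ C * jap k x := by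
    intro m
    obtain ⟨C0, hC0, h0⟩ := f.decay 0 m
    obtain ⟨C1, hC1, h1⟩ := f.decay (2 * k) m
    refine ⟨2 ^ k * (C0 + C1), by positivity, fun x => ?_⟩
    unfold jap
    rw [← div_eq_mul_inv, le_div_iff₀ (by positivity)]
    have h2 := h0 x
    have h3 := h1 x
    rw [pow_zero, one_mul] at h2
    have h4 := one_add_sq_pow_le k ‖x‖
    have h5 : 0 ≤ ‖iteratedFDeriv ℝ m f x‖ := norm_nonneg _
    calc ‖iteratedFDeriv ℝ m f x‖ * (1 + ‖x‖ ^ 2) ^ k ≤
        ‖iteratedFDeriv ℝ m f x‖ * (2 ^ k * (1 + ‖x‖ ^ (2 * k))) :=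
          mul_le_mul_of_nonneg_left h4 h5
      _ = 2 ^ k * (‖iteratedFDeriv ℝ m f x‖ + ‖x‖ ^ (2 * k) * ‖iteratedFDeriv ℝ m f x‖) := by ring
      _ ≤ 2 ^ k * (C0 + C1) := by gcongr
  obtain ⟨C0, hC0, h0⟩ := key 0
  obtain ⟨C1, hC1, h1⟩ := key 1
  refine ⟨C0 + C1, by positivity, fun x => ?_, fun x => ?_⟩
  · have := h0 x
    rw [norm_iteratedFDeriv_zero] at this
    have hj := jap_pos k x
    nlinarith
  · have := h1 x
    rw [norm_iteratedFDeriv_one] at this
    have hj := jap_pos k x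
    nlinarith

/-- Coulomb singularities are integrable against rapidly decaying functions -/
theorem integrable_coulomb_decay {f : E ι → ℝ} (hf : AEStronglyMeasurable f volume) {C : ℝ}
    {k : ℕ} (hk : Fintype.card ι < 4 * k) (hC : ∀ x, |f x| ≤ C * jap (k + k) x)
    (L : E ι →L[ℝ] EuclideanSpace ℝ (Fin 3)) (κ : Fin 3 → ι)
    (hL : ∀ c, L (EuclideanSpace.single (κ c) (1 : ℝ)) = EuclideanSpace.single c (1 : ℝ))
    (a : EuclideanSpace ℝ (Fin 3)) : Integrable (fun x => 1 / ‖L x - a‖ * f x) := by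
  have h1 := (coulomb_le (isH1_jap (ι := ι) hk) L κ hL a one_pos).1
  have hm : Measurable (fun x => 1 / ‖L x - a‖) := by
    have : Measurable (fun x => ‖L x - a‖) := by fun_prop
    exact this.const_div 1
  refine (h1.const_mul C).mono' (hm.aestronglyMeasurable.mul hf) (Eventually.of_forall fun x => ?_)
  rw [Real.norm_eq_abs, abs_mul, abs_of_nonneg (by positivity : 0 ≤ 1 / ‖L x - a‖),
    Complex.norm_real, Real.norm_eq_abs, abs_of_pos (jap_pos k x)]
  have h2 := mul_le_mul_of_nonneg_left (hC x) (by positivity : 0 ≤ 1 / ‖L x - a‖)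
  refine h2.trans (le_of_eq ?_)
  rw [← jap_mul]; ring

theorem integrable_coulomb_schwartz (f : 𝓢(E ι, ℝ)) (L : E ι →L[ℝ] EuclideanSpace ℝ (Fin 3))
    (κ : Fin 3 → ι)
    (hL : ∀ c, L (EuclideanSpace.single (κ c) (1 : ℝ)) = EuclideanSpace.single c (1 : ℝ))
    (a : EuclideanSpace ℝ (Fin 3)) : Integrable (fun x => 1 / ‖L x - a‖ * f x) := by
  set k := Fintype.card ι + 1 with hk
  obtain ⟨C, -, hC, -⟩ := schwartz_decay f (k + k)
  exact integrable_coulomb_decay f.continuous.aestronglyMeasurable (C := C) (k := k)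
    (by omega) hC L κ hL a

end general

/-! ### splitting off electron `i` -/

variable {n : ℕ}

/-- coordinates of electron `i` and of the others -/
def spl (i : Fin n) : Fin n × Fin 3 ≃ Fin 3 ⊕ ({j : Fin n // j ≠ i} × Fin 3) where
  toFun jc := if h : jc.1 = i then Sum.inl jc.2 else Sum.inr (⟨jc.1, h⟩, jc.2)
  invFun := Sum.elim (fun c => (i, c)) (fun jc => (jc.1.1, jc.2))
  left_inv := by
    rintro ⟨j, c⟩
    by_cases h : j = i
    · subst h; simp
    · simp [h]
  right_inv := by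
    rintro (c | ⟨⟨j, hj⟩, c⟩)
    · simp
    · simp [hj]

theorem pr1_spl (i : Fin n) (x : Config n) : pr1 (spl i) x = elPos i x := by
  ext c; rfl

theorem in1L_spl (i : Fin n) (v : Pos3) : in1L (spl i) v = TA.emb i v := by
  rw [in1L_apply]
  ext ⟨j, c⟩
  by_cases h : j = i
  · subst h
    simp [jn, spl, TA.emb]
  · simp [jn, spl, TA.emb, h]

/-- the `n`-body form of a weak divergence identity -/
theorem nbody_div {V : Pos3 → ℝ} {F : Pos3 → Pos3} {kF : ℝ}
    (hFm : Measurable F) (hF : ∀ x, ‖F x‖ ≤ kF)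
    (hV : ∀ f : Pos3 → ℝ, ContDiff ℝ 1 f → (∃ B, ∀ x, |f x| ≤ B) → Integrable f →
      Integrable (fun x => fderiv ℝ f x) → ∫ x, V x * f x = - ∫ x, fderiv ℝ f x (F x))
    (i : Fin n) (f : 𝓢(Config n, ℝ)) (hi : Integrable (fun x => V (elPos i x) * f x)) :
    Integrable (fun x => fderiv ℝ f x (TA.emb i (F (elPos i x)))) ∧
      ∫ x, V (elPos i x) * f x = - ∫ x, fderiv ℝ f x (TA.emb i (F (elPos i x))) := by
  have hfd : Continuous (fderiv ℝ f) := (f.smooth 1).continuous_fderiv one_ne_zero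
  have hdI : Integrable (fun x => ‖fderiv ℝ f x‖) := by
    obtain ⟨C, -, -, hC⟩ := schwartz_decay f (Fintype.card (Fin n × Fin 3) + 1)
    refine ((integrable_jap (ι := Fin n × Fin 3) (k := Fintype.card (Fin n × Fin 3) + 1)
      (by omega)).const_mul C).mono' hfd.norm.aestronglyMeasurable
      (Eventually.of_forall fun x => ?_)
    rw [norm_norm]
    exact hC x
  have hembm : Measurable (fun x : Config n => TA.emb i (F (elPos i x))) := by
    have h1 : Continuous (fun v : Pos3 => TA.emb i v) := by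
      have : (fun v : Pos3 => TA.emb i v) = fun v => in1L (spl i) v := by
        funext v; rw [in1L_spl]
      rw [this]; exact (in1L (spl i)).continuous
    exact h1.measurable.comp (hFm.comp (measurable_elPos i))
  have hi2 : Integrable (fun x => fderiv ℝ f x (TA.emb i (F (elPos i x)))) := by
    refine (hdI.mul_const kF).mono' ?_ (Eventually.of_forall fun x => ?_)
    · have : AEStronglyMeasurable (fun x => fderiv ℝ f x) volume := hfd.aestronglyMeasurable
      exact isBoundedBilinearMap_apply.continuous.comp_aestronglyMeasurable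
        (this.prodMk hembm.aestronglyMeasurable)
    · refine (ContinuousLinearMap.le_opNorm _ _).trans ?_
      rw [TA.norm_emb]
      exact mul_le_mul_of_nonneg_left (hF _) (norm_nonneg _)
  refine ⟨hi2, ?_⟩
  rw [integral_jn' (spl i) hi, integral_jn' (spl i) hi2, ← integral_neg]
  refine integral_congr_ae (Eventually.of_forall fun y => ?_)
  simp only
  have e1 : ∀ x, elPos i (jn (spl i) x y) = x := fun x => by rw [← pr1_spl, pr1_jn]
  simp only [e1]
  have hdiff : Differentiable ℝ f := f.differentiable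
  have hder : ∀ x : Pos3, fderiv ℝ (fun x => f (jn (spl i) x y)) x =
      (fderiv ℝ f (jn (spl i) x y)).comp (in1L (spl i)) := fun x =>
    (hasFDerivAt_jn_left (spl i) hdiff x y).fderiv
  have hjn : (fun x : Pos3 => jn (spl i) x y) = fun x => in1L (spl i) x + jn (spl i) 0 y := by
    funext x; rw [jn_eq_add]
  have hcd : ContDiff ℝ 1 (fun x : Pos3 => f (jn (spl i) x y)) := by
    have h1 : ContDiff ℝ 1 (fun x : Pos3 => jn (spl i) x y) := by
      rw [hjn]; exact (in1L (spl i)).contDiff.add contDiff_const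
    exact (f.smooth 1).comp h1
  have hcont : Continuous (fun x : Pos3 => jn (spl i) x y) := by
    rw [hjn]; exact (in1L (spl i)).continuous.add continuous_const
  have hjap : ∀ (k : ℕ) (x : Pos3), jap k (jn (spl i) x y) ≤ jap k x := by
    intro k x
    unfold jap
    rw [norm_sq_jn']
    refine inv_anti₀ (by positivity) (pow_le_pow_left₀ (by positivity) ?_ k)
    nlinarith [sq_nonneg ‖y‖]
  obtain ⟨C, hC0, hC1, hC2⟩ := schwartz_decay f 2
  have hI1 : Integrable (fun x : Pos3 => f (jn (spl i) x y)) := by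
    refine ((integrable_jap (ι := Fin 3) (k := 2) (by simp)).const_mul C).mono'
      (f.continuous.comp hcont).aestronglyMeasurable (Eventually.of_forall fun x => ?_)
    exact (hC1 _).trans (mul_le_mul_of_nonneg_left (hjap 2 x) hC0)
  have hI2 : Integrable (fun x : Pos3 => fderiv ℝ (fun x => f (jn (spl i) x y)) x) := by
    refine (((integrable_jap (ι := Fin 3) (k := 2) (by simp)).const_mul C).mul_const
      ‖in1L (spl i)‖).mono' (hcd.continuous_fderiv one_ne_zero).aestronglyMeasurable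
      (Eventually.of_forall fun x => ?_)
    rw [hder]
    refine (ContinuousLinearMap.opNorm_comp_le _ _).trans
      (mul_le_mul_of_nonneg_right ?_ (norm_nonneg _))
    exact (hC2 _).trans (mul_le_mul_of_nonneg_left (hjap 2 x) hC0)
  have hB : ∃ B, ∀ x, |(fun x : Pos3 => f (jn (spl i) x y)) x| ≤ B := by
    refine ⟨C, fun x => (hC1 _).trans ?_⟩
    exact mul_le_of_le_one_right hC0 (jap_le_one 2 _)
  have := hV _ hcd hB hI1 hI2
  rw [this]
  congr 1
  refine integral_congr_ae (Eventually.of_forall fun x => ?_)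
  simp only [hder, ContinuousLinearMap.comp_apply, in1L_spl]

/-- integrability of bounded continuous one-electron potentials times Schwartz functions -/
theorem integrable_bdd_schwartz {Vs : Pos3 → ℝ} (hc : Continuous Vs) (hb : ∃ B, ∀ x, |Vs x| ≤ B)
    (i : Fin n) (f : 𝓢(Config n, ℝ)) : Integrable (fun x => Vs (elPos i x) * f x) := by
  obtain ⟨B, hB⟩ := hb
  exact f.integrable.bdd_mul (hc.comp (continuous_elPos i)).aestronglyMeasurable
    (Eventually.of_forall fun x => hB _)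

theorem integrable_Vnuc_schwartz (lam : ℝ) {K : ℕ} (P : Fin K → Pos3) (i : Fin n)
    (f : 𝓢(Config n, ℝ)) : Integrable (fun x => TA.Vnuc lam P (elPos i x) * f x) := by
  unfold TA.Vnuc
  simp only [Finset.sum_mul]
  refine integrable_finsetSum _ fun α _ => ?_
  have := (integrable_coulomb_schwartz f (elPosL i) (fun c => (i, c)) (elPosL_single i)
    (P α)).const_mul (-lam)
  refine this.congr (Eventually.of_forall fun x => ?_)
  simp only [elPosL_apply]
  ring


section N0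

variable {lam : ℝ} {K : ℕ} {P : Fin K → Pos3} {n0 : ℕ} {Vs w : Pos3 → ℝ} {F : Pos3 → Pos3}
  {C0 R eps1 eps2 kF W : ℝ}

theorem integrable_k_schwartz (h : TA.NucOK lam P n0 Vs w F C0 R eps1 eps2 kF W) (i : Fin n)
    (f : 𝓢(Config n, ℝ)) :
    Integrable (fun x => (TA.Vnuc lam P (elPos i x) - Vs (elPos i x)) * f x) := by
  have h1 := (integrable_Vnuc_schwartz lam P i f).sub
    (integrable_bdd_schwartz h.Vs_cont h.Vs_bdd i f)
  refine h1.congr (Eventually.of_forall fun x => ?_)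
  simp only [Pi.sub_apply]; ring


/-- (N0) for `n` electrons -/
theorem nbody_N0 (h : TA.NucOK lam P n0 Vs w F C0 R eps1 eps2 kF W) (i : Fin n)
    (f : 𝓢(Config n, ℝ)) :
    ∫ x, (TA.Vnuc lam P (elPos i x) - Vs (elPos i x)) * f x =
      - ∫ x, fderiv ℝ f x (TA.emb i (F (elPos i x))) :=
  (nbody_div h.F_meas h.F_le h.N0 i f (integrable_k_schwartz h i f)).2

end N0

end Crest.Agent.R338.Fm
end
end

-- ▼ part R338/TA7
section

/-!
# Row 338, node TA (helper64): the near region, second half (oscillator splitting)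
-/

set_option autoImplicit false

open MeasureTheory SchwartzMap Filter
open scoped ContDiff ENNReal ComplexConjugate Topology

noncomputable section

namespace Crest.Agent.R338.TA

open Crest.MathPhysics.ElectronicCoulomb
open Crest.Agent.R338.HO Crest.Agent.R338.Fm Crest.Agent.R338.TL
open Crest.Agent.R335.HF (IsH1 Gr E kin cgrad)

/-- the wave of a tensor as a Schwartz wave -/
def wvS {N n0 : ℕ} (C : Ten N n0) : SW N := fun s => HO.wavS C s

theorem toW_wvS {N n0 : ℕ} (C : Ten N n0) : toW (wvS C) = wav C := by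
  funext s x
  change HO.wavS C s x = wav C s x
  rw [← HO.wavS_coe]

theorem wvS_apply {N n0 : ℕ} (C : Ten N n0) (s : Spin N) (x : Config N) :
    wvS C s x = wav C s x := congrFun (congrFun (toW_wvS C) s) x

theorem nq_wvS {N n0 : ℕ} (C : Ten N n0) : nq (wvS C) = tsq C := by
  unfold nq
  rw [toW_wvS, nsq_wav]

theorem integral_rho_wvS {N n0 : ℕ} (C : Ten N n0) {G : Config N → ℝ} (hI : JI C G) :
    ∫ x, G x * rho (wvS C) (wvS C) x = J C G := by
  unfold J
  rw [← integral_finsetSum _ fun s _ => hI s]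
  refine integral_congr_ae (Eventually.of_forall fun x => ?_)
  simp only [rho_self, Finset.mul_sum, wvS_apply]

theorem hoscS_wvS {n0 Nv : ℕ} {C : Ten (Nel n0 Nv) n0} (hA : Anti C) (hC : CoreFull C) :
    hoscS (wvS C) = EN n0 Nv * tsq C := by
  unfold hoscS
  rw [toW_wvS, ← hosc_wav hA hC]
  congr 1
  funext s
  unfold gwav wvS
  rw [HO.wavS_coe]

theorem EN_nonneg (n0 Nv : ℕ) : 0 ≤ EN n0 Nv := by
  unfold EN; positivity

theorem nb0_of {N : ℕ} {lam : ℝ} {K : ℕ} {P : Fin K → Pos3} {n0 : ℕ} {Vs w : Pos3 → ℝ}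
    {F : Pos3 → Pos3} {C0 R eps1 eps2 kF W : ℝ}
    (h : NucOK lam P n0 Vs w F C0 R eps1 eps2 kF W) : NB0 N (kk lam P Vs) F :=
  fun i f => nbody_N0 h i f

/-- splitting of a fermionic Schwartz wave -/
theorem split_sw {n0 Nv : ℕ} (u : SW (Nel n0 Nv)) (hF : IsFermionic (toW u)) :
    ∃ C : Ten (Nel n0 Nv) n0, Anti C ∧ CoreFull C ∧
      nq u = tsq C + nq (u - wvS C) ∧ hoscS u = EN n0 Nv * tsq C + hoscS (u - wvS C) ∧
      (EN n0 Nv + 1) * nq (u - wvS C) ≤ hoscS (u - wvS C) := by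
  have hosc : WaveOsc (toW u) (fun s => cgrad (u s)) := fun s => HO.isOsc_schwartz (u s)
  obtain ⟨-, h2, h3, h4⟩ := osc_split hF hosc
  set C := gsT (toW u) n0 with hC
  have e1 : toW (u - wvS C) = fun s x => toW u s x - wav C s x := by
    funext s x
    simp only [toW_apply, Pi.sub_apply, SchwartzMap.sub_apply, wvS_apply]
  have e2 : (fun s => cgrad ((u - wvS C) s)) = fun s x => cgrad (u s) x - gwav C s x := by
    funext s x
    unfold gwav
    ext ic
    have h5 : ((u - wvS C) s : Config (Nel n0 Nv) → ℂ) = fun x => u s x - wvS C s x := by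
      funext x; simp
    have h6 : (wvS C s : Config (Nel n0 Nv) → ℂ) = wav C s := by
      funext x; exact wvS_apply C s x
    have h7 : HasFDerivAt ((u - wvS C) s : Config (Nel n0 Nv) → ℂ)
        (fderiv ℝ (u s) x - fderiv ℝ (wvS C s) x) x := by
      rw [h5]
      exact (u s).hasFDerivAt x |>.sub ((wvS C s).hasFDerivAt x)
    simp only [Crest.Agent.R335.HF.cgrad_apply, PiLp.sub_apply]
    rw [h7.fderiv, ContinuousLinearMap.sub_apply, ← h6]
  refine ⟨C, anti_gsT hF n0, coreFull_gsT (toW u) n0, ?_, ?_, ?_⟩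
  · unfold nq; rw [e1]; exact h2
  · unfold hoscS; rw [e1, e2]; exact h3
  · unfold nq hoscS; rw [e1, e2]; exact h4

section
variable {lam : ℝ} {K : ℕ} {P : Fin K → Pos3} {n0 Nv : ℕ} {Vs w : Pos3 → ℝ} {F : Pos3 → Pos3}
  {C0 R eps1 eps2 kF W beta : ℝ}

/-- the perturbation form on tensor waves -/
theorem bF_wvS (h : NucOK lam P n0 Vs w F C0 R eps1 eps2 kF W) {C : Ten (Nel n0 Nv) n0}
    (h1 : OneB C) (h2 : TwoB C) :
    bF lam w (kk lam P Vs) (wvS C) (wvS C) = lam * BF w C +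
      oneF (fun a b => ∫ x, kk lam P Vs x * (Phi a.1 x * Phi b.1 x)) C := by
  have hw := h1 w h.w_cont.aestronglyMeasurable (fun a b =>
    (integrable_PhiPhi a.1 b.1).bdd_mul h.w_cont.aestronglyMeasurable
      (Eventually.of_forall fun x => h.w_le x))
  obtain ⟨B, hB⟩ := h.Vs_bdd
  have hk := h1 (kk lam P Vs) ((TL.measurable_Vnuc lam P).sub h.Vs_cont.measurable).aestronglyMeasurable
    (fun a b => by
      unfold kk
      simp only [sub_mul]
      exact (integrable_Vnuc_Phi lam P a.1 b.1).sub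
        ((integrable_PhiPhi a.1 b.1).bdd_mul h.Vs_cont.aestronglyMeasurable
          (Eventually.of_forall fun x => hB x)))
  unfold bF BF
  have e1 : ∫ x, osum w x * rho (wvS C) (wvS C) x = oneF (fun a b => wI w a.1 b.1) C :=
    (integral_rho_wvS C (G := osum w) hw.1).trans hw.2
  have e2 : ∫ x, repul x * rho (wvS C) (wvS C) x = twoF (fun a b c d => W4 a.1 b.1 c.1 d.1) C :=
    (integral_rho_wvS C (G := repul) (JI_rep C)).trans h2
  have e3 : ∫ x, osum (kk lam P Vs) x * rho (wvS C) (wvS C) x =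
      oneF (fun a b => ∫ x, kk lam P Vs x * (Phi a.1 x * Phi b.1 x)) C :=
    (integral_rho_wvS C (G := osum (kk lam P Vs)) hk.1).trans hk.2
  rw [e1, e2, e3]
  ring

theorem h1q_wvS_le {C : Ten (Nel n0 Nv) n0} (hA : Anti C) (hC : CoreFull C) :
    h1q (wvS C) ≤ (1 + 2 * EN n0 Nv) * tsq C := by
  have h1 := hoscS_wvS hA hC
  rw [hoscS_eq] at h1
  have h2 : 0 ≤ ∫ x, ‖x‖ ^ 2 * rho (wvS C) (wvS C) x :=
    integral_nonneg fun x => mul_nonneg (by positivity) (rho_self_nonneg _ x)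
  unfold h1q
  rw [nq_wvS]
  linarith

/-- upper bound of `lam * beta` -/
theorem lam_beta_le (h : NucOK lam P n0 Vs w F C0 R eps1 eps2 kF W) {C : Ten (Nel n0 Nv) n0}
    (hA : Anti C) (hC : CoreFull C) (h1 : OneB C) (h2 : TwoB C) (hn : tsq C = 1)
    (hb : beta * tsq C ≤ BF w C) :
    beta ≤ Nel n0 Nv * W + (Nel n0 Nv : ℝ) ^ 2 * (1 + 2 * EN n0 Nv) := by
  have hw := h1 w h.w_cont.aestronglyMeasurable (fun a b =>
    (integrable_PhiPhi a.1 b.1).bdd_mul h.w_cont.aestronglyMeasurable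
      (Eventually.of_forall fun x => h.w_le x))
  have e1 : ∫ x, osum w x * rho (wvS C) (wvS C) x = oneF (fun a b => wI w a.1 b.1) C :=
    (integral_rho_wvS C (G := osum w) hw.1).trans hw.2
  have e2 : ∫ x, repul x * rho (wvS C) (wvS C) x = twoF (fun a b c d => W4 a.1 b.1 c.1 d.1) C :=
    (integral_rho_wvS C (G := repul) (JI_rep C)).trans h2
  have a1 := (abs_le.1 (abs_int_bdd_le (abs_osum_le h.w_le) (wvS C) (wvS C))).2
  have a2 := int_repul_self_le (wvS C)
  have a3 := h1q_wvS_le hA hC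
  have a4 : √(nq (wvS C)) * √(nq (wvS C)) = 1 := by
    rw [Real.mul_self_sqrt (nq_nonneg _), nq_wvS, hn]
  rw [hn] at a3 hb
  rw [e1, a4] at a1
  rw [e2] at a2
  have a5 : (Nel n0 Nv : ℝ) ^ 2 * h1q (wvS C) ≤ (Nel n0 Nv : ℝ) ^ 2 * ((1 + 2 * EN n0 Nv) * 1) :=
    mul_le_mul_of_nonneg_left a3 (by positivity)
  unfold BF at hb
  linarith

/-- NEAR region, second half -/
theorem near_main (h : NucOK lam P n0 Vs w F C0 R eps1 eps2 kF W)
    (hOne : ∀ C : Ten (Nel n0 Nv) n0, OneB C) (hTwo : ∀ C : Ten (Nel n0 Nv) n0, TwoB C)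
    (hbeta : ∀ C : Ten (Nel n0 Nv) n0, Anti C → CoreFull C → beta * tsq C ≤ BF w C)
    (u : SW (Nel n0 Nv)) (hF : IsFermionic (toW u))
    {M : ℝ} (hM : M = lam * Nel n0 Nv * W + lam * (Nel n0 Nv : ℝ) ^ 2 + 2 * Nel n0 Nv * kF)
    (hM4 : 16 * (EN n0 Nv + 1) * M ≤ 1) (hlb : 16 * (EN n0 Nv + 1) * (lam * beta) ≤ 1) :
    (EN n0 Nv + lam * beta - Nel n0 Nv * Fintype.card (Sp n0) * eps1 -
      8 * (EN n0 Nv + 1) * (1 + 2 * EN n0 Nv) * M ^ 2) * nq u ≤
      hoscS u + bF lam w (kk lam P Vs) u u := by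
  obtain ⟨C, hA, hC, e1, e2, e3⟩ := split_sw u hF
  set q := u - wvS C with hq
  have hu : u = wvS C + q := by rw [hq]; abel
  have hk := nb0_of (N := Nel n0 Nv) h
  have hb := bF_add h (wvS C) q
  rw [← hu] at hb
  have hW := h.W_nonneg
  have hl := h.lam_pos
  have hkF := h.kF_nonneg
  have hM0 : 0 ≤ M := by rw [hM]; positivity
  have he := EN_nonneg n0 Nv
  have hP := tsq_nonneg C
  have hQ := nq_nonneg q
  -- the block on the model space
  have hpp : (lam * beta - Nel n0 Nv * Fintype.card (Sp n0) * eps1) * tsq C ≤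
      bF lam w (kk lam P Vs) (wvS C) (wvS C) := by
    rw [bF_wvS h (hOne C) (hTwo C)]
    have b1 : lam * (beta * tsq C) ≤ lam * BF w C :=
      mul_le_mul_of_nonneg_left (hbeta C hA hC) hl.le
    have b2 := (abs_le.1 (abs_oneF_le (h := fun a b : Sp n0 =>
      ∫ x, kk lam P Vs x * (Phi a.1 x * Phi b.1 x)) (eps := eps1)
      (fun a b => h.N3 a.1 b.1 a.2 b.2) C)).1
    linarith
  have hGp := h1q_wvS_le hA hC
  have hGq : h1q q ≤ 4 * hoscS q := by
    have c1 := hoscS_eq q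
    have c2 : 0 ≤ ∫ x, ‖x‖ ^ 2 * rho q q x :=
      integral_nonneg fun x => mul_nonneg (by positivity) (rho_self_nonneg _ x)
    have c3 : nq q ≤ hoscS q := by nlinarith
    unfold h1q
    linarith
  have key := form_num (e := EN n0 Nv) (P := tsq C) (Q := nq q) (H := hoscS q)
    (Gp := h1q (wvS C)) (Gq := h1q q) (M := M) (lb := lam * beta)
    (δ := Nel n0 Nv * Fintype.card (Sp n0) * eps1)
    (bpp := bF lam w (kk lam P Vs) (wvS C) (wvS C)) (bpq := bF lam w (kk lam P Vs) (wvS C) q)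
    (bqq := bF lam w (kk lam P Vs) q q) he hP hQ
    (by have := h.eps1_nonneg; positivity) e3 (h1q_nonneg _) hGp (nq_le_h1q q) hGq hM0 hM4 hlb hpp
    (by rw [hM]; exact abs_bF_le h hk (wvS C) q)
    (by
      have := abs_bF_le h hk q q
      rw [Real.mul_self_sqrt (h1q_nonneg q)] at this
      rw [hM]; exact this)
  rw [e1, e2, hb]
  linarith

end

end Crest.Agent.R338.TA
end
end

-- ▼ part R338/TA8

/-!
# Row 338, node TA (helper64): assembly of the lower half of Theorem A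
-/

set_option autoImplicit false

open MeasureTheory SchwartzMap Filter
open scoped ContDiff ENNReal ComplexConjugate Topology

noncomputable section

namespace Crest.Agent.R338.TA

open Crest.MathPhysics.ElectronicCoulomb
open Crest.Agent.R338.HO Crest.Agent.R338.Fm Crest.Agent.R338.TL
open Crest.Agent.R335.HF (IsH1 Gr E kin cgrad)

/-! ### constants -/

theorem EN_le (n0 Nv : ℕ) : EN n0 Nv ≤ Nel n0 Nv * ((n0 : ℝ) + 3 / 2) := by
  rw [Nel_eq]
  unfold EN
  push_cast
  rw [add_mul, Finset.sum_mul]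
  refine add_le_add (Finset.sum_le_sum fun n hn => ?_) le_rfl
  have h1 : (n : ℝ) ≤ n0 := by exact_mod_cast (Finset.mem_range.1 hn).le
  have h2 : (0 : ℝ) ≤ ((n : ℝ) + 1) * (n + 2) := by positivity
  nlinarith

section
variable {n0 Nv : ℕ} {W : ℝ}

theorem EN_le_sq (hW : 0 ≤ W) : EN n0 Nv ≤ sizeP n0 Nv W ^ 2 := by
  refine (EN_le n0 Nv).trans ?_
  have h1 := Nel_le_sizeP (n0 := n0) (Nv := Nv) hW
  have h2 : (n0 : ℝ) + 3 / 2 ≤ sizeP n0 Nv W := by
    unfold sizeP
    have h3 : (0 : ℝ) ≤ Nel n0 Nv := by positivity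
    linarith
  calc (Nel n0 Nv : ℝ) * ((n0 : ℝ) + 3 / 2) ≤ sizeP n0 Nv W * sizeP n0 Nv W :=
        mul_le_mul h1 h2 (by positivity) (by linarith [two_le_sizeP (n0 := n0) (Nv := Nv) hW])
    _ = _ := by ring

end

set_option maxHeartbeats 1000000 in
/-- all numerical inequalities of the lower bound -/
theorem numerics {N e S a lam kF W lb eps1 eps2 R c M cS Mt : ℝ} {D : ℕ} (hN0 : 0 ≤ N) (hN : N ≤ S)
    (hS : 2 ≤ S) (he0 : 0 ≤ e) (he : e ≤ S ^ 2) (hW0 : 0 ≤ W) (hW : W ≤ S) (hlam : 0 < lam)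
    (hkF : 0 ≤ kF) (ha : a = lam + kF) (hR : 1 ≤ R) (heps1 : 0 ≤ eps1) (heps2 : 0 ≤ eps2)
    (heps21 : eps2 ≤ 1) (hM : M = lam * N * W + lam * N ^ 2 + 2 * N * kF)
    (hb : lb ≤ lam * (N * W + N ^ 2 * (1 + 2 * e)))
    (hcS : N * cS ≤ S ^ 4) (hcS0 : 0 ≤ cS) (hMt : 0 ≤ Mt) (hMt2 : 2 * Mt ≤ S ^ (D - 1))
    (hD : 20 ≤ D) (hsmall : S ^ D * a ≤ 1) (hbig : S ^ D ≤ R ^ 2) (hc : c = 2 * Mt * N / R ^ 2) :
    16 * (e + 1) * M ≤ 1 ∧ 16 * (e + 1) * lb ≤ 1 ∧
      (e + lb - N * cS * eps1 - 8 * (e + 1) * (1 + 2 * e) * M ^ 2) - N * eps2 - c ≥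
        e + lb - S ^ D * (lam ^ 2 + kF ^ 2 + eps1 + eps2 + 1 / R ^ 2) ∧
      R ^ 2 / 4 - N * (lam * W + eps2) - 2 * N ^ 2 * kF ^ 2 - c ≥
        e + lb - S ^ D * (lam ^ 2 + kF ^ 2 + eps1 + eps2 + 1 / R ^ 2) := by
  have hS1 : 1 ≤ S := by linarith
  have hS0 : 0 ≤ S := by linarith
  have ha0 : 0 < a := by rw [ha]; linarith
  have hla : lam ≤ a := by rw [ha]; linarith
  have hka : kF ≤ a := by rw [ha]; linarith
  -- powers
  have hp : ∀ k : ℕ, k ≤ D → S ^ k * a ≤ 1 := fun k hk =>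
    (mul_le_mul_of_nonneg_right (pow_le_pow_right₀ hS1 hk) ha0.le).trans hsmall
  have hNS : N * W ≤ S ^ 2 := by
    calc N * W ≤ S * S := mul_le_mul hN hW hW0 hS0
      _ = S ^ 2 := by ring
  have hN2 : N ^ 2 ≤ S ^ 2 := pow_le_pow_left₀ hN0 hN 2
  have h2S : 2 * S ≤ 2 * S ^ 2 := by nlinarith
  have hMle : M ≤ 2 * S ^ 2 * a := by
    rw [hM, ha]
    have i1 : lam * N * W ≤ lam * S ^ 2 := by
      calc lam * N * W = lam * (N * W) := by ring
        _ ≤ _ := mul_le_mul_of_nonneg_left hNS hlam.le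
    have i2 : lam * N ^ 2 ≤ lam * S ^ 2 := mul_le_mul_of_nonneg_left hN2 hlam.le
    have i3 : 2 * N * kF ≤ 2 * S ^ 2 * kF :=
      mul_le_mul_of_nonneg_right (by linarith) hkF
    have i4 : 2 * S ^ 2 * (lam + kF) = lam * S ^ 2 + lam * S ^ 2 + 2 * S ^ 2 * kF := by ring
    rw [i4]
    linarith
  have hM0 : 0 ≤ M := by rw [hM]; positivity
  have hSsq : 1 ≤ S ^ 2 := one_le_pow₀ hS1
  have he1 : e + 1 ≤ 2 * S ^ 2 := by linarith
  have he2 : 1 + 2 * e ≤ 3 * S ^ 2 := by linarith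
  have h64 : (64 : ℝ) ≤ S ^ 6 := by
    calc (64 : ℝ) = 2 ^ 6 := by norm_num
      _ ≤ S ^ 6 := pow_le_pow_left₀ (by norm_num) hS 6
  have h4 : (4 : ℝ) ≤ S ^ 2 := by
    calc (4 : ℝ) = 2 ^ 2 := by norm_num
      _ ≤ S ^ 2 := pow_le_pow_left₀ (by norm_num) hS 2
  have h256 : (256 : ℝ) ≤ S ^ 8 := by
    calc (256 : ℝ) = 2 ^ 8 := by norm_num
      _ ≤ S ^ 8 := pow_le_pow_left₀ (by norm_num) hS 8
  -- first claim
  have c1 : 16 * (e + 1) * M ≤ 1 := by
    calc 16 * (e + 1) * M ≤ 16 * (2 * S ^ 2) * (2 * S ^ 2 * a) :=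
          mul_le_mul (by linarith) hMle hM0 (by positivity)
      _ = 64 * S ^ 4 * a := by ring
      _ ≤ S ^ 6 * S ^ 4 * a := by
          refine mul_le_mul_of_nonneg_right (mul_le_mul_of_nonneg_right h64 (by positivity)) ha0.le
      _ = S ^ 10 * a := by ring
      _ ≤ 1 := hp 10 (by omega)
  -- bound of `lb`
  have hB : lam * (N * W + N ^ 2 * (1 + 2 * e)) ≤ S ^ 6 * a := by
    have j1 : N * W + N ^ 2 * (1 + 2 * e) ≤ S ^ 2 + S ^ 2 * (3 * S ^ 2) :=
      add_le_add hNS (mul_le_mul hN2 he2 (by positivity) (by positivity))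
    have j2 : S ^ 2 + S ^ 2 * (3 * S ^ 2) ≤ S ^ 6 := by
      have : S ^ 2 ≤ S ^ 4 := pow_le_pow_right₀ hS1 (by norm_num)
      calc S ^ 2 + S ^ 2 * (3 * S ^ 2) = S ^ 2 + 3 * S ^ 4 := by ring
        _ ≤ 4 * S ^ 4 := by linarith
        _ ≤ S ^ 2 * S ^ 4 := mul_le_mul_of_nonneg_right h4 (by positivity)
        _ = S ^ 6 := by ring
    calc lam * (N * W + N ^ 2 * (1 + 2 * e)) ≤ a * S ^ 6 :=
          mul_le_mul hla (j1.trans j2) (by positivity) ha0.le
      _ = _ := by ring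
  have hlb : lb ≤ S ^ 6 * a := hb.trans hB
  have c2 : 16 * (e + 1) * lb ≤ 1 := by
    have : 16 * (e + 1) * lb ≤ 16 * (e + 1) * (S ^ 6 * a) :=
      mul_le_mul_of_nonneg_left hlb (by positivity)
    calc 16 * (e + 1) * lb ≤ 16 * (e + 1) * (S ^ 6 * a) := this
      _ ≤ 16 * (2 * S ^ 2) * (S ^ 6 * a) :=
          mul_le_mul_of_nonneg_right (by linarith) (by positivity)
      _ = 32 * S ^ 8 * a := by ring
      _ ≤ S ^ 6 * S ^ 8 * a := by
          refine mul_le_mul_of_nonneg_right (mul_le_mul_of_nonneg_right (by linarith)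
            (by positivity)) ha0.le
      _ = S ^ 14 * a := by ring
      _ ≤ 1 := hp 14 (by omega)
  -- the IMS error
  have hc' : c ≤ S ^ D * (1 / R ^ 2) := by
    rw [hc]
    have k1 : 2 * Mt * N ≤ S ^ (D - 1) * S := mul_le_mul hMt2 hN hN0 (by positivity)
    have k2 : S ^ (D - 1) * S = S ^ D := by
      rw [← pow_succ]; congr 1; omega
    rw [k2] at k1
    calc 2 * Mt * N / R ^ 2 = 2 * Mt * N * (1 / R ^ 2) := by ring
      _ ≤ S ^ D * (1 / R ^ 2) := mul_le_mul_of_nonneg_right k1 (by positivity)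
  -- second order
  have hMsq : 8 * (e + 1) * (1 + 2 * e) * M ^ 2 ≤ S ^ D * (lam ^ 2 + kF ^ 2) := by
    have l1 : M ^ 2 ≤ (2 * S ^ 2 * a) ^ 2 := pow_le_pow_left₀ hM0 hMle 2
    have l2 : 8 * (e + 1) * (1 + 2 * e) ≤ 8 * (2 * S ^ 2) * (3 * S ^ 2) :=
      mul_le_mul (by linarith) he2 (by positivity) (by positivity)
    have l3 : a ^ 2 ≤ 2 * (lam ^ 2 + kF ^ 2) := by
      rw [ha]; nlinarith [sq_nonneg (lam - kF)]
    have l4 : (0 : ℝ) ≤ lam ^ 2 + kF ^ 2 := by positivity
    calc 8 * (e + 1) * (1 + 2 * e) * M ^ 2 ≤ 8 * (2 * S ^ 2) * (3 * S ^ 2) * (2 * S ^ 2 * a) ^ 2 :=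
          mul_le_mul l2 l1 (by positivity) (by positivity)
      _ = 192 * S ^ 8 * a ^ 2 := by ring
      _ ≤ 192 * S ^ 8 * (2 * (lam ^ 2 + kF ^ 2)) := mul_le_mul_of_nonneg_left l3 (by positivity)
      _ = 384 * S ^ 8 * (lam ^ 2 + kF ^ 2) := by ring
      _ ≤ S ^ D * (lam ^ 2 + kF ^ 2) := by
          refine mul_le_mul_of_nonneg_right ?_ l4
          have m1 : (384 : ℝ) ≤ S ^ 9 := by
            calc (384 : ℝ) ≤ 2 ^ 9 := by norm_num
              _ ≤ S ^ 9 := pow_le_pow_left₀ (by norm_num) hS 9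
          calc 384 * S ^ 8 ≤ S ^ 9 * S ^ 8 := mul_le_mul_of_nonneg_right m1 (by positivity)
            _ = S ^ 17 := by ring
            _ ≤ S ^ D := pow_le_pow_right₀ hS1 (by omega)
  have hd1 : N * cS * eps1 ≤ S ^ D * eps1 :=
    mul_le_mul_of_nonneg_right (hcS.trans (pow_le_pow_right₀ hS1 (by omega))) heps1
  have hSD : S ≤ S ^ D := by
    calc S = S ^ 1 := (pow_one S).symm
      _ ≤ S ^ D := pow_le_pow_right₀ hS1 (by omega)
  have hd2 : N * eps2 ≤ S ^ D * eps2 := mul_le_mul_of_nonneg_right (hN.trans hSD) heps2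
  refine ⟨c1, c2, ?_, ?_⟩
  · have : S ^ D * (lam ^ 2 + kF ^ 2 + eps1 + eps2 + 1 / R ^ 2) =
        S ^ D * (lam ^ 2 + kF ^ 2) + S ^ D * eps1 + S ^ D * eps2 + S ^ D * (1 / R ^ 2) := by ring
    rw [this]
    linarith
  · have t0 : 0 ≤ S ^ D * (lam ^ 2 + kF ^ 2 + eps1 + eps2) := by positivity
    have t1 : S ^ D * (lam ^ 2 + kF ^ 2 + eps1 + eps2 + 1 / R ^ 2) =
        S ^ D * (lam ^ 2 + kF ^ 2 + eps1 + eps2) + S ^ D * (1 / R ^ 2) := by ring
    have t2 : lb ≤ 1 := by
      have : S ^ 6 * a ≤ 1 := hp 6 (by omega)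
      linarith
    have t3 : N * (lam * W) ≤ 1 := by
      calc N * (lam * W) = lam * (N * W) := by ring
        _ ≤ a * S ^ 2 := mul_le_mul hla hNS (by positivity) ha0.le
        _ = S ^ 2 * a := by ring
        _ ≤ 1 := hp 2 (by omega)
    have t4 : N * eps2 ≤ S := by
      calc N * eps2 ≤ N * 1 := mul_le_mul_of_nonneg_left heps21 hN0
        _ ≤ S := by linarith
    have t5 : 2 * N ^ 2 * kF ^ 2 ≤ 2 := by
      have u1 : N * kF ≤ 1 := by
        calc N * kF ≤ S * a := mul_le_mul hN hka hkF hS0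
          _ = S ^ 1 * a := by ring
          _ ≤ 1 := hp 1 (by omega)
      have u2 : 0 ≤ N * kF := by positivity
      have u3 : (N * kF) ^ 2 ≤ 1 := pow_le_one₀ u2 u1
      calc 2 * N ^ 2 * kF ^ 2 = 2 * (N * kF) ^ 2 := by ring
        _ ≤ 2 := by linarith
    have t6 : 4 * (S ^ 2 + 1 + 1 + S + 2) ≤ R ^ 2 := by
      refine le_trans ?_ hbig
      have v1 : S ≤ S ^ 2 := le_self_pow₀ hS1 (by norm_num)
      have v2 : S ^ 2 + 1 + 1 + S + 2 ≤ 4 * S ^ 2 := by linarith
      calc 4 * (S ^ 2 + 1 + 1 + S + 2) ≤ 4 * (4 * S ^ 2) := by linarith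
        _ = 16 * S ^ 2 := by ring
        _ ≤ S ^ 4 * S ^ 2 := by
            refine mul_le_mul_of_nonneg_right ?_ (by positivity)
            calc (16 : ℝ) = 2 ^ 4 := by norm_num
              _ ≤ S ^ 4 := pow_le_pow_left₀ (by norm_num) hS 4
        _ = S ^ 6 := by ring
        _ ≤ S ^ D := pow_le_pow_right₀ hS1 (by omega)
    rw [t1]
    have t7 : N * (lam * W + eps2) = N * (lam * W) + N * eps2 := by ring
    rw [t7]
    linarith

/-! ### main assembly -/

theorem fermionic_mulW {N : ℕ} {Th : Config N → ℝ} (g : ℝ → ℝ)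
    (hJ : (fun x => g (Th x)).HasTemperateGrowth)
    (hT : ∀ (σ : Equiv.Perm (Fin N)) x, Th (permConfig σ x) = Th x) {u : SW N}
    (hu : ∀ (σ : Equiv.Perm (Fin N)) (s : Spin N) (x : Config N),
      u (fun i => s (σ i)) (permConfig σ x) = ((Equiv.Perm.sign σ : ℤ) : ℂ) * u s x) :
    IsFermionic (toW (mulW (fun x => g (Th x)) u)) := by
  refine ⟨fun s => (mulW (fun x => g (Th x)) u s).memLp 2 volume, fun σ s x => ?_⟩
  simp only [toW_apply]
  rw [mulW_apply hJ, mulW_apply hJ, hu σ s x, hT σ x]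
  ring

theorem integrable_pot_rho {N : ℕ} (lam : ℝ) {K : ℕ} (P : Fin K → Pos3) (u : SW N) :
    Integrable (fun x => lam * unitNucleiPotential P x * rho u u x) := by
  simp only [rho_self, Finset.mul_sum]
  exact integrable_finsetSum _ fun s _ => integrable_pot lam P u s

theorem theoremALower_of (hOne : ∀ (n0 Nv : ℕ) (C : Ten (Nel n0 Nv) n0), OneB C)
    (hTwo : ∀ (n0 Nv : ℕ) (C : Ten (Nel n0 Nv) n0), TwoB C)
    (hEx : ∀ n0 Nv : ℕ, Nv ≤ (n0 + 1) * (n0 + 2) →
      ∃ C : Ten (Nel n0 Nv) n0, Anti C ∧ CoreFull C ∧ tsq C = 1) : TheoremALower := by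
  obtain ⟨Mt, hMt0, hMt⟩ := exists_cgrad_Theta_bound
  obtain ⟨D', hD'⟩ := pow_unbounded_of_one_lt (2 * Mt) (by norm_num : (1 : ℝ) < 2)
  refine ⟨20 + D', ?_⟩
  intro lam K P n0 Nv Vs w F C0 R eps1 eps2 kF W beta h hNv1 hNv2 hsmall hbig hbeta
  have hW := h.W_nonneg
  have hl := h.lam_pos
  have hkF := h.kF_nonneg
  have hR1 := h.one_le_R
  have hR0 : 0 < R := by linarith
  set N := Nel n0 Nv with hNdef
  set S := sizeP n0 Nv W with hSdef
  have hS2 : 2 ≤ S := two_le_sizeP hW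
  -- upper bound of beta
  obtain ⟨C1, hA1, hC1, hn1⟩ := hEx n0 Nv hNv2
  have hbb := lam_beta_le h hA1 hC1 (hOne n0 Nv C1) (hTwo n0 Nv C1) hn1 (hbeta C1 hA1 hC1)
  obtain ⟨g1, g2, g3, g4⟩ := numerics (N := (N : ℝ)) (e := EN n0 Nv) (S := S) (a := lam + kF)
    (lam := lam) (kF := kF) (W := W) (lb := lam * beta) (eps1 := eps1) (eps2 := eps2) (R := R)
    (c := 2 * Mt * N / R ^ 2) (M := lam * N * W + lam * (N : ℝ) ^ 2 + 2 * N * kF)
    (cS := (Fintype.card (Sp n0) : ℝ)) (Mt := Mt) (D := 20 + D') (by positivity)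
    (Nel_le_sizeP hW) hS2 (EN_nonneg n0 Nv) (EN_le_sq hW) hW W_le_sizeP hl hkF rfl hR1
    h.eps1_nonneg h.eps2_nonneg h.eps2_le rfl
    (mul_le_mul_of_nonneg_left hbb hl.le)
    (const1 hW) (by positivity) hMt0
    (by
      calc 2 * Mt ≤ 2 ^ D' := hD'.le
        _ ≤ S ^ D' := pow_le_pow_left₀ (by norm_num) hS2 D'
        _ ≤ S ^ (20 + D' - 1) := pow_le_pow_right₀ (by linarith) (by omega))
    (by omega) hsmall hbig rfl
  refine Dens.infEnergyGE_of_cc (formBdd_scaled lam P) ?_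
  intro Φ hAnti hsm hcs
  -- the Schwartz wave
  set u : SW N := fun s => (hcs s).toSchwartzMap (hsm s) with hu
  have hu' : toW u = Φ := by
    funext s x; rfl
  have hus : ∀ (σ : Equiv.Perm (Fin N)) (s : Spin N) (x : Config N),
      u (fun i => s (σ i)) (permConfig σ x) = ((Equiv.Perm.sign σ : ℤ) : ℂ) * u s x := by
    intro σ s x
    exact hAnti σ s x
  have hΘs := contDiff_Theta (N := N) R
  have hΘc := supp_Theta (N := N) hR0
  set u1 := mulW (Jin (Theta R)) u with hu1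
  set u2 := mulW (Jout (Theta R)) u with hu2
  have hnorm : (normSq Φ).toReal = nq u := by
    have h0 := Dens.normSq_toReal (Ψ := toW u) (fun s => (u s).memLp 2 volume)
    rw [← hu', h0]
    rfl
  rw [hnorm, ← hu']
  -- IMS
  have himsd := ims hΘs hΘc (B := Mt * N / R ^ 2) (fun x => hMt N R hR0 x) u
  have hnq := nq_pair hΘs hΘc u
  have hen : energy (fun x => lam * unitNucleiPotential P x) (toW u1) +
      energy (fun x => lam * unitNucleiPotential P x) (toW u2) ≤
      energy (fun x => lam * unitNucleiPotential P x) (toW u) + 2 * Mt * N / R ^ 2 * nq u := by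
    rw [energy_toW u1 (integrable_pot lam P u1), energy_toW u2 (integrable_pot lam P u2),
      energy_toW u (integrable_pot lam P u)]
    have e1 : (∫ x, lam * unitNucleiPotential P x * rho u1 u1 x) +
        (∫ x, lam * unitNucleiPotential P x * rho u2 u2 x) =
        ∫ x, lam * unitNucleiPotential P x * rho u u x := by
      rw [← integral_add (integrable_pot_rho lam P u1) (integrable_pot_rho lam P u2)]
      refine integral_congr_ae (Eventually.of_forall fun x => ?_)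
      simp only
      rw [← mul_add, rho_pair hΘs hΘc]
    have hpi : (Real.pi / 2) ^ 2 ≤ 4 := by
      have h1 := Real.pi_le_four
      have h2 := Real.pi_pos
      nlinarith
    have hMN : 0 ≤ Mt * N / R ^ 2 * nq u := by
      have := nq_nonneg u
      positivity
    have h3 : (Real.pi / 2) ^ 2 * (Mt * N / R ^ 2) * nq u ≤ 4 * (Mt * N / R ^ 2 * nq u) := by
      calc (Real.pi / 2) ^ 2 * (Mt * N / R ^ 2) * nq u = (Real.pi / 2) ^ 2 * (Mt * N / R ^ 2 * nq u) := by
            ring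
        _ ≤ 4 * (Mt * N / R ^ 2 * nq u) := mul_le_mul_of_nonneg_right hpi hMN
    have h4 : 2 * Mt * N / R ^ 2 * nq u = 2 * (Mt * N / R ^ 2 * nq u) := by ring
    rw [h4]
    linarith
  -- near part
  have hF1 : IsFermionic (toW u1) :=
    fermionic_mulW (fun t => Real.sin (Real.pi / 2 * t)) (htg_Jin hΘs hΘc) (Theta_perm R) hus
  have hsupp1 : ∀ s x, u1 s x ≠ 0 → ∀ ic, |x ic| ≤ 2 * R := by
    intro s x hx ic
    by_contra hcon
    push Not at hcon
    apply hx
    rw [hu1, mulW_apply (htg_Jin hΘs hΘc)]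
    unfold Jin
    rw [Theta_eq_zero hR0 ⟨ic, hcon.le⟩]
    simp
  have hsupp2 : ∀ s x, u2 s x ≠ 0 → ∃ ic, R < |x ic| := by
    intro s x hx
    by_contra hcon
    push Not at hcon
    apply hx
    rw [hu2, mulW_apply (htg_Jout hΘs hΘc)]
    unfold Jout
    rw [Theta_eq_one hR0 hcon, mul_one, Real.cos_pi_div_two]
    simp
  have n1 := near_lower h u1 hsupp1
  have n2 := near_main h (hOne n0 Nv) (hTwo n0 Nv) hbeta u1 hF1 rfl g1 g2
  have n3 := far_lower h (nb0_of h) u2 hsupp2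
  have q1 := nq_nonneg u1
  have q2 := nq_nonneg u2
  have m1 := mul_le_mul_of_nonneg_right g3 q1
  have m2 := mul_le_mul_of_nonneg_right g4 q2
  rw [← hnq] at hen ⊢
  linarith

end Crest.Agent.R338.TA
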