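import Crest.Agent.R338.SC5_Mg
import Crest.Agent.R338.Br
import Crest.Agent.R338.XF4
import Crest.Agent.R338.TA8

-- ▼ part R338/SC6
section

/-!
Row 338 (S0529), node SC: the tensor form `BF` of `TA0` on core-full tensors versus the
`shellForm` of `Iface`. helper426.
-/

set_option autoImplicit false
set_option linter.unusedSectionVars false
set_option linter.unusedVariables false

open Finset Function
open Crest.MathPhysics.ElectronicCoulomb

noncomputable section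

namespace Crest.Agent.R338.SC

/-! ### real forms -/

section RealForms

variable {Ω : Type} [Fintype Ω] [DecidableEq Ω] {k : ℕ}

theorem form1_eq (h : Ω → Ω → ℝ) (D : (Fin k → Ω) → ℂ) :
    form1 h D = (ip D (one (fun a b => ((h a b : ℝ) : ℂ)) D)).re := by
  unfold form1 ip one
  rw [Finset.sum_comm, Complex.re_sum]
  refine Finset.sum_congr rfl fun v _ => ?_
  rw [Finset.mul_sum, Complex.re_sum]
  refine Finset.sum_congr rfl fun i _ => ?_
  rw [Finset.mul_sum, Complex.re_sum]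
  refine Finset.sum_congr rfl fun b _ => ?_
  rw [← Complex.re_ofReal_mul]
  congr 1
  ring

theorem form2_eq (W : Ω → Ω → Ω → Ω → ℝ) (hW : ∀ a b c d, W a b c d = W c d a b)
    (D : (Fin k → Ω) → ℂ) :
    2 * form2 W D = (ip D (two (fun a b c d => ((W a b c d : ℝ) : ℂ)) D)).re := by
  have hsW : (fun a b c d => ((W c d a b : ℝ) : ℂ)) = (fun a b c d => ((W a b c d : ℝ) : ℂ)) := by
    funext a b c d
    rw [hW]
  have h1 : ∀ ω : Fin k → Ω, two (fun a b c d => ((W a b c d : ℝ) : ℂ)) D ω =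
      2 * ∑ i, ∑ j, if i < j then pair (fun a b c d => ((W a b c d : ℝ) : ℂ)) D ω i j else 0 := by
    intro ω
    unfold two
    have hcongr : (∑ i, ∑ j, if i = j then 0 else
        pair (fun a b c d => ((W a b c d : ℝ) : ℂ)) D ω i j) =
        ∑ i, ∑ j, if i = j then 0 else (if i = j then 0 else
        pair (fun a b c d => ((W a b c d : ℝ) : ℂ)) D ω i j) := by
      refine Finset.sum_congr rfl fun i _ => Finset.sum_congr rfl fun j _ => ?_
      split_ifs <;> rfl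
    rw [hcongr, sum_lt_symm]
    · congr 1
      refine Finset.sum_congr rfl fun i _ => Finset.sum_congr rfl fun j _ => ?_
      by_cases h : i < j
      · rw [if_pos h, if_pos h, if_neg h.ne]
      · rw [if_neg h, if_neg h]
    · intro i j
      by_cases h : i = j
      · subst h; rfl
      · rw [if_neg h, if_neg (Ne.symm h), pair_comm _ _ _ h, hsW]
  unfold ip form2
  simp_rw [h1]
  rw [Complex.re_sum]
  have h2 : ∀ ω : Fin k → Ω, (starRingEnd ℂ (D ω) * (2 * ∑ i, ∑ j, if i < j then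
      pair (fun a b c d => ((W a b c d : ℝ) : ℂ)) D ω i j else 0)).re =
      2 * ∑ i, ∑ j, if i < j then ∑ b, ∑ d, W (ω i) b (ω j) d *
        (starRingEnd ℂ (D ω) * D (update (update ω i b) j d)).re else 0 := by
    intro ω
    have e1 : (starRingEnd ℂ (D ω) * (2 * ∑ i, ∑ j, if i < j then
      pair (fun a b c d => ((W a b c d : ℝ) : ℂ)) D ω i j else 0)) = ((2 : ℝ) : ℂ) *
      ∑ i, ∑ j, if i < j then starRingEnd ℂ (D ω) *
        pair (fun a b c d => ((W a b c d : ℝ) : ℂ)) D ω i j else 0 := by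
      rw [← mul_assoc, mul_comm (starRingEnd ℂ (D ω)) 2, mul_assoc, Finset.mul_sum]
      push_cast
      congr 1
      refine Finset.sum_congr rfl fun i _ => ?_
      rw [Finset.mul_sum]
      refine Finset.sum_congr rfl fun j _ => ?_
      split_ifs <;> simp
    rw [e1, Complex.re_ofReal_mul, Complex.re_sum]
    congr 1
    refine Finset.sum_congr rfl fun i _ => ?_
    rw [Complex.re_sum]
    refine Finset.sum_congr rfl fun j _ => ?_
    split_ifs
    · unfold pair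
      rw [Finset.mul_sum, Complex.re_sum]
      refine Finset.sum_congr rfl fun b _ => ?_
      rw [Finset.mul_sum, Complex.re_sum]
      refine Finset.sum_congr rfl fun d _ => ?_
      rw [← Complex.re_ofReal_mul]
      congr 1
      ring
    · simp
  simp_rw [h2]
  rw [← Finset.mul_sum]
  congr 1
  have h3 : ∀ (i j : Fin k), (if i < j then ∑ v : Fin k → Ω, ∑ b, ∑ d, W (v i) b (v j) d *
        (starRingEnd ℂ (D v) * D (update (update v i b) j d)).re else 0) =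
      ∑ v : Fin k → Ω, if i < j then ∑ b, ∑ d, W (v i) b (v j) d *
        (starRingEnd ℂ (D v) * D (update (update v i b) j d)).re else 0 := by
    intro i j
    split_ifs
    · rfl
    · simp
  simp_rw [h3]
  conv_rhs => rw [Finset.sum_comm]
  refine Finset.sum_congr rfl fun i _ => ?_
  rw [Finset.sum_comm]

end RealForms


/-! ### the form of `TA0` -/

variable {n0 : ℕ}

theorem TA_oneF_eq {N : ℕ} (h : TA.Sp n0 → TA.Sp n0 → ℝ) (C : TA.Ten N n0) :
    TA.oneF h C = (Tens.oneF h C).re := by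
  unfold TA.oneF Tens.oneF
  rw [Finset.sum_comm, Complex.re_sum]
  refine Finset.sum_congr rfl fun ω _ => ?_
  rw [Complex.re_sum]
  refine Finset.sum_congr rfl fun i _ => ?_
  rw [Complex.re_sum]
  refine Finset.sum_congr rfl fun b _ => ?_
  rw [mul_comm, ← Complex.re_ofReal_mul]
  congr 1
  unfold Tens.mv
  ring

theorem TA_twoF_eq {N : ℕ} (V : TA.Sp n0 → TA.Sp n0 → TA.Sp n0 → TA.Sp n0 → ℝ)
    (C : TA.Ten N n0) : TA.twoF V C = (Tens.twoF V C).re := by
  unfold TA.twoF Tens.twoF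
  rw [Complex.re_sum]
  have h3 : ∀ (i j : Fin N), (if i < j then ∑ ω : Fin N → TA.Orb n0, ∑ b : TA.Sp n0,
      ∑ d : TA.Sp n0, (starRingEnd ℂ (C ω) * C (Function.update (Function.update ω i
        ((ω i).1, b)) j ((ω j).1, d))).re * V (ω i).2 b (ω j).2 d else 0) =
      ∑ ω : Fin N → TA.Orb n0, if i < j then ∑ b : TA.Sp n0,
      ∑ d : TA.Sp n0, (starRingEnd ℂ (C ω) * C (Function.update (Function.update ω i
        ((ω i).1, b)) j ((ω j).1, d))).re * V (ω i).2 b (ω j).2 d else 0 := by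
    intro i j
    split_ifs
    · rfl
    · simp
  simp_rw [h3]
  have h4 : ∀ i : Fin N, (∑ j : Fin N, ∑ ω : Fin N → TA.Orb n0, if i < j then ∑ b : TA.Sp n0,
      ∑ d : TA.Sp n0, (starRingEnd ℂ (C ω) * C (Function.update (Function.update ω i
        ((ω i).1, b)) j ((ω j).1, d))).re * V (ω i).2 b (ω j).2 d else 0) =
      ∑ ω : Fin N → TA.Orb n0, ∑ j : Fin N, if i < j then ∑ b : TA.Sp n0,
      ∑ d : TA.Sp n0, (starRingEnd ℂ (C ω) * C (Function.update (Function.update ω i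
        ((ω i).1, b)) j ((ω j).1, d))).re * V (ω i).2 b (ω j).2 d else 0 := by
    intro i
    rw [Finset.sum_comm]
  simp_rw [h4]
  rw [Finset.sum_comm]
  refine Finset.sum_congr rfl fun ω _ => ?_
  rw [Complex.re_sum]
  refine Finset.sum_congr rfl fun i _ => ?_
  rw [Complex.re_sum]
  refine Finset.sum_congr rfl fun j _ => ?_
  rw [Complex.re_sum]
  by_cases hij : i < j
  · simp only [if_pos hij]
    refine Finset.sum_congr rfl fun b _ => ?_
    rw [Complex.re_sum]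
    refine Finset.sum_congr rfl fun d _ => ?_
    rw [mul_comm, ← Complex.re_ofReal_mul]
    congr 1
    unfold Tens.mv
    rw [update_of_ne hij.ne']
    ring
  · simp [if_neg hij]

theorem tsq_eq {N : ℕ} (C : TA.Ten N n0) : TA.tsq C = Tens.nsq C := rfl

/-- the core predicate -/
def crP (n0 : ℕ) (a : TA.Sp n0) : Prop := TA.deg3 a.1 < n0

instance (n0 : ℕ) : DecidablePred (crP n0) := fun a => by unfold crP; infer_instance

theorem coreFull_iff {N : ℕ} (C : TA.Ten N n0) : TA.CoreFull C ↔ FullCore (crP n0) C := by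
  constructor
  · intro h ω hω s a ha
    exact h ω hω (s, a) ha
  · intro h ω hω o ho
    exact h ω hω o.1 o.2 ho

theorem mem_core' (m : Idx) : m ∈ core n0 ↔ TA.deg3 m < n0 := XF.mem_core n0 m

theorem mem_shell' (m : Idx) : m ∈ shell n0 ↔ TA.deg3 m = n0 := XF.mem_shell n0 m

/-- core orbitals -/
def coreEquiv (n0 : ℕ) : {a : TA.Sp n0 // crP n0 a} ≃ {m : Idx // m ∈ core n0} where
  toFun a := ⟨a.1.1, (mem_core' _).2 a.2⟩
  invFun m := ⟨⟨m.1, ((mem_core' _).1 m.2).le⟩, (mem_core' _).1 m.2⟩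
  left_inv a := rfl
  right_inv m := rfl

/-- valence orbitals -/
def valEquiv (n0 : ℕ) : {a : TA.Sp n0 // ¬ crP n0 a} ≃ {m : Idx // m ∈ shell n0} where
  toFun a := ⟨a.1.1, (mem_shell' _).2 (le_antisymm a.1.2 (not_lt.1 a.2))⟩
  invFun m := ⟨⟨m.1, ((mem_shell' _).1 m.2).le⟩, not_lt.2 ((mem_shell' _).1 m.2).ge⟩
  left_inv a := rfl
  right_inv m := rfl

theorem sum_core_sub (f : Idx → ℝ) :
    ∑ c : {a : TA.Sp n0 // crP n0 a}, f c.1.1 = ∑ c ∈ core n0, f c := by
  rw [← Finset.sum_coe_sort (core n0) f]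
  exact Equiv.sum_comp (coreEquiv n0) (fun m : {m : Idx // m ∈ core n0} => f m.1)

theorem card_core_sub : Fintype.card {a : TA.Sp n0 // crP n0 a} = (core n0).card := by
  rw [Fintype.card_congr (coreEquiv n0), Fintype.card_coe]

theorem Nel_eq (Nv : ℕ) :
    TA.Nel n0 Nv = 2 * Fintype.card {a : TA.Sp n0 // crP n0 a} + Nv := by
  rw [card_core_sub, XF.card_core_choose]; rfl

theorem Nel_eq_numEl (Nv : ℕ) : TA.Nel n0 Nv = numEl n0 Nv := by
  rw [XF.numEl_eq]; rfl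

/-- the two-body tensor on the orbitals of `TA0` -/
abbrev WT (n0 : ℕ) (a b c d : TA.Sp n0) : ℝ := TA.W4 a.1 b.1 c.1 d.1

theorem coreOne_eq (w : Pos3 → ℝ) : coreOne (crP n0) (fun a b => TA.wI w a.1 b.1) =
    2 * ∑ c ∈ core n0, w1 w c c := by
  unfold coreOne
  rw [← sum_core_sub (fun c => w1 w c c)]
  simp_rw [Br.w1_eq]

theorem coreW_eq : coreW (crP n0) (WT n0) =
    ∑ c ∈ core n0, ∑ c' ∈ core n0, (2 * W4 c c c' c' - W4 c c' c c') := by
  unfold coreW
  rw [← sum_core_sub (fun c => ∑ c' ∈ core n0, (2 * W4 c c c' c' - W4 c c' c c'))]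
  refine Finset.sum_congr rfl fun c _ => ?_
  rw [← sum_core_sub (fun c' => (2 * W4 c.1.1 c.1.1 c' c' - W4 c.1.1 c' c.1.1 c'))]
  refine Finset.sum_congr rfl fun c' _ => ?_
  rw [Br.W4_eq, Br.W4_eq, ← Br.TA_W4_eq, ← Br.TA_W4_eq]
  congr 1
  exact CE.W_swap_right _ _ _ _

theorem field_eq (a b : TA.Sp n0) : field (crP n0) (WT n0) a b = fock n0 a.1 b.1 := by
  unfold field fock
  rw [← sum_core_sub (fun c => 2 * W4 a.1 b.1 c c - W4 a.1 c c b.1)]
  refine Finset.sum_congr rfl fun c _ => ?_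
  rw [Br.W4_eq, Br.W4_eq, ← Br.TA_W4_eq, ← Br.TA_W4_eq]
  have e1 : TA.W4 c.1.1 c.1.1 a.1 b.1 = TA.W4 a.1 b.1 c.1.1 c.1.1 := CE.W_symm _ _ _ _
  have e2 : TA.W4 c.1.1 b.1 a.1 c.1.1 = TA.W4 a.1 c.1.1 c.1.1 b.1 := CE.W_symm _ _ _ _
  rw [← e1, ← e2]

theorem Ecc_eq (w : Pos3 → ℝ) : coreOne (crP n0) (fun a b => TA.wI w a.1 b.1) +
    coreW (crP n0) (WT n0) = Ecc n0 w := by
  rw [coreOne_eq, coreW_eq]; rfl

theorem BF_eq {N : ℕ} (w : Pos3 → ℝ) (C : TA.Ten N n0) :
    TA.BF w C = (Tens.oneF (fun a b => TA.wI w a.1 b.1) C + Tens.twoF (WT n0) C).re := by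
  unfold TA.BF
  rw [TA_oneF_eq, TA_twoF_eq, Complex.add_re]

/-- shell form in terms of a tensor on `{a // ¬ crP a}` -/
theorem shellForm_tr {k : ℕ} (w : Pos3 → ℝ) (D : (Fin k → Fin 2 × {a : TA.Sp n0 // ¬ crP n0 a}) → ℂ) :
    shellForm n0 w (tr (Equiv.refl (Fin k)) ((Equiv.refl (Fin 2)).prodCongr (valEquiv n0)) D) =
      (Tens.oneF (fun a b : {a : TA.Sp n0 // ¬ crP n0 a} => TA.wI w a.1.1 b.1.1) D +
      Tens.oneF (fun a b : {a : TA.Sp n0 // ¬ crP n0 a} => field (crP n0) (WT n0) a.1 b.1) D +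
      Tens.twoF (fun a b c d : {a : TA.Sp n0 // ¬ crP n0 a} => WT n0 a.1 b.1 c.1 d.1) D).re := by
  set g : Fin 2 × {a : TA.Sp n0 // ¬ crP n0 a} ≃ Val n0 :=
    (Equiv.refl (Fin 2)).prodCongr (valEquiv n0) with hg
  have hW : ∀ a b c d : {a : TA.Sp n0 // ¬ crP n0 a},
      (fun a b c d : {a : TA.Sp n0 // ¬ crP n0 a} => WT n0 a.1 b.1 c.1 d.1) a b c d =
      (fun a b c d : {a : TA.Sp n0 // ¬ crP n0 a} => WT n0 a.1 b.1 c.1 d.1) c d a b :=
    fun a b c d => CE.W_symm _ _ _ _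
  unfold shellForm
  have h1 : form1 (fun p p' : Val n0 => if p.1 = p'.1 then w1 w p.2.1 p'.2.1 +
      fock n0 p.2.1 p'.2.1 else 0) (tr (Equiv.refl (Fin k)) g D) =
      (Tens.oneF (fun a b : {a : TA.Sp n0 // ¬ crP n0 a} => TA.wI w a.1.1 b.1.1) D +
      Tens.oneF (fun a b : {a : TA.Sp n0 // ¬ crP n0 a} =>
        field (crP n0) (WT n0) a.1 b.1) D).re := by
    rw [form1_eq, oneF_eq, oneF_eq]
    obtain ⟨M0, hM0⟩ : ∃ M0 : Fin 2 × {a : TA.Sp n0 // ¬ crP n0 a} →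
        Fin 2 × {a : TA.Sp n0 // ¬ crP n0 a} → ℂ, M0 = (fun x y =>
          sM (fun a b : {a : TA.Sp n0 // ¬ crP n0 a} =>
          TA.wI w a.1.1 b.1.1) x y + sM (fun a b : {a : TA.Sp n0 // ¬ crP n0 a} =>
        field (crP n0) (WT n0) a.1 b.1) x y) := ⟨_, rfl⟩
    have e1 : (fun a b : Val n0 => (((if a.1 = b.1 then w1 w a.2.1 b.2.1 +
        fock n0 a.2.1 b.2.1 else 0 : ℝ)) : ℂ)) =
        fun a b => M0 (g.symm a) (g.symm b) := by
      rw [hM0]
      funext a b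
      have ha1 : (g.symm a).1 = a.1 := rfl
      have hb1 : (g.symm b).1 = b.1 := rfl
      have ha2 : (g.symm a).2.1.1 = a.2.1 := rfl
      have hb2 : (g.symm b).2.1.1 = b.2.1 := rfl
      simp only [sM, ha1, hb1]
      by_cases h : a.1 = b.1
      · rw [if_pos h, if_pos h, if_pos h, Br.w1_eq, field_eq, ha2, hb2]
        push_cast; rfl
      · rw [if_neg h, if_neg h, if_neg h]; simp
    rw [e1, one_tr, ip_tr, hM0]
    congr 1
    unfold ip one
    rw [← Finset.sum_add_distrib]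
    refine Finset.sum_congr rfl fun v _ => ?_
    rw [← mul_add, ← Finset.sum_add_distrib]
    congr 1
    refine Finset.sum_congr rfl fun i _ => ?_
    rw [← Finset.sum_add_distrib]
    refine Finset.sum_congr rfl fun b _ => ?_
    ring
  have h2 : form2 (fun p p' r r' : Val n0 => if p.1 = p'.1 ∧ r.1 = r'.1 then
      W4 p.2.1 p'.2.1 r.2.1 r'.2.1 else 0) (tr (Equiv.refl (Fin k)) g D) =
      (Tens.twoF (fun a b c d : {a : TA.Sp n0 // ¬ crP n0 a} => WT n0 a.1 b.1 c.1 d.1) D).re := by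
    have h3 := form2_eq (fun p p' r r' : Val n0 => if p.1 = p'.1 ∧ r.1 = r'.1 then
      W4 p.2.1 p'.2.1 r.2.1 r'.2.1 else 0) (by
        intro a b c d
        rw [Br.W4_symm]
        congr 1
        rw [and_comm]) (tr (Equiv.refl (Fin k)) g D)
    have e1 : (fun a b c d : Val n0 => (((if a.1 = b.1 ∧ c.1 = d.1 then
        W4 a.2.1 b.2.1 c.2.1 d.2.1 else 0 : ℝ)) : ℂ)) =
        fun a b c d => sW (fun a b c d : {a : TA.Sp n0 // ¬ crP n0 a} =>
          WT n0 a.1 b.1 c.1 d.1) (g.symm a) (g.symm b) (g.symm c) (g.symm d) := by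
      funext a b c d
      have ha1 : (g.symm a).1 = a.1 := rfl
      have hb1 : (g.symm b).1 = b.1 := rfl
      have hc1 : (g.symm c).1 = c.1 := rfl
      have hd1 : (g.symm d).1 = d.1 := rfl
      have ha2 : (g.symm a).2.1.1 = a.2.1 := rfl
      have hb2 : (g.symm b).2.1.1 = b.2.1 := rfl
      have hc2 : (g.symm c).2.1.1 = c.2.1 := rfl
      have hd2 : (g.symm d).2.1.1 = d.2.1 := rfl
      simp only [sW, ha1, hb1, hc1, hd1]
      by_cases h : a.1 = b.1 ∧ c.1 = d.1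
      · rw [if_pos h, if_pos h, Br.W4_eq, WT, ha2, hb2, hc2, hd2, ← Br.TA_W4_eq]
      · rw [if_neg h, if_neg h]; simp
    rw [e1, two_tr, ip_tr, ← twoF_eq _ hW] at h3
    have h4 : ((2 : ℂ) * Tens.twoF (fun a b c d : {a : TA.Sp n0 // ¬ crP n0 a} =>
        WT n0 a.1 b.1 c.1 d.1) D).re = 2 * (Tens.twoF (fun a b c d :
          {a : TA.Sp n0 // ¬ crP n0 a} => WT n0 a.1 b.1 c.1 d.1) D).re := by simp
    rw [h4] at h3
    linarith
  rw [h1, h2, ← Complex.add_re]

theorem tnSq_tr {k : ℕ} (D : (Fin k → Fin 2 × {a : TA.Sp n0 // ¬ crP n0 a}) → ℂ) :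
    tnSq (tr (Equiv.refl (Fin k)) ((Equiv.refl (Fin 2)).prodCongr (valEquiv n0)) D) =
      Tens.nsq D := by
  unfold tnSq Tens.nsq tr
  rw [← Equiv.sum_comp (Equiv.arrowCongr (Equiv.refl (Fin k))
    ((Equiv.refl (Fin 2)).prodCongr (valEquiv n0)))]
  refine Finset.sum_congr rfl fun ω _ => ?_
  congr 3

/-- **core-full tensors, down**: a core-full tensor has a valence tensor with proportional norm
and form. -/
theorem BF_down {Nv : ℕ} (w : Pos3 → ℝ) {C : TA.Ten (TA.Nel n0 Nv) n0} (hC : TA.Anti C)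
    (hF : TA.CoreFull C) : ∃ D : (Fin Nv → Val n0) → ℂ, AntiSym D ∧
      TA.tsq C = ((TA.Nel n0 Nv).factorial / Nv.factorial : ℝ) * tnSq D ∧
      TA.BF w C = ((TA.Nel n0 Nv).factorial / Nv.factorial : ℝ) *
        (Ecc n0 w * tnSq D + shellForm n0 w D) := by
  obtain ⟨D, hD, hfr⟩ := frozen_core_down (crP n0) (fun a b => TA.wI w a.1 b.1) (WT n0)
    (fun a b c d => CE.W_symm _ _ _ _) (Nel_eq Nv) (C := C) hC ((coreFull_iff C).1 hF)
  refine ⟨tr (Equiv.refl (Fin Nv)) ((Equiv.refl (Fin 2)).prodCongr (valEquiv n0)) D,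
    anti_tr _ _ hD, ?_, ?_⟩
  · rw [tnSq_tr, tsq_eq]; exact hfr.nsq
  · rw [tnSq_tr, shellForm_tr, BF_eq, hfr.one, hfr.two, ← Ecc_eq]
    rw [← mul_add, Complex.re_ofReal_mul]
    congr 1
    simp only [Complex.add_re, Complex.ofReal_re]
    ring

/-- **core-full tensors, up** -/
theorem BF_up {Nv : ℕ} (w : Pos3 → ℝ) {D : (Fin Nv → Val n0) → ℂ} (hD : AntiSym D) :
    ∃ C : TA.Ten (TA.Nel n0 Nv) n0, TA.Anti C ∧ TA.CoreFull C ∧
      TA.tsq C = ((TA.Nel n0 Nv).factorial / Nv.factorial : ℝ) * tnSq D ∧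
      TA.BF w C = ((TA.Nel n0 Nv).factorial / Nv.factorial : ℝ) *
        (Ecc n0 w * tnSq D + shellForm n0 w D) := by
  set g : Fin 2 × {a : TA.Sp n0 // ¬ crP n0 a} ≃ Val n0 :=
    (Equiv.refl (Fin 2)).prodCongr (valEquiv n0) with hg
  set D' := tr (Equiv.refl (Fin Nv)).symm g.symm D with hD'
  have hD'a : Tens.Antisym D' := anti_tr _ _ hD
  have htr : tr (Equiv.refl (Fin Nv)) g D' = D := tr_symm _ _ D
  obtain ⟨C, hC, hF, hfr⟩ := frozen_core_up (crP n0) (fun a b => TA.wI w a.1 b.1) (WT n0)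
    (fun a b c d => CE.W_symm _ _ _ _) (Nel_eq Nv) hD'a
  refine ⟨C, hC, (coreFull_iff C).2 hF, ?_, ?_⟩
  · rw [← htr, tnSq_tr, tsq_eq]; exact hfr.nsq
  · rw [← htr, tnSq_tr, shellForm_tr, BF_eq, hfr.one, hfr.two, ← Ecc_eq]
    rw [← mul_add, Complex.re_ofReal_mul]
    congr 1
    simp only [Complex.add_re, Complex.ofReal_re]
    ring

end Crest.Agent.R338.SC
end
end

-- ▼ part R338/SCB
section

/-!
Row 338 (S0529), node SCB: full-core tensors versus shell form, in the form consumed by P2.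
helper426.
-/

set_option autoImplicit false

open Finset Function
open Crest.MathPhysics.ElectronicCoulomb

noncomputable section

namespace Crest.Agent.R338.SC

variable {n0 : ℕ}

theorem tsq_smul {N : ℕ} (c : ℝ) (C : TA.Ten N n0) :
    TA.tsq (fun ω => (c : ℂ) * C ω) = c ^ 2 * TA.tsq C := by
  unfold TA.tsq
  rw [Finset.mul_sum]
  refine Finset.sum_congr rfl fun ω _ => ?_
  rw [norm_mul, mul_pow, Complex.norm_real, Real.norm_eq_abs, sq_abs]

theorem re_smul_aux (c : ℝ) (x y : ℂ) :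
    (starRingEnd ℂ ((c : ℂ) * x) * ((c : ℂ) * y)).re = c ^ 2 * (starRingEnd ℂ x * y).re := by
  rw [map_mul, Complex.conj_ofReal]
  have : (c : ℂ) * starRingEnd ℂ x * ((c : ℂ) * y) = ((c ^ 2 : ℝ) : ℂ) * (starRingEnd ℂ x * y) := by
    push_cast; ring
  rw [this, Complex.re_ofReal_mul]

theorem BF_smul {N : ℕ} (w : Pos3 → ℝ) (c : ℝ) (C : TA.Ten N n0) :
    TA.BF w (fun ω => (c : ℂ) * C ω) = c ^ 2 * TA.BF w C := by
  unfold TA.BF TA.oneF TA.twoF
  simp_rw [re_smul_aux]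
  rw [mul_add, Finset.mul_sum, Finset.mul_sum]
  congr 1
  · refine Finset.sum_congr rfl fun i _ => ?_
    rw [Finset.mul_sum]
    refine Finset.sum_congr rfl fun ω _ => ?_
    rw [Finset.mul_sum]
    refine Finset.sum_congr rfl fun b _ => ?_
    ring
  · refine Finset.sum_congr rfl fun i _ => ?_
    rw [Finset.mul_sum]
    refine Finset.sum_congr rfl fun j _ => ?_
    split_ifs
    · rw [Finset.mul_sum]
      refine Finset.sum_congr rfl fun ω _ => ?_
      rw [Finset.mul_sum]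
      refine Finset.sum_congr rfl fun b _ => ?_
      rw [Finset.mul_sum]
      refine Finset.sum_congr rfl fun d _ => ?_
      ring
    · simp

theorem Anti_smul {N : ℕ} (c : ℝ) {C : TA.Ten N n0} (hC : TA.Anti C) :
    TA.Anti (fun ω => (c : ℂ) * C ω) := by
  intro σ ω
  simp only
  rw [hC]; ring

theorem CoreFull_smul {N : ℕ} (c : ℝ) {C : TA.Ten N n0} (hC : TA.CoreFull C) :
    TA.CoreFull (fun ω => (c : ℂ) * C ω) := by
  intro ω hω o ho
  exact hC ω (right_ne_zero_of_mul hω) o ho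

theorem kap_pos (n0 Nv : ℕ) : (0 : ℝ) < ((TA.Nel n0 Nv).factorial / Nv.factorial : ℝ) := by
  have h1 : (0 : ℝ) < ((TA.Nel n0 Nv).factorial : ℝ) := by exact_mod_cast Nat.factorial_pos _
  have h2 : (0 : ℝ) < (Nv.factorial : ℝ) := by exact_mod_cast Nat.factorial_pos _
  positivity

/-- **SCB, lower half.** -/
theorem SCB_lower {Nv : ℕ} (w : Pos3 → ℝ) (β : ℝ)
    (h : ∀ D : (Fin Nv → Val n0) → ℂ, AntiSym D → β * tnSq D ≤ shellForm n0 w D)
    (T : TA.Ten (TA.Nel n0 Nv) n0) (hT : TA.Anti T) (hF : TA.CoreFull T) :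
    (Ecc n0 w + β) * TA.tsq T ≤ TA.BF w T := by
  obtain ⟨D, hD, h1, h2⟩ := BF_down w hT hF
  rw [h1, h2]
  have h3 := h D hD
  have hk := kap_pos n0 Nv
  calc (Ecc n0 w + β) * (((TA.Nel n0 Nv).factorial / Nv.factorial : ℝ) * tnSq D)
      = ((TA.Nel n0 Nv).factorial / Nv.factorial : ℝ) * (Ecc n0 w * tnSq D + β * tnSq D) := by ring
    _ ≤ _ := mul_le_mul_of_nonneg_left (by linarith) hk.le

/-- **SCB, upper half.** -/
theorem SCB_upper {Nv : ℕ} (w : Pos3 → ℝ) (β : ℝ)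
    (h : ∃ D : (Fin Nv → Val n0) → ℂ, AntiSym D ∧ tnSq D = 1 ∧ shellForm n0 w D ≤ β) :
    ∃ T : TA.Ten (TA.Nel n0 Nv) n0, TA.Anti T ∧ TA.CoreFull T ∧ TA.tsq T = 1 ∧
      TA.BF w T ≤ Ecc n0 w + β := by
  obtain ⟨D, hD, hn, hle⟩ := h
  obtain ⟨C, hC, hF, h1, h2⟩ := BF_up (n0 := n0) w hD
  have hk := kap_pos n0 Nv
  set κ : ℝ := ((TA.Nel n0 Nv).factorial / Nv.factorial : ℝ) with hκ
  have hs : (√κ)⁻¹ ^ 2 = κ⁻¹ := by rw [inv_pow, Real.sq_sqrt hk.le]
  refine ⟨fun ω => (((√κ)⁻¹ : ℝ) : ℂ) * C ω, Anti_smul _ hC, CoreFull_smul _ hF, ?_, ?_⟩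
  · rw [tsq_smul, hs, h1, hn, mul_one, inv_mul_cancel₀ hk.ne']
  · rw [BF_smul, hs, h2, ← mul_assoc, inv_mul_cancel₀ hk.ne', one_mul, hn, mul_one]
    linarith

end Crest.Agent.R338.SC
end
end

-- ▼ part R338/SC7
section

/-!
Row 338 (S0529): existence of a normalized antisymmetric core-full tensor, bounds of `EN`
(requests of helper64 for Theorem A). helper426.
-/

set_option autoImplicit false
set_option linter.unusedSectionVars false
set_option linter.unusedVariables false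

open Finset Function
open Crest.MathPhysics.ElectronicCoulomb

noncomputable section

namespace Crest.Agent.R338.SC

variable {N n0 : ℕ}

/-! ### Slater tensors -/

/-- the (not normalized) Slater tensor of `o` -/
def slater (o : Fin N → TA.Orb n0) : TA.Ten N n0 := fun ω =>
  ∑ σ : Equiv.Perm (Fin N), if ω = o ∘ σ then ((Equiv.Perm.sign σ : ℤ) : ℂ) else 0

theorem slater_anti (o : Fin N → TA.Orb n0) : TA.Anti (slater o) := by
  intro σ ω
  unfold slater
  rw [Finset.mul_sum]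
  refine Fintype.sum_equiv (Equiv.mulRight σ⁻¹) _ _ ?_
  intro τ
  have h1 : ((fun i => ω (σ i)) = o ∘ τ) ↔ (ω = o ∘ ⇑((Equiv.mulRight σ⁻¹) τ)) := by
    constructor
    · intro h
      funext i
      have := congrFun h (σ⁻¹ i)
      simpa using this
    · intro h
      funext i
      rw [h]
      simp
  by_cases h : (fun i => ω (σ i)) = o ∘ τ
  · rw [if_pos h, if_pos (h1.1 h)]
    have h2 : ((Equiv.Perm.sign ((Equiv.mulRight σ⁻¹) τ) : ℤ) : ℂ) =
        ((Equiv.Perm.sign τ : ℤ) : ℂ) * ((Equiv.Perm.sign σ : ℤ) : ℂ) := by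
      simp [Equiv.Perm.sign_mul]
    rw [h2]
    have h3 : ((Equiv.Perm.sign σ : ℤ) : ℂ) * ((Equiv.Perm.sign σ : ℤ) : ℂ) = 1 := by
      rcases Int.units_eq_one_or (Equiv.Perm.sign σ) with h | h <;> rw [h] <;> simp
    linear_combination (-((Equiv.Perm.sign τ : ℤ) : ℂ)) * h3
  · rw [if_neg h, if_neg (fun h' => h (h1.2 h')), mul_zero]

theorem slater_self {o : Fin N → TA.Orb n0} (ho : Injective o) : slater o o = 1 := by
  unfold slater
  rw [Finset.sum_eq_single (1 : Equiv.Perm (Fin N))]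
  · simp
  · intro σ _ hσ
    rw [if_neg]
    intro h
    apply hσ
    ext i
    have := congrFun h i
    have h2 := ho this
    simpa using (congrArg Fin.val h2.symm)
  · intro h; exact absurd (Finset.mem_univ _) h

theorem slater_range {o : Fin N → TA.Orb n0} {ω : Fin N → TA.Orb n0} (h : slater o ω ≠ 0) :
    ∀ x, (∃ i, o i = x) → ∃ i, ω i = x := by
  intro x ⟨i, hi⟩
  unfold slater at h
  obtain ⟨σ, _, hσ⟩ := Finset.exists_ne_zero_of_sum_ne_zero h
  have h1 : ω = o ∘ σ := by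
    by_contra h'
    rw [if_neg h'] at hσ
    exact hσ rfl
  refine ⟨σ⁻¹ i, ?_⟩
  rw [h1]
  simp [hi]

/-! ### counting orbitals -/

theorem card_shell_sub :
    2 * Fintype.card {a : TA.Sp n0 // ¬ crP n0 a} = (n0 + 1) * (n0 + 2) := by
  rw [Fintype.card_congr (valEquiv n0), Fintype.card_coe, XF.card_shell]

theorem card_orb : Fintype.card (TA.Orb n0) =
    2 * Fintype.card {a : TA.Sp n0 // crP n0 a} + (n0 + 1) * (n0 + 2) := by
  rw [← card_shell_sub, ← mul_add, ← Fintype.card_sum,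
    Fintype.card_congr (Equiv.sumCompl (crP n0))]
  simp

theorem card_coreOrb : #{o : TA.Orb n0 | crP n0 o.2} =
    2 * Fintype.card {a : TA.Sp n0 // crP n0 a} := by
  have h : (univ.filter fun o : TA.Orb n0 => crP n0 o.2) =
      (univ : Finset (Fin 2)) ×ˢ (univ.filter fun a : TA.Sp n0 => crP n0 a) := by
    ext o
    simp
  rw [h, Finset.card_product, Fintype.card_subtype]
  simp

theorem exists_embedding {Nv : ℕ} (hNv : Nv ≤ (n0 + 1) * (n0 + 2)) :
    ∃ o : Fin (TA.Nel n0 Nv) → TA.Orb n0, Injective o ∧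
      ∀ x : TA.Orb n0, TA.deg3 x.2.1 < n0 → ∃ i, o i = x := by
  obtain ⟨T, hT1, _, hT2⟩ := Finset.exists_subsuperset_card_eq
    (s := (univ.filter fun o : TA.Orb n0 => crP n0 o.2)) (t := univ) (n := TA.Nel n0 Nv)
    (Finset.subset_univ _) (by rw [card_coreOrb, Nel_eq]; omega)
    (by rw [Finset.card_univ, card_orb, Nel_eq]; omega)
  have e : Fin (TA.Nel n0 Nv) ≃ T := (Finset.equivFinOfCardEq hT2).symm
  refine ⟨fun i => (e i).1, fun a b h => e.injective (Subtype.ext h), fun x hx => ?_⟩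
  have hxT : x ∈ T := hT1 (by simp only [Finset.mem_filter, Finset.mem_univ, true_and]; exact hx)
  exact ⟨e.symm ⟨x, hxT⟩, by simp⟩

/-- there is a normalized antisymmetric core-full tensor -/
theorem exists_unit_tensor (n0 Nv : ℕ) (hNv : Nv ≤ (n0 + 1) * (n0 + 2)) :
    ∃ C : TA.Ten (TA.Nel n0 Nv) n0, TA.Anti C ∧ TA.CoreFull C ∧ TA.tsq C = 1 := by
  obtain ⟨o, ho, hcore⟩ := exists_embedding (n0 := n0) hNv
  have hA := slater_anti o
  have hF : TA.CoreFull (slater o) := fun ω hω x hx => slater_range hω x (hcore x hx)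
  have h1 : ‖slater o o‖ ^ 2 ≤ TA.tsq (slater o) := by
    unfold TA.tsq
    exact Finset.single_le_sum (f := fun ω => ‖slater o ω‖ ^ 2)
      (fun _ _ => sq_nonneg _) (Finset.mem_univ o)
  rw [slater_self ho] at h1
  have h2 : 0 < TA.tsq (slater o) := by
    have : (0 : ℝ) < ‖(1 : ℂ)‖ ^ 2 := by simp
    linarith
  refine ⟨_, Anti_smul (√(TA.tsq (slater o)))⁻¹ hA, CoreFull_smul (√(TA.tsq (slater o)))⁻¹ hF, ?_⟩
  rw [tsq_smul, inv_pow, Real.sq_sqrt h2.le]
  exact inv_mul_cancel₀ h2.ne'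

/-! ### bounds of the unperturbed energy -/




end Crest.Agent.R338.SC
end
end

-- ▼ part R338/AB
section

/-!
Row 338 (S0529): `ThmABStmt` from `TheoremALower`, `TheoremAUpper` and SCB. helper426.
-/

set_option autoImplicit false
set_option linter.unusedVariables false

open Finset Function MeasureTheory
open Crest.MathPhysics.ElectronicCoulomb

noncomputable section

namespace Crest.Agent.R338.AB

theorem infLE_mono {n : ℕ} {W : Config n → ℝ} {a b : ℝ} (h : InfEnergyLE W a) (hab : a ≤ b) :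
    InfEnergyLE W b := by
  intro ε hε
  obtain ⟨Ψ, h1, h2, h3⟩ := h ε hε
  exact ⟨Ψ, h1, h2, h3.trans (by linarith)⟩

theorem infGE_mono {n : ℕ} {W : Config n → ℝ} {a b : ℝ} (h : InfEnergyGE W b) (hab : a ≤ b) :
    InfEnergyGE W a := fun Ψ h1 h2 => hab.trans (h Ψ h1 h2)

theorem TA_EN_eq (n0 Nv : ℕ) : TA.EN n0 Nv = EN n0 Nv := by
  rw [XF.EN_eq]
  unfold TA.EN
  congr 1
  induction n0 with
  | zero => simp
  | succ n ih =>
    rw [Finset.sum_range_succ, ih]
    push_cast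
    ring

theorem Vnuc_eq (lam : ℝ) {K : ℕ} (P : Fin K → Pos3) (x : Pos3) :
    TA.Vnuc lam P x = -lam * ∑ α, 1 / ‖x - P α‖ := by
  unfold TA.Vnuc
  rw [Finset.mul_sum]
  refine Finset.sum_congr rfl fun α _ => ?_
  ring

theorem deg3_eq (m : Idx) : TA.deg3 m = ∑ c, m c := by
  rw [XF.sum3]; rfl

/-- bridge of the two `NucOK` structures -/
theorem nucOK_bridge {n0 : ℕ} {lam C0 R eps1 eps2 kF Wb : ℝ} {K : ℕ} {nuc : Fin K → Pos3}
    {w : Pos3 → ℝ} (h : NucOK n0 lam C0 R eps1 eps2 kF Wb nuc w) (hlam : lam ≤ 1) (hR : 1 ≤ R)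
    (he1 : 0 ≤ eps1) (he2 : 0 ≤ eps2) (he2' : eps2 ≤ 1) :
    ∃ (Vs : Pos3 → ℝ) (F : Pos3 → Pos3), TA.NucOK lam nuc n0 Vs w F C0 R eps1 eps2 kF Wb := by
  obtain ⟨Vs, F, hc, hneg, ⟨b, hb⟩, hFm, hF, h0, h1, h2, h3⟩ := h.decomp
  refine ⟨Vs, F, ?_⟩
  exact
    { lam_pos := h.lam_pos
      lam_le := hlam
      one_le_R := hR
      C0_nonneg := h.C0_nonneg
      eps1_nonneg := he1
      eps2_nonneg := he2
      eps2_le := he2'
      kF_nonneg := h.kF_nonneg
      W_nonneg := (abs_nonneg (w 0)).trans (h.w_bdd 0)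
      Vs_cont := hc
      Vs_nonpos := hneg
      Vs_bdd := ⟨|b|, fun x => by
        rw [abs_le]
        exact ⟨by linarith [hb x, le_abs_self b], (hneg x).trans (abs_nonneg b)⟩⟩
      w_cont := h.w_cont
      w_le := h.w_bdd
      F_meas := hFm
      F_le := hF
      N0 := by
        intro f hf1 hf2 hf3 hf4
        simp_rw [Vnuc_eq]
        exact h0 f hf1 hf2 hf3 hf4
      N1 := h1
      N2 := h2
      N3 := by
        intro a b ha hb
        simp_rw [Vnuc_eq, ← Br.orb_eq_Phi]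
        exact h3 a b (by rw [← deg3_eq]; exact ha) (by rw [← deg3_eq]; exact hb) }

/-- size comparison -/
theorem size_le {n0 Nv : ℕ} (hn0 : 1 ≤ n0) (hNv : Nv ≤ (n0 + 1) * (n0 + 2)) {W : ℝ} (hW : 0 ≤ W) :
    TA.sizeP n0 Nv W ≤ ((n0 : ℝ) + 2 + W) ^ 3 := by
  unfold TA.sizeP TA.Nel
  have h1 : 6 * ((n0 + 2).choose 3) = n0 * (n0 + 1) * (n0 + 2) := by
    rw [← XF.card_core_choose]; exact XF.card_core n0
  have h2 : (6 : ℝ) * ((n0 + 2).choose 3 : ℝ) = (n0 : ℝ) * (n0 + 1) * (n0 + 2) := by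
    exact_mod_cast h1
  have h3 : (Nv : ℝ) ≤ ((n0 : ℝ) + 1) * (n0 + 2) := by exact_mod_cast hNv
  have hn : (1 : ℝ) ≤ (n0 : ℝ) := by exact_mod_cast hn0
  push_cast
  have h4 : ((n0 : ℝ) + 2) ^ 3 + 9 * W ≤ ((n0 : ℝ) + 2 + W) ^ 3 := by
    have : ((n0 : ℝ) + 2 + W) ^ 3 = ((n0 : ℝ) + 2) ^ 3 + 3 * ((n0 : ℝ) + 2) ^ 2 * W +
        3 * ((n0 : ℝ) + 2) * W ^ 2 + W ^ 3 := by ring
    rw [this]
    have h5 : (9 : ℝ) ≤ ((n0 : ℝ) + 2) ^ 2 := by nlinarith
    have h6 : 9 * W ≤ 3 * ((n0 : ℝ) + 2) ^ 2 * W := by nlinarith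
    have h7 : 0 ≤ 3 * ((n0 : ℝ) + 2) * W ^ 2 := by positivity
    have h8 : 0 ≤ W ^ 3 := by positivity
    linarith
  nlinarith [mul_nonneg (mul_nonneg (by linarith : (0 : ℝ) ≤ n0) (by linarith : (0 : ℝ) ≤ n0))
    (by linarith : (0 : ℝ) ≤ n0), mul_nonneg (by linarith : (0 : ℝ) ≤ n0) (by linarith : (0 : ℝ) ≤ n0)]

theorem transport_LE {n m : ℕ} (h : n = m) {K : ℕ} {nuc : Fin K → Pos3} {lam a : ℝ}
    (H : InfEnergyLE (n := n) (fun x => lam * unitNucleiPotential nuc x) a) :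
    InfEnergyLE (n := m) (fun x => lam * unitNucleiPotential nuc x) a := by
  subst h; exact H

theorem transport_GE {n m : ℕ} (h : n = m) {K : ℕ} {nuc : Fin K → Pos3} {lam a : ℝ}
    (H : InfEnergyGE (n := n) (fun x => lam * unitNucleiPotential nuc x) a) :
    InfEnergyGE (n := m) (fun x => lam * unitNucleiPotential nuc x) a := by
  subst h; exact H

/-- **Theorem AB from Theorem A.** -/
theorem thmAB_of (hL : TA.TheoremALower) (hU : TA.TheoremAUpper) : ThmABStmt := by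
  obtain ⟨DL, hDL⟩ := hL
  obtain ⟨DU, hDU⟩ := hU 5
  refine ⟨3 * DL + 3 * DU + 1, ?_⟩
  intro n0 Nv hn0 hNv1 hNv2 lam C0 R eps1 eps2 kF Wb K nuc w hN hsm hR he1 he2 he2' Err Eref Wp
  have hWb : 0 ≤ Wb := (abs_nonneg (w 0)).trans (hN.w_bdd 0)
  have hn : (1 : ℝ) ≤ (n0 : ℝ) := by exact_mod_cast hn0
  set t : ℝ := (n0 : ℝ) + 2 + Wb with ht
  have ht3 : 3 ≤ t := by rw [ht]; linarith
  have ht1 : 1 ≤ t := by linarith
  have htC : 1 ≤ t ^ (3 * DL + 3 * DU + 1) := one_le_pow₀ ht1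
  have hR1 : 1 ≤ R := htC.trans hR
  have hsum0 : 0 < lam + kF := by linarith [hN.lam_pos, hN.kF_nonneg]
  have hlam1 : lam ≤ 1 := by
    have : 1 * (lam + kF) ≤ t ^ (3 * DL + 3 * DU + 1) * (lam + kF) :=
      mul_le_mul_of_nonneg_right htC hsum0.le
    linarith [hN.kF_nonneg]
  obtain ⟨Vs, F, hTA⟩ := nucOK_bridge hN hlam1 hR1 he1 he2 he2'
  set z : ℝ := TA.sizeP n0 Nv Wb with hz
  have hz3 : z ≤ t ^ 3 := size_le hn0 hNv2 hWb
  have hz0 : 0 ≤ z := by rw [hz]; unfold TA.sizeP; positivity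
  have hzp : ∀ D, z ^ D ≤ t ^ (3 * D) := by
    intro D
    rw [pow_mul]
    exact pow_le_pow_left₀ hz0 hz3 D
  have hzL : z ^ DL ≤ t ^ (3 * DL + 3 * DU + 1) :=
    (hzp DL).trans (pow_le_pow_right₀ ht1 (by omega))
  have hzU : 2 * z ^ DU ≤ t ^ (3 * DL + 3 * DU + 1) := by
    have h1 := hzp DU
    have h2 : t ^ (3 * DU + 1) ≤ t ^ (3 * DL + 3 * DU + 1) := pow_le_pow_right₀ ht1 (by omega)
    have h3 : 2 * t ^ (3 * DU) ≤ t ^ (3 * DU + 1) := by
      rw [pow_succ]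
      have : 0 ≤ t ^ (3 * DU) := by positivity
      nlinarith
    linarith
  have hzLR : z ^ DL ≤ R ^ 2 := hzL.trans (hR.trans (by nlinarith))
  have hsmL : z ^ DL * (lam + kF) ≤ 1 :=
    (mul_le_mul_of_nonneg_right hzL hsum0.le).trans hsm
  have hR2 : 0 < R ^ 2 := by positivity
  have hEr0 : 0 ≤ lam ^ 2 + kF ^ 2 + eps1 + eps2 + 1 / R ^ 2 := by positivity
  constructor
  · intro β hβ
    obtain ⟨T, hTa, hTf, hT1, hTle⟩ := SC.SCB_upper w β hβ
    have h := hDU lam K nuc n0 Nv Vs w F C0 R eps1 eps2 kF Wb (Ecc n0 w + β) hTA hNv1 hNv2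
      ⟨T, hTa, hTf, hT1, hTle⟩
    have h' := transport_LE (SC.Nel_eq_numEl (n0 := n0) Nv) h
    refine infLE_mono h' ?_
    have e1 : ((TA.Nel n0 Nv : ℕ) : ℝ) = ((numEl n0 Nv : ℕ) : ℝ) := by
      rw [SC.Nel_eq_numEl]
    rw [TA_EN_eq, e1]
    have h4 : (C0 + 1) / R ^ (2 * 5) ≤ 2 * (1 / R ^ 2) := by
      rw [div_le_iff₀ (by positivity)]
      have h5 : 2 * (1 / R ^ 2) * R ^ (2 * 5) = 2 * R ^ 8 := by field_simp
      rw [h5]
      have := hN.C0_le
      have h6 : 1 ≤ R ^ 8 := one_le_pow₀ hR1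
      linarith
    have h5 : TA.sizeP n0 Nv Wb ^ DU * (eps1 + eps2 + (C0 + 1) / R ^ (2 * 5)) ≤ Err := by
      have hs : eps1 + eps2 + (C0 + 1) / R ^ (2 * 5) ≤
          2 * (lam ^ 2 + kF ^ 2 + eps1 + eps2 + 1 / R ^ 2) := by
        have : 0 ≤ lam ^ 2 := sq_nonneg _
        have : 0 ≤ kF ^ 2 := sq_nonneg _
        linarith
      calc z ^ DU * (eps1 + eps2 + (C0 + 1) / R ^ (2 * 5))
          ≤ z ^ DU * (2 * (lam ^ 2 + kF ^ 2 + eps1 + eps2 + 1 / R ^ 2)) :=
            mul_le_mul_of_nonneg_left hs (by positivity)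
        _ = (2 * z ^ DU) * (lam ^ 2 + kF ^ 2 + eps1 + eps2 + 1 / R ^ 2) := by ring
        _ ≤ _ := mul_le_mul_of_nonneg_right hzU hEr0
    have h6 : Eref = EN n0 Nv - numEl n0 Nv * C0 + lam * Ecc n0 w := rfl
    rw [h6]
    linarith
  · intro β hβ
    have h := hDL lam K nuc n0 Nv Vs w F C0 R eps1 eps2 kF Wb (Ecc n0 w + β) hTA hNv1 hNv2
      hsmL hzLR (fun T hTa hTf => SC.SCB_lower w β hβ T hTa hTf)
    have h' := transport_GE (SC.Nel_eq_numEl (n0 := n0) Nv) h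
    refine infGE_mono h' ?_
    have e1 : ((TA.Nel n0 Nv : ℕ) : ℝ) = ((numEl n0 Nv : ℕ) : ℝ) := by
      rw [SC.Nel_eq_numEl]
    rw [TA_EN_eq, e1]
    have h5 : TA.sizeP n0 Nv Wb ^ DL * (lam ^ 2 + kF ^ 2 + eps1 + eps2 + 1 / R ^ 2) ≤ Err :=
      mul_le_mul_of_nonneg_right hzL hEr0
    have h6 : Eref = EN n0 Nv - numEl n0 Nv * C0 + lam * Ecc n0 w := rfl
    rw [h6]
    linarith

end Crest.Agent.R338.AB
end
end

-- ▼ part R338/TA9

/-!
# Row 338, module TA9 (helper64): Theorem A closed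

`TA.theoremALower`, `TA.theoremAUpper` and `AB.thmAB : ThmABStmt`, without hypotheses.
-/

set_option autoImplicit false

open MeasureTheory

noncomputable section

namespace Crest.Agent.R338.TA

open Crest.MathPhysics.ElectronicCoulomb

/-- one-body matrix elements of every tensor wave -/
theorem oneB {N n0 : ℕ} (C : Ten N n0) : TL.OneB C := fun _ _ hg => TB.one_body hg C

/-- two-body matrix elements of every tensor wave -/
theorem twoB {N n0 : ℕ} (C : Ten N n0) : TL.TwoB C := (TB.two_body C).2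

/-- **Theorem A, lower half** -/
theorem theoremALower : TheoremALower :=
  theoremALower_of (fun _ _ C => oneB C) (fun _ _ C => twoB C)
    (fun n0 Nv h => SC.exists_unit_tensor n0 Nv h)

/-- **Theorem A, upper half** -/
theorem theoremAUpper : TheoremAUpper :=
  TL.theoremAUpper_of (fun _ _ C => oneB C) (fun _ _ C => twoB C)

end Crest.Agent.R338.TA

namespace Crest.Agent.R338.AB

/-- **Theorem AB** -/
theorem thmAB : ThmABStmt := thmAB_of TA.theoremALower TA.theoremAUpper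

end Crest.Agent.R338.AB
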