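import Crest.Agent.R338.WP5_Mg
import Crest.Agent.R338.HB4
import Crest.Agent.R338.P1Fin_Mg
import Crest.Agent.R338.Nu1
import Crest.Agent.R338.P1Main_Mg
import Crest.Agent.R338.P2Top
import Crest.Agent.R338.TA9
import Crest.Agent.R338.Sel4_Mg
import Crest.Agent.R338.CSAsm
import Mathlib
import Crest.Agent.R338.CE6
import Crest.Agent.R338.BHDefs

-- ▼ part R338/Out5
section

/-!
# Row 338, output node (helper207), part 5: `NumStmt` is proved
-/

set_option autoImplicit false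

namespace Crest.Agent.R338.Out

open Crest.Agent.Lib.PT Crest.Agent.R338.Nu Crest.Agent.R338.P2

theorem abs_al_le (m i : ℕ) (c : Fin 3) : |al m i c| ≤ (m : ℤ) := by
  have h := mem_Box.1 (al_mem m i) c
  exact abs_le.2 h

/-- **node NUM**: the reduction map is polynomial-time -/
theorem numStmt : NumStmt := by
  obtain ⟨c0, H⟩ := Cal.exists_ptr_AcP
  refine numStmt_of (max c0 1) (fun C hC c => ?_) (fun C hC => ?_)
  · obtain ⟨hA, ha⟩ := H C (le_trans (le_max_left _ _) hC)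
    refine PTR.toV ?_ _
    refine WP.ptr_DexP C (fun hg hi hj => hA _ _ _ _ hg hi hj) (fun hg hi => ha _ _ _ hg hi)
      (h := fun p : HInst × Un => p.1) PTF.fst
      (al := fun p : HInst × Un => al (nLP C p.1) p.2.val)
      (fun c => ptf_al (ptu_nLP C PTF.fst) ptu_snd c) (B := fun p : HInst × Un => nLP C p.1)
      (ptu_nLP C PTF.fst) (fun p c => abs_al_le _ _ _) c
  · obtain ⟨hA, ha⟩ := H C (le_trans (le_max_left _ _) hC)
    have hC1 : 1 ≤ C.c := le_trans (le_max_right _ _) hC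
    refine PTR.toV ?_ _
    refine XF.ptr_thr C (h := fun h : HInst => h) PTF.id (ptr_C0P hC1 PTF.id) ?_ ?_
    · exact hA _ (fun p : (HInst × Un) × Un => p.1.1) (fun p => p.1.2.val) (fun p => p.2.val)
        (PTF.comp PTF.fst PTF.fst) (PTU.val (PTF.comp PTF.snd PTF.fst)) (PTU.val PTF.snd)
    · exact ha _ (fun p : HInst × Un => p.1) (fun p => p.2.val) PTF.fst (PTU.val PTF.snd)

end Crest.Agent.R338.Out
end

-- ▼ part R338/HB5
section

/-!
# Row 338, node I.4 (f): the block Hamiltonian as a Heisenberg form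
-/

set_option autoImplicit false

namespace Crest.Agent.R338.HB

open Matrix Finset Ten

variable {n : ℕ}

/-- exchange of the spins `(p, a)` and `(q, b)` in a configuration of blocks -/
def exch (x y : Fin n × Fin 4) (σ : Fin n → B4) : Fin n → B4 :=
  fun p' a' => σ (Equiv.swap x y (p', a')).1 (Equiv.swap x y (p', a')).2

theorem O_mulVec' (p : Fin n) (M : Matrix B4 B4 ℝ) (ψ : (Fin n → B4) → ℝ) (σ : Fin n → B4) :
    (O p M *ᵥ ψ) σ = (M *ᵥ (fun b => ψ (Function.update σ p b))) (σ p) := by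
  rw [O_mulVec]; rfl

theorem exch_in (p : Fin n) (a b : Fin 4) (σ : Fin n → B4) :
    exch (p, a) (p, b) σ = Function.update σ p (swp a b (σ p)) := by
  funext p' a'
  by_cases hp : p' = p
  · subst hp
    rw [Function.update_self]
    simp only [exch, swp]
    by_cases h1 : a' = a
    · subst h1; simp
    · by_cases h2 : a' = b
      · subst h2; simp
      · rw [Equiv.swap_apply_of_ne_of_ne, Equiv.swap_apply_of_ne_of_ne h1 h2]
        · simpa using h1
        · simpa using h2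
  · rw [Function.update_of_ne hp]
    simp only [exch]
    rw [Equiv.swap_apply_of_ne_of_ne]
    · simp [hp]
    · simp [hp]

theorem exch_ne {p q : Fin n} (h : p ≠ q) (a b : Fin 4) (σ : Fin n → B4) :
    exch (p, a) (q, b) σ = if σ p a = σ q b then σ else
      Function.update (Function.update σ p (flp a (σ p))) q (flp b (σ q)) := by
  split_ifs with hs
  · funext p' a'
    simp only [exch]
    by_cases h1 : (p', a') = (p, a)
    · rw [h1, Equiv.swap_apply_left]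
      simp only [Prod.mk.injEq] at h1
      rw [h1.1, h1.2]
      exact hs.symm
    · by_cases h2 : (p', a') = (q, b)
      · rw [h2, Equiv.swap_apply_right]
        simp only [Prod.mk.injEq] at h2
        rw [h2.1, h2.2]
        exact hs
      · rw [Equiv.swap_apply_of_ne_of_ne h1 h2]
  · have hs1 : σ q b = !(σ p a) := by
      cases hh : σ p a <;> cases hh' : σ q b <;> simp_all
    have hs2 : σ p a = !(σ q b) := by
      cases hh : σ p a <;> cases hh' : σ q b <;> simp_all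
    funext p' a'
    simp only [exch]
    by_cases h1 : (p', a') = (p, a)
    · rw [h1, Equiv.swap_apply_left]
      simp only [Prod.mk.injEq] at h1
      rw [h1.1, h1.2, Function.update_of_ne h, Function.update_self]
      simp [flp, hs1]
    · by_cases h2 : (p', a') = (q, b)
      · rw [h2, Equiv.swap_apply_right]
        simp only [Prod.mk.injEq] at h2
        rw [h2.1, h2.2, Function.update_self]
        simp [flp, hs2]
      · rw [Equiv.swap_apply_of_ne_of_ne h1 h2]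
        by_cases h3 : p' = q
        · subst h3
          rw [Function.update_self]
          have : a' ≠ b := by rintro rfl; exact h2 rfl
          simp [flp, Function.update_of_ne this]
        · rw [Function.update_of_ne h3]
          by_cases h4 : p' = p
          · subst h4
            rw [Function.update_self]
            have : a' ≠ a := by rintro rfl; exact h1 rfl
            simp [flp, Function.update_of_ne this]
          · rw [Function.update_of_ne h4]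

theorem in_swap (p : Fin n) (a b : Fin 4) (ψ : (Fin n → B4) → ℝ) (σ : Fin n → B4) :
    (O p (P4 a b) *ᵥ ψ) σ = ψ (exch (p, a) (p, b) σ) := by
  rw [O_mulVec', P4_mulVec, exch_in]

theorem out_swap {p q : Fin n} (h : p ≠ q) (a b : Fin 4) (ψ : (Fin n → B4) → ℝ)
    (σ : Fin n → B4) :
    ((∑ al : Fin 3, ep al • (O p (TT al a) * O q (TT al b))) *ᵥ ψ) σ =
      (1 / 2) * ψ (exch (p, a) (q, b) σ) - (1 / 4) * ψ σ := by
  have key : ∀ al : Fin 3, ((O p (TT al a) * O q (TT al b)) *ᵥ ψ) σ = match al with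
      | 0 => ψ (Function.update (Function.update σ p (flp a (σ p))) q (flp b (σ q))) / 4
      | 1 => (HB.sg (σ p a) : ℝ) * (HB.sg (σ q b) : ℝ) *
          ψ (Function.update (Function.update σ p (flp a (σ p))) q (flp b (σ q))) / 4
      | 2 => (HB.sg (σ p a) : ℝ) * (HB.sg (σ q b) : ℝ) * ψ σ / 4 := by
    intro al
    rw [← mulVec_mulVec, O_mulVec', TT_mulVec_real]
    fin_cases al
    · simp only [O_mulVec', TT_mulVec_real]
      rw [Function.update_of_ne h.symm]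
      ring
    · simp only [O_mulVec', TT_mulVec_real]
      rw [Function.update_of_ne h.symm]
      ring
    · simp only [O_mulVec', TT_mulVec_real]
      rw [Function.update_of_ne h.symm, Function.update_eq_self, Function.update_eq_self]
      ring
  rw [sum_mulVec, Finset.sum_apply, Fin.sum_univ_three]
  simp only [smul_mulVec, Pi.smul_apply, key, smul_eq_mul]
  rw [exch_ne h]
  have hep0 : ep 0 = 1 := by simp [ep]
  have hep1 : ep 1 = -1 := by simp [ep]
  have hep2 : ep 2 = 1 := by simp [ep]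
  rw [hep0, hep1, hep2]
  cases h1 : σ p a <;> cases h2 : σ q b <;> simp [HB.sg] <;> ring

theorem OO_XX (p q : Fin n) (al : Fin 3) (r s : Fin 4 → ℝ) :
    O p (XX al r) * O q (XX al s) = ∑ a, ∑ b, (r a * s b) • (O p (TT al a) * O q (TT al b)) := by
  unfold XX
  rw [O_sum, O_sum, Matrix.sum_mul]
  refine Finset.sum_congr rfl fun a _ => ?_
  rw [Matrix.mul_sum]
  refine Finset.sum_congr rfl fun b _ => ?_
  rw [O_smul, O_smul, Matrix.smul_mul, Matrix.mul_smul, smul_smul]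

theorem Vpq_expand (p q : Fin n) (r s : Fin 4 → ℝ) :
    Vpq p q r s = ∑ a, ∑ b, (r a * s b) •
      (∑ al : Fin 3, ep al • (O p (TT al a) * O q (TT al b))) := by
  unfold Vpq
  simp only [OO_XX, Finset.smul_sum]
  rw [Finset.sum_comm]
  refine Finset.sum_congr rfl fun a _ => ?_
  rw [Finset.sum_comm]
  refine Finset.sum_congr rfl fun b _ => Finset.sum_congr rfl fun al _ => ?_
  rw [smul_comm]

/-- overlap with an exchanged state -/
def swB (x y : Fin n × Fin 4) (ψ : (Fin n → B4) → ℝ) : ℝ := ∑ σ, ψ σ * ψ (exch x y σ)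

/-- `⟨S_x·S_y⟩` -/
noncomputable def SS (x y : Fin n × Fin 4) (ψ : (Fin n → B4) → ℝ) : ℝ :=
  (1 / 2) * swB x y ψ - (1 / 4) * (ψ ⬝ᵥ ψ)

theorem form_Vpq {p q : Fin n} (h : p ≠ q) (r s : Fin 4 → ℝ) (ψ : (Fin n → B4) → ℝ) :
    ψ ⬝ᵥ (Vpq p q r s *ᵥ ψ) = ∑ a, ∑ b, (r a * s b) * SS (p, a) (q, b) ψ := by
  rw [Vpq_expand]
  simp only [sum_mulVec, dotProduct_sum, smul_mulVec, dotProduct_smul, smul_eq_mul]
  refine Finset.sum_congr rfl fun a _ => Finset.sum_congr rfl fun b _ => ?_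
  have : ∑ al : Fin 3, ep al * (ψ ⬝ᵥ ((O p (TT al a) * O q (TT al b)) *ᵥ ψ)) =
      ψ ⬝ᵥ ((∑ al : Fin 3, ep al • (O p (TT al a) * O q (TT al b))) *ᵥ ψ) := by
    simp only [sum_mulVec, dotProduct_sum, smul_mulVec, dotProduct_smul, smul_eq_mul]
  rw [this]
  congr 1
  have h2 : ((∑ al : Fin 3, ep al • (O p (TT al a) * O q (TT al b))) *ᵥ ψ) =
      fun σ => (1 / 2) * ψ (exch (p, a) (q, b) σ) - (1 / 4) * ψ σ := by
    funext σ; exact out_swap h a b ψ σ
  rw [h2]
  simp only [dotProduct, SS, swB, Finset.mul_sum, ← Finset.sum_sub_distrib]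
  refine Finset.sum_congr rfl fun σ _ => ?_
  ring

theorem form_P4 (p : Fin n) (a b : Fin 4) (ψ : (Fin n → B4) → ℝ) :
    ψ ⬝ᵥ (O p (P4 a b) *ᵥ ψ) = swB (p, a) (p, b) ψ := by
  simp only [dotProduct, swB, in_swap]

theorem form_K4 (p : Fin n) (ψ : (Fin n → B4) → ℝ) :
    ψ ⬝ᵥ (O p K4 *ᵥ ψ) = SS (p, 0) (p, 1) ψ + SS (p, 0) (p, 2) ψ + SS (p, 0) (p, 3) ψ +
      SS (p, 1) (p, 2) ψ + SS (p, 1) (p, 3) ψ + SS (p, 2) (p, 3) ψ + (3 / 2) * (ψ ⬝ᵥ ψ) := by
  unfold K4
  rw [O_smul, O_add, O_add, O_add, O_add, O_add, smul_mulVec, dotProduct_smul, smul_eq_mul]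
  simp only [add_mulVec, dotProduct_add, form_P4, SS]
  ring

theorem form_wB (p : Fin n) (u : Fin 4 → ℝ) (ψ : (Fin n → B4) → ℝ) :
    ψ ⬝ᵥ (O p (wB u) *ᵥ ψ) = u 1 * SS (p, 0) (p, 1) ψ + u 2 * SS (p, 0) (p, 2) ψ +
      u 3 * SS (p, 0) (p, 3) ψ := by
  unfold wB
  rw [O_sum, sum_mulVec, dotProduct_sum]
  rw [Finset.sum_insert (by decide), Finset.sum_insert (by decide), Finset.sum_singleton]
  simp only [O_smul, O_sub, O_one, smul_mulVec, sub_mulVec, one_mulVec, dotProduct_smul,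
    dotProduct_sub, form_P4, SS, smul_eq_mul]
  ring

/-! ### Reindexing -/

/-- configurations of blocks versus configurations of spins -/
def cf (n : ℕ) : (Fin n → B4) ≃ (Fin (n * 4) → Bool) where
  toFun σ := fun i => σ (finProdFinEquiv.symm i).1 (finProdFinEquiv.symm i).2
  invFun τ := fun p a => τ (finProdFinEquiv (p, a))
  left_inv σ := by funext p a; simp
  right_inv τ := by
    funext i
    show τ (finProdFinEquiv (finProdFinEquiv.symm i)) = τ i
    rw [Equiv.apply_symm_apply]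

theorem cf_swap (x y : Fin n × Fin 4) (σ : Fin n → B4) :
    cf n σ ∘ Equiv.swap (finProdFinEquiv x) (finProdFinEquiv y) = cf n (exch x y σ) := by
  funext i
  obtain ⟨z, rfl⟩ := finProdFinEquiv.surjective i
  simp only [cf, Function.comp_apply, Equiv.coe_fn_mk, exch, Equiv.symm_apply_apply]
  by_cases h1 : z = x
  · subst h1; simp
  · by_cases h2 : z = y
    · subst h2; simp
    · rw [Equiv.swap_apply_of_ne_of_ne (fun h => h1 (finProdFinEquiv.injective h))
        (fun h => h2 (finProdFinEquiv.injective h)), Equiv.swap_apply_of_ne_of_ne h1 h2]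
      simp

/-- pull back of a state -/
def pb (φ : Q (Fin (n * 4))) : (Fin n → B4) → ℝ := fun σ => φ (cf n σ)

theorem swapR_eq (x y : Fin n × Fin 4) (φ : Q (Fin (n * 4))) :
    P1.swapR (finProdFinEquiv x) (finProdFinEquiv y) φ = swB x y (pb φ) := by
  unfold P1.swapR swB pb
  rw [← Equiv.sum_comp (cf n)]
  refine Finset.sum_congr rfl fun σ _ => ?_
  rw [cf_swap]

theorem nsq_eq (φ : Q (Fin (n * 4))) : nsq φ = pb φ ⬝ᵥ pb φ := by
  unfold nsq dotProduct pb
  rw [← Equiv.sum_comp (cf n)]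

/-- order of the spins -/
theorem lt_iff (x y : Fin n × Fin 4) :
    (finProdFinEquiv x : Fin (n * 4)) < finProdFinEquiv y ↔
      x.1 < y.1 ∨ (x.1 = y.1 ∧ x.2 < y.2) := by
  obtain ⟨p, a⟩ := x
  obtain ⟨q, b⟩ := y
  rw [Fin.lt_def, Fin.lt_def, Fin.lt_def, Fin.ext_iff]
  simp only [finProdFinEquiv_apply_val]
  have ha := a.2
  have hb := b.2
  constructor
  · intro h
    by_cases h1 : (p : ℕ) < q
    · exact Or.inl h1
    · right
      constructor <;> omega
  · rintro (h | ⟨h, h2⟩) <;> omega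

/-- the couplings, as a function of natural numbers -/
noncomputable def Jraw (r s : ℕ → ℕ → ℕ → ℝ) (u : ℕ → ℕ → ℝ) (kap J0 : ℝ) (i j : ℕ) : ℝ :=
  if i / 4 < j / 4 then kap * (r (i / 4) (j / 4) (i % 4) * s (i / 4) (j / 4) (j % 4))
  else if i / 4 = j / 4 then J0 + (if i % 4 = 0 then u (i / 4) (j % 4) else 0)
  else 0

theorem Jraw_eq (r s : ℕ → ℕ → ℕ → ℝ) (u : ℕ → ℕ → ℝ) (kap J0 : ℝ) (x y : Fin n × Fin 4) :
    Jraw r s u kap J0 (finProdFinEquiv x : Fin (n * 4)) (finProdFinEquiv y : Fin (n * 4)) =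
      if x.1 < y.1 then kap * (r x.1 y.1 x.2 * s x.1 y.1 y.2)
      else if x.1 = y.1 then J0 + (if x.2 = 0 then u x.1 y.2 else 0) else 0 := by
  obtain ⟨p, a⟩ := x
  obtain ⟨q, b⟩ := y
  have ha := a.2
  have hb := b.2
  have h1 : ((finProdFinEquiv (p, a) : Fin (n * 4)) : ℕ) / 4 = p := by
    rw [finProdFinEquiv_apply_val]; simp only []; omega
  have h2 : ((finProdFinEquiv (p, a) : Fin (n * 4)) : ℕ) % 4 = a := by
    rw [finProdFinEquiv_apply_val]; simp only []; omega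
  have h3 : ((finProdFinEquiv (q, b) : Fin (n * 4)) : ℕ) / 4 = q := by
    rw [finProdFinEquiv_apply_val]; simp only []; omega
  have h4 : ((finProdFinEquiv (q, b) : Fin (n * 4)) : ℕ) % 4 = b := by
    rw [finProdFinEquiv_apply_val]; simp only []; omega
  unfold Jraw
  rw [h1, h2, h3, h4]
  simp only [Fin.lt_def, Fin.ext_iff]
  rfl

theorem heisR_eq (r s : ℕ → ℕ → ℕ → ℝ) (u : ℕ → ℕ → ℝ) (kap J0 : ℝ) (φ : Q (Fin (n * 4))) :
    P1.heisR (fun i j => Jraw r s u kap J0 i j) φ + (3 / 2) * J0 * n * nsq φ =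
      pb φ ⬝ᵥ (((J0 • ∑ p : Fin n, O p K4) + D1 (fun p q a => r p q a) (fun p q a => s p q a)
        (fun p a => u p a) kap) *ᵥ pb φ) := by
  set ψ := pb φ with hψ
  have hterm : ∀ x y : Fin n × Fin 4,
      (if (finProdFinEquiv x : Fin (n * 4)) < finProdFinEquiv y then
        Jraw r s u kap J0 (finProdFinEquiv x : Fin (n * 4)) (finProdFinEquiv y : Fin (n * 4)) *
          ((1 / 2) * P1.swapR (finProdFinEquiv x) (finProdFinEquiv y) φ - (1 / 4) * nsq φ) else 0)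
      = (if x.1 < y.1 then kap * ((r x.1 y.1 x.2 * s x.1 y.1 y.2) * SS x y ψ) else 0) +
        (if x.1 = y.1 then (if x.2 < y.2 then
          (J0 + (if x.2 = 0 then u x.1 y.2 else 0)) * SS x y ψ else 0) else 0) := by
    intro x y
    rw [swapR_eq, nsq_eq, ← hψ]
    change (if _ then _ * SS x y ψ else 0) = _
    simp only [lt_iff, Jraw_eq]
    by_cases h1 : x.1 < y.1
    · simp only [h1, true_or, if_true, h1.ne, if_false, add_zero]
      ring
    · by_cases h2 : x.1 = y.1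
      · by_cases h3 : x.2 < y.2
        · simp [h2, h3]
        · simp [h2, h3]
      · simp [h1, h2]
  have hL : P1.heisR (fun i j => Jraw r s u kap J0 i j) φ =
      ∑ p : Fin n, ∑ q : Fin n, (if p < q then kap * (ψ ⬝ᵥ (Vpq p q (fun a => r p q a)
        (fun a => s p q a) *ᵥ ψ)) else 0) +
      ∑ p : Fin n, ∑ a : Fin 4, ∑ b : Fin 4, (if a < b then
          (J0 + (if a = 0 then u p b else 0)) * SS (p, a) (p, b) ψ else 0) := by
    unfold P1.heisR
    rw [← Equiv.sum_comp (finProdFinEquiv (m := n) (n := 4))]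
    have h0 : ∀ x : Fin n × Fin 4, ∑ j : Fin (n * 4), (if finProdFinEquiv x < j then
        Jraw r s u kap J0 (finProdFinEquiv x : Fin (n * 4)) j *
          ((1 / 2) * P1.swapR (finProdFinEquiv x) j φ - (1 / 4) * nsq φ) else 0) =
        ∑ y : Fin n × Fin 4,
          ((if x.1 < y.1 then kap * ((r x.1 y.1 x.2 * s x.1 y.1 y.2) * SS x y ψ) else 0) +
        (if x.1 = y.1 then (if x.2 < y.2 then
          (J0 + (if x.2 = 0 then u x.1 y.2 else 0)) * SS x y ψ else 0) else 0)) := by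
      intro x
      rw [← Equiv.sum_comp (finProdFinEquiv (m := n) (n := 4))]
      exact Finset.sum_congr rfl fun y _ => hterm x y
    rw [Finset.sum_congr rfl fun x _ => h0 x]
    simp only [Finset.sum_add_distrib]
    congr 1
    · rw [Fintype.sum_prod_type]
      refine Finset.sum_congr rfl fun p _ => ?_
      simp only [Fintype.sum_prod_type]
      rw [Finset.sum_comm]
      refine Finset.sum_congr rfl fun q _ => ?_
      by_cases h : p < q
      · simp only [h, if_true]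
        rw [form_Vpq h.ne, Finset.mul_sum]
        refine Finset.sum_congr rfl fun a _ => ?_
        rw [Finset.mul_sum]
      · simp [h]
    · rw [Fintype.sum_prod_type]
      refine Finset.sum_congr rfl fun p _ => Finset.sum_congr rfl fun a _ => ?_
      rw [Fintype.sum_prod_type, Finset.sum_eq_single p]
      · simp
      · intro q _ hq
        simp [hq.symm]
      · simp
  rw [hL]
  have hR : ψ ⬝ᵥ (((J0 • ∑ p : Fin n, O p K4) + D1 (fun p q a => r p q a) (fun p q a => s p q a)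
        (fun p a => u p a) kap) *ᵥ ψ) =
      ∑ p : Fin n, (J0 * (ψ ⬝ᵥ (O p K4 *ᵥ ψ)) + ψ ⬝ᵥ (O p (wB (fun a => u p a)) *ᵥ ψ)) +
      ∑ p : Fin n, ∑ q : Fin n, (if p < q then kap * (ψ ⬝ᵥ (Vpq p q (fun a => r p q a)
        (fun a => s p q a) *ᵥ ψ)) else 0) := by
    unfold D1
    rw [add_mulVec, add_mulVec, dotProduct_add, dotProduct_add, smul_mulVec, smul_mulVec,
      dotProduct_smul, dotProduct_smul, sum_mulVec, sum_mulVec, sum_mulVec, dotProduct_sum,
      dotProduct_sum, dotProduct_sum, smul_eq_mul, smul_eq_mul, Finset.mul_sum, Finset.mul_sum,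
      Finset.sum_add_distrib, add_assoc]
    congr 2
    unfold pairs
    rw [Finset.sum_filter, Fintype.sum_prod_type]
  rw [hR]
  have hin : ∀ p : Fin n, J0 * (ψ ⬝ᵥ (O p K4 *ᵥ ψ)) + ψ ⬝ᵥ (O p (wB (fun a => u p a)) *ᵥ ψ) =
      (∑ a : Fin 4, ∑ b : Fin 4, (if a < b then
          (J0 + (if a = 0 then u p b else 0)) * SS (p, a) (p, b) ψ else 0)) +
      (3 / 2) * J0 * (ψ ⬝ᵥ ψ) := by
    intro p
    rw [form_K4, form_wB]
    simp [Fin.sum_univ_four]
    ring
  rw [Finset.sum_congr rfl fun p _ => hin p, Finset.sum_add_distrib, Finset.sum_const,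
    Finset.card_univ, Fintype.card_fin, nsq_eq, ← hψ, nsmul_eq_mul]
  ring

end Crest.Agent.R338.HB
end

-- ▼ part R338/HB6
section

/-!
# Row 338, node I.4 (g): choice of the couplings; the effective Hamiltonian is the `XZ` Hamiltonian
-/

set_option autoImplicit false

namespace Crest.Agent.R338.HB

open Matrix Finset Ten

variable {n : ℕ}

/-- one-site operator with `X` coefficient `√3 x` and `Z` coefficient `z` -/
noncomputable def LM (x z : ℝ) : Matrix Bool Bool ℝ := (√3 * x) • X2 + z • Z2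

theorem LM_add (x z x' z' : ℝ) : LM (x + x') (z + z') = LM x z + LM x' z' := by
  unfold LM; module

theorem LM_smul (c x z : ℝ) : LM (c * x) (c * z) = c • LM x z := by
  unfold LM; module

theorem LM_neg (x z : ℝ) : LM (-x) (-z) = - LM x z := by
  unfold LM; module

theorem LM_zero : LM 0 0 = 0 := by unfold LM; simp

theorem LM_sum {κ : Type*} (s : Finset κ) (x z : κ → ℝ) :
    LM (∑ k ∈ s, x k) (∑ k ∈ s, z k) = ∑ k ∈ s, LM (x k) (z k) := by
  classical
  induction s using Finset.induction_on with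
  | empty => simp [LM_zero]
  | insert a s ha ih => rw [Finset.sum_insert ha, Finset.sum_insert ha, Finset.sum_insert ha,
      LM_add, ih]

theorem X2_iso : X2ᵀ * X2 = 1 := by
  ext s t; cases s <;> cases t <;> simp [X2, Matrix.mul_apply]

theorem Z2_iso : Z2ᵀ * Z2 = 1 := by
  ext s t; cases s <;> cases t <;> simp [Z2, Matrix.mul_apply]

theorem NB_LM (p : Fin n) (x z : ℝ) : NB (O p (LM x z)) (2 * |x| + |z|) := by
  unfold LM
  rw [O_add, O_smul, O_smul]
  have h := ((O_iso X2_iso p).smul (√3 * x)).add ((O_iso Z2_iso p).smul z)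
  refine h.mono ?_
  rw [abs_mul, abs_of_nonneg (Real.sqrt_nonneg 3)]
  have : √3 ≤ 2 := by
    rw [show (2 : ℝ) = √4 by rw [show (4 : ℝ) = 2 ^ 2 by norm_num]; simp]
    exact Real.sqrt_le_sqrt (by norm_num)
  nlinarith [abs_nonneg x]

/-- the coefficients `c₁, c₂, c₃` -/
noncomputable def rv (x z t : ℝ) : Fin 4 → ℝ :=
  ![√((z + t) * (t + x) / (t - x)), √((z + t) * (t - x) / (t + x)),
    √((t + x) * (t - x) / (z + t)), 0]

/-- scalar part -/
noncomputable def Cr (x z t : ℝ) : ℝ :=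
  (3 / 4) * ((z + t) * (t + x) / (t - x) + (z + t) * (t - x) / (t + x) +
    (t + x) * (t - x) / (z + t)) - (1 / 2) * ((z + t) + (t + x) + (t - x))

theorem MM_symm (a b : Fin 4) : MM a b = MM b a := by
  unfold MM tau
  fin_cases a <;> fin_cases b <;> simp

theorem RR_three (r : Fin 4 → ℝ) (h : r 3 = 0) : RR r =
    ((3 / 4) * (r 0 * r 0 + r 1 * r 1 + r 2 * r 2) -
      (1 / 2) * (r 0 * r 1 + r 0 * r 2 + r 1 * r 2)) • (1 : Matrix Bool Bool ℝ) -
    LM ((r 0 * r 2 - r 1 * r 2) / 2) (r 0 * r 1 - (r 0 * r 2 + r 1 * r 2) / 2) := by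
  have hMM : ∀ a : Fin 4, MM a a = (3 / 4 : ℝ) • 1 := by intro a; simp [MM]
  have h01 : MM 0 1 = -(1 / 4 : ℝ) • 1 - (1 / 2 : ℝ) • Z2 := by simp [MM, tau]
  have h02 : MM 0 2 = -(1 / 4 : ℝ) • 1 - (1 / 2 : ℝ) • (-(1 / 2 : ℝ) • Z2 + (√3 / 2) • X2) := by
    simp [MM, tau]
  have h12 : MM 1 2 = -(1 / 4 : ℝ) • 1 - (1 / 2 : ℝ) • (-(1 / 2 : ℝ) • Z2 - (√3 / 2) • X2) := by
    simp [MM, tau]
  unfold RR LM
  simp only [Fin.sum_univ_four, h, mul_zero, zero_mul, zero_smul, add_zero]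
  rw [MM_symm 1 0, MM_symm 2 0, MM_symm 2 1, hMM, hMM, hMM, h01, h02, h12]
  module

theorem RR_rv {x z t : ℝ} (h1 : 0 < z + t) (h2 : 0 < t + x) (h3 : 0 < t - x) :
    RR (rv x z t) = Cr x z t • (1 : Matrix Bool Bool ℝ) - LM x z := by
  have e0 : rv x z t 0 = √((z + t) * (t + x) / (t - x)) := rfl
  have e1 : rv x z t 1 = √((z + t) * (t - x) / (t + x)) := rfl
  have e2 : rv x z t 2 = √((t + x) * (t - x) / (z + t)) := rfl
  have e3 : rv x z t 3 = 0 := rfl
  have p0 : 0 ≤ (z + t) * (t + x) / (t - x) := by positivity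
  have p1 : 0 ≤ (z + t) * (t - x) / (t + x) := by positivity
  have p2 : 0 ≤ (t + x) * (t - x) / (z + t) := by positivity
  have m00 : rv x z t 0 * rv x z t 0 = (z + t) * (t + x) / (t - x) := by
    rw [e0, Real.mul_self_sqrt p0]
  have m11 : rv x z t 1 * rv x z t 1 = (z + t) * (t - x) / (t + x) := by
    rw [e1, Real.mul_self_sqrt p1]
  have m22 : rv x z t 2 * rv x z t 2 = (t + x) * (t - x) / (z + t) := by
    rw [e2, Real.mul_self_sqrt p2]
  have m01 : rv x z t 0 * rv x z t 1 = z + t := by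
    rw [e0, e1, ← Real.sqrt_mul p0,
      show (z + t) * (t + x) / (t - x) * ((z + t) * (t - x) / (t + x)) = (z + t) * (z + t) by
        field_simp, Real.sqrt_mul_self h1.le]
  have m02 : rv x z t 0 * rv x z t 2 = t + x := by
    rw [e0, e2, ← Real.sqrt_mul p0,
      show (z + t) * (t + x) / (t - x) * ((t + x) * (t - x) / (z + t)) = (t + x) * (t + x) by
        field_simp, Real.sqrt_mul_self h2.le]
  have m12 : rv x z t 1 * rv x z t 2 = t - x := by
    rw [e1, e2, ← Real.sqrt_mul p1,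
      show (z + t) * (t - x) / (t + x) * ((t + x) * (t - x) / (z + t)) = (t - x) * (t - x) by
        field_simp, Real.sqrt_mul_self h3.le]
  rw [RR_three _ e3, m00, m11, m22, m01, m02, m12]
  congr 1
  congr 1 <;> ring

/-- in-block field producing `LM gx gz` -/
noncomputable def uf (gx gz : ℝ) : Fin 4 → ℝ := ![0, -2 * gz, -2 * gx, 2 * gx]

theorem wL_uf (gx gz : ℝ) : wL (uf gx gz) = (gz / 2) • (1 : Matrix Bool Bool ℝ) + LM gx gz := by
  have t1 : tau 0 1 = Z2 := by simp [tau]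
  have t2 : tau 0 2 = -(1 / 2 : ℝ) • Z2 + (√3 / 2) • X2 := by simp [tau]
  have t3 : tau 0 3 = -(1 / 2 : ℝ) • Z2 - (√3 / 2) • X2 := by simp [tau]
  unfold wL
  rw [Finset.sum_insert (by decide), Finset.sum_insert (by decide), Finset.sum_singleton, t1, t2, t3]
  have u1 : uf gx gz 1 = -2 * gz := rfl
  have u2 : uf gx gz 2 = -2 * gx := rfl
  have u3 : uf gx gz 3 = 2 * gx := rfl
  rw [u1, u2, u3]
  unfold LM
  module

/-- `XZ` data in units of `√3` -/
structure XD (n : ℕ) where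
  /-- local `X` -/
  fx : Fin n → ℝ
  /-- local `Z` -/
  fz : Fin n → ℝ
  /-- first `X` -/
  ax : Fin n → Fin n → ℝ
  /-- first `Z` -/
  az : Fin n → Fin n → ℝ
  /-- second `X` -/
  bx : Fin n → Fin n → ℝ
  /-- second `Z` -/
  bz : Fin n → Fin n → ℝ

namespace XD

/-- the Hamiltonian as a matrix -/
noncomputable def mat (D : XD n) : Matrix (Fin n → Bool) (Fin n → Bool) ℝ :=
  ∑ p, O p (LM (D.fx p) (D.fz p)) +
  ∑ y ∈ pairs n, O y.1 (LM (D.ax y.1 y.2) (D.az y.1 y.2)) * O y.2 (LM (D.bx y.1 y.2) (D.bz y.1 y.2))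

/-- scalar part of the first factor -/
noncomputable def CA (D : XD n) (t : ℝ) (p q : Fin n) : ℝ := Cr (D.ax p q) (D.az p q) t
/-- scalar part of the second factor -/
noncomputable def CB (D : XD n) (t : ℝ) (p q : Fin n) : ℝ := Cr (-D.bx p q) (-D.bz p q) t

/-- corrected local fields -/
noncomputable def gx (D : XD n) (t : ℝ) (p : Fin n) : ℝ :=
  D.fx p + ∑ q, (if q < p then D.CA t q p * D.bx q p else 0) -
    ∑ q, (if p < q then D.CB t p q * D.ax p q else 0)
/-- corrected local fields -/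
noncomputable def gz (D : XD n) (t : ℝ) (p : Fin n) : ℝ :=
  D.fz p + ∑ q, (if q < p then D.CA t q p * D.bz q p else 0) -
    ∑ q, (if p < q then D.CB t p q * D.az p q else 0)

/-- first vectors -/
noncomputable def r (D : XD n) (t : ℝ) (p q : Fin n) : Fin 4 → ℝ := rv (D.ax p q) (D.az p q) t
/-- second vectors -/
noncomputable def s (D : XD n) (t : ℝ) (p q : Fin n) : Fin 4 → ℝ := rv (-D.bx p q) (-D.bz p q) t
/-- in-block fields -/
noncomputable def u (D : XD n) (t : ℝ) (p : Fin n) : Fin 4 → ℝ := uf (D.gx t p) (D.gz t p)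

/-- energy shift -/
noncomputable def c0 (D : XD n) (t : ℝ) : ℝ :=
  ∑ p, D.gz t p / 2 - ∑ y ∈ pairs n, D.CA t y.1 y.2 * D.CB t y.1 y.2

/-- positivity of the parameters -/
def Pos (D : XD n) (t : ℝ) : Prop := ∀ p q : Fin n, p < q →
  |D.ax p q| < t ∧ |D.az p q| < t ∧ |D.bx p q| < t ∧ |D.bz p q| < t

theorem LM_g (D : XD n) (t : ℝ) (p : Fin n) : O p (LM (D.gx t p) (D.gz t p)) =
    O p (LM (D.fx p) (D.fz p)) +
    ∑ q, (if q < p then D.CA t q p • O p (LM (D.bx q p) (D.bz q p)) else 0) -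
    ∑ q, (if p < q then D.CB t p q • O p (LM (D.ax p q) (D.az p q)) else 0) := by
  have h1 : LM (D.gx t p) (D.gz t p) = LM (D.fx p) (D.fz p) +
      ∑ q, (if q < p then D.CA t q p • (LM (D.bx q p) (D.bz q p)) else 0) -
      ∑ q, (if p < q then D.CB t p q • (LM (D.ax p q) (D.az p q)) else 0) := by
    unfold gx gz
    rw [sub_eq_add_neg, sub_eq_add_neg, LM_add, LM_add, LM_neg, LM_sum, LM_sum, ← sub_eq_add_neg]
    congr 1
    · congr 1
      refine Finset.sum_congr rfl fun q _ => ?_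
      split_ifs
      · rw [LM_smul]
      · exact LM_zero
    · refine Finset.sum_congr rfl fun q _ => ?_
      split_ifs
      · rw [LM_smul]
      · exact LM_zero
  rw [h1, O_sub, O_add, O_sum, O_sum]
  congr 1
  · congr 1
    refine Finset.sum_congr rfl fun q _ => ?_
    split_ifs
    · rw [O_smul]
    · exact O_zero p
  · refine Finset.sum_congr rfl fun q _ => ?_
    split_ifs
    · rw [O_smul]
    · exact O_zero p

theorem RR_r {D : XD n} {t : ℝ} (hD : D.Pos t) {p q : Fin n} (h : p < q) :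
    RR (D.r t p q) = D.CA t p q • (1 : Matrix Bool Bool ℝ) - LM (D.ax p q) (D.az p q) := by
  obtain ⟨h1, h2, h3, h4⟩ := hD p q h
  have h1' := abs_lt.1 h1
  have h2' := abs_lt.1 h2
  exact RR_rv (by linarith [h2'.1]) (by linarith [h1'.1]) (by linarith [h1'.2])

theorem RR_s {D : XD n} {t : ℝ} (hD : D.Pos t) {p q : Fin n} (h : p < q) :
    RR (D.s t p q) = D.CB t p q • (1 : Matrix Bool Bool ℝ) + LM (D.bx p q) (D.bz p q) := by
  obtain ⟨h1, h2, h3, h4⟩ := hD p q h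
  have h3' := abs_lt.1 h3
  have h4' := abs_lt.1 h4
  have := RR_rv (x := -D.bx p q) (z := -D.bz p q) (t := t) (by linarith [h4'.2])
    (by linarith [h3'.2]) (by linarith [h3'.1])
  rw [LM_neg, sub_neg_eq_add] at this
  exact this

theorem SO_eq {D : XD n} {t : ℝ} (hD : D.Pos t) :
    SO (D.r t) (D.s t) = ∑ y ∈ pairs n, (
      (D.CA t y.1 y.2 * D.CB t y.1 y.2) • (1 : Matrix (Fin n → Bool) (Fin n → Bool) ℝ) +
      D.CA t y.1 y.2 • O y.2 (LM (D.bx y.1 y.2) (D.bz y.1 y.2)) -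
      D.CB t y.1 y.2 • O y.1 (LM (D.ax y.1 y.2) (D.az y.1 y.2)) -
      O y.1 (LM (D.ax y.1 y.2) (D.az y.1 y.2)) * O y.2 (LM (D.bx y.1 y.2) (D.bz y.1 y.2))) := by
  unfold SO
  refine Finset.sum_congr rfl fun y hy => ?_
  have hy' : y.1 < y.2 := by simpa [pairs] using hy
  rw [RR_r hD hy', RR_s hD hy', O_sub, O_add, O_smul, O_smul, O_one, O_one, sub_mul, mul_add,
    mul_add, Matrix.smul_mul, Matrix.one_mul, Matrix.smul_mul, Matrix.one_mul, Matrix.mul_smul,
    Matrix.mul_one, smul_smul]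
  abel

theorem heff_eq {D : XD n} {t : ℝ} (hD : D.Pos t) :
    HB.AL (D.u t) - SO (D.r t) (D.s t) = D.mat + D.c0 t • 1 := by
  have hAL : HB.AL (D.u t) = (∑ p, D.gz t p / 2) • (1 : Matrix (Fin n → Bool) (Fin n → Bool) ℝ) +
      ∑ p, O p (LM (D.gx t p) (D.gz t p)) := by
    unfold HB.AL u
    rw [Finset.sum_smul, ← Finset.sum_add_distrib]
    refine Finset.sum_congr rfl fun p _ => ?_
    rw [wL_uf, O_add, O_smul, O_one]
  have hP : ∀ F : Fin n → Fin n → Matrix (Fin n → Bool) (Fin n → Bool) ℝ,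
      ∑ y ∈ pairs n, F y.1 y.2 = ∑ p, ∑ q, if p < q then F p q else 0 := by
    intro F
    unfold pairs
    rw [Finset.sum_filter, Fintype.sum_prod_type]
  rw [hAL, SO_eq hD]
  simp only [LM_g, Finset.sum_add_distrib, Finset.sum_sub_distrib]
  rw [hP (fun p q => D.CA t p q • O q (LM (D.bx p q) (D.bz p q))),
    hP (fun p q => D.CB t p q • O p (LM (D.ax p q) (D.az p q)))]
  rw [Finset.sum_comm (f := fun p q => if q < p then D.CA t q p • O p (LM (D.bx q p) (D.bz q p))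
    else 0)]
  rw [← Finset.sum_smul]
  unfold mat c0
  rw [sub_smul]
  abel

end XD

end Crest.Agent.R338.HB
end

-- ▼ part R338/HB7
section

/-!
# Row 338, node I.4 (h): bounds and the real main theorem
-/

set_option autoImplicit false

namespace Crest.Agent.R338.HB

open Matrix Finset Ten

variable {n : ℕ}

theorem frac_bound {c c' c'' b : ℝ} (hb : 1 ≤ b) (h1 : 1 ≤ c) (h1' : c ≤ 3 * b) (h2 : 1 ≤ c')
    (h2' : c' ≤ 3 * b) (h3 : 1 ≤ c'') : 0 ≤ c * c' / c'' ∧ c * c' / c'' ≤ 9 * b ^ 2 := by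
  constructor
  · positivity
  · rw [div_le_iff₀ (by linarith)]
    have : c * c' ≤ (3 * b) * (3 * b) := mul_le_mul h1' h2' (by linarith) (by linarith)
    nlinarith [sq_nonneg b]

theorem Cr_bound {x z b : ℝ} (hb : 1 ≤ b) (hx : |x| ≤ b) (hz : |z| ≤ b) :
    |Cr x z (b + 1)| ≤ 21 * b ^ 2 := by
  have hx' := abs_le.1 hx
  have hz' := abs_le.1 hz
  have a1 : 1 ≤ z + (b + 1) := by linarith [hz'.1]
  have a2 : z + (b + 1) ≤ 3 * b := by linarith [hz'.2]
  have b1 : 1 ≤ (b + 1) + x := by linarith [hx'.1]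
  have b2 : (b + 1) + x ≤ 3 * b := by linarith [hx'.2]
  have d1 : 1 ≤ (b + 1) - x := by linarith [hx'.2]
  have d2 : (b + 1) - x ≤ 3 * b := by linarith [hx'.1]
  have f1 := frac_bound hb a1 a2 b1 b2 d1
  have f2 := frac_bound hb a1 a2 d1 d2 b1
  have f3 := frac_bound hb b1 b2 d1 d2 a1
  unfold Cr
  rw [abs_le]
  constructor <;> nlinarith [f1.1, f1.2, f2.1, f2.2, f3.1, f3.2]

theorem sqrt_bound {y b : ℝ} (hb : 1 ≤ b) (h : y ≤ 9 * b ^ 2) : √y ≤ 3 * b := by
  apply Real.sqrt_le_iff.2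
  constructor
  · linarith
  · nlinarith

theorem rv_bound {x z b : ℝ} (hb : 1 ≤ b) (hx : |x| ≤ b) (hz : |z| ≤ b) (a : Fin 4) :
    0 ≤ rv x z (b + 1) a ∧ rv x z (b + 1) a ≤ 3 * b := by
  have hx' := abs_le.1 hx
  have hz' := abs_le.1 hz
  have a1 : 1 ≤ z + (b + 1) := by linarith [hz'.1]
  have a2 : z + (b + 1) ≤ 3 * b := by linarith [hz'.2]
  have b1 : 1 ≤ (b + 1) + x := by linarith [hx'.1]
  have b2 : (b + 1) + x ≤ 3 * b := by linarith [hx'.2]
  have d1 : 1 ≤ (b + 1) - x := by linarith [hx'.2]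
  have d2 : (b + 1) - x ≤ 3 * b := by linarith [hx'.1]
  have f1 := frac_bound hb a1 a2 b1 b2 d1
  have f2 := frac_bound hb a1 a2 d1 d2 b1
  have f3 := frac_bound hb b1 b2 d1 d2 a1
  fin_cases a
  · exact ⟨Real.sqrt_nonneg _, sqrt_bound hb f1.2⟩
  · exact ⟨Real.sqrt_nonneg _, sqrt_bound hb f2.2⟩
  · exact ⟨Real.sqrt_nonneg _, sqrt_bound hb f3.2⟩
  · refine ⟨le_rfl, ?_⟩
    change (0 : ℝ) ≤ 3 * b
    linarith

theorem rv_sum {x z b : ℝ} (hb : 1 ≤ b) (hx : |x| ≤ b) (hz : |z| ≤ b) :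
    ∑ a, |rv x z (b + 1) a| ≤ 9 * b := by
  rw [Fin.sum_univ_four]
  have h0 := rv_bound hb hx hz 0
  have h1 := rv_bound hb hx hz 1
  have h2 := rv_bound hb hx hz 2
  have h3 : rv x z (b + 1) 3 = 0 := rfl
  rw [h3, abs_of_nonneg h0.1, abs_of_nonneg h1.1, abs_of_nonneg h2.1, abs_zero]
  linarith [h0.2, h1.2, h2.2]

/-- bounded data -/
structure XD.Bd (D : XD n) (b : ℝ) : Prop where
  fx : ∀ p, |D.fx p| ≤ b
  fz : ∀ p, |D.fz p| ≤ b
  ax : ∀ p q, p < q → |D.ax p q| ≤ b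
  az : ∀ p q, p < q → |D.az p q| ≤ b
  bx : ∀ p q, p < q → |D.bx p q| ≤ b
  bz : ∀ p q, p < q → |D.bz p q| ≤ b

namespace XD

variable {D : XD n} {b : ℝ}

theorem Bd.pos (h : D.Bd b) : D.Pos (b + 1) := fun p q hpq =>
  ⟨by linarith [h.ax p q hpq], by linarith [h.az p q hpq], by linarith [h.bx p q hpq],
    by linarith [h.bz p q hpq]⟩

theorem Bd.CA (h : D.Bd b) (hb : 1 ≤ b) {p q : Fin n} (hpq : p < q) :
    |D.CA (b + 1) p q| ≤ 21 * b ^ 2 := Cr_bound hb (h.ax p q hpq) (h.az p q hpq)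

theorem Bd.CB (h : D.Bd b) (hb : 1 ≤ b) {p q : Fin n} (hpq : p < q) :
    |D.CB (b + 1) p q| ≤ 21 * b ^ 2 :=
  Cr_bound hb (by rw [abs_neg]; exact h.bx p q hpq) (by rw [abs_neg]; exact h.bz p q hpq)

theorem sum_bd {f : Fin n → ℝ} {c : ℝ} (h : ∀ q, |f q| ≤ c) : |∑ q, f q| ≤ n * c := by
  calc |∑ q, f q| ≤ ∑ q, |f q| := Finset.abs_sum_le_sum_abs _ _
    _ ≤ ∑ _q : Fin n, c := Finset.sum_le_sum fun q _ => h q
    _ = n * c := by simp

theorem g_bound (hb : 1 ≤ b) (hn : 1 ≤ n) {f : ℝ} {F G : Fin n → ℝ} (hf : |f| ≤ b)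
    (hF : ∀ q, |F q| ≤ 21 * b ^ 3) (hG : ∀ q, |G q| ≤ 21 * b ^ 3) :
    |f + ∑ q, F q - ∑ q, G q| ≤ 43 * n * b ^ 3 := by
  have h1 := sum_bd hF
  have h2 := sum_bd hG
  have hn' : (1 : ℝ) ≤ n := by exact_mod_cast hn
  have h3 : b ≤ n * b ^ 3 := by
    have : b ≤ b ^ 3 := by nlinarith [sq_nonneg b, sq_nonneg (b - 1)]
    have h0 : 0 ≤ b ^ 3 := by positivity
    nlinarith
  calc |f + ∑ q, F q - ∑ q, G q| ≤ |f| + |∑ q, F q| + |∑ q, G q| := by
        refine (abs_sub _ _).trans ?_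
        gcongr
        exact abs_add_le _ _
    _ ≤ b + n * (21 * b ^ 3) + n * (21 * b ^ 3) := by gcongr
    _ ≤ 43 * n * b ^ 3 := by nlinarith

theorem Bd.gx (h : D.Bd b) (hb : 1 ≤ b) (hn : 1 ≤ n) (p : Fin n) :
    |D.gx (b + 1) p| ≤ 43 * n * b ^ 3 := by
  have hb3 : (0 : ℝ) ≤ 21 * b ^ 3 := by positivity
  unfold XD.gx
  apply g_bound hb hn (h.fx p)
  · intro q
    split_ifs with hq
    · rw [abs_mul]
      calc |D.CA (b + 1) q p| * |D.bx q p| ≤ (21 * b ^ 2) * b :=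
            mul_le_mul (h.CA hb hq) (h.bx q p hq) (abs_nonneg _) (by positivity)
        _ = 21 * b ^ 3 := by ring
    · simpa using hb3
  · intro q
    split_ifs with hq
    · rw [abs_mul]
      calc |D.CB (b + 1) p q| * |D.ax p q| ≤ (21 * b ^ 2) * b :=
            mul_le_mul (h.CB hb hq) (h.ax p q hq) (abs_nonneg _) (by positivity)
        _ = 21 * b ^ 3 := by ring
    · simpa using hb3

theorem Bd.gz (h : D.Bd b) (hb : 1 ≤ b) (hn : 1 ≤ n) (p : Fin n) :
    |D.gz (b + 1) p| ≤ 43 * n * b ^ 3 := by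
  have hb3 : (0 : ℝ) ≤ 21 * b ^ 3 := by positivity
  unfold XD.gz
  apply g_bound hb hn (h.fz p)
  · intro q
    split_ifs with hq
    · rw [abs_mul]
      calc |D.CA (b + 1) q p| * |D.bz q p| ≤ (21 * b ^ 2) * b :=
            mul_le_mul (h.CA hb hq) (h.bz q p hq) (abs_nonneg _) (by positivity)
        _ = 21 * b ^ 3 := by ring
    · simpa using hb3
  · intro q
    split_ifs with hq
    · rw [abs_mul]
      calc |D.CB (b + 1) p q| * |D.az p q| ≤ (21 * b ^ 2) * b :=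
            mul_le_mul (h.CB hb hq) (h.az p q hq) (abs_nonneg _) (by positivity)
        _ = 21 * b ^ 3 := by ring
    · simpa using hb3

theorem card_pairs : ((pairs n).card : ℝ) ≤ (n : ℝ) ^ 2 := by
  have : (pairs n).card ≤ n * n := by
    unfold pairs
    refine (Finset.card_filter_le _ _).trans ?_
    simp
  calc ((pairs n).card : ℝ) ≤ ((n * n : ℕ) : ℝ) := by exact_mod_cast this
    _ = (n : ℝ) ^ 2 := by push_cast; ring

theorem NB_pairs {J : Type*} [Fintype J] {F : Fin n × Fin n → Matrix J J ℝ} {c : ℝ} (hc : 0 ≤ c)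
    (h : ∀ y ∈ pairs n, NB (F y) c) : NB (∑ y ∈ pairs n, F y) ((n : ℝ) ^ 2 * c) := by
  refine (NB.sum (pairs n) h).mono ?_
  rw [Finset.sum_const, nsmul_eq_mul]
  exact mul_le_mul_of_nonneg_right card_pairs hc

theorem NB_univ {J : Type*} [Fintype J] {F : Fin n → Matrix J J ℝ} {c : ℝ}
    (h : ∀ y, NB (F y) c) : NB (∑ y, F y) ((n : ℝ) * c) := by
  refine (NB.sum Finset.univ fun y _ => h y).mono ?_
  simp

theorem Bd.NB_SO (h : D.Bd b) (hb : 1 ≤ b) :
    NB (SO (D.r (b + 1)) (D.s (b + 1))) ((n : ℝ) ^ 2 * (576 * b ^ 4)) := by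
  unfold SO
  apply NB_pairs (by positivity)
  intro y hy
  have hy' : y.1 < y.2 := by simpa [pairs] using hy
  have h1 : NB (O y.1 (RR (D.r (b + 1) y.1 y.2))) (24 * b ^ 2) := by
    rw [RR_r h.pos hy', O_sub, O_smul, O_one]
    refine ((NB.one.smul _).sub (NB_LM _ _ _)).mono ?_
    have e1 := h.CA hb hy'
    have e2 := h.ax _ _ hy'
    have e3 := h.az _ _ hy'
    nlinarith
  have h2 : NB (O y.2 (RR (D.s (b + 1) y.1 y.2))) (24 * b ^ 2) := by
    rw [RR_s h.pos hy', O_add, O_smul, O_one]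
    refine ((NB.one.smul _).add (NB_LM _ _ _)).mono ?_
    have e1 := h.CB hb hy'
    have e2 := h.bx _ _ hy'
    have e3 := h.bz _ _ hy'
    nlinarith
  refine (h1.mul h2).mono (le_of_eq ?_)
  ring

theorem Bd.NB_AL (h : D.Bd b) (hb : 1 ≤ b) (hn : 1 ≤ n) :
    NB (HB.AL (D.u (b + 1))) ((n : ℝ) * (151 * n * b ^ 3)) := by
  unfold HB.AL XD.u
  apply NB_univ
  intro p
  rw [wL_uf, O_add, O_smul, O_one]
  refine ((NB.one.smul _).add (NB_LM _ _ _)).mono ?_
  have e1 := h.gx hb hn p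
  have e2 := h.gz hb hn p
  have hnb : 0 ≤ (n : ℝ) * b ^ 3 := by positivity
  rw [abs_div, abs_two]
  nlinarith

theorem NB_wB (p : Fin n) (u : Fin 4 → ℝ) :
    NB (O p (wB u)) (3 / 4 * (|u 1| + |u 2| + |u 3|)) := by
  unfold wB
  rw [O_sum, Finset.sum_insert (by decide), Finset.sum_insert (by decide), Finset.sum_singleton]
  have key : ∀ b : Fin 4, NB (O p (u b • ((1 / 2 : ℝ) • P4 0 b - (1 / 4 : ℝ) • 1)))
      (|u b| * (3 / 4)) := by
    intro b
    rw [O_smul, O_sub, O_smul, O_smul, O_one]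
    apply NB.smul
    refine (((O_iso (P4_iso 0 b) p).smul (1 / 2)).sub (NB.one.smul (1 / 4))).mono ?_
    norm_num [abs_of_pos]
  refine ((key 1).add ((key 2).add (key 3))).mono (le_of_eq ?_)
  ring

theorem Bd.NB_D1 (h : D.Bd b) (hb : 1 ≤ b) (hn : 1 ≤ n) {kap : ℝ} (hk : 0 ≤ kap) :
    NB (D1 (D.r (b + 1)) (D.s (b + 1)) (D.u (b + 1)) kap)
      ((n : ℝ) * (200 * n * b ^ 3) + kap * ((n : ℝ) ^ 2 * (61 * b ^ 2))) := by
  unfold D1
  apply NB.add
  · apply NB_univ
    intro p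
    refine (NB_wB p _).mono ?_
    have e1 := h.gx hb hn p
    have e2 := h.gz hb hn p
    have u1 : D.u (b + 1) p 1 = -2 * D.gz (b + 1) p := rfl
    have u2 : D.u (b + 1) p 2 = -2 * D.gx (b + 1) p := rfl
    have u3 : D.u (b + 1) p 3 = 2 * D.gx (b + 1) p := rfl
    rw [u1, u2, u3, abs_mul, abs_mul, abs_mul, abs_neg, abs_two]
    have hnb : 0 ≤ (n : ℝ) * b ^ 3 := by positivity
    nlinarith
  · have h1 : NB (∑ x ∈ pairs n, Vpq x.1 x.2 (D.r (b + 1) x.1 x.2) (D.s (b + 1) x.1 x.2))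
        ((n : ℝ) ^ 2 * (61 * b ^ 2)) := by
      apply NB_pairs (by positivity)
      intro y hy
      have hy' : y.1 < y.2 := by simpa [pairs] using hy
      refine (NB_Vpq _ _ _ _).mono ?_
      have e1 : ∑ a, |D.r (b + 1) y.1 y.2 a| ≤ 9 * b :=
        rv_sum hb (h.ax _ _ hy') (h.az _ _ hy')
      have e2 : ∑ a, |D.s (b + 1) y.1 y.2 a| ≤ 9 * b :=
        rv_sum hb (by rw [abs_neg]; exact h.bx _ _ hy') (by rw [abs_neg]; exact h.bz _ _ hy')
      have e3 : 0 ≤ ∑ a, |D.s (b + 1) y.1 y.2 a| := Finset.sum_nonneg fun _ _ => abs_nonneg _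
      calc 3 / 4 * (∑ a, |D.r (b + 1) y.1 y.2 a|) * ∑ a, |D.s (b + 1) y.1 y.2 a|
          ≤ 3 / 4 * (9 * b) * (9 * b) := by gcongr
        _ ≤ 61 * b ^ 2 := by nlinarith [sq_nonneg b]
    have h2 := h1.smul kap
    rw [abs_of_nonneg hk] at h2
    exact h2

end XD

end Crest.Agent.R338.HB
end

-- ▼ part R338/HB8
section

/-!
# Row 338, node I.4 (i): the main theorem with real data
-/

set_option autoImplicit false

namespace Crest.Agent.R338.HB

open Matrix Finset Ten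

variable {n : ℕ}

section num

variable {N b q M j : ℝ}

/-- parameters -/
structure Par (N b q M j : ℝ) : Prop where
  hN : 1 ≤ N
  hb : 1 ≤ b
  hq : 1 ≤ q
  hM : M = N * q * b
  hj : j = 10 ^ 6 * M ^ 7

theorem Par.M1 (P : Par N b q M j) : 1 ≤ M := by
  rw [P.hM]
  have := P.hN; have := P.hb; have := P.hq
  have h1 : 1 ≤ N * q := one_le_mul_of_one_le_of_one_le P.hN P.hq
  exact one_le_mul_of_one_le_of_one_le h1 P.hb

theorem Par.qM (P : Par N b q M j) : q ≤ M := by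
  rw [P.hM]
  have h1 : 1 ≤ N * b := one_le_mul_of_one_le_of_one_le P.hN P.hb
  have h2 : 0 ≤ q := by linarith [P.hq]
  nlinarith

theorem Par.Nb (P : Par N b q M j) : N * b ≤ M := by
  rw [P.hM]
  have h1 : 0 ≤ N * b := mul_nonneg (by linarith [P.hN]) (by linarith [P.hb])
  nlinarith [P.hq]

theorem Par.jpos (P : Par N b q M j) : 0 < j := by
  rw [P.hj]
  have := P.M1
  positivity

theorem Par.jM (P : Par N b q M j) {k : ℕ} (hk : k ≤ 7) : 10 ^ 6 * M ^ k ≤ j := by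
  rw [P.hj]
  have := pow_le_pow_right₀ P.M1 hk
  linarith

theorem Par.e4 (P : Par N b q M j) : N ^ 2 * b ^ 4 ≤ M ^ 4 := by
  have h1 := P.Nb
  have hN := P.hN
  have hb := P.hb
  have h2 : (N * b) ^ 4 ≤ M ^ 4 := pow_le_pow_left₀ (by positivity) h1 4
  have h3 : N ^ 2 * b ^ 4 ≤ N ^ 4 * b ^ 4 := by
    apply mul_le_mul_of_nonneg_right _ (by positivity)
    exact pow_le_pow_right₀ hN (by norm_num)
  calc N ^ 2 * b ^ 4 ≤ N ^ 4 * b ^ 4 := h3
    _ = (N * b) ^ 4 := by ring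
    _ ≤ M ^ 4 := h2

theorem Par.e3 (P : Par N b q M j) : N ^ 2 * b ^ 3 ≤ M ^ 4 := by
  refine le_trans ?_ P.e4
  have hN := P.hN
  have hb := P.hb
  apply mul_le_mul_of_nonneg_left _ (by positivity)
  exact pow_le_pow_right₀ hb (by norm_num)

theorem Par.e2 (P : Par N b q M j) : N ^ 2 * b ^ 2 ≤ M ^ 2 := by
  have h1 := P.Nb
  have hN := P.hN
  have hb := P.hb
  calc N ^ 2 * b ^ 2 = (N * b) ^ 2 := by ring
    _ ≤ M ^ 2 := pow_le_pow_left₀ (by positivity) h1 2

theorem Par.total (P : Par N b q M j) :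
    (N * (200 * N * b ^ 3) + (6 * j) * (N ^ 2 * (61 * b ^ 2))) +
      (N * (151 * N * b ^ 3) + N ^ 2 * (576 * b ^ 4)) + N ^ 2 * (576 * b ^ 4) ≤
      367 * j * M ^ 2 := by
  have h4 := P.e4
  have h3 := P.e3
  have h2 := P.e2
  have hj := P.jpos
  have hM := P.M1
  have h5 : 10 ^ 6 * M ^ 4 ≤ j := P.jM (by norm_num)
  have h6 : j ≤ j * M ^ 2 := by
    have : 1 ≤ M ^ 2 := one_le_pow₀ hM
    nlinarith
  have h7 : j * (N ^ 2 * b ^ 2) ≤ j * M ^ 2 := mul_le_mul_of_nonneg_left h2 hj.le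
  have e : (N * (200 * N * b ^ 3) + (6 * j) * (N ^ 2 * (61 * b ^ 2))) +
      (N * (151 * N * b ^ 3) + N ^ 2 * (576 * b ^ 4)) + N ^ 2 * (576 * b ^ 4) =
      351 * (N ^ 2 * b ^ 3) + 1152 * (N ^ 2 * b ^ 4) + 366 * (j * (N ^ 2 * b ^ 2)) := by ring
  rw [e]
  nlinarith [pow_pos (by linarith : (0:ℝ) < M) 4]

theorem Par.cond (P : Par N b q M j) :
    (N * (200 * N * b ^ 3) + (6 * j) * (N ^ 2 * (61 * b ^ 2))) +
      (N * (151 * N * b ^ 3) + N ^ 2 * (576 * b ^ 4)) + N ^ 2 * (576 * b ^ 4) ≤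
      (6 * j ^ 2) / 2 := by
  refine P.total.trans ?_
  have hj := P.jpos
  have h5 : 10 ^ 6 * M ^ 2 ≤ j := P.jM (by norm_num)
  nlinarith

theorem Par.err (P : Par N b q M j) :
    2 * (N ^ 2 * (576 * b ^ 4)) * ((N * (200 * N * b ^ 3) + (6 * j) * (N ^ 2 * (61 * b ^ 2))) +
      (N * (151 * N * b ^ 3) + N ^ 2 * (576 * b ^ 4)) + N ^ 2 * (576 * b ^ 4)) / (6 * j ^ 2) ≤
      1 / (8 * q) := by
  have h4 := P.e4
  have hj := P.jpos
  have hM := P.M1
  have hq := P.hq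
  have hqM := P.qM
  have hN := P.hN
  have hb := P.hb
  have ht := P.total
  have h1 : 2 * (N ^ 2 * (576 * b ^ 4)) * ((N * (200 * N * b ^ 3) + (6 * j) *
      (N ^ 2 * (61 * b ^ 2))) + (N * (151 * N * b ^ 3) + N ^ 2 * (576 * b ^ 4)) +
      N ^ 2 * (576 * b ^ 4)) ≤ (1152 * M ^ 4) * (367 * j * M ^ 2) := by
    apply mul_le_mul _ ht (by positivity) (by positivity)
    nlinarith
  rw [div_le_div_iff₀ (by positivity) (by positivity)]
  have h2 : (1152 * M ^ 4) * (367 * j * M ^ 2) * (8 * q) ≤ 1 * (6 * j ^ 2) := by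
    have h7 : M ^ 6 * q ≤ M ^ 7 := by
      calc M ^ 6 * q ≤ M ^ 6 * M := mul_le_mul_of_nonneg_left hqM (by positivity)
        _ = M ^ 7 := by ring
    have h8 : 1152 * 367 * 8 * (M ^ 6 * q) ≤ 6 * j := by
      rw [P.hj]
      nlinarith [pow_pos (by linarith : (0:ℝ) < M) 7]
    calc (1152 * M ^ 4) * (367 * j * M ^ 2) * (8 * q)
        = (1152 * 367 * 8 * (M ^ 6 * q)) * j := by ring
      _ ≤ (6 * j) * j := mul_le_mul_of_nonneg_right h8 hj.le
      _ = 1 * (6 * j ^ 2) := by ring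
  calc _ ≤ (1152 * M ^ 4) * (367 * j * M ^ 2) * (8 * q) :=
        mul_le_mul_of_nonneg_right h1 (by positivity)
    _ ≤ _ := h2

end num

theorem D1_congr {r s r' s' : Fin n → Fin n → Fin 4 → ℝ} {u u' : Fin n → Fin 4 → ℝ} (kap : ℝ)
    (hr : ∀ p q, p < q → r p q = r' p q) (hs : ∀ p q, p < q → s p q = s' p q)
    (hu : ∀ p, u p = u' p) : D1 r s u kap = D1 r' s' u' kap := by
  unfold D1
  congr 1
  · exact Finset.sum_congr rfl fun p _ => by rw [hu]
  · congr 1
    refine Finset.sum_congr rfl fun y hy => ?_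
    have hy' : y.1 < y.2 := by simpa [pairs] using hy
    rw [hr _ _ hy', hs _ _ hy']

/-- the data of the main theorem -/
structure Main (D : XD n) (b q M j : ℝ) (rN sN : ℕ → ℕ → ℕ → ℝ) (uN : ℕ → ℕ → ℝ) : Prop where
  bd : D.Bd b
  par : Par (n : ℝ) b q M j
  hr : ∀ p q : Fin n, p < q → ∀ a : Fin 4, rN p q a = D.r (b + 1) p q a
  hs : ∀ p q : Fin n, p < q → ∀ a : Fin 4, sN p q a = D.s (b + 1) p q a
  hu : ∀ p : Fin n, ∀ a : Fin 4, uN p a = D.u (b + 1) p a

namespace Main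

variable {D : XD n} {b q M j : ℝ} {rN sN : ℕ → ℕ → ℕ → ℝ} {uN : ℕ → ℕ → ℝ}

theorem hn (P : Main D b q M j rN sN uN) : 1 ≤ n := by
  have := P.par.hN
  exact_mod_cast this

theorem D1_eq (P : Main D b q M j rN sN uN) :
    D1 (fun p q a => rN p q a) (fun p q a => sN p q a) (fun (p : Fin n) a => uN p a) (6 * j) =
      D1 (D.r (b + 1)) (D.s (b + 1)) (D.u (b + 1)) (6 * j) :=
  D1_congr _ (fun p q h => funext fun a => P.hr p q h a)
    (fun p q h => funext fun a => P.hs p q h a) (fun p => funext fun a => P.hu p a)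

theorem pert (P : Main D b q M j rN sN uN) :
    PertData (iota n) (YY (D.r (b + 1)) (D.s (b + 1)) (6 * j)) ((6 * j ^ 2) • ∑ p : Fin n, O p K4)
      (D1 (D.r (b + 1)) (D.s (b + 1)) (D.u (b + 1)) (6 * j)) (AL (D.u (b + 1))) (6 * j ^ 2)
      ((n : ℝ) * (200 * n * b ^ 3) + (6 * j) * ((n : ℝ) ^ 2 * (61 * b ^ 2)))
      ((n : ℝ) * (151 * n * b ^ 3) + (n : ℝ) ^ 2 * (576 * b ^ 4))
      ((n : ℝ) ^ 2 * (576 * b ^ 4)) := by
  have hj := P.par.jpos
  have hb := P.par.hb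
  apply pertData
  · positivity
  · ring
  · positivity
  · positivity
  · positivity
  · exact P.bd.NB_D1 hb P.hn (by positivity)
  · exact (P.bd.NB_AL hb P.hn).sub (P.bd.NB_SO hb)
  · exact P.bd.NB_SO hb
  · exact P.par.cond

theorem eff (P : Main D b q M j rN sN uN) (φ : (Fin n → Bool) → ℝ) :
    PertData.eff (AL (D.u (b + 1))) (YY (D.r (b + 1)) (D.s (b + 1)) (6 * j)) (6 * j ^ 2) φ =
      φ ⬝ᵥ (D.mat *ᵥ φ) + D.c0 (b + 1) * (φ ⬝ᵥ φ) := by
  have hj := P.par.jpos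
  rw [eff_eq _ _ _ (by positivity) (by ring), XD.heff_eq P.bd.pos, add_mulVec, dotProduct_add,
    smul_mulVec, one_mulVec, dotProduct_smul, smul_eq_mul]

theorem yes (P : Main D b q M j rN sN uN) {e : ℝ} (φ : (Fin n → Bool) → ℝ) (hφ : φ ⬝ᵥ φ = 1)
    (he : φ ⬝ᵥ (D.mat *ᵥ φ) ≤ e) :
    ∃ χ : Q (Fin (n * 4)), nsq χ = 1 ∧
      P1.heisR (fun i k => Jraw rN sN uN (6 * j) (6 * j ^ 2) i k) χ ≤
        e + D.c0 (b + 1) + 1 / (8 * q) - (3 / 2) * (6 * j ^ 2) * n := by
  obtain ⟨ψ, h1, h2⟩ := P.pert.upper φ hφ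
  rw [P.eff, hφ] at h2
  have herr := P.par.err
  refine ⟨fun τ => ψ ((cf n).symm τ), ?_, ?_⟩
  · rw [nsq_eq]
    have : pb (fun τ => ψ ((cf n).symm τ)) = ψ := by
      funext σ; simp [pb]
    rw [this, h1]
  · have hpb : pb (fun τ => ψ ((cf n).symm τ)) = ψ := by
      funext σ; simp [pb]
    have h3 := heisR_eq rN sN uN (6 * j) (6 * j ^ 2) (fun τ => ψ ((cf n).symm τ))
    rw [hpb, nsq_eq, hpb, h1, P.D1_eq] at h3
    linarith

theorem no (P : Main D b q M j rN sN uN) {μ : ℝ}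
    (hμ : ∀ φ : (Fin n → Bool) → ℝ, φ ⬝ᵥ φ = 1 → μ ≤ φ ⬝ᵥ (D.mat *ᵥ φ)) (χ : Q (Fin (n * 4))) :
    (μ + D.c0 (b + 1) - 1 / (8 * q) - (3 / 2) * (6 * j ^ 2) * n) * nsq χ ≤
      P1.heisR (fun i k => Jraw rN sN uN (6 * j) (6 * j ^ 2) i k) χ := by
  have hμ' : ∀ φ : (Fin n → Bool) → ℝ, (μ + D.c0 (b + 1)) * (φ ⬝ᵥ φ) ≤
      PertData.eff (AL (D.u (b + 1))) (YY (D.r (b + 1)) (D.s (b + 1)) (6 * j)) (6 * j ^ 2) φ := by
    intro φ
    rw [P.eff, add_mul]
    have : μ * (φ ⬝ᵥ φ) ≤ φ ⬝ᵥ (D.mat *ᵥ φ) := by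
      by_cases h0 : φ ⬝ᵥ φ = 0
      · have : φ = 0 := by
          rwa [dotProduct_self_eq_zero] at h0
        subst this
        simp
      · have hpos : 0 < φ ⬝ᵥ φ := lt_of_le_of_ne (dot_self_nonneg φ) (Ne.symm h0)
        set c := (√(φ ⬝ᵥ φ))⁻¹ with hc
        have hcc : c * c = (φ ⬝ᵥ φ)⁻¹ := by
          rw [hc, ← mul_inv, Real.mul_self_sqrt hpos.le]
        have h1 := hμ (c • φ) (by
          rw [smul_dotProduct, dotProduct_smul, smul_eq_mul, smul_eq_mul, ← mul_assoc, hcc]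
          field_simp)
        rw [mulVec_smul, smul_dotProduct, dotProduct_smul, smul_eq_mul, smul_eq_mul, ← mul_assoc,
          hcc, ← div_eq_inv_mul, le_div_iff₀ hpos] at h1
        exact h1
    linarith
  have h2 := P.pert.lower hμ' (pb χ)
  have h3 := heisR_eq rN sN uN (6 * j) (6 * j ^ 2) χ
  rw [P.D1_eq] at h3
  have herr := P.par.err
  have hN := dot_self_nonneg (pb χ)
  rw [nsq_eq] at h3 ⊢
  have h4 : (μ + D.c0 (b + 1) - 1 / (8 * q)) * (pb χ ⬝ᵥ pb χ) ≤
      pb χ ⬝ᵥ ((((6 * j ^ 2) • ∑ p : Fin n, O p K4) +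
        D1 (D.r (b + 1)) (D.s (b + 1)) (D.u (b + 1)) (6 * j)) *ᵥ pb χ) := by
    refine le_trans ?_ h2
    apply mul_le_mul_of_nonneg_right _ hN
    linarith
  linarith

/-- the couplings are in `[0, 7 j²]` -/
theorem Jbd (P : Main D b q M j rN sN uN) (x y : Fin n × Fin 4)
    (hxy : x.1 < y.1 ∨ (x.1 = y.1 ∧ x.2 < y.2)) :
    0 ≤ Jraw rN sN uN (6 * j) (6 * j ^ 2) (finProdFinEquiv x : Fin (n * 4))
        (finProdFinEquiv y : Fin (n * 4)) ∧
      Jraw rN sN uN (6 * j) (6 * j ^ 2) (finProdFinEquiv x : Fin (n * 4))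
        (finProdFinEquiv y : Fin (n * 4)) ≤ 7 * j ^ 2 := by
  have hj := P.par.jpos
  have hb := P.par.hb
  have hM := P.par.M1
  have hN := P.par.hN
  rw [Jraw_eq]
  rcases hxy with h | ⟨h, h2⟩
  · rw [if_pos h, P.hr _ _ h, P.hs _ _ h]
    have e1 := rv_bound hb (P.bd.ax _ _ h) (P.bd.az _ _ h) x.2
    have e2 := rv_bound hb (by rw [abs_neg]; exact P.bd.bx _ _ h)
      (by rw [abs_neg]; exact P.bd.bz _ _ h) y.2 (x := -D.bx x.1 y.1) (z := -D.bz x.1 y.1)
    change 0 ≤ D.r (b + 1) x.1 y.1 x.2 ∧ _ at e1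
    change 0 ≤ D.s (b + 1) x.1 y.1 y.2 ∧ _ at e2
    refine ⟨mul_nonneg (by positivity) (mul_nonneg e1.1 e2.1), ?_⟩
    have h5 : D.r (b + 1) x.1 y.1 x.2 * D.s (b + 1) x.1 y.1 y.2 ≤ (3 * b) * (3 * b) :=
      mul_le_mul e1.2 e2.2 e2.1 (by positivity)
    have h6 : b ^ 2 ≤ M ^ 2 := by
      have : b ≤ M := by
        have := P.par.Nb
        nlinarith
      exact pow_le_pow_left₀ (by positivity) this 2
    have h7 : 10 ^ 6 * M ^ 2 ≤ j := P.par.jM (by norm_num)
    calc 6 * j * (D.r (b + 1) x.1 y.1 x.2 * D.s (b + 1) x.1 y.1 y.2)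
        ≤ 6 * j * ((3 * b) * (3 * b)) := mul_le_mul_of_nonneg_left h5 (by positivity)
      _ = 54 * j * b ^ 2 := by ring
      _ ≤ 7 * j ^ 2 := by nlinarith
  · rw [if_neg (by rw [h]; exact lt_irrefl _), if_pos h]
    have hu : |if x.2 = 0 then uN x.1 y.2 else 0| ≤ j ^ 2 := by
      split_ifs with h0
      · rw [P.hu]
        have e1 := P.bd.gx hb P.hn x.1
        have e2 := P.bd.gz hb P.hn x.1
        have h8 : (n : ℝ) * b ^ 3 ≤ M ^ 4 := by
          refine le_trans ?_ P.par.e3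
          have : (n : ℝ) ≤ (n : ℝ) ^ 2 := by nlinarith
          exact mul_le_mul_of_nonneg_right this (by positivity)
        have h9 : 10 ^ 6 * M ^ 4 ≤ j := P.par.jM (by norm_num)
        have h10 : 1 ≤ M ^ 4 := one_le_pow₀ hM
        have h11 : 86 * (n : ℝ) * b ^ 3 ≤ j ^ 2 := by nlinarith
        have key : ∀ a : Fin 4, |D.u (b + 1) x.1 a| ≤ j ^ 2 := by
          intro a
          fin_cases a
          · change |(0 : ℝ)| ≤ j ^ 2
            rw [abs_zero]; positivity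
          · change |-2 * D.gz (b + 1) x.1| ≤ j ^ 2
            rw [abs_mul, abs_neg, abs_two]
            linarith
          · change |-2 * D.gx (b + 1) x.1| ≤ j ^ 2
            rw [abs_mul, abs_neg, abs_two]
            linarith
          · change |2 * D.gx (b + 1) x.1| ≤ j ^ 2
            rw [abs_mul, abs_two]
            linarith
        exact key y.2
      · rw [abs_zero]; positivity
    have h12 := abs_le.1 hu
    constructor
    · nlinarith [h12.1, sq_nonneg j]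
    · nlinarith [h12.2]

end Main

end Crest.Agent.R338.HB
end

-- ▼ part R338/HB9
section

/-!
# Row 338, node I.4 (j): the map from `XZ` instances to Heisenberg instances
-/

set_option autoImplicit false

noncomputable section

namespace Crest.Agent.R338.HB

open Matrix Finset Ten Crest.Agent.Lib.PT Crest.Agent.R338.Nu

/-! ### Rational data -/

/-- rational scalar part -/
def CrQ (x z t : ℚ) : ℚ :=
  (3 / 4) * ((z + t) * (t + x) / (t - x) + (z + t) * (t - x) / (t + x) +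
    (t + x) * (t - x) / (z + t)) - (1 / 2) * ((z + t) + (t + x) + (t - x))

/-- components of `rv`, natural number index -/
def rvN (x z t : ℚ) (a : ℕ) : ℝ :=
  if a = 0 then √(((z + t) * (t + x) / (t - x) : ℚ) : ℝ)
  else if a = 1 then √(((z + t) * (t - x) / (t + x) : ℚ) : ℝ)
  else if a = 2 then √(((t + x) * (t - x) / (z + t) : ℚ) : ℝ) else 0

theorem CrQ_cast (x z t : ℚ) : ((CrQ x z t : ℚ) : ℝ) = Cr x z t := by
  unfold CrQ Cr; push_cast; ring

theorem rvN_eq (x z t : ℚ) (a : Fin 4) : rvN x z t a = rv x z t a := by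
  unfold rvN rv
  fin_cases a <;> simp

/-- `t = b + 1` -/
def tQ (x : XInst) : ℚ := (x.b : ℚ) + 1
/-- scalar part of the first factor -/
def CAq (x : XInst) (p q : ℕ) : ℚ := CrQ (x.cp p q).1.1 (x.cp p q).1.2 (tQ x)
/-- scalar part of the second factor -/
def CBq (x : XInst) (p q : ℕ) : ℚ := CrQ (-(x.cp p q).2.1) (-(x.cp p q).2.2) (tQ x)
/-- corrected fields -/
def gxq (x : XInst) (p : ℕ) : ℚ :=
  (x.fl p).1 + ∑ q ∈ range x.n, (if q < p then CAq x q p * (x.cp q p).2.1 else 0) -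
    ∑ q ∈ range x.n, (if p < q then CBq x p q * (x.cp p q).1.1 else 0)
/-- corrected fields -/
def gzq (x : XInst) (p : ℕ) : ℚ :=
  (x.fl p).2 + ∑ q ∈ range x.n, (if q < p then CAq x q p * (x.cp q p).2.2 else 0) -
    ∑ q ∈ range x.n, (if p < q then CBq x p q * (x.cp p q).1.2 else 0)
/-- in-block fields -/
def uq (x : XInst) (p a : ℕ) : ℚ :=
  if a = 1 then -2 * gzq x p else if a = 2 then -2 * gxq x p else if a = 3 then 2 * gxq x p else 0
/-- energy shift -/
def c0q (x : XInst) : ℚ :=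
  ∑ p ∈ range x.n, gzq x p / 2 -
    ∑ p ∈ range x.n, ∑ q ∈ range x.n, (if p < q then CAq x p q * CBq x p q else 0)
/-- the large parameter -/
def jn (x : XInst) : ℕ := 10 ^ 6 * (x.n * x.q * x.b) ^ 7

/-- first vectors -/
def rN (x : XInst) (p q a : ℕ) : ℝ := rvN (x.cp p q).1.1 (x.cp p q).1.2 (tQ x) a
/-- second vectors -/
def sN (x : XInst) (p q a : ℕ) : ℝ := rvN (-(x.cp p q).2.1) (-(x.cp p q).2.2) (tQ x) a
/-- in-block fields -/
def uN (x : XInst) (p a : ℕ) : ℝ := ((uq x p a : ℚ) : ℝ)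

/-- final couplings -/
def Jx (x : XInst) (i k : ℕ) : ℝ :=
  max 0 (min 1 (Jraw (rN x) (sN x) (uN x) (6 * (jn x : ℝ)) (6 * (jn x : ℝ) ^ 2) i k *
    ((7 * jn x ^ 2 : ℕ) : ℝ)⁻¹))

/-- final threshold -/
def loq (x : XInst) : ℚ :=
  (x.e + c0q x + 1 / (8 * (x.q : ℚ)) - (3 / 2) * (6 * (jn x : ℚ) ^ 2) * x.n) / (7 * (jn x : ℚ) ^ 2)

/-- number of spins -/
def nO (x : XInst) : ℕ := x.n * 4 + (if x.n = 0 then 2 else 0)

/-- inverse gap -/
def qO (x : XInst) : ℕ := 14 * x.q * jn x ^ 2 + 1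

/-! ### Computability -/

section ptf

variable {γ : Type} [PTCode γ]

theorem getDB {α : Type} [PTCode α] {l : γ → List α} {i : γ → ℕ} {d : γ → α} (hl : PTF l)
    (hi : PTF i) (hd : PTF d) : PTF (fun c => (l c).getD (i c) (d c)) := by
  refine PTF.of_eq (PTF.getD (PTF.natMinUn hi (PTU.length hl)) hl hd) (fun c => ?_)
  rcases le_total (i c) (l c).length with h | h
  · rw [min_eq_left h]
  · rw [min_eq_right h, List.getD_eq_default _ _ le_rfl, List.getD_eq_default _ _ h]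

theorem ptu_n : PTU (fun x : XInst => x.n) :=
  PTU.val (PTF.comp PTF.fst (PTF.comp PTF.fst PTF.fst))

theorem ptu_q : PTU (fun x : XInst => x.q) :=
  PTU.val (PTF.comp PTF.snd (PTF.comp PTF.fst PTF.fst))

theorem ptu_b : PTU (fun x : XInst => x.b) :=
  PTU.val (PTF.comp PTF.snd PTF.fst)

theorem ptf_e : PTF (fun x : XInst => x.e) := by
  show PTF (fun x : XInst => x.2.2)
  fun_prop

theorem ptf_fl {x : γ → XInst} {p : γ → ℕ} (hx : PTF x) (hp : PTF p) :
    PTF (fun c => (x c).fl (p c)) := by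
  unfold XInst.fl
  exact getDB (PTF.comp PTF.fst (PTF.comp PTF.fst (PTF.comp PTF.snd hx))) hp (PTF.const _)

theorem ptf_cp {x : γ → XInst} {p q : γ → ℕ} (hx : PTF x) (hp : PTF p) (hq : PTF q) :
    PTF (fun c => (x c).cp (p c) (q c)) := by
  unfold XInst.cp
  refine getDB (PTF.comp PTF.snd (PTF.comp PTF.fst (PTF.comp PTF.snd hx))) ?_ (PTF.const _)
  exact PTF.natAdd (PTF.natMul hp (PTU.comp ptu_n hx).toPTF) hq

theorem ptf_CrQ {x z t : γ → ℚ} (hx : PTF x) (hz : PTF z) (ht : PTF t) :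
    PTF (fun c => CrQ (x c) (z c) (t c)) := by
  unfold CrQ
  fun_prop

theorem ptf_tQ {x : γ → XInst} (hx : PTF x) : PTF (fun c => tQ (x c)) := by
  unfold tQ
  exact PTF.ratAdd (PTF.ratNatCast (PTU.comp ptu_b hx).toPTF) (PTF.const 1)

theorem ptf_CAq {x : γ → XInst} {p q : γ → ℕ} (hx : PTF x) (hp : PTF p) (hq : PTF q) :
    PTF (fun c => CAq (x c) (p c) (q c)) := by
  unfold CAq
  have h := ptf_cp hx hp hq
  exact ptf_CrQ (PTF.comp PTF.fst (PTF.comp PTF.fst h)) (PTF.comp PTF.snd (PTF.comp PTF.fst h))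
    (ptf_tQ hx)

theorem ptf_CBq {x : γ → XInst} {p q : γ → ℕ} (hx : PTF x) (hp : PTF p) (hq : PTF q) :
    PTF (fun c => CBq (x c) (p c) (q c)) := by
  unfold CBq
  have h := ptf_cp hx hp hq
  exact ptf_CrQ (PTF.ratNeg (PTF.comp PTF.fst (PTF.comp PTF.snd h)))
    (PTF.ratNeg (PTF.comp PTF.snd (PTF.comp PTF.snd h))) (ptf_tQ hx)

theorem ptf_gxq {x : γ → XInst} {p : γ → ℕ} (hx : PTF x) (hp : PTF p) :
    PTF (fun c => gxq (x c) (p c)) := by
  unfold gxq
  have hx' : PTF (fun c : γ × ℕ => x c.1) := PTF.comp hx PTF.fst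
  have hp' : PTF (fun c : γ × ℕ => p c.1) := PTF.comp hp PTF.fst
  have hs : PTF (fun c : γ × ℕ => c.2) := PTF.snd
  refine PTF.ratSub (PTF.ratAdd (PTF.comp PTF.fst (ptf_fl hx hp)) ?_) ?_
  · refine PTF.ratSumRange (PTU.comp ptu_n hx) (f := fun c q => if q < p c then
      CAq (x c) q (p c) * ((x c).cp q (p c)).2.1 else 0) ?_
    refine PTF.ite (PTPred.natLt hs hp') (PTF.ratMul (ptf_CAq hx' hs hp') ?_) (PTF.const 0)
    exact PTF.comp PTF.fst (PTF.comp PTF.snd (ptf_cp hx' hs hp'))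
  · refine PTF.ratSumRange (PTU.comp ptu_n hx) (f := fun c q => if p c < q then
      CBq (x c) (p c) q * ((x c).cp (p c) q).1.1 else 0) ?_
    refine PTF.ite (PTPred.natLt hp' hs) (PTF.ratMul (ptf_CBq hx' hp' hs) ?_) (PTF.const 0)
    exact PTF.comp PTF.fst (PTF.comp PTF.fst (ptf_cp hx' hp' hs))

theorem ptf_gzq {x : γ → XInst} {p : γ → ℕ} (hx : PTF x) (hp : PTF p) :
    PTF (fun c => gzq (x c) (p c)) := by
  unfold gzq
  have hx' : PTF (fun c : γ × ℕ => x c.1) := PTF.comp hx PTF.fst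
  have hp' : PTF (fun c : γ × ℕ => p c.1) := PTF.comp hp PTF.fst
  have hs : PTF (fun c : γ × ℕ => c.2) := PTF.snd
  refine PTF.ratSub (PTF.ratAdd (PTF.comp PTF.snd (ptf_fl hx hp)) ?_) ?_
  · refine PTF.ratSumRange (PTU.comp ptu_n hx) (f := fun c q => if q < p c then
      CAq (x c) q (p c) * ((x c).cp q (p c)).2.2 else 0) ?_
    refine PTF.ite (PTPred.natLt hs hp') (PTF.ratMul (ptf_CAq hx' hs hp') ?_) (PTF.const 0)
    exact PTF.comp PTF.snd (PTF.comp PTF.snd (ptf_cp hx' hs hp'))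
  · refine PTF.ratSumRange (PTU.comp ptu_n hx) (f := fun c q => if p c < q then
      CBq (x c) (p c) q * ((x c).cp (p c) q).1.2 else 0) ?_
    refine PTF.ite (PTPred.natLt hp' hs) (PTF.ratMul (ptf_CBq hx' hp' hs) ?_) (PTF.const 0)
    exact PTF.comp PTF.snd (PTF.comp PTF.fst (ptf_cp hx' hp' hs))

theorem ptf_uq {x : γ → XInst} {p a : γ → ℕ} (hx : PTF x) (hp : PTF p) (ha : PTF a) :
    PTF (fun c => uq (x c) (p c) (a c)) := by
  unfold uq
  have h1 := ptf_gxq hx hp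
  have h2 := ptf_gzq hx hp
  refine PTF.ite (PTPred.natEq ha (PTF.const 1)) (PTF.ratMul (PTF.const _) h2) ?_
  refine PTF.ite (PTPred.natEq ha (PTF.const 2)) (PTF.ratMul (PTF.const _) h1) ?_
  exact PTF.ite (PTPred.natEq ha (PTF.const 3)) (PTF.ratMul (PTF.const _) h1) (PTF.const 0)

theorem ptf_c0q : PTF (fun x : XInst => c0q x) := by
  unfold c0q
  refine PTF.ratSub ?_ ?_
  · refine PTF.ratSumRange ptu_n (f := fun x p => gzq x p / 2) ?_
    exact PTF.ratDiv (ptf_gzq PTF.fst PTF.snd) (PTF.const 2)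
  · refine PTF.ratSumRange ptu_n (f := fun x p => ∑ q ∈ range x.n,
      (if p < q then CAq x p q * CBq x p q else 0)) ?_
    refine PTF.ratSumRange (α := XInst × ℕ) (n := fun y => y.1.n) (PTU.comp ptu_n PTF.fst)
      (f := fun y q => (if y.2 < q then CAq y.1 y.2 q * CBq y.1 y.2 q else 0)) ?_
    have h1 : PTF (fun z : (XInst × ℕ) × ℕ => z.1.1) := PTF.comp PTF.fst PTF.fst
    have h2 : PTF (fun z : (XInst × ℕ) × ℕ => z.1.2) := PTF.comp PTF.snd PTF.fst
    have h3 : PTF (fun z : (XInst × ℕ) × ℕ => z.2) := PTF.snd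
    exact PTF.ite (PTPred.natLt h2 h3) (PTF.ratMul (ptf_CAq h1 h2 h3) (ptf_CBq h1 h2 h3))
      (PTF.const 0)

theorem ptu_jn : PTU (fun x : XInst => jn x) := by
  unfold jn
  exact PTU.mul (PTU.const _) (PTU.pow (PTU.mul (PTU.mul ptu_n ptu_q) ptu_b) 7)

theorem ptr_rvN {x z t : γ → ℚ} {a : γ → ℕ} (hx : PTF x) (hz : PTF z) (ht : PTF t) (ha : PTF a) :
    PTR (fun c => rvN (x c) (z c) (t c) (a c)) := by
  unfold rvN
  refine PTR.ite (PTPred.natEq ha (PTF.const 0)) (PTR.sqrt (PTR.ratCast (by fun_prop))) ?_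
  refine PTR.ite (PTPred.natEq ha (PTF.const 1)) (PTR.sqrt (PTR.ratCast (by fun_prop))) ?_
  exact PTR.ite (PTPred.natEq ha (PTF.const 2)) (PTR.sqrt (PTR.ratCast (by fun_prop))) PTR.zero

theorem ptr_rN {x : γ → XInst} {p q a : γ → ℕ} (hx : PTF x) (hp : PTF p) (hq : PTF q)
    (ha : PTF a) : PTR (fun c => rN (x c) (p c) (q c) (a c)) := by
  unfold rN
  have h := ptf_cp hx hp hq
  exact ptr_rvN (PTF.comp PTF.fst (PTF.comp PTF.fst h)) (PTF.comp PTF.snd (PTF.comp PTF.fst h))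
    (ptf_tQ hx) ha

theorem ptr_sN {x : γ → XInst} {p q a : γ → ℕ} (hx : PTF x) (hp : PTF p) (hq : PTF q)
    (ha : PTF a) : PTR (fun c => sN (x c) (p c) (q c) (a c)) := by
  unfold sN
  have h := ptf_cp hx hp hq
  exact ptr_rvN (PTF.ratNeg (PTF.comp PTF.fst (PTF.comp PTF.snd h)))
    (PTF.ratNeg (PTF.comp PTF.snd (PTF.comp PTF.snd h))) (ptf_tQ hx) ha

theorem ptr_Jx : PTR (fun p : XInst × (ℕ × ℕ) => Jx p.1 p.2.1 p.2.2) := by
  have hx : PTF (fun p : XInst × (ℕ × ℕ) => p.1) := PTF.fst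
  have hi : PTF (fun p : XInst × (ℕ × ℕ) => p.2.1) := PTF.comp PTF.fst PTF.snd
  have hk : PTF (fun p : XInst × (ℕ × ℕ) => p.2.2) := PTF.comp PTF.snd PTF.snd
  have hi4 : PTF (fun p : XInst × (ℕ × ℕ) => p.2.1 / 4) := PTF.natDiv hi (PTF.const 4)
  have hi5 : PTF (fun p : XInst × (ℕ × ℕ) => p.2.1 % 4) := PTF.natMod hi (PTF.const 4)
  have hk4 : PTF (fun p : XInst × (ℕ × ℕ) => p.2.2 / 4) := PTF.natDiv hk (PTF.const 4)
  have hk5 : PTF (fun p : XInst × (ℕ × ℕ) => p.2.2 % 4) := PTF.natMod hk (PTF.const 4)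
  have hj : PTR (fun p : XInst × (ℕ × ℕ) => (jn p.1 : ℝ)) :=
    PTR.natCastU (PTU.comp ptu_jn hx)
  have h6 : PTR (fun p : XInst × (ℕ × ℕ) => 6 * (jn p.1 : ℝ)) := PTR.mul (PTR.ofNat 6) hj
  have h7 : PTR (fun p : XInst × (ℕ × ℕ) => 6 * (jn p.1 : ℝ) ^ 2) :=
    PTR.mul (PTR.ofNat 6) (PTR.powConst hj 2)
  unfold Jx Jraw
  refine PTR.max PTR.zero (PTR.min PTR.one (PTR.mul ?_ ?_))
  · refine PTR.ite (PTPred.natLt hi4 hk4) (PTR.mul h6 (PTR.mul (ptr_rN hx hi4 hk4 hi5)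
      (ptr_sN hx hi4 hk4 hk5))) ?_
    refine PTR.ite (PTPred.natEq hi4 hk4) (PTR.add h7 ?_) PTR.zero
    refine PTR.ite (PTPred.natEq hi5 (PTF.const 0)) ?_ PTR.zero
    unfold uN
    exact PTR.ratCast (ptf_uq hx hi4 hk5)
  · refine PTR.natInv ?_
    exact PTF.natMul (PTF.const 7) (PTF.natPow (PTU.comp ptu_jn hx).toPTF (PTU.const 2))

theorem ptf_loq : PTF (fun x : XInst => loq x) := by
  unfold loq
  have hj : PTF (fun x : XInst => (jn x : ℚ)) := PTF.ratNatCast ptu_jn.toPTF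
  have hj2 : PTF (fun x : XInst => (jn x : ℚ) ^ 2) := PTF.ratPowConst hj 2
  have hq : PTF (fun x : XInst => (x.q : ℚ)) := PTF.ratNatCast ptu_q.toPTF
  have hn : PTF (fun x : XInst => (x.n : ℚ)) := PTF.ratNatCast ptu_n.toPTF
  refine PTF.ratDiv (PTF.ratSub (PTF.ratAdd (PTF.ratAdd ptf_e ptf_c0q) ?_) ?_) ?_
  · exact PTF.ratDiv (PTF.const 1) (PTF.ratMul (PTF.const 8) hq)
  · exact PTF.ratMul (PTF.ratMul (PTF.const _) (PTF.ratMul (PTF.const 6) hj2)) hn
  · exact PTF.ratMul (PTF.const 7) hj2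

theorem ptu_nO : PTU nO := by
  unfold nO
  exact PTU.add (PTU.mul ptu_n (PTU.const 4)) (PTU.ite (PTU.eq ptu_n (PTU.const 0)) (PTU.const 2)
    (PTU.const 0))

theorem ptu_qO : PTU qO := by
  unfold qO
  exact PTU.succ (PTU.mul (PTU.mul (PTU.const 14) ptu_q) (PTU.pow ptu_jn 2))

end ptf

end Crest.Agent.R338.HB

end
end

-- ▼ part R338/HB10
section

/-!
# Row 338, node I.4 (k): `PartIbStmt`
-/

set_option autoImplicit false

noncomputable section

namespace Crest.Agent.R338.HB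

open Matrix Finset Ten Crest.Agent.Lib.PT Crest.Agent.R338.Nu

theorem OLM {n : ℕ} (p : Fin n) (x z : ℝ) (ψ : (Fin n → Bool) → ℝ) :
    O p (LM x z) *ᵥ ψ = (((√3 * x) • X p + z • Z p : Op (Fin n))) ψ := by
  funext σ
  rw [O_mulVec, Fintype.sum_bool]
  simp only [LinearMap.add_apply, LinearMap.smul_apply, Pi.add_apply, Pi.smul_apply, smul_eq_mul,
    X_apply, Z_apply]
  cases h : σ p
  · have e1 : Function.update σ p false = σ := by
      conv_lhs => rw [← h]
      exact Function.update_eq_self p σ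
    have e2 : Function.update σ p true = flip p σ := by
      unfold flip; rw [h]; rfl
    rw [e1, e2]
    simp [LM, X2, Z2]
  · have e1 : Function.update σ p true = σ := by
      conv_lhs => rw [← h]
      exact Function.update_eq_self p σ
    have e2 : Function.update σ p false = flip p σ := by
      unfold flip; rw [h]; rfl
    rw [e1, e2]
    simp [LM, X2, Z2]
    ring

/-- data of a coded instance -/
def xd (x : XInst) : XD x.n where
  fx p := ((x.fl p).1 : ℝ)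
  fz p := ((x.fl p).2 : ℝ)
  ax p q := ((x.cp p q).1.1 : ℝ)
  az p q := ((x.cp p q).1.2 : ℝ)
  bx p q := ((x.cp p q).2.1 : ℝ)
  bz p q := ((x.cp p q).2.2 : ℝ)

theorem E_eq (x : XInst) (φ : Q (Fin x.n)) : E x.xz.op φ = φ ⬝ᵥ ((xd x).mat *ᵥ φ) := by
  unfold E
  congr 1
  unfold XD.mat XZ.op
  rw [LinearMap.add_apply, LinearMap.sum_apply, LinearMap.sum_apply, add_mulVec, sum_mulVec,
    sum_mulVec]
  congr 1
  · refine Finset.sum_congr rfl fun p _ => ?_
    rw [OLM]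
    rfl
  · unfold pairs
    rw [Finset.sum_filter, Fintype.sum_prod_type]
    refine Finset.sum_congr rfl fun p _ => ?_
    rw [LinearMap.sum_apply]
    refine Finset.sum_congr rfl fun q _ => ?_
    by_cases h : p < q
    · simp only [h, if_true]
      rw [← mulVec_mulVec, OLM, OLM]
      rfl
    · simp only [h, if_false]
      rfl

theorem tQ_cast (x : XInst) : ((tQ x : ℚ) : ℝ) = (x.b : ℝ) + 1 := by
  unfold tQ; push_cast; ring

theorem CAq_cast (x : XInst) (p q : Fin x.n) :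
    ((CAq x p q : ℚ) : ℝ) = (xd x).CA ((x.b : ℝ) + 1) p q := by
  unfold CAq XD.CA
  rw [CrQ_cast, tQ_cast]
  rfl

theorem CBq_cast (x : XInst) (p q : Fin x.n) :
    ((CBq x p q : ℚ) : ℝ) = (xd x).CB ((x.b : ℝ) + 1) p q := by
  unfold CBq XD.CB
  rw [CrQ_cast, tQ_cast]
  push_cast
  rfl

theorem gxq_cast (x : XInst) (p : Fin x.n) :
    ((gxq x p : ℚ) : ℝ) = (xd x).gx ((x.b : ℝ) + 1) p := by
  unfold gxq XD.gx
  rw [Finset.sum_range, Finset.sum_range]
  push_cast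
  congr 1
  · congr 1
    refine Finset.sum_congr rfl fun q _ => ?_
    rw [← CAq_cast]
    simp only [Fin.lt_def]
    split_ifs
    · push_cast; rfl
    · simp
  · refine Finset.sum_congr rfl fun q _ => ?_
    rw [← CBq_cast]
    simp only [Fin.lt_def]
    split_ifs
    · push_cast; rfl
    · simp

theorem gzq_cast (x : XInst) (p : Fin x.n) :
    ((gzq x p : ℚ) : ℝ) = (xd x).gz ((x.b : ℝ) + 1) p := by
  unfold gzq XD.gz
  rw [Finset.sum_range, Finset.sum_range]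
  push_cast
  congr 1
  · congr 1
    refine Finset.sum_congr rfl fun q _ => ?_
    rw [← CAq_cast]
    simp only [Fin.lt_def]
    split_ifs
    · push_cast; rfl
    · simp
  · refine Finset.sum_congr rfl fun q _ => ?_
    rw [← CBq_cast]
    simp only [Fin.lt_def]
    split_ifs
    · push_cast; rfl
    · simp

theorem c0q_cast (x : XInst) : ((c0q x : ℚ) : ℝ) = (xd x).c0 ((x.b : ℝ) + 1) := by
  unfold c0q XD.c0
  rw [Finset.sum_range]
  simp only [Finset.sum_range]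
  push_cast
  congr 1
  · refine Finset.sum_congr rfl fun p _ => ?_
    rw [gzq_cast]
  · unfold pairs
    rw [Finset.sum_filter, Fintype.sum_prod_type]
    refine Finset.sum_congr rfl fun p _ => Finset.sum_congr rfl fun q _ => ?_
    rw [← CAq_cast, ← CBq_cast]
    simp only [Fin.lt_def]
    split_ifs
    · push_cast; rfl
    · simp

theorem main_of_valid {x : XInst} (hx : x.Valid) :
    Main (xd x) (x.b : ℝ) (x.q : ℝ) ((x.n : ℝ) * x.q * x.b) (jn x : ℝ) (rN x) (sN x) (uN x) := by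
  obtain ⟨h1, h2, h3, h4, h5⟩ := hx
  have cast_le : ∀ (y : ℚ), |y| ≤ (x.b : ℚ) → |(y : ℝ)| ≤ (x.b : ℝ) := by
    intro y hy
    have : ((|y| : ℚ) : ℝ) ≤ ((x.b : ℚ) : ℝ) := by exact_mod_cast hy
    simpa using this
  refine ⟨⟨?_, ?_, ?_, ?_, ?_, ?_⟩, ⟨?_, ?_, ?_, rfl, ?_⟩, ?_, ?_, ?_⟩
  · exact fun p => cast_le _ (h4 p p.2).1
  · exact fun p => cast_le _ (h4 p p.2).2
  · exact fun p q hpq => cast_le _ (h5 p p.2 q q.2 hpq).1
  · exact fun p q hpq => cast_le _ (h5 p p.2 q q.2 hpq).2.1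
  · exact fun p q hpq => cast_le _ (h5 p p.2 q q.2 hpq).2.2.1
  · exact fun p q hpq => cast_le _ (h5 p p.2 q q.2 hpq).2.2.2
  · exact_mod_cast h1
  · exact_mod_cast h3
  · exact_mod_cast h2
  · unfold jn; push_cast; ring
  · intro p q _ a
    unfold rN XD.r
    rw [rvN_eq, tQ_cast]
    rfl
  · intro p q _ a
    unfold sN XD.s
    rw [rvN_eq, tQ_cast]
    push_cast
    rfl
  · intro p a
    unfold uN uq XD.u uf
    rw [← gxq_cast, ← gzq_cast]
    fin_cases a <;> simp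

theorem heisR_congr {n : ℕ} {J J' : Fin n → Fin n → ℝ} (h : ∀ i j, i < j → J i j = J' i j)
    (φ : Q (Fin n)) : P1.heisR J φ = P1.heisR J' φ := by
  unfold P1.heisR
  refine Finset.sum_congr rfl fun i _ => Finset.sum_congr rfl fun j _ => ?_
  split_ifs with hij
  · rw [h i j hij]
  · rfl

theorem heisR_smul {n : ℕ} (J : Fin n → Fin n → ℝ) (c : ℝ) (φ : Q (Fin n)) :
    P1.heisR (fun i j => J i j * c) φ = P1.heisR J φ * c := by
  unfold P1.heisR
  rw [Finset.sum_mul]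
  refine Finset.sum_congr rfl fun i _ => ?_
  rw [Finset.sum_mul]
  refine Finset.sum_congr rfl fun j _ => ?_
  split_ifs
  · ring
  · ring

theorem Jx_eq {x : XInst} (hx : x.Valid) (i k : Fin (x.n * 4)) (hik : i < k) :
    Jx x i k = Jraw (rN x) (sN x) (uN x) (6 * (jn x : ℝ)) (6 * (jn x : ℝ) ^ 2) i k *
      ((7 * jn x ^ 2 : ℕ) : ℝ)⁻¹ := by
  have P := main_of_valid hx
  obtain ⟨y, rfl⟩ := finProdFinEquiv.surjective i
  obtain ⟨z, rfl⟩ := finProdFinEquiv.surjective k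
  have hb := P.Jbd y z ((lt_iff y z).1 hik)
  have hj := P.par.jpos
  unfold Jx
  have hc : (0 : ℝ) < ((7 * jn x ^ 2 : ℕ) : ℝ) := by push_cast; positivity
  rw [min_eq_right, max_eq_right]
  · exact mul_nonneg hb.1 (by positivity)
  · rw [← div_eq_mul_inv, div_le_one hc]
    push_cast
    exact hb.2

theorem heisR_Jx {x : XInst} (hx : x.Valid) (χ : Q (Fin (x.n * 4))) :
    P1.heisR (fun i k : Fin (x.n * 4) => Jx x i k) χ =
      P1.heisR (fun i k : Fin (x.n * 4) => Jraw (rN x) (sN x) (uN x) (6 * (jn x : ℝ))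
        (6 * (jn x : ℝ) ^ 2) i k) χ * ((7 * jn x ^ 2 : ℕ) : ℝ)⁻¹ := by
  rw [← heisR_smul]
  exact heisR_congr (fun i j hij => Jx_eq hx i j hij) χ

theorem loq_cast {x : XInst} (hx : x.Valid) : ((loq x : ℚ) : ℝ) =
    ((x.e : ℝ) + (xd x).c0 ((x.b : ℝ) + 1) + 1 / (8 * (x.q : ℝ)) -
      (3 / 2) * (6 * (jn x : ℝ) ^ 2) * x.n) * ((7 * jn x ^ 2 : ℕ) : ℝ)⁻¹ := by
  unfold loq
  push_cast
  rw [c0q_cast]
  rfl

theorem yes_x {x : XInst} (hx : x.Valid) (h : x.Yes) : ∃ χ : Q (Fin (x.n * 4)), nsq χ = 1 ∧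
    P1.heisR (fun i k : Fin (x.n * 4) => Jx x i k) χ ≤ ((loq x : ℚ) : ℝ) := by
  obtain ⟨φ, h1, h2⟩ := h
  have P := main_of_valid hx
  rw [E_eq] at h2
  obtain ⟨χ, h3, h4⟩ := P.yes φ h1 h2
  refine ⟨χ, h3, ?_⟩
  rw [heisR_Jx hx, loq_cast hx]
  exact mul_le_mul_of_nonneg_right h4 (by positivity)

theorem no_x {x : XInst} (hx : x.Valid) (h : x.No) (χ : Q (Fin (x.n * 4))) :
    (((loq x : ℚ) : ℝ) + 1 / (qO x : ℝ)) * nsq χ ≤
      P1.heisR (fun i k : Fin (x.n * 4) => Jx x i k) χ := by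
  have P := main_of_valid hx
  have hj := P.par.jpos
  have hq := P.par.hq
  have h1 := P.no (μ := (x.e : ℝ) + 1 / (x.q : ℝ)) (fun φ hφ => by
    have := h φ hφ
    rw [E_eq] at this
    exact this) χ
  rw [heisR_Jx hx, loq_cast hx]
  have hn := nsq_nonneg χ
  set c : ℝ := ((7 * jn x ^ 2 : ℕ) : ℝ)⁻¹ with hc
  have hc0 : 0 ≤ c := by rw [hc]; positivity
  have h2 := mul_le_mul_of_nonneg_right h1 hc0
  refine le_trans ?_ h2
  have h3 : 1 / (qO x : ℝ) ≤ (3 / 4) * (1 / (x.q : ℝ)) * c := by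
    have e1 : c = 1 / (7 * (jn x : ℝ) ^ 2) := by rw [hc]; push_cast; ring
    have e2 : (3 / 4) * (1 / (x.q : ℝ)) * (1 / (7 * (jn x : ℝ) ^ 2)) =
        3 / (28 * (x.q : ℝ) * (jn x : ℝ) ^ 2) := by
      field_simp; norm_num
    rw [e1, e2]
    unfold qO
    push_cast
    rw [div_le_div_iff₀ (by positivity) (by positivity)]
    nlinarith [mul_nonneg (by linarith : (0:ℝ) ≤ (x.q : ℝ)) (sq_nonneg (jn x : ℝ))]
  have e3 : 1 / (8 * (x.q : ℝ)) = (1 / 8) * (1 / (x.q : ℝ)) := by field_simp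
  rw [e3]
  have h4 := mul_le_mul_of_nonneg_right h3 hn
  set Q1 : ℝ := 1 / (x.q : ℝ)
  set e : ℝ := (x.e : ℝ)
  set C0 : ℝ := (xd x).c0 ((x.b : ℝ) + 1)
  set S : ℝ := (3 / 2) * (6 * (jn x : ℝ) ^ 2) * x.n
  calc ((e + C0 + 1 / 8 * Q1 - S) * c + 1 / (qO x : ℝ)) * nsq χ
      = (e + C0 + 1 / 8 * Q1 - S) * c * nsq χ + 1 / (qO x : ℝ) * nsq χ := by ring
    _ ≤ (e + C0 + 1 / 8 * Q1 - S) * c * nsq χ + 3 / 4 * Q1 * c * nsq χ := by linarith
    _ = (e + Q1 + C0 - 1 / 8 * Q1 - S) * nsq χ * c := by ring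

theorem partIb : PartIbStmt := by
  obtain ⟨g, hg, hv, hy, hn⟩ := P1.finalize (α := XInst) nO qO ptu_nO ptu_qO
    (fun x => by unfold nO; split_ifs <;> omega) (fun x => by unfold qO; omega) Jx ptr_Jx
    (fun x i k => le_max_left _ _) (fun x i k => max_le zero_le_one (min_le_left _ _))
    (fun x => ((loq x : ℚ) : ℝ)) (PTR.ratCast ptf_loq)
  have hN : ∀ x : XInst, x.Valid → nO x = x.n * 4 := by
    intro x hx
    have := hx.1
    unfold nO
    rw [if_neg (by omega), add_zero]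
  refine ⟨g, hg, fun x _ => hv x, fun x hx hyes => hy x ?_, fun x hx hno => hn x ?_⟩
  · have key : ∀ N : ℕ, N = x.n * 4 → ∃ φ : Q (Fin N), nsq φ = 1 ∧
        P1.heisR (fun i j : Fin N => Jx x i j) φ ≤ ((loq x : ℚ) : ℝ) := by
      rintro N rfl
      exact yes_x hx hyes
    exact key _ (hN x hx)
  · have key : ∀ N : ℕ, N = x.n * 4 → ∀ φ : Q (Fin N),
        (((loq x : ℚ) : ℝ) + 1 / (qO x : ℝ)) * nsq φ ≤
        P1.heisR (fun i j : Fin N => Jx x i j) φ := by
      rintro N rfl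
      exact no_x hx hno
    exact key _ (hN x hx)

end Crest.Agent.R338.HB

end
end

-- ▼ part R338/Top
section

/-! # Row 338: top level -/

set_option autoImplicit false

open Crest.Quantum.QMA Crest.MathPhysics.CoulombProblem

namespace Crest.Agent.R338.Top

open Crest.Agent.R338

theorem latStmt : P2.LatStmt := Lat.latStmt_of GS.c34 Di.c5

/-- Part II from the charging estimate -/
theorem partII_of (hC : BH.CoulC) : PartIIStmt :=
  P2.partII_of AB.thmAB (BH.thmBHStmt_of' hC Sel.selStmt) Cal.calStmt WC.wcStmt latStmt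
    Fm.scaleStmt Out.numStmt

/-- Part I from the block gadget -/
theorem partI_of' (hb : PartIbStmt) : PartIStmt := partI_of P1.partIa hb

/-- Part I -/
theorem partI : PartIStmt := partI_of' HB.partIb

/-- everything, from the charging estimate -/
theorem main_of' (hC : BH.CoulC) : QMAHard groundEnergyProblem :=
  qmaHard_of partI (partII_of hC)


end Crest.Agent.R338.Top
end

-- ▼ part R338/CE7
section

/-!
Row 338, part 5, D.10: generic part of the charging energy estimate: the density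
`ρ_δ = ∑ δ_i φ_i²`, `∑ V_ij δ_i δ_j = D(ρ_δ, ρ_δ)`, product test functions.
-/

set_option autoImplicit false

open MeasureTheory Real Set Filter
open scoped Topology ContDiff

noncomputable section

namespace Crest.Agent.R338.CE

/-! ### bilinearity for finite sums -/

theorem D_sum_left {ι : Type*} (s : Finset ι) (c : ι → ℝ) {f : ι → P3 → ℝ} {g : P3 → ℝ}
    (hf : ∀ i ∈ s, Nice (f i)) (hg : Nice g) :
    D (fun x => ∑ i ∈ s, c i * f i x) g = ∑ i ∈ s, c i * D (f i) g := by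
  classical
  induction s using Finset.induction_on with
  | empty =>
    simp only [Finset.sum_empty]
    have := D_const_mul_left (fun _ => (0 : ℝ)) g 0
    simpa using this
  | insert i s hi ih =>
    have h1 := (hf i (Finset.mem_insert_self _ _)).const_mul (c i)
    have h2 : ∀ j ∈ s, Nice (f j) := fun j hj => hf j (Finset.mem_insert_of_mem hj)
    have h3 : Nice (fun x => ∑ j ∈ s, c j * f j x) :=
      Nice.sum s fun j hj => (h2 j hj).const_mul (c j)
    simp only [Finset.sum_insert hi]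
    rw [D_add_left h1.int h3.int hg, ih h2, D_const_mul_left]

theorem D_sum_right {ι : Type*} (s : Finset ι) (c : ι → ℝ) {f : ι → P3 → ℝ} {g : P3 → ℝ}
    (hf : ∀ i ∈ s, Nice (f i)) (hg : Nice g) :
    D g (fun x => ∑ i ∈ s, c i * f i x) = ∑ i ∈ s, c i * D g (f i) := by
  rw [D_symm, D_sum_left s c hf hg]
  exact Finset.sum_congr rfl fun i _ => by rw [D_symm]

/-- site density -/
def rho (n k : ℕ) (δ : Fin n → ℤ) (x : P3) : ℝ :=
  ∑ i : Fin n, (δ i : ℝ) * (phi (site n k i) x * phi (site n k i) x)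

theorem nice_rho (n k : ℕ) (δ : Fin n → ℤ) : Nice (rho n k δ) :=
  Nice.sum _ fun i _ => (nice_phi2 (site n k i) (site n k i)).const_mul _

/-- `∑ V_ij δ_i δ_j = D(ρ_δ, ρ_δ)`. -/
theorem sum_Vc_eq (n k : ℕ) (δ : Fin n → ℤ) :
    ∑ i : Fin n, ∑ j : Fin n, Vc n k i j * ((δ i : ℝ) * (δ j : ℝ)) =
      D (rho n k δ) (rho n k δ) := by
  have h1 : D (rho n k δ) (rho n k δ) = ∑ i : Fin n, (δ i : ℝ) *
      D (fun x => phi (site n k i) x * phi (site n k i) x) (rho n k δ) :=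
    D_sum_left Finset.univ _ (fun i _ => nice_phi2 _ _) (nice_rho n k δ)
  rw [h1]
  refine Finset.sum_congr rfl fun i _ => ?_
  have h2 : D (fun x => phi (site n k i) x * phi (site n k i) x) (rho n k δ) =
      ∑ j : Fin n, (δ j : ℝ) * D (fun x => phi (site n k i) x * phi (site n k i) x)
        (fun x => phi (site n k j) x * phi (site n k j) x) :=
    D_sum_right Finset.univ _ (fun j _ => nice_phi2 _ _) (nice_phi2 _ _)
  rw [h2, Finset.mul_sum]
  refine Finset.sum_congr rfl fun j _ => ?_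
  unfold Vc
  rw [W4_eq_W]
  unfold W
  ring

/-! ### product test functions -/

theorem contDiff_pf {η : Fin 3 → ℝ → ℝ} (h : ∀ c, ContDiff ℝ ∞ (η c)) : ContDiff ℝ ∞ (pf η) := by
  unfold pf
  refine contDiff_prod fun c _ => (h c).comp ?_
  exact (EuclideanSpace.proj c : P3 →L[ℝ] ℝ).contDiff

theorem hasCompactSupport_pf {η : Fin 3 → ℝ → ℝ} (h : ∀ c, HasCompactSupport (η c)) :
    HasCompactSupport (pf η) := by
  -- the support is contained in a product of compact sets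
  have hK : IsCompact {x : P3 | ∀ c, x c ∈ tsupport (η c)} := by
    have h1 : IsCompact (Set.pi univ fun c : Fin 3 => tsupport (η c)) :=
      isCompact_univ_pi fun c => h c
    have h2 := h1.image (EuclideanSpace.equiv (Fin 3) ℝ).symm.continuous
    have e : {x : P3 | ∀ c, x c ∈ tsupport (η c)} =
        (EuclideanSpace.equiv (Fin 3) ℝ).symm '' (Set.pi univ fun c : Fin 3 => tsupport (η c)) := by
      ext x
      simp only [mem_ofPred_eq, mem_image, Set.mem_pi, mem_univ, forall_true_left]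
      constructor
      · intro hx
        exact ⟨fun c => x c, hx, by ext c; rfl⟩
      · rintro ⟨y, hy, rfl⟩ c
        exact hy c
    rw [e]; exact h2
  refine HasCompactSupport.intro hK fun x hx => ?_
  simp only [mem_ofPred_eq, not_forall] at hx
  obtain ⟨c, hc⟩ := hx
  unfold pf
  exact Finset.prod_eq_zero (Finset.mem_univ c) (image_eq_zero_of_notMem_tsupport hc)

theorem fderiv_pf {η : Fin 3 → ℝ → ℝ} (h : ∀ c, ContDiff ℝ ∞ (η c)) (i : Fin 3) (x : P3) :
    fderiv ℝ (pf η) x (eb i) = pf (Function.update η i (deriv (η i))) x := by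
  have hd : DifferentiableAt ℝ (pf η) x := (contDiff_pf h).differentiable (by simp) x
  have hline : HasDerivAt (fun t : ℝ => x + t • eb i) (eb i) 0 := by
    have := ((hasDerivAt_id (0 : ℝ)).smul_const (eb i)).const_add x
    simpa using this
  have h1 : HasDerivAt (fun t : ℝ => pf η (x + t • eb i)) (fderiv ℝ (pf η) x (eb i)) 0 := by
    have h2 : HasFDerivAt (pf η) (fderiv ℝ (pf η) x) (x + (0 : ℝ) • eb i) := by
      simpa using hd.hasFDerivAt
    exact h2.comp_hasDerivAt (0 : ℝ) hline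
  have e : (fun t : ℝ => pf η (x + t • eb i)) =
      fun t : ℝ => η i (x i + t) * ∏ c ∈ Finset.univ.erase i, η c (x c) := by
    funext t
    unfold pf
    rw [← Finset.mul_prod_erase Finset.univ _ (Finset.mem_univ i)]
    congr 1
    · congr 1; simp [eb]
    · refine Finset.prod_congr rfl fun c hc => ?_
      have : c ≠ i := (Finset.mem_erase.1 hc).1
      congr 1
      simp [eb, this]
  rw [e] at h1
  have h3 : HasDerivAt (fun t : ℝ => η i (x i + t) * ∏ c ∈ Finset.univ.erase i, η c (x c))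
      (deriv (η i) (x i) * ∏ c ∈ Finset.univ.erase i, η c (x c)) 0 := by
    have h4 : HasDerivAt (η i) (deriv (η i) (x i)) (x i + 0) := by
      simpa using ((h i).differentiable (by simp) (x i)).hasDerivAt
    have h5 : HasDerivAt (fun t : ℝ => x i + t) 1 0 := by
      simpa using (hasDerivAt_id (0 : ℝ)).const_add (x i)
    have h6 := (h4.comp (0 : ℝ) h5).mul_const (∏ c ∈ Finset.univ.erase i, η c (x c))
    simpa [Function.comp_def] using h6
  rw [h1.unique h3]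
  unfold pf
  rw [← Finset.mul_prod_erase Finset.univ (fun c => Function.update η i (deriv (η i)) c (x c))
    (Finset.mem_univ i), Function.update_self]
  congr 1
  refine Finset.prod_congr rfl fun c hc => ?_
  rw [Function.update_of_ne (Finset.mem_erase.1 hc).1]

theorem integral_fderiv_sq {η : Fin 3 → ℝ → ℝ} (h : ∀ c, ContDiff ℝ ∞ (η c)) (i : Fin 3) :
    ∫ x, (fderiv ℝ (pf η) x (eb i)) ^ 2 =
      ∏ c, ∫ s, (Function.update η i (deriv (η i)) c s) ^ 2 := by
  simp_rw [fderiv_pf h]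
  rw [← integral_pf]
  refine integral_congr_ae (Eventually.of_forall fun x => ?_)
  simp only
  unfold pf
  rw [Finset.prod_pow]

theorem integral_grad_sq {η : Fin 3 → ℝ → ℝ} (h : ∀ c, ContDiff ℝ ∞ (η c)) :
    ∑ i, ∫ x, (fderiv ℝ (pf η) x (eb i)) ^ 2 =
      (∫ s, deriv (η 0) s ^ 2) * (∫ s, η 1 s ^ 2) * (∫ s, η 2 s ^ 2) +
      (∫ s, η 0 s ^ 2) * (∫ s, deriv (η 1) s ^ 2) * (∫ s, η 2 s ^ 2) +
      (∫ s, η 0 s ^ 2) * (∫ s, η 1 s ^ 2) * (∫ s, deriv (η 2) s ^ 2) := by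
  simp_rw [integral_fderiv_sq h]
  rw [Fin.sum_univ_three]
  simp only [Fin.prod_univ_three]
  simp [Function.update_self, Function.update_of_ne]

/-- `∫ ρ η` for a product test function. -/
theorem integral_rho_pf (n k : ℕ) (δ : Fin n → ℤ) {η : Fin 3 → ℝ → ℝ}
    (hc : ∀ c, Continuous (η c)) (hb : ∀ c, ∃ C, ∀ t, |η c t| ≤ C) :
    ∫ x, rho n k δ x * pf η x = ∑ i : Fin n, (δ i : ℝ) *
      ((∫ s, η 0 s * HO.hf (mi n k i) s ^ 2) * (∫ s, η 1 s * HO.hf (n0' n k - mi n k i) s ^ 2) *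
        ∫ s, η 2 s * HO.hf 0 s ^ 2) := by
  have hint : ∀ (c : Fin 3) (m : ℕ), Integrable (fun s => η c s * HO.hf m s ^ 2) := by
    intro c m
    obtain ⟨C, hC⟩ := hb c
    exact (integrable_hf_sq m).bdd_mul (c := C) (hc c).aestronglyMeasurable
      (Eventually.of_forall fun s => by rw [Real.norm_eq_abs]; exact hC s)
  have e : ∀ x : P3, rho n k δ x * pf η x = ∑ i : Fin n, (δ i : ℝ) *
      pf (fun c s => η c s * HO.hf (site n k i c) s ^ 2) x := by
    intro x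
    unfold rho
    rw [Finset.sum_mul]
    refine Finset.sum_congr rfl fun i _ => ?_
    rw [mul_assoc]
    congr 1
    unfold phi pf
    rw [← Finset.prod_mul_distrib, ← Finset.prod_mul_distrib]
    refine Finset.prod_congr rfl fun c _ => ?_
    ring
  simp_rw [e]
  rw [integral_finsetSum _ fun i _ => (integrable_pf fun c => hint c _).const_mul _]
  refine Finset.sum_congr rfl fun i _ => ?_
  rw [integral_const_mul, integral_pf, Fin.prod_univ_three]
  rfl

/-- The duality bound for the charging energy, product test functions. -/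
theorem charging_duality (n k : ℕ) (δ : Fin n → ℤ) {η : Fin 3 → ℝ → ℝ}
    (hs : ∀ c, ContDiff ℝ ∞ (η c)) (hc : ∀ c, HasCompactSupport (η c)) :
    4 * π * (∑ i : Fin n, (δ i : ℝ) *
      ((∫ s, η 0 s * HO.hf (mi n k i) s ^ 2) * (∫ s, η 1 s * HO.hf (n0' n k - mi n k i) s ^ 2) *
        ∫ s, η 2 s * HO.hf 0 s ^ 2)) ^ 2 ≤
    (∑ i : Fin n, ∑ j : Fin n, Vc n k i j * ((δ i : ℝ) * (δ j : ℝ))) *
      ((∫ s, deriv (η 0) s ^ 2) * (∫ s, η 1 s ^ 2) * (∫ s, η 2 s ^ 2) +
      (∫ s, η 0 s ^ 2) * (∫ s, deriv (η 1) s ^ 2) * (∫ s, η 2 s ^ 2) +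
      (∫ s, η 0 s ^ 2) * (∫ s, η 1 s ^ 2) * (∫ s, deriv (η 2) s ^ 2)) := by
  have h := D_duality_compact (nice_rho n k δ) (hasCompactSupport_pf hc) (contDiff_pf hs)
  rw [integral_grad_sq hs, ← sum_Vc_eq, integral_rho_pf n k δ (fun c => (hs c).continuous)
    (fun c => ?_)] at h
  · exact h
  · obtain ⟨C, hC⟩ := (hc c).exists_bound_of_continuous (hs c).continuous
    exact ⟨C, fun t => by simpa using hC t⟩

end Crest.Agent.R338.CE
end
end

-- ▼ part R338/CE8
section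

/-!
Row 338, part 5, D.10: one-dimensional cut-offs and masses.
-/

set_option autoImplicit false

open MeasureTheory Real Set Filter
open scoped Topology ContDiff

noncomputable section

namespace Crest.Agent.R338.CE

open WKB (kap Mt)

/-! ### the smooth step -/

theorem deriv_st_of_neg {x : ℝ} (hx : x < 0) : deriv Real.smoothTransition x = 0 := by
  have : Real.smoothTransition =ᶠ[𝓝 x] fun _ => (0 : ℝ) := by
    filter_upwards [Iio_mem_nhds hx] with y hy
    exact Real.smoothTransition.zero_of_nonpos (le_of_lt hy)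
  rw [this.deriv_eq]
  simp

theorem deriv_st_of_gt {x : ℝ} (hx : 1 < x) : deriv Real.smoothTransition x = 0 := by
  have : Real.smoothTransition =ᶠ[𝓝 x] fun _ => (1 : ℝ) := by
    filter_upwards [Ioi_mem_nhds hx] with y hy
    exact Real.smoothTransition.one_of_one_le (le_of_lt hy)
  rw [this.deriv_eq]
  simp

theorem contDiff_st : ContDiff ℝ ∞ Real.smoothTransition := Real.smoothTransition.contDiff

theorem exists_deriv_bound : ∃ K : ℝ, 1 ≤ K ∧ ∀ x, |deriv Real.smoothTransition x| ≤ K := by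
  have hc : Continuous (deriv Real.smoothTransition) :=
    (contDiff_st.continuous_deriv (by simp))
  have hs : HasCompactSupport (deriv Real.smoothTransition) := by
    refine HasCompactSupport.intro (K := Icc (0 : ℝ) 1) isCompact_Icc fun x hx => ?_
    simp only [mem_Icc, not_and_or, not_le] at hx
    rcases hx with hx | hx
    · exact deriv_st_of_neg hx
    · exact deriv_st_of_gt hx
  obtain ⟨C, hC⟩ := hs.exists_bound_of_continuous hc
  exact ⟨max C 1, le_max_right _ _, fun x => by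
    have := hC x
    rw [Real.norm_eq_abs] at this
    exact this.trans (le_max_left _ _)⟩

/-- the bound of the derivative of the smooth step. -/
def K0 : ℝ := exists_deriv_bound.choose

theorem one_le_K0 : 1 ≤ K0 := exists_deriv_bound.choose_spec.1

theorem deriv_st_le (x : ℝ) : |deriv Real.smoothTransition x| ≤ K0 :=
  exists_deriv_bound.choose_spec.2 x

/-- `up a b` vanishes for `|s| ≤ a`, equals one for `|s| ≥ b`. -/
def up (a b : ℝ) (s : ℝ) : ℝ := Real.smoothTransition ((s ^ 2 - a ^ 2) / (b ^ 2 - a ^ 2))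

/-- `cut B` equals one for `|s| ≤ B`, vanishes for `|s| ≥ 2B`. -/
def cut (B : ℝ) (s : ℝ) : ℝ := 1 - up B (2 * B) s

section

variable {a b B : ℝ}

theorem up_nonneg (s : ℝ) : 0 ≤ up a b s := Real.smoothTransition.nonneg _

theorem up_le_one (s : ℝ) : up a b s ≤ 1 := Real.smoothTransition.le_one _

theorem sq_lt_of (ha : 0 < a) (hab : a < b) : a ^ 2 < b ^ 2 := by nlinarith

theorem up_zero (ha : 0 < a) (hab : a < b) {s : ℝ} (hs : |s| ≤ a) : up a b s = 0 := by
  unfold up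
  apply Real.smoothTransition.zero_of_nonpos
  have h1 : s ^ 2 ≤ a ^ 2 := sq_le_sq' (by linarith [neg_abs_le s]) (by linarith [le_abs_self s])
  have h2 := sq_lt_of ha hab
  exact div_nonpos_of_nonpos_of_nonneg (by linarith) (by linarith)

theorem up_one (ha : 0 < a) (hab : a < b) {s : ℝ} (hs : b ≤ |s|) : up a b s = 1 := by
  unfold up
  apply Real.smoothTransition.one_of_one_le
  have h1 : b ^ 2 ≤ s ^ 2 := by
    rw [← sq_abs s]; exact pow_le_pow_left₀ (by linarith) hs 2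
  have h2 := sq_lt_of ha hab
  rw [le_div_iff₀ (by linarith)]
  linarith

theorem contDiff_up : ContDiff ℝ ∞ (up a b) := by
  unfold up
  exact contDiff_st.comp (by fun_prop)

theorem hasDerivAt_up (s : ℝ) : HasDerivAt (up a b)
    (deriv Real.smoothTransition ((s ^ 2 - a ^ 2) / (b ^ 2 - a ^ 2)) *
      (2 * s / (b ^ 2 - a ^ 2))) s := by
  have h1 : HasDerivAt (fun s : ℝ => (s ^ 2 - a ^ 2) / (b ^ 2 - a ^ 2))
      (2 * s / (b ^ 2 - a ^ 2)) s := by
    have := ((hasDerivAt_pow 2 s).sub_const (a ^ 2)).div_const (b ^ 2 - a ^ 2)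
    simpa using this
  have h2 : HasDerivAt Real.smoothTransition
      (deriv Real.smoothTransition ((s ^ 2 - a ^ 2) / (b ^ 2 - a ^ 2)))
      ((s ^ 2 - a ^ 2) / (b ^ 2 - a ^ 2)) :=
    (contDiff_st.differentiable (by simp) _).hasDerivAt
  exact h2.comp s h1

theorem abs_deriv_up_le (ha : 0 < a) (hab : a < b) (s : ℝ) :
    |deriv (up a b) s| ≤ 2 * K0 / (b - a) := by
  rw [(hasDerivAt_up s).deriv, abs_mul]
  have hK := one_le_K0
  have h2 := sq_lt_of ha hab
  have hba : 0 < b - a := by linarith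
  rcases le_or_gt |s| b with hs | hs
  · have h3 : |2 * s / (b ^ 2 - a ^ 2)| ≤ 2 / (b - a) := by
      rw [abs_div, abs_mul, abs_of_pos (by norm_num : (0 : ℝ) < 2),
        abs_of_pos (by linarith : 0 < b ^ 2 - a ^ 2), div_le_div_iff₀ (by linarith) hba]
      nlinarith [abs_nonneg s]
    calc |deriv Real.smoothTransition ((s ^ 2 - a ^ 2) / (b ^ 2 - a ^ 2))| *
          |2 * s / (b ^ 2 - a ^ 2)| ≤ K0 * (2 / (b - a)) :=
          mul_le_mul (deriv_st_le _) h3 (abs_nonneg _) (by linarith)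
      _ = 2 * K0 / (b - a) := by ring
  · have h4 : 1 < (s ^ 2 - a ^ 2) / (b ^ 2 - a ^ 2) := by
      rw [lt_div_iff₀ (by linarith)]
      have : b ^ 2 < s ^ 2 := by
        rw [← sq_abs s]; exact pow_lt_pow_left₀ hs (by linarith) (by norm_num)
      linarith
    rw [deriv_st_of_gt h4]
    simp
    positivity

theorem cut_nonneg (s : ℝ) : 0 ≤ cut B s := by
  unfold cut; linarith [up_le_one (a := B) (b := 2 * B) s]

theorem cut_le_one (s : ℝ) : cut B s ≤ 1 := by
  unfold cut; linarith [up_nonneg (a := B) (b := 2 * B) s]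

theorem cut_one (hB : 0 < B) {s : ℝ} (hs : |s| ≤ B) : cut B s = 1 := by
  unfold cut; rw [up_zero hB (by linarith) hs, sub_zero]

theorem cut_zero (hB : 0 < B) {s : ℝ} (hs : 2 * B ≤ |s|) : cut B s = 0 := by
  unfold cut; rw [up_one hB (by linarith) hs, sub_self]

theorem contDiff_cut : ContDiff ℝ ∞ (cut B) := contDiff_const.sub contDiff_up

theorem hasCompactSupport_cut (hB : 0 < B) : HasCompactSupport (cut B) := by
  refine HasCompactSupport.intro (K := Icc (-(2 * B)) (2 * B)) isCompact_Icc fun x hx => ?_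
  apply cut_zero hB
  by_contra h
  push Not at h
  exact hx ⟨by linarith [neg_abs_le x], by linarith [le_abs_self x]⟩

theorem deriv_cut (s : ℝ) : deriv (cut B) s = -deriv (up B (2 * B)) s := by
  unfold cut
  rw [deriv_const_sub]

theorem abs_deriv_cut_le (hB : 0 < B) (s : ℝ) : |deriv (cut B) s| ≤ 2 * K0 / B := by
  rw [deriv_cut, abs_neg]
  refine (abs_deriv_up_le hB (by linarith) s).trans (le_of_eq ?_)
  congr 1; ring

theorem deriv_eq_zero_of {f : ℝ → ℝ} (hf : ∀ s, 2 * B ≤ |s| → f s = 0) {s : ℝ}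
    (hs : 2 * B < |s|) : deriv f s = 0 := by
  have : f =ᶠ[𝓝 s] fun _ => (0 : ℝ) := by
    have : ∀ᶠ y in 𝓝 s, 2 * B < |y| := (continuous_abs.tendsto s).eventually (lt_mem_nhds hs)
    filter_upwards [this] with y hy
    exact hf y hy.le
  rw [this.deriv_eq]
  simp

theorem integral_sq_le (hB : 0 < B) {f : ℝ → ℝ} {M : ℝ}
    (h0 : ∀ s, 2 * B < |s| → f s = 0) (hM : ∀ s, |f s| ≤ M) :
    ∫ s, f s ^ 2 ≤ 4 * B * M ^ 2 := by
  have h1 : ∫ s in Icc (-(2 * B)) (2 * B), f s ^ 2 = ∫ s, f s ^ 2 := by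
    apply setIntegral_eq_integral_of_forall_compl_eq_zero
    intro s hs
    have : 2 * B < |s| := by
      by_contra h
      push Not at h
      exact hs ⟨by linarith [neg_abs_le s], by linarith [le_abs_self s]⟩
    rw [h0 s this]
    norm_num
  rw [← h1]
  have hv : volume (Icc (-(2 * B)) (2 * B)) < ⊤ := by
    rw [Real.volume_Icc]; exact ENNReal.ofReal_lt_top
  have h2 := norm_setIntegral_le_of_norm_le_const (f := fun s => f s ^ 2) (C := M ^ 2) hv
    (fun s _ => by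
      rw [Real.norm_eq_abs, abs_of_nonneg (sq_nonneg _), ← sq_abs]
      exact pow_le_pow_left₀ (abs_nonneg _) (hM s) 2)
  have h3 : volume.real (Icc (-(2 * B)) (2 * B)) = 4 * B := by
    rw [Measure.real, Real.volume_Icc, ENNReal.toReal_ofReal (by linarith)]
    ring
  rw [h3] at h2
  refine (le_abs_self _).trans ?_
  rw [← Real.norm_eq_abs]
  linarith

/-! ### the test function in the first variable -/

/-- `bump a b B = up a b * cut B`. -/
def bump (a b B : ℝ) (s : ℝ) : ℝ := up a b s * cut B s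

theorem bump_nonneg (s : ℝ) : 0 ≤ bump a b B s := mul_nonneg (up_nonneg s) (cut_nonneg s)

theorem bump_le_one (s : ℝ) : bump a b B s ≤ 1 := by
  unfold bump
  nlinarith [up_nonneg (a := a) (b := b) s, up_le_one (a := a) (b := b) s, cut_nonneg (B := B) s,
    cut_le_one (B := B) s]

theorem contDiff_bump : ContDiff ℝ ∞ (bump a b B) := contDiff_up.mul contDiff_cut

theorem hasCompactSupport_bump (hB : 0 < B) : HasCompactSupport (bump a b B) :=
  (hasCompactSupport_cut hB).mul_left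

theorem bump_far (hB : 0 < B) {s : ℝ} (hs : 2 * B ≤ |s|) : bump a b B s = 0 := by
  unfold bump; rw [cut_zero hB hs, mul_zero]

theorem abs_deriv_bump_le (ha : 0 < a) (hab : a < b) (hB : 0 < B) (s : ℝ) :
    |deriv (bump a b B) s| ≤ 2 * K0 / (b - a) + 2 * K0 / B := by
  have h1 : HasDerivAt (up a b) (deriv (up a b) s) s :=
    (contDiff_up.differentiable (by simp) s).hasDerivAt
  have h2 : HasDerivAt (cut B) (deriv (cut B) s) s :=
    (contDiff_cut.differentiable (by simp) s).hasDerivAt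
  have h3 : deriv (bump a b B) s = deriv (up a b) s * cut B s + up a b s * deriv (cut B) s :=
    (h1.mul h2).deriv
  rw [h3]
  refine (abs_add_le _ _).trans (add_le_add ?_ ?_)
  · rw [abs_mul, abs_of_nonneg (cut_nonneg s)]
    refine (mul_le_of_le_one_right (abs_nonneg _) (cut_le_one s)).trans ?_
    exact abs_deriv_up_le ha hab s
  · rw [abs_mul, abs_of_nonneg (up_nonneg s)]
    refine (mul_le_of_le_one_left (abs_nonneg _) (up_le_one s)).trans ?_
    exact abs_deriv_cut_le hB s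

theorem integral_bump_sq_le (hB : 0 < B) : ∫ s, bump a b B s ^ 2 ≤ 4 * B := by
  have := integral_sq_le (f := bump a b B) (M := 1) hB (fun s hs => bump_far hB hs.le)
    (fun s => by rw [abs_of_nonneg (bump_nonneg s)]; exact bump_le_one s)
  simpa using this

theorem integral_cut_sq_le (hB : 0 < B) : ∫ s, cut B s ^ 2 ≤ 4 * B := by
  have := integral_sq_le (f := cut B) (M := 1) hB (fun s hs => cut_zero hB hs.le)
    (fun s => by rw [abs_of_nonneg (cut_nonneg s)]; exact cut_le_one s)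
  simpa using this

theorem integral_deriv_cut_sq_le (hB : 0 < B) :
    ∫ s, deriv (cut B) s ^ 2 ≤ 4 * B * (2 * K0 / B) ^ 2 :=
  integral_sq_le hB (fun _ hs => deriv_eq_zero_of (fun _ h => cut_zero hB h) hs)
    (abs_deriv_cut_le hB)

theorem integral_deriv_bump_sq_le (ha : 0 < a) (hab : a < b) (hB : 0 < B) :
    ∫ s, deriv (bump a b B) s ^ 2 ≤ 4 * B * (2 * K0 / (b - a) + 2 * K0 / B) ^ 2 :=
  integral_sq_le hB (fun _ hs => deriv_eq_zero_of (fun _ h => bump_far hB h) hs)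
    (abs_deriv_bump_le ha hab hB)

/-! ### masses -/

theorem integrable_mul_hf_sq {f : ℝ → ℝ} (hf : Continuous f) {C : ℝ} (hC : ∀ s, |f s| ≤ C)
    (m : ℕ) : Integrable (fun s => f s * HO.hf m s ^ 2) :=
  (integrable_hf_sq m).bdd_mul (c := C) hf.aestronglyMeasurable
    (Eventually.of_forall fun s => by rw [Real.norm_eq_abs]; exact hC s)

theorem two_sided_tail (m : ℕ) {r : ℝ} (hr : 0 < r) :
    ∫ s in {s : ℝ | kap m + r < |s|}, HO.hf m s ^ 2 ≤ 1 / (kap m * r ^ 3) := by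
  have hk := WKB.kap_pos m
  rw [WKB.integral_abs_gt (by linarith) (fun s => HO.hf m s ^ 2) (WKB.hf_abs_sq m)]
  have h := WKB.tail_mass m hr
  have h1 := WKB.Mt_le_one m
  have h2 : 0 ≤ 1 / (2 * kap m * r ^ 3) := by positivity
  calc 2 * ∫ x in Ioi (kap m + r), HO.hf m x ^ 2 ≤ 2 * (1 / (2 * kap m * r ^ 3) * 1) := by
        have := h.trans (mul_le_mul_of_nonneg_left h1 h2)
        linarith
    _ = 1 / (kap m * r ^ 3) := by field_simp

/-- (M2) small mass of the inner sites. -/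
theorem mass_inner (ha : 0 < a) (hab : a < b) (m : ℕ) {r : ℝ} (hr : 0 < r) (hka : kap m + r ≤ a) :
    ∫ s, bump a b B s * HO.hf m s ^ 2 ≤ 1 / (kap m * r ^ 3) := by
  refine le_trans ?_ (two_sided_tail m hr)
  have hmeas : MeasurableSet {s : ℝ | kap m + r < |s|} :=
    measurableSet_lt measurable_const continuous_abs.measurable
  rw [← integral_indicator hmeas]
  refine integral_mono (integrable_mul_hf_sq contDiff_bump.continuous (C := 1)
    (fun s => by rw [abs_of_nonneg (bump_nonneg s)]; exact bump_le_one s) m)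
    ((integrable_hf_sq m).indicator hmeas) fun s => ?_
  simp only
  by_cases hs : kap m + r < |s|
  · rw [indicator_of_mem (by exact hs)]
    exact mul_le_of_le_one_left (sq_nonneg _) (bump_le_one s)
  · rw [indicator_of_notMem (by exact hs)]
    push Not at hs
    unfold bump
    rw [up_zero ha hab (hs.trans hka), zero_mul, zero_mul]

/-- (M3) almost all mass is in the flat region. -/
theorem mass_cut (hB : 0 < B) (m : ℕ) (hk : 4 * kap m ≤ B) :
    1 / 2 ≤ ∫ s, cut B s * HO.hf m s ^ 2 := by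
  have hk0 := WKB.kap_pos m
  have hk1 := WKB.one_le_kap m
  have h1 := two_sided_tail m (r := 3 * kap m) (by linarith)
  have hmeas : MeasurableSet {s : ℝ | kap m + 3 * kap m < |s|} :=
    measurableSet_lt measurable_const continuous_abs.measurable
  have hi1 := integrable_mul_hf_sq (contDiff_cut (B := B)).continuous (C := 1)
    (fun s => by rw [abs_of_nonneg (cut_nonneg s)]; exact cut_le_one s) m
  have h2 : (∫ s, HO.hf m s ^ 2) ≤ (∫ s, cut B s * HO.hf m s ^ 2) +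
      ∫ s in {s : ℝ | kap m + 3 * kap m < |s|}, HO.hf m s ^ 2 := by
    rw [← integral_indicator hmeas, ← integral_add hi1 ((integrable_hf_sq m).indicator hmeas)]
    refine integral_mono (integrable_hf_sq m) (hi1.add ((integrable_hf_sq m).indicator hmeas))
      fun s => ?_
    simp only
    by_cases hs : kap m + 3 * kap m < |s|
    · rw [indicator_of_mem (by exact hs)]
      have := mul_nonneg (cut_nonneg (B := B) s) (sq_nonneg (HO.hf m s))
      linarith
    · rw [indicator_of_notMem (by exact hs)]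
      push Not at hs
      rw [cut_one hB (by linarith)]
      linarith
  rw [WKB.integral_hf_sq] at h2
  have h3 : 1 / (kap m * (3 * kap m) ^ 3) ≤ 1 / 2 := by
    apply one_div_le_one_div_of_le (by norm_num)
    have h4 : 1 ≤ kap m ^ 4 := one_le_pow₀ hk1
    nlinarith
  linarith

theorem mass_cut_le (m : ℕ) : ∫ s, cut B s * HO.hf m s ^ 2 ≤ 1 := by
  rw [← WKB.integral_hf_sq m]
  refine integral_mono (integrable_mul_hf_sq (contDiff_cut (B := B)).continuous (C := 1)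
    (fun s => by rw [abs_of_nonneg (cut_nonneg s)]; exact cut_le_one s) m)
    (integrable_hf_sq m) fun s => ?_
  exact mul_le_of_le_one_left (sq_nonneg _) (cut_le_one s)

/-- (M1) mass of the outermost site in the bump. -/
theorem mass_outer (ha : 0 < a) (hab : a < b) (hB : 0 < B) (m : ℕ) {ε : ℝ} (hε : 0 < ε)
    (hε1 : ε ≤ 1) (hb : b = (1 - ε) * kap m) (hk : 2 * kap m ≤ B)
    (hbig : 8 ≤ ε * kap m ^ 4) :
    ε / 16 ≤ ∫ s, bump a b B s * HO.hf m s ^ 2 := by
  have hk0 := WKB.kap_pos m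
  have h1 := WKB.interior_mass m (a := 1 - ε) (ε := 1) (by linarith) (by linarith) one_pos
  have h2 : ε / 16 ≤ (kap m / 2 * (1 - (1 - ε) ^ 2) - 2 / (1 * kap m) ^ 3 * Mt m) /
      (2 * (1 + 1) * kap m) := by
    rw [le_div_iff₀ (by positivity)]
    have h3 := WKB.Mt_le_one m
    have h3' := WKB.Mt_nonneg m
    have h4 : 2 / (1 * kap m) ^ 3 * Mt m ≤ 2 / kap m ^ 3 := by
      rw [one_mul]
      exact mul_le_of_le_one_right (by positivity) h3
    have h5 : 2 / kap m ^ 3 ≤ ε * kap m / 4 := by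
      rw [div_le_iff₀ (by positivity)]
      nlinarith
    nlinarith
  refine (h2.trans h1).trans ?_
  rw [← integral_indicator measurableSet_Ioc]
  refine integral_mono ((integrable_hf_sq m).indicator measurableSet_Ioc)
    (integrable_mul_hf_sq contDiff_bump.continuous (C := 1)
    (fun s => by rw [abs_of_nonneg (bump_nonneg s)]; exact bump_le_one s) m) fun s => ?_
  simp only
  by_cases hs : s ∈ Ioc ((1 - ε) * kap m) ((1 + 1) * kap m)
  · rw [indicator_of_mem hs]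
    rw [← hb] at hs
    have hs0 : 0 < s := lt_trans (by linarith) hs.1
    have habs : |s| = s := abs_of_pos hs0
    unfold bump
    rw [up_one ha hab (by rw [habs]; exact hs.1.le), cut_one hB (by rw [habs]; linarith [hs.2])]
    simp
  · rw [indicator_of_notMem hs]
    exact mul_nonneg (bump_nonneg s) (sq_nonneg _)

theorem mass_bump_nonneg (m : ℕ) : 0 ≤ ∫ s, bump a b B s * HO.hf m s ^ 2 :=
  integral_nonneg fun s => mul_nonneg (bump_nonneg s) (sq_nonneg _)

theorem mass_cut_nonneg (m : ℕ) : 0 ≤ ∫ s, cut B s * HO.hf m s ^ 2 :=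
  integral_nonneg fun s => mul_nonneg (cut_nonneg s) (sq_nonneg _)

end

end Crest.Agent.R338.CE
end
end

-- ▼ part R338/CE9
section

/-!
Row 338, part 5, D.10: the charging energy; `CoulStmt` and `W4Symm`.
-/

set_option autoImplicit false

open MeasureTheory Real Set Filter
open scoped Topology ContDiff

noncomputable section

namespace Crest.Agent.R338.CE

open WKB (kap)

section

variable {n k : ℕ}

theorem kap_mono {m m' : ℕ} (h : m ≤ m') : kap m ≤ kap m' := by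
  unfold WKB.kap
  apply Real.sqrt_le_sqrt
  have : (m : ℝ) ≤ m' := by exact_mod_cast h
  linarith

theorem Yn_le_real (hn : 2 ≤ n) : (Yn n : ℝ) ≤ 24 * (n : ℝ) ^ 3 := by
  unfold Yn
  push_cast
  have h : (2 : ℝ) ≤ n := by exact_mod_cast hn
  have : (n : ℝ) ^ 2 * 2 ≤ (n : ℝ) ^ 2 * n := mul_le_mul_of_nonneg_left h (by positivity)
  nlinarith

theorem nu_le_cube (hn : 2 ≤ n) {i : ℕ} (hi : i < n) : (nu n i : ℝ) ≤ 30 * (n : ℝ) ^ 3 := by
  have h1 := nu_le_real hi
  have h2 := Yn_le_real hn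
  linarith

theorem kap_mi_sq (n k i : ℕ) : kap (mi n k i) ^ 2 = 4 * (k : ℝ) ^ 6 * (nu n i : ℝ) ^ 2 + 1 := by
  rw [WKB.kap_sq, mi_real]; ring

/-- separation of the turning points -/
theorem kap_sep (hn : 2 ≤ n) (hk : 1 ≤ k) {i j : ℕ} (hi : i < n) (hji : j < i) :
    kap (mi n k j) ≤ (1 - 4 * (1 / (100 * (n : ℝ)))) * kap (mi n k i) := by
  have hn' : (2 : ℝ) ≤ n := by exact_mod_cast hn
  have hk' : (1 : ℝ) ≤ k := by exact_mod_cast hk
  have hn0 : (0 : ℝ) < n := by linarith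
  set e : ℝ := 1 / (100 * (n : ℝ)) with he
  have he0 : 0 < e := by positivity
  have he1 : e * n = 1 / 100 := by rw [he]; field_simp
  have he2 : e ≤ 1 / 200 := by
    rw [he]; apply one_div_le_one_div_of_le (by norm_num); linarith
  have hk0 := WKB.kap_pos (mi n k i)
  have hk1 := WKB.kap_pos (mi n k j)
  have h1 : (nu n j : ℝ) + 4 * (n : ℝ) ^ 2 ≤ nu n i := by exact_mod_cast nu_diff hji
  have h2 := nu_le_cube hn hi
  have h3 : (1 : ℝ) ≤ Yn n := by exact_mod_cast Yn_pos (by omega)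
  have h4 := nu_ge_real n i
  have h5 : (0 : ℝ) ≤ nu n j := Nat.cast_nonneg _
  have k6 : (1 : ℝ) ≤ (k : ℝ) ^ 6 := one_le_pow₀ hk'
  set N : ℝ := (nu n i : ℝ) with hN
  set M : ℝ := (nu n j : ℝ) with hM
  set P : ℝ := (k : ℝ) ^ 6 with hP
  have hN1 : 1 ≤ N := by linarith
  -- it suffices to compare squares
  apply le_of_sq_le_sq _ (by
    have : 0 ≤ 1 - 4 * e := by linarith
    positivity)
  rw [mul_pow, kap_mi_sq, kap_mi_sq, ← hN, ← hM, ← hP]
  have h6 : (1 - 4 * e) ^ 2 ≥ 1 - 8 * e := by nlinarith [sq_nonneg e]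
  have h7 : 8 * e * (4 * P * N ^ 2 + 1) ≤ 4 * P * N ^ 2 - 4 * P * M ^ 2 := by
    -- left: ≤ 8 e · 5 P N² ≤ 40 e P N · 30 n³ = 1200 e n³ P N = 12 n² P N
    have a1 : 4 * P * N ^ 2 + 1 ≤ 5 * P * N ^ 2 := by nlinarith [mul_le_mul k6 hN1 (by norm_num) (by linarith : (0:ℝ) ≤ P), sq_nonneg (N - 1)]
    have a2 : 8 * e * (4 * P * N ^ 2 + 1) ≤ 8 * e * (5 * P * N ^ 2) :=
      mul_le_mul_of_nonneg_left a1 (by positivity)
    have a3 : 8 * e * (5 * P * N ^ 2) ≤ 8 * e * (5 * P * (N * (30 * (n : ℝ) ^ 3))) := by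
      have : N ^ 2 ≤ N * (30 * (n : ℝ) ^ 3) := by rw [sq]; exact mul_le_mul_of_nonneg_left h2 (by linarith)
      gcongr
    have a4 : 8 * e * (5 * P * (N * (30 * (n : ℝ) ^ 3))) = 12 * (P * N * (n : ℝ) ^ 2) := by
      calc 8 * e * (5 * P * (N * (30 * (n : ℝ) ^ 3))) =
          1200 * (e * n) * (P * N * (n : ℝ) ^ 2) := by ring
        _ = _ := by rw [he1]; ring
    have a5 : 4 * (n : ℝ) ^ 2 * N ≤ (N - M) * (N + M) := by
      apply mul_le_mul <;> nlinarith [sq_nonneg (n : ℝ)]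
    have a6 : 0 ≤ P := by linarith
    have a7 : 4 * P * (4 * (n : ℝ) ^ 2 * N) ≤ 4 * P * ((N - M) * (N + M)) :=
      mul_le_mul_of_nonneg_left a5 (by positivity)
    have a8 : 0 ≤ P * N * (n : ℝ) ^ 2 := by positivity
    nlinarith
  have h8 : 0 ≤ 4 * P * N ^ 2 + 1 := by
    have : 0 ≤ P := by linarith
    positivity
  nlinarith [mul_le_mul_of_nonneg_right h6 h8]

theorem Bn_sq (n k : ℕ) : (4 * kap (n0' n k)) ^ 2 = 16 * (32 * (k : ℝ) ^ 6 * (Yn n : ℝ) ^ 2 + 1) := by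
  rw [mul_pow, WKB.kap_sq, n0'_real]; ring

theorem Bn_le_kap (hn : 1 ≤ n) (hk : 1 ≤ k) (i : ℕ) :
    4 * kap (n0' n k) ≤ 12 * kap (mi n k i) := by
  have hk' : (1 : ℝ) ≤ k := by exact_mod_cast hk
  have k6 : (1 : ℝ) ≤ (k : ℝ) ^ 6 := one_le_pow₀ hk'
  have hY : (1 : ℝ) ≤ Yn n := by exact_mod_cast Yn_pos hn
  have h2 := nu_ge_real n i
  have hk0 := WKB.kap_pos (mi n k i)
  apply le_of_sq_le_sq _ (by positivity)
  rw [Bn_sq, mul_pow, kap_mi_sq]
  have a1 : (1 : ℝ) ≤ (Yn n : ℝ) ^ 2 := one_le_pow₀ hY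
  have a2 : (Yn n : ℝ) ^ 2 ≤ (nu n i : ℝ) ^ 2 := pow_le_pow_left₀ (by linarith) h2 2
  have a3 : (k : ℝ) ^ 6 * (Yn n : ℝ) ^ 2 ≤ (k : ℝ) ^ 6 * (nu n i : ℝ) ^ 2 :=
    mul_le_mul_of_nonneg_left a2 (by positivity)
  nlinarith

theorem Bn_le (hn : 2 ≤ n) (hk : 1 ≤ k) :
    4 * kap (n0' n k) ≤ 600 * ((k : ℝ) ^ 3 * (n : ℝ) ^ 3) := by
  have hk' : (1 : ℝ) ≤ k := by exact_mod_cast hk
  have hn' : (1 : ℝ) ≤ n := by exact_mod_cast (by omega : 1 ≤ n)
  have k6 : (1 : ℝ) ≤ (k : ℝ) ^ 6 := one_le_pow₀ hk'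
  have n6 : (1 : ℝ) ≤ (n : ℝ) ^ 6 := one_le_pow₀ hn'
  have hY := Yn_le_real hn
  have hY0 : (0 : ℝ) ≤ Yn n := Nat.cast_nonneg _
  apply le_of_sq_le_sq _ (by positivity)
  rw [Bn_sq]
  have a2 : (Yn n : ℝ) ^ 2 ≤ (24 * (n : ℝ) ^ 3) ^ 2 := pow_le_pow_left₀ hY0 hY 2
  have a3 : (k : ℝ) ^ 6 * (Yn n : ℝ) ^ 2 ≤ (k : ℝ) ^ 6 * (24 * (n : ℝ) ^ 3) ^ 2 :=
    mul_le_mul_of_nonneg_left a2 (by positivity)
  have a4 : (k : ℝ) ^ 6 * (24 * (n : ℝ) ^ 3) ^ 2 = 576 * ((k : ℝ) ^ 6 * (n : ℝ) ^ 6) := by ring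
  have a5 : (600 * ((k : ℝ) ^ 3 * (n : ℝ) ^ 3)) ^ 2 = 360000 * ((k : ℝ) ^ 6 * (n : ℝ) ^ 6) := by ring
  have a6 : 1 ≤ (k : ℝ) ^ 6 * (n : ℝ) ^ 6 := by nlinarith
  rw [a5]
  nlinarith

/-- the gradient factor -/
theorem grad_le (hn : 2 ≤ n) (hk : 1 ≤ k) (i : ℕ) {a b B : ℝ} (ha : 0 < a) (hab : a < b)
    (hba : b - a = 2 * (1 / (100 * (n : ℝ))) * kap (mi n k i)) (hB : B = 4 * kap (n0' n k)) :
    (∫ s, deriv (bump a b B) s ^ 2) * (∫ s, cut B s ^ 2) * (∫ s, cut B s ^ 2) +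
      (∫ s, bump a b B s ^ 2) * (∫ s, deriv (cut B) s ^ 2) * (∫ s, cut B s ^ 2) +
      (∫ s, bump a b B s ^ 2) * (∫ s, cut B s ^ 2) * (∫ s, deriv (cut B) s ^ 2) ≤
    10 ^ 8 * (K0 ^ 2 * (n : ℝ) ^ 2 * B) := by
  have hn' : (2 : ℝ) ≤ n := by exact_mod_cast hn
  have hn0 : (0 : ℝ) < n := by linarith
  have hkap := WKB.kap_pos (n0' n k)
  have hB0 : 0 < B := by rw [hB]; positivity
  have hks := WKB.kap_pos (mi n k i)
  have hBk : B ≤ 12 * kap (mi n k i) := by rw [hB]; exact Bn_le_kap (by omega) hk i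
  have hK := one_le_K0
  have i1 := integral_deriv_bump_sq_le (a := a) (b := b) ha hab hB0
  have i2 := integral_cut_sq_le hB0
  have i3 := integral_bump_sq_le (a := a) (b := b) hB0
  have i4 := integral_deriv_cut_sq_le hB0
  have p1 : 0 ≤ ∫ s, deriv (bump a b B) s ^ 2 := integral_nonneg fun s => sq_nonneg _
  have p2 : 0 ≤ ∫ s, cut B s ^ 2 := integral_nonneg fun s => sq_nonneg _
  have p3 : 0 ≤ ∫ s, bump a b B s ^ 2 := integral_nonneg fun s => sq_nonneg _
  have p4 : 0 ≤ ∫ s, deriv (cut B) s ^ 2 := integral_nonneg fun s => sq_nonneg _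
  -- the slope of the bump
  have h1 : 2 * K0 / (b - a) ≤ 1200 * n * K0 / B := by
    rw [hba, div_le_div_iff₀ (by positivity) hB0]
    have e : 1200 * (n : ℝ) * K0 * (2 * (1 / (100 * (n : ℝ))) * kap (mi n k i)) =
        2 * K0 * (12 * kap (mi n k i)) := by field_simp; ring
    rw [e]
    exact mul_le_mul_of_nonneg_left hBk (by positivity)
  have h2 : 2 * K0 / (b - a) + 2 * K0 / B ≤ 1201 * n * K0 / B := by
    have : 2 * K0 / B ≤ 1 * n * K0 / B := by
      apply div_le_div_of_nonneg_right _ hB0.le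
      nlinarith
    calc 2 * K0 / (b - a) + 2 * K0 / B ≤ 1200 * n * K0 / B + 1 * n * K0 / B := add_le_add h1 this
      _ = 1201 * n * K0 / B := by ring
  have h0 : 0 ≤ 2 * K0 / (b - a) + 2 * K0 / B := by
    have : 0 < b - a := by linarith
    positivity
  have h3 : 4 * B * (2 * K0 / (b - a) + 2 * K0 / B) ^ 2 ≤ 4 * B * (1201 * n * K0 / B) ^ 2 :=
    mul_le_mul_of_nonneg_left (pow_le_pow_left₀ h0 h2 2) (by positivity)
  have i1' := i1.trans h3
  have t1 : (∫ s, deriv (bump a b B) s ^ 2) * (∫ s, cut B s ^ 2) * (∫ s, cut B s ^ 2) ≤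
      (4 * B * (1201 * n * K0 / B) ^ 2) * (4 * B) * (4 * B) := by gcongr
  have t2 : (∫ s, bump a b B s ^ 2) * (∫ s, deriv (cut B) s ^ 2) * (∫ s, cut B s ^ 2) ≤
      (4 * B) * (4 * B * (2 * K0 / B) ^ 2) * (4 * B) := by gcongr
  have t3 : (∫ s, bump a b B s ^ 2) * (∫ s, cut B s ^ 2) * (∫ s, deriv (cut B) s ^ 2) ≤
      (4 * B) * (4 * B) * (4 * B * (2 * K0 / B) ^ 2) := by gcongr
  have e1 : (4 * B * (1201 * n * K0 / B) ^ 2) * (4 * B) * (4 * B) =
      64 * 1201 ^ 2 * (K0 ^ 2 * (n : ℝ) ^ 2 * B) := by field_simp; norm_num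
  have e2 : (4 * B) * (4 * B * (2 * K0 / B) ^ 2) * (4 * B) = 256 * (K0 ^ 2 * B) := by
    field_simp; norm_num
  have e3 : (4 * B) * (4 * B) * (4 * B * (2 * K0 / B) ^ 2) = 256 * (K0 ^ 2 * B) := by
    field_simp; norm_num
  rw [e1] at t1
  rw [e2] at t2
  rw [e3] at t3
  have n2 : (1 : ℝ) ≤ (n : ℝ) ^ 2 := one_le_pow₀ (by linarith)
  have e4 : K0 ^ 2 * B ≤ K0 ^ 2 * (n : ℝ) ^ 2 * B := by
    have : 0 ≤ K0 ^ 2 * B := by positivity
    nlinarith
  have e5 : 0 ≤ K0 ^ 2 * (n : ℝ) ^ 2 * B := by positivity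
  nlinarith

end

end Crest.Agent.R338.CE
end
end

-- ▼ part R338/CE10
section

/-!
Row 338, part 5, D.10: the charging energy; `CoulStmt` and `W4Symm`.
-/

set_option autoImplicit false

open MeasureTheory Real Set Filter
open scoped Topology ContDiff

noncomputable section

namespace Crest.Agent.R338.CE

open WKB (kap)

section

variable {n k : ℕ}

theorem int_sq_one {z : ℤ} (h0 : z ≠ 0) (h1 : |z| ≤ 1) : (z : ℝ) * z = 1 := by
  have h2 := abs_le.1 h1
  have : z = 1 ∨ z = -1 := by omega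
  rcases this with h | h <;> simp [h]

theorem exists_outermost {δ : Fin n → ℤ} (hδ : δ ≠ 0) :
    ∃ i : Fin n, δ i ≠ 0 ∧ ∀ j, δ j ≠ 0 → j ≤ i := by
  classical
  have hne : (Finset.univ.filter fun i => δ i ≠ 0).Nonempty := by
    by_contra h
    rw [Finset.not_nonempty_iff_eq_empty, Finset.filter_eq_empty_iff] at h
    apply hδ
    funext i
    have := h (Finset.mem_univ i)
    simpa using this
  refine ⟨(Finset.univ.filter fun i => δ i ≠ 0).max' hne, ?_, fun j hj => ?_⟩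
  · have := Finset.max'_mem _ hne
    exact (Finset.mem_filter.1 this).2
  · have hj' : j ∈ Finset.univ.filter fun i => δ i ≠ 0 :=
      Finset.mem_filter.2 ⟨Finset.mem_univ j, hj⟩
    exact Finset.le_max' _ _ hj'

set_option maxHeartbeats 2000000 in
/-- The charging energy. -/
theorem coul_c (hn : 2 ≤ n) (hk : (10 * n) ^ 10 ≤ k) (δ : Fin n → ℤ) (hδ1 : ∀ i, |δ i| ≤ 1)
    (hδ : δ ≠ 0) :
    1 / (10 ^ 18 * K0 ^ 2 * ((n : ℝ) ^ 7 * (k : ℝ) ^ 3)) ≤
      ∑ i : Fin n, ∑ j : Fin n, Vc n k i j * ((δ i : ℝ) * (δ j : ℝ)) := by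
  obtain ⟨s, hs0, hsmax⟩ := exists_outermost hδ
  have hn1 : 1 ≤ n := by omega
  have hn' : (2 : ℝ) ≤ n := by exact_mod_cast hn
  have hn0 : (0 : ℝ) < n := by linarith
  have hkR : (10 * (n : ℝ)) ^ 10 ≤ k := by exact_mod_cast hk
  have hk10 : (n : ℝ) ^ 10 * 10 ^ 10 ≤ (k : ℝ) := by
    have e1 : (n : ℝ) ^ 10 * (10 : ℝ) ^ 10 = (10 * (n : ℝ)) ^ 10 := by ring
    rw [e1]; exact hkR
  have hk1R : (10 : ℝ) ^ 10 ≤ k := by
    have : (1 : ℝ) ≤ (n : ℝ) ^ 10 := one_le_pow₀ (by linarith)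
    nlinarith
  have hk1' : (1 : ℝ) ≤ k := by linarith [show (1 : ℝ) ≤ 10 ^ 10 by norm_num]
  have hk1 : 1 ≤ k := by exact_mod_cast hk1'
  have hk0 : (0 : ℝ) < k := by linarith
  have hK := one_le_K0
  -- parameters
  set e : ℝ := 1 / (100 * (n : ℝ)) with he
  have he0 : 0 < e := by positivity
  have he2 : e ≤ 1 / 200 := by
    rw [he]; apply one_div_le_one_div_of_le (by norm_num); linarith
  set κ : ℝ := kap (mi n k s) with hκ
  have hκ0 : 0 < κ := WKB.kap_pos _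
  have hκ3 : (k : ℝ) ^ 3 ≤ κ := kap_ge (k6_le_mi hn1 k s)
  set a : ℝ := (1 - 3 * e) * κ with ha
  set b : ℝ := (1 - e) * κ with hb
  set B : ℝ := 4 * kap (n0' n k) with hB
  have ha0 : 0 < a := by rw [ha]; apply mul_pos _ hκ0; linarith
  have hba : b - a = 2 * e * κ := by rw [ha, hb]; ring
  have hab : a < b := by
    have : 0 < 2 * e * κ := by positivity
    linarith
  have hB0 : 0 < B := by rw [hB]; have := WKB.kap_pos (n0' n k); positivity
  -- masses
  set Am : Fin n → ℝ := fun i => ∫ t, bump a b B t * HO.hf (mi n k i) t ^ 2 with hAm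
  set Bm : Fin n → ℝ := fun i => ∫ t, cut B t * HO.hf (n0' n k - mi n k i) t ^ 2 with hBm
  set Cm : ℝ := ∫ t, cut B t * HO.hf 0 t ^ 2 with hCm
  have hAs : e / 16 ≤ Am s := by
    refine mass_outer ha0 hab hB0 (mi n k s) he0 (by linarith) hb ?_ ?_
    · have h1 := kap_mono (mi_le_n0' (n := n) k s.2)
      have h2 := WKB.kap_pos (n0' n k)
      rw [hB]; linarith
    · have h1 : ((k : ℝ) ^ 3) ^ 4 ≤ κ ^ 4 := pow_le_pow_left₀ (by positivity) hκ3 4
      have h2 : (k : ℝ) ≤ ((k : ℝ) ^ 3) ^ 4 := by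
        rw [← pow_mul]
        exact le_self_pow₀ hk1' (by norm_num)
      have h3 : 8 * (100 * (n : ℝ)) ≤ k := by
        refine le_trans ?_ hk10
        have h4 : (n : ℝ) ≤ (n : ℝ) ^ 10 := le_self_pow₀ (by linarith) (by norm_num)
        nlinarith
      have h5 : 8 * (100 * (n : ℝ)) ≤ κ ^ 4 := by linarith
      rw [he, one_div, inv_mul_eq_div, le_div_iff₀ (by positivity)]
      exact h5
  have hBcap : ∀ i : Fin n, 1 / 2 ≤ Bm i := by
    intro i
    refine mass_cut hB0 _ ?_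
    have h1 := kap_mono (Nat.sub_le (n0' n k) (mi n k i))
    rw [hB]; linarith
  have hB1 : ∀ i : Fin n, Bm i ≤ 1 := fun i => mass_cut_le _
  have hBn : ∀ i : Fin n, 0 ≤ Bm i := fun i => mass_cut_nonneg _
  have hC : 1 / 2 ≤ Cm := by
    refine mass_cut hB0 0 ?_
    have h1 := kap_mono (Nat.zero_le (n0' n k))
    rw [hB]; linarith
  have hC1 : Cm ≤ 1 := mass_cut_le _
  have hAn : ∀ i : Fin n, 0 ≤ Am i := fun i => mass_bump_nonneg _
  have hAi : ∀ i : Fin n, i < s → Am i ≤ 10 ^ 6 * (n : ℝ) ^ 3 / (k : ℝ) ^ 12 := by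
    intro i hi
    have hsep := kap_sep hn hk1 s.2 (by exact hi)
    rw [← he, ← hκ] at hsep
    have h1 := mass_inner (a := a) (b := b) (B := B) ha0 hab (mi n k i) (r := e * κ) (by positivity)
      (by rw [ha]; linarith)
    refine h1.trans ?_
    have hκi : (k : ℝ) ^ 3 ≤ kap (mi n k i) := kap_ge (k6_le_mi hn1 k i)
    have h2 : (k : ℝ) ^ 3 * (e * (k : ℝ) ^ 3) ^ 3 ≤ kap (mi n k i) * (e * κ) ^ 3 := by
      have hki := WKB.kap_pos (mi n k i)
      gcongr
    calc 1 / (kap (mi n k i) * (e * κ) ^ 3) ≤ 1 / ((k : ℝ) ^ 3 * (e * (k : ℝ) ^ 3) ^ 3) :=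
          one_div_le_one_div_of_le (by positivity) h2
      _ = 10 ^ 6 * (n : ℝ) ^ 3 / (k : ℝ) ^ 12 := by
          rw [he]; field_simp; norm_num
  -- the pairing
  set S : ℝ := ∑ i : Fin n, (δ i : ℝ) * (Am i * Bm i * Cm) with hS
  have hSs : e / 128 ≤ (δ s : ℝ) * S := by
    have h1 : (δ s : ℝ) * S = Am s * Bm s * Cm +
        ∑ i ∈ Finset.univ.erase s, (δ s : ℝ) * ((δ i : ℝ) * (Am i * Bm i * Cm)) := by
      rw [hS, ← Finset.add_sum_erase Finset.univ _ (Finset.mem_univ s), mul_add, Finset.mul_sum,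
        ← mul_assoc, int_sq_one hs0 (hδ1 s), one_mul]
    have h2 : ∀ i ∈ Finset.univ.erase s, -(10 ^ 6 * (n : ℝ) ^ 3 / (k : ℝ) ^ 12) ≤
        (δ s : ℝ) * ((δ i : ℝ) * (Am i * Bm i * Cm)) := by
      intro i hi
      have hne := (Finset.mem_erase.1 hi).1
      have hpos : (0 : ℝ) ≤ 10 ^ 6 * (n : ℝ) ^ 3 / (k : ℝ) ^ 12 := by positivity
      by_cases hi0 : δ i = 0
      · rw [hi0]; simp only [Int.cast_zero, zero_mul, mul_zero]; linarith
      · have hlt : i < s := lt_of_le_of_ne (hsmax i hi0) hne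
        have h3 := hAi i hlt
        have h4 : |(δ s : ℝ) * ((δ i : ℝ) * (Am i * Bm i * Cm))| ≤ Am i := by
          rw [abs_mul, abs_mul]
          have a1 : |(δ s : ℝ)| ≤ 1 := by exact_mod_cast hδ1 s
          have a2 : |(δ i : ℝ)| ≤ 1 := by exact_mod_cast hδ1 i
          have hC0 : 0 ≤ Cm := by linarith
          have a3 : |Am i * Bm i * Cm| ≤ Am i := by
            rw [abs_of_nonneg (mul_nonneg (mul_nonneg (hAn i) (hBn i)) hC0)]
            have : Am i * Bm i ≤ Am i := mul_le_of_le_one_right (hAn i) (hB1 i)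
            calc Am i * Bm i * Cm ≤ Am i * Bm i :=
                  mul_le_of_le_one_right (mul_nonneg (hAn i) (hBn i)) hC1
              _ ≤ Am i := this
          calc |(δ s : ℝ)| * (|(δ i : ℝ)| * |Am i * Bm i * Cm|) ≤ 1 * (1 * Am i) := by
                have := hAn i
                gcongr
            _ = Am i := by ring
        have h5 := (abs_le.1 h4).1
        linarith
    have h3 := Finset.sum_le_sum h2
    rw [Finset.sum_const, Finset.card_erase_of_mem (Finset.mem_univ s), Finset.card_univ,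
      Fintype.card_fin, nsmul_eq_mul] at h3
    have h4 : (e / 16) * (1 / 2) * (1 / 2) ≤ Am s * Bm s * Cm := by
      have := hAn s
      have := hBcap s
      gcongr
    have h5 : ((n - 1 : ℕ) : ℝ) * (10 ^ 6 * (n : ℝ) ^ 3 / (k : ℝ) ^ 12) ≤ e / 128 := by
      have h6 : ((n - 1 : ℕ) : ℝ) ≤ n := by exact_mod_cast Nat.sub_le n 1
      have h7 : (0 : ℝ) ≤ 10 ^ 6 * (n : ℝ) ^ 3 / (k : ℝ) ^ 12 := by positivity
      refine (mul_le_mul_of_nonneg_right h6 h7).trans ?_
      rw [he]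
      have h8 : (n : ℝ) * (10 ^ 6 * (n : ℝ) ^ 3 / (k : ℝ) ^ 12) = 10 ^ 6 * (n : ℝ) ^ 4 / (k : ℝ) ^ 12 := by
        ring
      have h9 : 1 / (100 * (n : ℝ)) / 128 = 1 / (12800 * n) := by field_simp; norm_num
      rw [h8, h9, div_le_div_iff₀ (by positivity) (by positivity)]
      have h10 : (n : ℝ) ^ 5 ≤ (n : ℝ) ^ 10 := pow_le_pow_right₀ (by linarith) (by norm_num)
      have h11 : (k : ℝ) ^ 2 ≤ (k : ℝ) ^ 12 := pow_le_pow_right₀ hk1' (by norm_num)
      have h12 : (n : ℝ) ^ 10 * 10 ^ 20 ≤ (k : ℝ) ^ 2 := by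
        rw [sq]
        have e1 : (n : ℝ) ^ 10 * (10 : ℝ) ^ 20 = ((n : ℝ) ^ 10 * 10 ^ 10) * 10 ^ 10 := by ring
        rw [e1]
        exact mul_le_mul hk10 hk1R (by positivity) hk0.le
      calc 10 ^ 6 * (n : ℝ) ^ 4 * (12800 * n) = 12800 * 10 ^ 6 * (n : ℝ) ^ 5 := by ring
        _ ≤ 10 ^ 20 * (n : ℝ) ^ 5 := by
            apply mul_le_mul_of_nonneg_right (by norm_num) (by positivity)
        _ ≤ 10 ^ 20 * (n : ℝ) ^ 10 := mul_le_mul_of_nonneg_left h10 (by positivity)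
        _ = (n : ℝ) ^ 10 * 10 ^ 20 := by ring
        _ ≤ (k : ℝ) ^ 2 := h12
        _ ≤ 1 * (k : ℝ) ^ 12 := by linarith
    rw [h1]
    have h6 : -(((n - 1 : ℕ) : ℝ) * (10 ^ 6 * (n : ℝ) ^ 3 / (k : ℝ) ^ 12)) =
        ((n - 1 : ℕ) : ℝ) * -(10 ^ 6 * (n : ℝ) ^ 3 / (k : ℝ) ^ 12) := by ring
    linarith
  have hS2 : (e / 128) ^ 2 ≤ S ^ 2 := by
    have h1 : ((δ s : ℝ) * S) ^ 2 = S ^ 2 := by
      rw [mul_pow, sq (δ s : ℝ), int_sq_one hs0 (hδ1 s), one_mul]
    rw [← h1]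
    exact pow_le_pow_left₀ (by positivity) hSs 2
  -- duality
  have hdual := charging_duality n k δ (η := ![bump a b B, cut B, cut B])
    (by intro c; fin_cases c; exacts [contDiff_bump, contDiff_cut, contDiff_cut])
    (by intro c; fin_cases c; exacts [hasCompactSupport_bump hB0, hasCompactSupport_cut hB0,
      hasCompactSupport_cut hB0])
  simp only [Matrix.cons_val_zero, Matrix.cons_val_one, Matrix.cons_val] at hdual
  have hgrad := grad_le hn hk1 (s : ℕ) ha0 hab (by rw [hba]) hB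
  set V := ∑ i : Fin n, ∑ j : Fin n, Vc n k i j * ((δ i : ℝ) * (δ j : ℝ)) with hV
  have hV0 : 0 ≤ V := by
    rw [hV, sum_Vc_eq]; exact D_self_nonneg (nice_rho n k δ)
  set G : ℝ := 10 ^ 8 * (K0 ^ 2 * (n : ℝ) ^ 2 * B) with hG
  have hmain : 4 * π * S ^ 2 ≤ V * G := by
    refine hdual.trans ?_
    exact mul_le_mul_of_nonneg_left hgrad hV0
  have hG0 : 0 < G := by rw [hG]; positivity
  have hGle : G ≤ 6 * 10 ^ 10 * (K0 ^ 2 * ((n : ℝ) ^ 5 * (k : ℝ) ^ 3)) := by
    have hBle := Bn_le hn hk1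
    rw [← hB] at hBle
    rw [hG]
    calc 10 ^ 8 * (K0 ^ 2 * (n : ℝ) ^ 2 * B) ≤
        10 ^ 8 * (K0 ^ 2 * (n : ℝ) ^ 2 * (600 * ((k : ℝ) ^ 3 * (n : ℝ) ^ 3))) := by gcongr
      _ = _ := by ring
  have hpi : 3 ≤ π := by linarith [Real.pi_gt_three]
  have h1 : 12 * (e / 128) ^ 2 ≤ V * G := by
    refine le_trans ?_ hmain
    nlinarith [sq_nonneg S, sq_nonneg (e / 128)]
  have h2 : 12 * (e / 128) ^ 2 ≤ V * (6 * 10 ^ 10 * (K0 ^ 2 * ((n : ℝ) ^ 5 * (k : ℝ) ^ 3))) :=
    h1.trans (mul_le_mul_of_nonneg_left hGle hV0)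
  rw [div_le_iff₀ (by positivity)]
  have h3 : 12 * (e / 128) ^ 2 = 12 / (163840000 * (n : ℝ) ^ 2) := by
    rw [he]; field_simp; norm_num
  rw [h3, div_le_iff₀ (by positivity)] at h2
  have h4 : V * (6 * 10 ^ 10 * (K0 ^ 2 * ((n : ℝ) ^ 5 * (k : ℝ) ^ 3))) * (163840000 * (n : ℝ) ^ 2) =
      9830400000000000000 * (V * (K0 ^ 2 * ((n : ℝ) ^ 7 * (k : ℝ) ^ 3))) := by ring
  rw [h4] at h2
  have h5 : V * (10 ^ 18 * K0 ^ 2 * ((n : ℝ) ^ 7 * (k : ℝ) ^ 3)) =
      10 ^ 18 * (V * (K0 ^ 2 * ((n : ℝ) ^ 7 * (k : ℝ) ^ 3))) := by ring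
  rw [h5]
  nlinarith

end


/-- The constant of `CoulStmt`. -/
def Cc : ℕ := ⌈10 ^ 18 * K0 ^ 2⌉₊

theorem le_Cc : 10 ^ 18 * K0 ^ 2 ≤ (Cc : ℝ) := Nat.le_ceil _

theorem big_Cc : 10 ^ 18 ≤ Cc := by
  have h1 := le_Cc
  have h2 := one_le_K0
  have h3 : (10 : ℝ) ^ 18 ≤ Cc := by nlinarith
  exact_mod_cast h3

/-- **The Coulomb estimates for the sites.** -/
theorem coulStmt : BH.CoulStmt := by
  have hC := big_Cc
  have hCR : (10 : ℝ) ^ 18 ≤ Cc := by exact_mod_cast hC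
  refine ⟨Cc, le_trans (by norm_num) hC, fun n k hn hk => ?_⟩
  have hn1 : 1 ≤ n := by omega
  have hnR : (1 : ℝ) ≤ n := by exact_mod_cast hn1
  have hk10 : (10 * n) ^ 10 ≤ k := by
    refine le_trans ?_ hk
    have h1 : 10 * n ≤ Cc * n := Nat.mul_le_mul_right _ (le_trans (by norm_num) hC)
    calc (10 * n) ^ 10 ≤ (Cc * n) ^ 10 := Nat.pow_le_pow_left h1 10
      _ ≤ (Cc * n) ^ Cc := Nat.pow_le_pow_right (by nlinarith [le_trans (by norm_num : 1 ≤ 10 ^ 18) hC])
          (le_trans (by norm_num) hC)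
  have hk1 : 1 ≤ k := le_trans (Nat.one_le_pow _ _ (by omega)) hk10
  have hkR : (1 : ℝ) ≤ k := by exact_mod_cast hk1
  have hpow : (1 : ℝ) ≤ (n : ℝ) ^ Cc := one_le_pow₀ hnR
  have hCn : (11664 : ℝ) ≤ (Cc : ℝ) * (n : ℝ) ^ Cc := by nlinarith
  refine ⟨fun i hi j hj => ?_, fun i hi j hj i' hi' j' hj' h => ?_, fun δ hδ1 _ hδ => ?_⟩
  · obtain ⟨h1, h2⟩ := coul_a (n := n) (k := k) hn1 hk1 hi hj
    exact ⟨h1, h2.trans (div_le_div_of_nonneg_right hCn (by positivity))⟩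
  · refine (coul_b hn1 hk1 hi hj hi' hj' h).trans ?_
    exact div_le_div_of_nonneg_right (by linarith) (by positivity)
  · refine le_trans ?_ (coul_c hn hk10 δ hδ1 hδ)
    have hK := one_le_K0
    apply one_div_le_one_div_of_le (by positivity)
    have h7 : (n : ℝ) ^ 7 ≤ (n : ℝ) ^ Cc := pow_le_pow_right₀ hnR (le_trans (by norm_num) hC)
    have h8 := le_Cc
    calc 10 ^ 18 * K0 ^ 2 * ((n : ℝ) ^ 7 * (k : ℝ) ^ 3) ≤
        (Cc : ℝ) * ((n : ℝ) ^ Cc * (k : ℝ) ^ 3) := by gcongr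
      _ = (Cc : ℝ) * (n : ℝ) ^ Cc * (k : ℝ) ^ 3 := by ring

end Crest.Agent.R338.CE
end
end

-- ▼ part R338/CE11

/-! Row 338: `CoulC`, the charging estimate in the shape of `CSAsm`. -/

set_option autoImplicit false

namespace Crest.Agent.R338.CE

theorem coulC : BH.CoulC := by
  obtain ⟨C, hC, h⟩ := coulStmt
  exact ⟨C, hC, fun n k hn hk => (h n k hn hk).2.2⟩

end Crest.Agent.R338.CE
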