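import Mathlib
import Crest.Agent.R338.HO1a

-- ▼ part R338/WKB1
section

/-!
Row 338, node WKB, part 1: solutions of `h'' = (s² - κ²) h`.
`E = h'² + (κ² - s²) h²` is antitone on `[0, ∞)`, and the WKB amplitude
`A = r h² + h'² / r`, `r = √(κ² - s²)`, stays within a factor two of its value at `0` as long as
`2 s ≤ r³`.
-/

noncomputable section

open Set

namespace Crest.Agent.R338.WKB

/-- A solution of the Hermite function equation `h'' = (s² - κ²) h`; `h'` is the derivative. -/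
structure HSol (κ : ℝ) (h h' : ℝ → ℝ) : Prop where
  d1 : ∀ s, HasDerivAt h (h' s) s
  d2 : ∀ s, HasDerivAt h' ((s ^ 2 - κ ^ 2) * h s) s

namespace HSol

variable {κ : ℝ} {h h' : ℝ → ℝ} (H : HSol κ h h')
include H

/-- The energy. -/
def En (_ : HSol κ h h') (s : ℝ) : ℝ := h' s ^ 2 + (κ ^ 2 - s ^ 2) * h s ^ 2

lemma hasDerivAt_En (s : ℝ) : HasDerivAt H.En (-(2 * s * h s ^ 2)) s := by
  have e1 := (H.d2 s).pow 2
  have e2 := (H.d1 s).pow 2
  have e3 : HasDerivAt (fun s : ℝ => κ ^ 2 - s ^ 2) (-(2 * s)) s := by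
    have := ((hasDerivAt_id s).pow 2).const_sub (κ ^ 2)
    simpa using this
  have e4 := e1.add (e3.mul e2)
  refine e4.congr_deriv ?_
  simp
  ring


lemma continuous_h' : Continuous h' :=
  continuous_iff_continuousAt.mpr fun s => (H.d2 s).continuousAt

lemma continuous_En : Continuous H.En :=
  continuous_iff_continuousAt.mpr fun s => (H.hasDerivAt_En s).continuousAt

lemma antitoneOn_En : AntitoneOn H.En (Ici 0) := by
  apply antitoneOn_of_deriv_nonpos (convex_Ici 0) H.continuous_En.continuousOn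
  · intro s _
    exact (H.hasDerivAt_En s).differentiableAt.differentiableWithinAt
  · intro s hs
    rw [interior_Ici] at hs
    rw [(H.hasDerivAt_En s).deriv]
    have : 0 < s := hs
    nlinarith [sq_nonneg (h s)]


lemma En_le_of_le {s t : ℝ} (hs : 0 ≤ s) (hst : s ≤ t) : H.En t ≤ H.En s :=
  H.antitoneOn_En hs (hs.trans hst) hst


end HSol

/-- `r(s) = √(κ² - s²)`. -/
def rr (κ s : ℝ) : ℝ := Real.sqrt (κ ^ 2 - s ^ 2)

lemma rr_pos {κ s : ℝ} (hs : s ^ 2 < κ ^ 2) : 0 < rr κ s := Real.sqrt_pos.mpr (by linarith)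

lemma rr_sq {κ s : ℝ} (hs : s ^ 2 ≤ κ ^ 2) : rr κ s ^ 2 = κ ^ 2 - s ^ 2 :=
  Real.sq_sqrt (by linarith)

lemma rr_zero {κ : ℝ} (hκ : 0 ≤ κ) : rr κ 0 = κ := by
  unfold rr; rw [show κ ^ 2 - 0 ^ 2 = κ ^ 2 by ring]; exact Real.sqrt_sq hκ

lemma hasDerivAt_rr {κ s : ℝ} (hs : s ^ 2 < κ ^ 2) : HasDerivAt (rr κ) (-(s / rr κ s)) s := by
  have e3 : HasDerivAt (fun s : ℝ => κ ^ 2 - s ^ 2) (-(2 * s)) s := by
    have := ((hasDerivAt_id s).pow 2).const_sub (κ ^ 2)
    simpa using this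
  have h0 : κ ^ 2 - s ^ 2 ≠ 0 := by linarith
  have := e3.sqrt h0
  refine this.congr_deriv ?_
  unfold rr
  have : 0 < Real.sqrt (κ ^ 2 - s ^ 2) := Real.sqrt_pos.mpr (by linarith)
  field_simp

/-- `u(s) = s / r(s)³`. -/
def uu (κ s : ℝ) : ℝ := s / rr κ s ^ 3

lemma hasDerivAt_uu {κ s : ℝ} (hs : s ^ 2 < κ ^ 2) :
    HasDerivAt (uu κ) (1 / rr κ s ^ 3 + 3 * s ^ 2 / rr κ s ^ 5) s := by
  have hr := rr_pos hs
  have e1 := (hasDerivAt_rr hs).pow 3
  have e2 : HasDerivAt (fun s => s / rr κ s ^ 3) _ s :=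
    (hasDerivAt_id' s).div e1 (pow_ne_zero 3 hr.ne')
  refine e2.congr_deriv ?_
  field_simp
  ring

lemma duu_nonneg {κ s : ℝ} (hs : s ^ 2 < κ ^ 2) :
    0 ≤ 1 / rr κ s ^ 3 + 3 * s ^ 2 / rr κ s ^ 5 := by
  have hr := rr_pos hs
  positivity

/-- The WKB amplitude. -/
def AA (κ : ℝ) (h h' : ℝ → ℝ) (s : ℝ) : ℝ := rr κ s * h s ^ 2 + h' s ^ 2 / rr κ s

/-- The corrected WKB amplitude. -/
def AB (κ : ℝ) (h h' : ℝ → ℝ) (s : ℝ) : ℝ := AA κ h h' s - uu κ s * (h s * h' s)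

namespace HSol

variable {κ : ℝ} {h h' : ℝ → ℝ} (H : HSol κ h h')

lemma abs_hh'_le {s : ℝ} (hs : s ^ 2 < κ ^ 2) : |h s * h' s| ≤ AA κ h h' s / 2 := by
  have hr := rr_pos hs
  unfold AA
  have h1 : 2 * |h s * h' s| ≤ rr κ s * h s ^ 2 + h' s ^ 2 / rr κ s := by
    have e : rr κ s * h s ^ 2 + h' s ^ 2 / rr κ s
        = ((rr κ s * |h s|) ^ 2 + |h' s| ^ 2) / rr κ s := by
      rw [mul_pow, sq_abs, sq_abs]; field_simp
    rw [e, le_div_iff₀ hr, abs_mul]
    nlinarith [sq_nonneg (rr κ s * |h s| - |h' s|)]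
  linarith

lemma AA_nonneg {s : ℝ} : 0 ≤ AA κ h h' s := by
  unfold AA
  have : 0 ≤ rr κ s := Real.sqrt_nonneg _
  positivity

include H in
lemma hasDerivAt_AB {s : ℝ} (hs : s ^ 2 < κ ^ 2) :
    HasDerivAt (AB κ h h') (-((1 / rr κ s ^ 3 + 3 * s ^ 2 / rr κ s ^ 5) * (h s * h' s))) s := by
  have hr := rr_pos hs
  have hr2 := rr_sq hs.le
  have e1 := hasDerivAt_rr hs
  have e2 := (H.d1 s).pow 2
  have e3 := (H.d2 s).pow 2
  have e4 := (e1.mul e2).add (e3.div e1 hr.ne')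
  have e5 := (hasDerivAt_uu hs).mul ((H.d1 s).mul (H.d2 s))
  have e6 := e4.sub e5
  refine (e6.congr_deriv ?_)
  have hk : κ ^ 2 = rr κ s ^ 2 + s ^ 2 := by linarith
  simp only [uu, Pi.pow_apply, Pi.mul_apply]
  rw [hk]
  field_simp
  ring

lemma AB_ge {s : ℝ} (hs0 : 0 ≤ s) (hs : s ^ 2 < κ ^ 2) (hu : 2 * s ≤ rr κ s ^ 3) :
    3 / 4 * AA κ h h' s ≤ AB κ h h' s := by
  have hr := rr_pos hs
  have hu1 : uu κ s ≤ 1 / 2 := by
    unfold uu; rw [div_le_iff₀ (by positivity)]; linarith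
  have hu0 : 0 ≤ uu κ s := by unfold uu; positivity
  have h1 := abs_hh'_le (h := h) (h' := h') hs
  have h2 : uu κ s * (h s * h' s) ≤ 1 / 2 * (AA κ h h' s / 2) := by
    calc uu κ s * (h s * h' s) ≤ uu κ s * |h s * h' s| :=
          mul_le_mul_of_nonneg_left (le_abs_self _) hu0
      _ ≤ 1 / 2 * (AA κ h h' s / 2) := mul_le_mul hu1 h1 (abs_nonneg _) (by norm_num)
  unfold AB
  linarith

lemma AB_le {s : ℝ} (hs0 : 0 ≤ s) (hs : s ^ 2 < κ ^ 2) (hu : 2 * s ≤ rr κ s ^ 3) :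
    AB κ h h' s ≤ 5 / 4 * AA κ h h' s := by
  have hr := rr_pos hs
  have hu1 : uu κ s ≤ 1 / 2 := by
    unfold uu; rw [div_le_iff₀ (by positivity)]; linarith
  have hu0 : 0 ≤ uu κ s := by unfold uu; positivity
  have h1 := abs_hh'_le (h := h) (h' := h') hs
  have h2 : -(uu κ s * (h s * h' s)) ≤ 1 / 2 * (AA κ h h' s / 2) := by
    calc -(uu κ s * (h s * h' s)) = uu κ s * (-(h s * h' s)) := by ring
      _ ≤ uu κ s * |h s * h' s| := mul_le_mul_of_nonneg_left (neg_le_abs _) hu0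
      _ ≤ 1 / 2 * (AA κ h h' s / 2) := mul_le_mul hu1 h1 (abs_nonneg _) (by norm_num)
  unfold AB
  linarith

/-- The condition `2 s ≤ r³` is inherited by smaller `s`. -/
lemma cond_mono {s t : ℝ} (hs0 : 0 ≤ s) (hst : s ≤ t) (ht : 2 * t ≤ rr κ t ^ 3) :
    2 * s ≤ rr κ s ^ 3 := by
  have h1 : rr κ t ≤ rr κ s := by
    unfold rr; apply Real.sqrt_le_sqrt; nlinarith
  have h0 : 0 ≤ rr κ t := Real.sqrt_nonneg _
  calc 2 * s ≤ 2 * t := by linarith
    _ ≤ rr κ t ^ 3 := ht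
    _ ≤ rr κ s ^ 3 := pow_le_pow_left₀ h0 h1 3

include H in
/-- Two-sided control of the corrected amplitude. -/
lemma AB_exp {s : ℝ} (hs0 : 0 ≤ s) (hs : s ^ 2 < κ ^ 2) (hu : 2 * s ≤ rr κ s ^ 3) :
    AB κ h h' s ≤ AB κ h h' 0 * Real.exp (2 / 3 * uu κ s) ∧
    AB κ h h' 0 ≤ AB κ h h' s * Real.exp (2 / 3 * uu κ s) := by
  have hlt : ∀ t ∈ Icc 0 s, t ^ 2 < κ ^ 2 := by
    intro t ht
    have : t ^ 2 ≤ s ^ 2 := pow_le_pow_left₀ ht.1 ht.2 2
    linarith
  have hc : ∀ t ∈ Icc 0 s, 2 * t ≤ rr κ t ^ 3 := fun t ht => cond_mono ht.1 ht.2 hu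
  have hder : ∀ t ∈ Icc 0 s, ∀ σ : ℝ, HasDerivAt (fun t => AB κ h h' t * Real.exp (σ * uu κ t))
      ((-((1 / rr κ t ^ 3 + 3 * t ^ 2 / rr κ t ^ 5) * (h t * h' t))) * Real.exp (σ * uu κ t)
        + AB κ h h' t * (Real.exp (σ * uu κ t) * (σ * (1 / rr κ t ^ 3 + 3 * t ^ 2 / rr κ t ^ 5)))) t := by
    intro t ht σ
    exact (H.hasDerivAt_AB (hlt t ht)).mul (((hasDerivAt_uu (hlt t ht)).const_mul σ).exp)
  have hdiff : ∀ σ : ℝ, DifferentiableOn ℝ (fun t => AB κ h h' t * Real.exp (σ * uu κ t)) (Icc 0 s) :=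
    fun σ t ht => ((hder t ht σ).differentiableAt).differentiableWithinAt
  have hkey : ∀ t ∈ Icc 0 s, |(1 / rr κ t ^ 3 + 3 * t ^ 2 / rr κ t ^ 5) * (h t * h' t)|
      ≤ 2 / 3 * (1 / rr κ t ^ 3 + 3 * t ^ 2 / rr κ t ^ 5) * AB κ h h' t := by
    intro t ht
    have h0 := duu_nonneg (hlt t ht)
    rw [abs_mul, abs_of_nonneg h0]
    have h1 := abs_hh'_le (h := h) (h' := h') (hlt t ht)
    have h2 := AB_ge (h := h) (h' := h') ht.1 (hlt t ht) (hc t ht)
    have h3 : |h t * h' t| ≤ 2 / 3 * AB κ h h' t := by linarith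
    calc _ ≤ (1 / rr κ t ^ 3 + 3 * t ^ 2 / rr κ t ^ 5) * (2 / 3 * AB κ h h' t) :=
          mul_le_mul_of_nonneg_left h3 h0
      _ = _ := by ring
  have hanti : AntitoneOn (fun t => AB κ h h' t * Real.exp (-(2 / 3) * uu κ t)) (Icc 0 s) := by
    apply antitoneOn_of_deriv_nonpos (convex_Icc 0 s) (hdiff _).continuousOn
      ((hdiff _).mono interior_subset)
    intro t ht
    have ht' := interior_subset ht
    rw [(hder t ht' _).deriv]
    have hk := (abs_le.mp (hkey t ht')).1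
    have hexp := Real.exp_pos (-(2 / 3) * uu κ t)
    have : -((1 / rr κ t ^ 3 + 3 * t ^ 2 / rr κ t ^ 5) * (h t * h' t))
        - 2 / 3 * (1 / rr κ t ^ 3 + 3 * t ^ 2 / rr κ t ^ 5) * AB κ h h' t ≤ 0 := by linarith
    nlinarith
  have hmono : MonotoneOn (fun t => AB κ h h' t * Real.exp (2 / 3 * uu κ t)) (Icc 0 s) := by
    apply monotoneOn_of_deriv_nonneg (convex_Icc 0 s) (hdiff _).continuousOn
      ((hdiff _).mono interior_subset)
    intro t ht
    have ht' := interior_subset ht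
    rw [(hder t ht' _).deriv]
    have hk := (abs_le.mp (hkey t ht')).2
    have hexp := Real.exp_pos (2 / 3 * uu κ t)
    have : 0 ≤ -((1 / rr κ t ^ 3 + 3 * t ^ 2 / rr κ t ^ 5) * (h t * h' t))
        + 2 / 3 * (1 / rr κ t ^ 3 + 3 * t ^ 2 / rr κ t ^ 5) * AB κ h h' t := by linarith
    nlinarith
  have hu00 : uu κ 0 = 0 := by simp [uu]
  have m0 : (0:ℝ) ∈ Icc 0 s := ⟨le_rfl, hs0⟩
  have ms : s ∈ Icc 0 s := ⟨hs0, le_rfl⟩
  constructor
  · have := hanti m0 ms hs0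
    simp only [hu00, mul_zero, Real.exp_zero, mul_one] at this
    have he : Real.exp (-(2 / 3) * uu κ s) = (Real.exp (2 / 3 * uu κ s))⁻¹ := by
      rw [← Real.exp_neg]; congr 1; ring
    rw [he, ← div_eq_mul_inv, div_le_iff₀ (Real.exp_pos _)] at this
    exact this
  · have := hmono m0 ms hs0
    simpa only [hu00, mul_zero, Real.exp_zero, mul_one] using this

lemma exp_third_le : Real.exp (1 / 3) ≤ 7 / 5 := by
  have h1 : Real.exp (1/3) ^ 3 = Real.exp 1 := by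
    rw [← Real.exp_nat_mul]; norm_num
  have h2 := Real.exp_one_lt_d9
  by_contra hc
  push Not at hc
  have : (7/5 : ℝ) ^ 3 < Real.exp (1/3) ^ 3 := pow_lt_pow_left₀ hc (by norm_num) (by norm_num)
  rw [h1] at this
  norm_num at this
  linarith

include H in
/-- (W2) The WKB amplitude stays within a factor two of its value at zero. -/
theorem AA_two_sided {s : ℝ} (hs0 : 0 ≤ s) (hs : s ^ 2 < κ ^ 2) (hu : 2 * s ≤ rr κ s ^ 3) :
    AA κ h h' s ≤ 2 * AA κ h h' 0 ∧ AA κ h h' 0 ≤ 2 * AA κ h h' s := by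
  obtain ⟨h1, h2⟩ := H.AB_exp hs0 hs hu
  have hr := rr_pos hs
  have hu1 : uu κ s ≤ 1 / 2 := by
    unfold uu; rw [div_le_iff₀ (by positivity)]; linarith
  have hexp : Real.exp (2 / 3 * uu κ s) ≤ 7 / 5 :=
    (Real.exp_le_exp.mpr (by linarith)).trans exp_third_le
  have hA0 : AB κ h h' 0 = AA κ h h' 0 := by simp [AB, uu]
  rw [hA0] at h1 h2
  have g1 := AB_ge (h := h) (h' := h') hs0 hs hu
  have g2 := AB_le (h := h) (h' := h') hs0 hs hu
  have n0 : 0 ≤ AA κ h h' 0 := AA_nonneg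
  have ns : 0 ≤ AA κ h h' s := AA_nonneg
  constructor
  · have : AA κ h h' 0 * Real.exp (2 / 3 * uu κ s) ≤ AA κ h h' 0 * (7 / 5) :=
      mul_le_mul_of_nonneg_left hexp n0
    linarith
  · have hb : 0 ≤ AB κ h h' s := by linarith
    have : AB κ h h' s * Real.exp (2 / 3 * uu κ s) ≤ AB κ h h' s * (7 / 5) :=
      mul_le_mul_of_nonneg_left hexp hb
    linarith

end HSol

end Crest.Agent.R338.WKB

end
end

-- ▼ part R338/WKB2
section

/-!
Row 338, node WKB, part 2 (D.1 of the blueprint): the Hermite functions as solutions of the ODE,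
parity, exact values at the origin, `κ/2 ≤ A(0) ≤ κ`.
-/

set_option autoImplicit false

noncomputable section

open Set MeasureTheory Real
open Crest.Agent.R338.HO

namespace Crest.Agent.R338.WKB

/-- `κ_m = √(2m+1)`. -/
def kap (m : ℕ) : ℝ := √(2 * (m : ℝ) + 1)

/-- The derivative of `hf m`. -/
def hfd (m : ℕ) (x : ℝ) : ℝ :=
  √((m : ℝ) / 2) * hf (m - 1) x - √(((m : ℝ) + 1) / 2) * hf (m + 1) x

lemma kap_sq (m : ℕ) : kap m ^ 2 = 2 * (m : ℝ) + 1 := Real.sq_sqrt (by positivity)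

lemma kap_pos (m : ℕ) : 0 < kap m := Real.sqrt_pos.mpr (by positivity)

lemma one_le_kap (m : ℕ) : 1 ≤ kap m := by
  unfold kap
  rw [Real.one_le_sqrt]
  have : (0:ℝ) ≤ m := Nat.cast_nonneg m
  linarith

lemma hf_deriv (m : ℕ) (x : ℝ) : HasDerivAt (hf m) (hfd m x) x := hasDerivAt_hf m x


/-- The Hermite functions solve the ODE. -/
theorem hsol (m : ℕ) : HSol (kap m) (hf m) (hfd m) where
  d1 := hf_deriv m
  d2 := fun s => by
    rw [kap_sq]
    exact hasDerivAt_deriv_hf m s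

/-- parity -/
theorem hf_neg (m : ℕ) (x : ℝ) : hf m (-x) = (-1) ^ m * hf m x := by
  have key : ∀ n : ℕ, (∀ x : ℝ, hf n (-x) = (-1) ^ n * hf n x) ∧
      (∀ x : ℝ, hf (n + 1) (-x) = (-1) ^ (n + 1) * hf (n + 1) x) := by
    intro n
    induction n with
    | zero =>
      have h0 : ∀ x : ℝ, hf 0 (-x) = hf 0 x := by
        intro x; rw [hf_zero, hf_zero]; simp
      refine ⟨fun x => by rw [h0]; simp, fun x => ?_⟩
      have e1 := x_mul_hf 0 x
      have e2 := x_mul_hf 0 (-x)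
      simp only [Nat.cast_zero, zero_div, Real.sqrt_zero, zero_mul, add_zero, zero_add] at e1 e2
      rw [h0] at e2
      have hs : √((1:ℝ) / 2) ≠ 0 := (Real.sqrt_pos.mpr (by norm_num)).ne'
      have : √((1:ℝ) / 2) * hf 1 (-x) = √((1:ℝ) / 2) * (-hf 1 x) := by
        rw [← e2]; rw [mul_neg, ← e1]; ring
      have := mul_left_cancel₀ hs this
      simp only [zero_add, pow_one]
      rw [this]; ring
    | succ n ih =>
      refine ⟨ih.2, fun x => ?_⟩
      have e1 := x_mul_hf (n + 1) x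
      have e2 := x_mul_hf (n + 1) (-x)
      simp only [Nat.add_sub_cancel] at e1 e2
      rw [ih.2, ih.1] at e2
      have hs : √((((n + 1 : ℕ) : ℝ) + 1) / 2) ≠ 0 := (Real.sqrt_pos.mpr (by positivity)).ne'
      have : √((((n + 1 : ℕ) : ℝ) + 1) / 2) * hf (n + 1 + 1) (-x)
          = √((((n + 1 : ℕ) : ℝ) + 1) / 2) * ((-1) ^ (n + 1 + 1) * hf (n + 1 + 1) x) := by
        have e3 : √((((n + 1 : ℕ) : ℝ) + 1) / 2) * hf (n + 1 + 1) x
            = x * hf (n + 1) x - √(((n + 1 : ℕ) : ℝ) / 2) * hf n x := by linarith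
        have e4 : √((((n + 1 : ℕ) : ℝ) + 1) / 2) * hf (n + 1 + 1) (-x)
            = -x * ((-1) ^ (n + 1) * hf (n + 1) x)
              - √(((n + 1 : ℕ) : ℝ) / 2) * ((-1) ^ n * hf n x) := by linarith
        have e5 : √((((n + 1 : ℕ) : ℝ) + 1) / 2) * ((-1) ^ (n + 1 + 1) * hf (n + 1 + 1) x)
            = (-1) ^ (n + 1 + 1) * (√((((n + 1 : ℕ) : ℝ) + 1) / 2) * hf (n + 1 + 1) x) := by ring
        rw [e4, e5, e3]
        ring
      exact mul_left_cancel₀ hs this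
  exact (key m).1 x

lemma hf_neg_sq (m : ℕ) (x : ℝ) : hf m (-x) ^ 2 = hf m x ^ 2 := by
  rw [hf_neg, mul_pow, ← pow_mul, mul_comm m 2, pow_mul]; simp

lemma hf_abs_sq (m : ℕ) (x : ℝ) : hf m |x| ^ 2 = hf m x ^ 2 := by
  rcases abs_choice x with h | h
  · rw [h]
  · rw [h, hf_neg_sq]

/-- recursion at the origin -/
lemma hf_zero_rec (m : ℕ) : hf (m + 2) 0 ^ 2 = ((m : ℝ) + 1) / ((m : ℝ) + 2) * hf m 0 ^ 2 := by
  have e := x_mul_hf (m + 1) 0
  simp only [zero_mul, Nat.add_sub_cancel] at e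
  have e2 : √((((m + 1 : ℕ) : ℝ) + 1) / 2) * hf (m + 1 + 1) 0 = -(√(((m + 1 : ℕ) : ℝ) / 2) * hf m 0) := by
    linarith
  have e3 := congrArg (fun t => t ^ 2) e2
  simp only [mul_pow, neg_sq] at e3
  rw [Real.sq_sqrt (by positivity), Real.sq_sqrt (by positivity)] at e3
  have hm : (0:ℝ) < (m:ℝ) + 2 := by positivity
  have e4 : m + 1 + 1 = m + 2 := rfl
  rw [e4] at e3
  push_cast at e3
  field_simp
  nlinarith

lemma hf_zero_zero_sq : hf 0 0 ^ 2 = 1 / √π := by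
  rw [hf_zero]
  simp only [ne_eq, OfNat.ofNat_ne_zero, not_false_eq_true, zero_pow, neg_zero, zero_div,
    Real.exp_zero, mul_one]
  rw [← Real.rpow_natCast, ← Real.rpow_mul Real.pi_pos.le, Real.sqrt_eq_rpow, one_div (π ^ _),
    ← Real.rpow_neg Real.pi_pos.le]
  norm_num

/-- two-sided bound for even Hermite functions at the origin -/
lemma hf_even_origin (k : ℕ) :
    1 ≤ (4 * (k : ℝ) + 1) * (π * (hf (2 * k) 0 ^ 2) ^ 2) ∧
      (2 * (k : ℝ) + 1) * (π * (hf (2 * k) 0 ^ 2) ^ 2) ≤ 1 := by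
  induction k with
  | zero =>
    simp only [mul_zero, hf_zero_zero_sq, Nat.cast_zero, zero_add, one_mul, div_pow, one_pow]
    rw [Real.sq_sqrt Real.pi_pos.le]
    have : π * (1 / π) = 1 := by field_simp
    rw [this]; exact ⟨le_rfl, le_rfl⟩
  | succ k ih =>
    have e : 2 * (k + 1) = 2 * k + 2 := by ring
    rw [e, hf_zero_rec]
    set a := (hf (2 * k) 0 ^ 2) with ha
    have h0 : (0:ℝ) ≤ π * a ^ 2 := by positivity
    obtain ⟨h1, h2⟩ := ih
    set b := π * a ^ 2 with hb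
    have hk : (0:ℝ) ≤ k := Nat.cast_nonneg k
    have e2 : π * ((((2 * k : ℕ) : ℝ) + 1) / (((2 * k : ℕ) : ℝ) + 2) * a) ^ 2
        = ((2 * (k:ℝ) + 1) / (2 * (k:ℝ) + 2)) ^ 2 * b := by
      push_cast; rw [hb]; ring
    rw [e2]
    push_cast
    constructor
    · have : (4 * (k:ℝ) + 1) ≤ (4 * ((k:ℝ) + 1) + 1) * ((2 * (k:ℝ) + 1) / (2 * (k:ℝ) + 2)) ^ 2 := by
        rw [div_pow, mul_div_assoc', le_div_iff₀ (by positivity)]
        nlinarith
      calc 1 ≤ (4 * (k:ℝ) + 1) * b := h1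
        _ ≤ ((4 * ((k:ℝ) + 1) + 1) * ((2 * (k:ℝ) + 1) / (2 * (k:ℝ) + 2)) ^ 2) * b :=
          mul_le_mul_of_nonneg_right this h0
        _ = _ := by ring
    · have : (2 * ((k:ℝ) + 1) + 1) * ((2 * (k:ℝ) + 1) / (2 * (k:ℝ) + 2)) ^ 2 ≤ 2 * (k:ℝ) + 1 := by
        rw [div_pow, mul_div_assoc', div_le_iff₀ (by positivity)]
        nlinarith
      calc (2 * ((k:ℝ) + 1) + 1) * (((2 * (k:ℝ) + 1) / (2 * (k:ℝ) + 2)) ^ 2 * b)
          = ((2 * ((k:ℝ) + 1) + 1) * ((2 * (k:ℝ) + 1) / (2 * (k:ℝ) + 2)) ^ 2) * b := by ring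
        _ ≤ (2 * (k:ℝ) + 1) * b := mul_le_mul_of_nonneg_right this h0
        _ ≤ 1 := h2

/-- the energy function of `hf m` -/
def Eh (m : ℕ) (s : ℝ) : ℝ := hfd m s ^ 2 + (kap m ^ 2 - s ^ 2) * hf m s ^ 2


/-- odd Hermite functions vanish at the origin -/
lemma hf_odd_origin (k : ℕ) : hf (2 * k + 1) 0 = 0 := by
  have := hf_neg (2 * k + 1) 0
  rw [neg_zero, Odd.neg_one_pow ⟨k, rfl⟩] at this
  linarith

lemma Eh_even (k : ℕ) : Eh (2 * k) 0 = kap (2 * k) ^ 2 * hf (2 * k) 0 ^ 2 := by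
  have h0 : hfd (2 * k) 0 = 0 := by
    unfold hfd
    rw [hf_odd_origin]
    rcases Nat.eq_zero_or_pos k with rfl | hk
    · simp
    · obtain ⟨j, rfl⟩ : ∃ j, k = j + 1 := ⟨k - 1, by omega⟩
      have : 2 * (j + 1) - 1 = 2 * j + 1 := by omega
      rw [this, hf_odd_origin]; simp
  unfold Eh
  rw [h0]; ring

lemma Eh_odd (k : ℕ) : Eh (2 * k + 1) 0 = (4 * (k : ℝ) + 2) * hf (2 * k) 0 ^ 2 := by
  have e := x_mul_hf (2 * k + 1) 0
  simp only [zero_mul, Nat.add_sub_cancel] at e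
  have h1 : hfd (2 * k + 1) 0 = 2 * (√(((2 * k + 1 : ℕ) : ℝ) / 2) * hf (2 * k) 0) := by
    unfold hfd
    simp only [Nat.add_sub_cancel]
    linarith
  unfold Eh
  rw [h1, hf_odd_origin, mul_pow, mul_pow, Real.sq_sqrt (by positivity)]
  push_cast
  ring


/-- (D.1) `κ/2 ≤ A(0) ≤ κ`. -/
theorem Eh_zero_bounds (m : ℕ) : kap m / 2 ≤ Eh m 0 ∧ Eh m 0 ≤ kap m := by
  have hpi2 := Real.two_le_pi
  have hpi4 := Real.pi_le_four
  -- it suffices to compare squares
  have key : ∀ e : ℝ, 0 ≤ e → kap m ^ 2 ≤ 4 * e ^ 2 → e ^ 2 ≤ kap m ^ 2 →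
      kap m / 2 ≤ e ∧ e ≤ kap m := by
    intro e he h1 h2
    have hk := kap_pos m
    constructor
    · nlinarith [abs_le_of_sq_le_sq' (show kap m ^ 2 ≤ (2 * e) ^ 2 by nlinarith) (by positivity)]
    · exact (abs_le_of_sq_le_sq' h2 hk.le).2
  rcases Nat.even_or_odd' m with ⟨k, hk | hk⟩
  · subst hk
    obtain ⟨h1, h2⟩ := hf_even_origin k
    rw [Eh_even]
    set a := hf (2 * k) 0 ^ 2 with ha
    have hk0 : (0:ℝ) ≤ k := Nat.cast_nonneg k
    have hkap : kap (2 * k) ^ 2 = 4 * (k:ℝ) + 1 := by rw [kap_sq]; push_cast; ring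
    have ha0 : 0 ≤ a := sq_nonneg _
    have ha2 : (0:ℝ) ≤ a ^ 2 := sq_nonneg _
    apply key
    · positivity
    · rw [hkap]
      -- 4k+1 ≤ 4 (4k+1)^2 a^2 ; π ≤ 4
      have : 1 ≤ 4 * ((4 * (k:ℝ) + 1) * a ^ 2) := by
        calc 1 ≤ (4 * (k:ℝ) + 1) * (π * a ^ 2) := h1
          _ ≤ (4 * (k:ℝ) + 1) * (4 * a ^ 2) := by
            apply mul_le_mul_of_nonneg_left _ (by positivity)
            exact mul_le_mul_of_nonneg_right hpi4 ha2
          _ = _ := by ring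
      nlinarith
    · rw [hkap]
      have : 2 * ((2 * (k:ℝ) + 1) * a ^ 2) ≤ 1 := by
        calc 2 * ((2 * (k:ℝ) + 1) * a ^ 2) = (2 * (k:ℝ) + 1) * (2 * a ^ 2) := by ring
          _ ≤ (2 * (k:ℝ) + 1) * (π * a ^ 2) := by
            apply mul_le_mul_of_nonneg_left _ (by positivity)
            exact mul_le_mul_of_nonneg_right hpi2 ha2
          _ ≤ 1 := h2
      nlinarith
  · subst hk
    obtain ⟨h1, h2⟩ := hf_even_origin k
    rw [Eh_odd]
    set a := hf (2 * k) 0 ^ 2 with ha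
    have hk0 : (0:ℝ) ≤ k := Nat.cast_nonneg k
    have hkap : kap (2 * k + 1) ^ 2 = 4 * (k:ℝ) + 3 := by rw [kap_sq]; push_cast; ring
    have ha0 : 0 ≤ a := sq_nonneg _
    have ha2 : (0:ℝ) ≤ a ^ 2 := sq_nonneg _
    apply key
    · positivity
    · rw [hkap]
      have : 1 ≤ 4 * ((4 * (k:ℝ) + 1) * a ^ 2) := by
        calc 1 ≤ (4 * (k:ℝ) + 1) * (π * a ^ 2) := h1
          _ ≤ (4 * (k:ℝ) + 1) * (4 * a ^ 2) := by
            apply mul_le_mul_of_nonneg_left _ (by positivity)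
            exact mul_le_mul_of_nonneg_right hpi4 ha2
          _ = _ := by ring
      nlinarith
    · rw [hkap]
      have : 2 * ((2 * (k:ℝ) + 1) * a ^ 2) ≤ 1 := by
        calc 2 * ((2 * (k:ℝ) + 1) * a ^ 2) = (2 * (k:ℝ) + 1) * (2 * a ^ 2) := by ring
          _ ≤ (2 * (k:ℝ) + 1) * (π * a ^ 2) := by
            apply mul_le_mul_of_nonneg_left _ (by positivity)
            exact mul_le_mul_of_nonneg_right hpi2 ha2
          _ ≤ 1 := h2
      nlinarith

end Crest.Agent.R338.WKB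

end
end

-- ▼ part R338/WKB3

/-!
Row 338, node WKB, part 3 (D.2 of the blueprint): WKB bound `h² ≤ 2/r`, `h'² ≤ 2 r` and the uniform
bound `h² ≤ 18 (2κ)^{-1/3}`.
-/

set_option autoImplicit false

noncomputable section

open Set MeasureTheory Real Filter Topology
open Crest.Agent.R338.HO

namespace Crest.Agent.R338.WKB

/-! ### decay at infinity -/

lemma tendsto_poly_gauss (P : Polynomial ℝ) :
    Tendsto (fun x : ℝ => P.eval x * Real.exp (-(x ^ 2) / 2)) atTop (𝓝 0) := by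
  have h1 : Tendsto (fun x : ℝ => P.eval x / Real.exp x) atTop (𝓝 0) := P.tendsto_div_exp_atTop
  have h2 : Tendsto (fun x : ℝ => |P.eval x / Real.exp x|) atTop (𝓝 0) := by
    simpa using h1.abs
  apply squeeze_zero_norm' _ h2
  filter_upwards [eventually_ge_atTop (2:ℝ)] with x hx
  rw [Real.norm_eq_abs, abs_mul, abs_div, Real.abs_exp, Real.abs_exp,
    div_eq_mul_inv |Polynomial.eval x P|, ← Real.exp_neg]
  apply mul_le_mul_of_nonneg_left _ (abs_nonneg _)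
  apply Real.exp_le_exp.mpr
  nlinarith

lemma tendsto_hf (m : ℕ) : Tendsto (hf m) atTop (𝓝 0) := tendsto_poly_gauss (hP m)

lemma tendsto_poly_hf (P : Polynomial ℝ) (m : ℕ) :
    Tendsto (fun x => P.eval x * hf m x) atTop (𝓝 0) := by
  have := tendsto_poly_gauss (P * hP m)
  refine this.congr (fun x => ?_)
  unfold hf; rw [Polynomial.eval_mul]; ring

lemma tendsto_poly_hfd (P : Polynomial ℝ) (m : ℕ) :
    Tendsto (fun x => P.eval x * hfd m x) atTop (𝓝 0) := by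
  have h1 := (tendsto_poly_hf P (m - 1)).const_mul √((m : ℝ) / 2)
  have h2 := (tendsto_poly_hf P (m + 1)).const_mul √(((m : ℝ) + 1) / 2)
  have h3 := h1.sub h2
  simp only [mul_zero, sub_zero] at h3
  refine h3.congr (fun x => ?_)
  unfold hfd; ring

lemma tendsto_hfd (m : ℕ) : Tendsto (hfd m) atTop (𝓝 0) := by
  have := tendsto_poly_hfd 1 m
  simpa using this

/-! ### integrability of polynomial weights -/

lemma integrable_poly_hf_hf (P : Polynomial ℝ) (a b : ℕ) :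
    Integrable (fun x => P.eval x * (hf a x * hf b x)) := by
  have := integrable_poly_gauss (P * (hP a * hP b)) one_pos
  refine this.congr (Eventually.of_forall fun x => ?_)
  simp only [hf_mul_hf, Polynomial.eval_mul]
  ring

lemma integrable_poly_hf_hfd (P : Polynomial ℝ) (a b : ℕ) :
    Integrable (fun x => P.eval x * (hf a x * hfd b x)) := by
  have h1 := (integrable_poly_hf_hf P a (b - 1)).const_mul √((b : ℝ) / 2)
  have h2 := (integrable_poly_hf_hf P a (b + 1)).const_mul √(((b : ℝ) + 1) / 2)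
  refine (h1.sub h2).congr (Eventually.of_forall fun x => ?_)
  simp only [Pi.sub_apply]
  unfold hfd; ring

lemma integrable_poly_hfd_hfd (P : Polynomial ℝ) (a b : ℕ) :
    Integrable (fun x => P.eval x * (hfd a x * hfd b x)) := by
  have h1 := (integrable_poly_hf_hfd P (a - 1) b).const_mul √((a : ℝ) / 2)
  have h2 := (integrable_poly_hf_hfd P (a + 1) b).const_mul √(((a : ℝ) + 1) / 2)
  refine (h1.sub h2).congr (Eventually.of_forall fun x => ?_)
  simp only [Pi.sub_apply]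
  nth_rw 3 [hfd]; ring

/-! ### beyond the turning point -/

lemma hasDerivAt_hf_mul_hfd (m : ℕ) (s : ℝ) :
    HasDerivAt (fun s => hf m s * hfd m s) (hfd m s ^ 2 + (s ^ 2 - kap m ^ 2) * hf m s ^ 2) s := by
  refine ((hsol m).d1 s |>.mul ((hsol m).d2 s)).congr_deriv ?_
  ring

lemma continuous_hfd (m : ℕ) : Continuous (hfd m) := (hsol m).continuous_h'

/-- `h h' ≤ 0` beyond the turning point. -/
lemma hf_mul_hfd_nonpos (m : ℕ) {s : ℝ} (hs : kap m ≤ s) : hf m s * hfd m s ≤ 0 := by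
  have hk := kap_pos m
  have hmono : MonotoneOn (fun s => hf m s * hfd m s) (Ici (kap m)) := by
    apply monotoneOn_of_deriv_nonneg (convex_Ici _)
    · exact ((continuous_hf m).mul (continuous_hfd m)).continuousOn
    · intro t _
      exact (hasDerivAt_hf_mul_hfd m t).differentiableAt.differentiableWithinAt
    · intro t ht
      rw [interior_Ici] at ht
      rw [(hasDerivAt_hf_mul_hfd m t).deriv]
      have h1 : 0 ≤ t ^ 2 - kap m ^ 2 := by
        have : kap m < t := ht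
        nlinarith
      positivity
  have hlim : Tendsto (fun s => hf m s * hfd m s) atTop (𝓝 0) := by
    have := (tendsto_hf m).mul (tendsto_hfd m)
    simpa using this
  apply ge_of_tendsto hlim
  filter_upwards [eventually_ge_atTop s] with t ht
  exact hmono hs (hs.trans ht) ht

lemma hf_sq_antitone (m : ℕ) : AntitoneOn (fun s => hf m s ^ 2) (Ici (kap m)) := by
  apply antitoneOn_of_deriv_nonpos (convex_Ici _)
  · exact ((continuous_hf m).pow 2).continuousOn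
  · intro t _
    exact ((hf_deriv m t).pow 2).differentiableAt.differentiableWithinAt
  · intro t ht
    rw [interior_Ici] at ht
    have h1 := hf_mul_hfd_nonpos m (le_of_lt ht)
    have h2 := ((hf_deriv m t).pow 2).deriv
    have h3 : deriv (fun s => hf m s ^ 2) t = 2 * (hf m t * hfd m t) := by
      have : (fun s => hf m s ^ 2) = (hf m) ^ 2 := rfl
      rw [this, h2]; simp; ring
    rw [h3]; linarith

/-! ### WKB bounds -/

lemma AA_zero_eq (m : ℕ) : AA (kap m) (hf m) (hfd m) 0 = Eh m 0 / kap m := by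
  have hk := kap_pos m
  unfold AA Eh
  rw [rr_zero hk.le]
  field_simp
  ring

lemma AA_zero_le (m : ℕ) : AA (kap m) (hf m) (hfd m) 0 ≤ 1 := by
  rw [AA_zero_eq, div_le_one (kap_pos m)]
  exact (Eh_zero_bounds m).2


lemma Eh_eq_rr_mul_AA (m : ℕ) {s : ℝ} (hs : s ^ 2 < kap m ^ 2) :
    Eh m s = rr (kap m) s * AA (kap m) (hf m) (hfd m) s := by
  have hr := rr_pos hs
  have h2 := rr_sq hs.le
  unfold Eh AA
  rw [← h2]
  field_simp
  ring

/-- (D.2) the amplitude is at most `2` before the Airy zone. -/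
theorem AA_le_two (m : ℕ) {s : ℝ} (hs0 : 0 ≤ s) (hs : s ^ 2 < kap m ^ 2)
    (hu : 2 * s ≤ rr (kap m) s ^ 3) : AA (kap m) (hf m) (hfd m) s ≤ 2 := by
  have := ((hsol m).AA_two_sided hs0 hs hu).1
  linarith [AA_zero_le m]


/-- (D.2) `h² ≤ 2/√(κ²-s²)` as long as `2|s| ≤ (κ²-s²)^{3/2}`. -/
theorem hf_sq_le_two_div (m : ℕ) {s : ℝ} (hs : s ^ 2 < kap m ^ 2)
    (hu : 2 * |s| ≤ rr (kap m) s ^ 3) : hf m s ^ 2 ≤ 2 / rr (kap m) s := by
  have hr := rr_pos hs
  have hrabs : rr (kap m) |s| = rr (kap m) s := by unfold rr; rw [sq_abs]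
  have h1 := AA_le_two m (abs_nonneg s) (by rwa [sq_abs]) (by rwa [hrabs])
  unfold AA at h1
  rw [hrabs, hf_abs_sq] at h1
  have h2 : 0 ≤ hfd m |s| ^ 2 / rr (kap m) s := by positivity
  rw [le_div_iff₀ hr]
  nlinarith

/-- `L = (2κ)^{1/3}`. -/
def LL (m : ℕ) : ℝ := (2 * kap m) ^ ((1:ℝ) / 3)

lemma LL_pos (m : ℕ) : 0 < LL m := Real.rpow_pos_of_pos (by have := kap_pos m; positivity) _

lemma LL_cube (m : ℕ) : LL m ^ 3 = 2 * kap m := by
  unfold LL
  rw [← Real.rpow_natCast, ← Real.rpow_mul (by have := kap_pos m; positivity)]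
  norm_num

lemma one_le_LL (m : ℕ) : 1 ≤ LL m := by
  by_contra hc
  push Not at hc
  have h1 : LL m ^ 3 < 1 := pow_lt_one₀ (LL_pos m).le hc (by norm_num)
  rw [LL_cube] at h1
  linarith [one_le_kap m]

lemma LL_le_kap (m : ℕ) (hm : 1 ≤ m) : LL m ≤ kap m := by
  by_contra hc
  push Not at hc
  have h1 : kap m ^ 3 < LL m ^ 3 := pow_lt_pow_left₀ hc (kap_pos m).le (by norm_num)
  rw [LL_cube] at h1
  have h2 : kap m ^ 2 = 2 * (m:ℝ) + 1 := kap_sq m
  have h3 : (1:ℝ) ≤ m := by exact_mod_cast hm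
  have hk := kap_pos m
  have : kap m ^ 3 = kap m * kap m ^ 2 := by ring
  rw [this, h2] at h1
  nlinarith

/-- the uniform bound on `[0, κ]`, `m ≥ 1` -/
lemma hf_sq_le_aux (m : ℕ) (hm : 1 ≤ m) {s : ℝ} (hs0 : 0 ≤ s) (hsk : s ≤ kap m) :
    hf m s ^ 2 ≤ 18 / LL m := by
  have hk := kap_pos m
  have hL := LL_pos m
  have hLk := LL_le_kap m hm
  have hL3 := LL_cube m
  set L := LL m with hLdef
  set κ := kap m with hκdef
  -- the boundary of the Airy zone
  set t : ℝ := √(κ ^ 2 - L ^ 2) with ht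
  have ht0 : 0 ≤ t := Real.sqrt_nonneg _
  have ht2 : t ^ 2 = κ ^ 2 - L ^ 2 := Real.sq_sqrt (by nlinarith)
  have htk : t ^ 2 < κ ^ 2 := by rw [ht2]; nlinarith
  have htk' : t < κ := lt_of_pow_lt_pow_left₀ 2 hk.le htk
  have hrt : rr κ t = L := by
    unfold rr
    rw [ht2, show κ ^ 2 - (κ ^ 2 - L ^ 2) = L ^ 2 by ring, Real.sqrt_sq hL.le]
  have hcond : 2 * t ≤ rr κ t ^ 3 := by rw [hrt, hL3]; linarith
  have hAt : AA κ (hf m) (hfd m) t ≤ 2 := AA_le_two m ht0 htk hcond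
  have h18 : 2 / L ≤ 18 / L := by
    apply div_le_div_of_nonneg_right (by norm_num) hL.le
  rcases le_total s t with hst | hst
  · -- before the Airy zone
    have hc2 : 2 * s ≤ rr κ s ^ 3 := HSol.cond_mono hs0 hst hcond
    have hs2 : s ^ 2 < κ ^ 2 := lt_of_le_of_lt (pow_le_pow_left₀ hs0 hst 2) htk
    have h1 := hf_sq_le_two_div m hs2 (by rw [abs_of_nonneg hs0]; exact hc2)
    have h2 : L ≤ rr κ s := by
      rw [← hrt]; unfold rr
      apply Real.sqrt_le_sqrt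
      nlinarith
    calc hf m s ^ 2 ≤ 2 / rr κ s := h1
      _ ≤ 2 / L := div_le_div_of_nonneg_left (by norm_num) hL h2
      _ ≤ 18 / L := h18
  · -- inside the Airy zone
    have hEt : Eh m t ≤ 2 * L := by
      rw [Eh_eq_rr_mul_AA m htk, hrt]; nlinarith
    have hd : ∀ y ∈ Icc t s, ‖hfd m y‖ ≤ √(2 * L) := by
      intro y hy
      have hy0 : 0 ≤ y := ht0.trans hy.1
      have hyk : y ≤ κ := hy.2.trans hsk
      have h1 : Eh m y ≤ Eh m t := (hsol m).En_le_of_le ht0 hy.1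
      have h2 : hfd m y ^ 2 ≤ Eh m y := by
        unfold Eh
        have : 0 ≤ kap m ^ 2 - y ^ 2 := by
          have := pow_le_pow_left₀ hy0 hyk 2
          linarith
        nlinarith [mul_nonneg this (sq_nonneg (hf m y))]
      rw [Real.norm_eq_abs]
      apply Real.abs_le_sqrt
      linarith
    have hmv : ‖hf m s - hf m t‖ ≤ √(2 * L) * ‖s - t‖ := by
      apply (convex_Icc t s).norm_image_sub_le_of_norm_hasDerivWithin_le
        (f := hf m) (f' := hfd m) (fun y _ => (hf_deriv m y).hasDerivWithinAt) hd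
        ⟨le_rfl, hst⟩ ⟨hst, le_rfl⟩
    have hlen : s - t ≤ 2 / L := by
      have h1 : κ - t ≤ 2 / L := by
        rw [le_div_iff₀ hL]
        have h2 : (κ - t) * κ ≤ L ^ 2 := by
          have : (κ - t) * (κ + t) = L ^ 2 := by nlinarith
          nlinarith
        -- (κ - t) κ ≤ L²; 2κ = L³ → (κ - t) L ≤ 2
        have h3 : (κ - t) * L ^ 3 ≤ 2 * L ^ 2 := by rw [hL3]; nlinarith
        have h4 : ((κ - t) * L) * L ^ 2 ≤ 2 * L ^ 2 := by nlinarith
        exact le_of_mul_le_mul_right h4 (by positivity)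
      linarith
    rw [Real.norm_eq_abs, Real.norm_eq_abs, abs_of_nonneg (by linarith : 0 ≤ s - t)] at hmv
    have hht : hf m t ^ 2 ≤ 2 / L := by
      have := hf_sq_le_two_div m htk (by rw [abs_of_nonneg ht0]; exact hcond)
      rwa [hrt] at this
    have hht' : |hf m t| ≤ √(2 / L) := Real.abs_le_sqrt hht
    have hsq : √(2 * L) * (2 / L) = 2 * √(2 / L) := by
      have e1 : 2 * L = (2 / L) * L ^ 2 := by field_simp
      rw [e1, Real.sqrt_mul (by positivity), Real.sqrt_sq hL.le]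
      field_simp
    have habs : |hf m s| ≤ 3 * √(2 / L) := by
      have h1 : |hf m s - hf m t| ≤ √(2 * L) * (2 / L) :=
        hmv.trans (mul_le_mul_of_nonneg_left hlen (Real.sqrt_nonneg _))
      rw [hsq] at h1
      have h2 : |hf m s| ≤ |hf m s - hf m t| + |hf m t| := by
        have := abs_add_le (hf m s - hf m t) (hf m t)
        simpa using this
      linarith
    calc hf m s ^ 2 = |hf m s| ^ 2 := (sq_abs _).symm
      _ ≤ (3 * √(2 / L)) ^ 2 := pow_le_pow_left₀ (abs_nonneg _) habs 2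
      _ = 18 / L := by
        rw [mul_pow, Real.sq_sqrt (by positivity)]; ring

/-- (D.2) uniform bound. -/
theorem hf_sq_le (m : ℕ) (s : ℝ) : hf m s ^ 2 ≤ 18 / LL m := by
  rcases Nat.eq_zero_or_pos m with rfl | hm
  · -- `m = 0`
    have h1 : hf 0 s ^ 2 ≤ 1 := by
      have e : hf 0 s ^ 2 = 1 / √π * Real.exp (-(s ^ 2)) := by
        rw [← hf_zero_zero_sq, hf_zero, hf_zero, mul_pow, mul_pow, ← Real.exp_nat_mul,
          ← Real.exp_nat_mul]
        norm_num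
        left; ring_nf
      rw [e]
      have h2 : 1 / √π ≤ 1 := by
        rw [div_le_one (Real.sqrt_pos.mpr Real.pi_pos), Real.one_le_sqrt]
        linarith [Real.two_le_pi]
      have h3 : Real.exp (-(s ^ 2)) ≤ 1 := Real.exp_le_one_iff.mpr (by nlinarith [sq_nonneg s])
      have h4 : 0 ≤ 1 / √π := by positivity
      nlinarith [Real.exp_pos (-(s ^ 2))]
    have h2 : LL 0 ≤ 18 := by
      by_contra hc
      push Not at hc
      have h3 : (18:ℝ) ^ 3 < LL 0 ^ 3 := pow_lt_pow_left₀ hc (by norm_num) (by norm_num)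
      rw [LL_cube] at h3
      have h4 : kap 0 = 1 := by unfold kap; simp
      rw [h4] at h3; norm_num at h3
    calc hf 0 s ^ 2 ≤ 1 := h1
      _ ≤ 18 / LL 0 := by rw [le_div_iff₀ (LL_pos 0)]; linarith
  · rw [← hf_abs_sq]
    rcases le_total |s| (kap m) with h | h
    · exact hf_sq_le_aux m hm (abs_nonneg s) h
    · have h1 := hf_sq_antitone m (Set.mem_Ici.mpr le_rfl) (Set.mem_Ici.mpr h) h
      exact h1.trans (hf_sq_le_aux m hm (kap_pos m).le le_rfl)

end Crest.Agent.R338.WKB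

end
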