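import Mathlib
import Crest.Agent.Lib.PT.ArithMore
import Crest.Agent.Lib.PT.ArithRat
import Crest.Agent.Lib.PT.ListFns2
import Crest.Agent.R338.Iface
import Crest.Agent.R338.Nu1
import Crest.Agent.R338.Br
import Crest.Agent.R338.WKB3
import Crest.Agent.R338.P2Defs
import Crest.Agent.R338.XF5

-- ▼ part R338/Cal1
section

/-!
# Row 338, node CAL (G.4): rounded Jacobi iteration for a diagonally dominant system

`rnd P x` rounds down to the grid `2^{-P} ℤ`, `clampQ B x` truncates to `[-B, B]`.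
`IsJac N M b P B x` says that `x 0 = 0` and `x (k+1)` is the rounded Jacobi step of `x k`
(indices `< N`).  `IsJac.spec`: if the rational data `M, b` are `η`-close to real data `M', b'` with
`M'` row diagonally dominant with ratio `1/4`, then `x K` is bounded and nearly solves `M' x = b'`.
-/

namespace Crest.Agent.R338.Cal

open Finset

/-- rounding down to the grid `2^{-P} ℤ` -/
def rnd (P : ℕ) (x : ℚ) : ℚ := (⌊x * 2 ^ P⌋ : ℚ) / 2 ^ P

theorem rnd_le (P : ℕ) (x : ℚ) : rnd P x ≤ x := by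
  unfold rnd
  rw [div_le_iff₀ (by positivity)]
  exact Int.floor_le _

theorem lt_rnd_add (P : ℕ) (x : ℚ) : x < rnd P x + 1 / 2 ^ P := by
  unfold rnd
  rw [← add_div, lt_div_iff₀ (by positivity)]
  exact Int.lt_floor_add_one _

theorem abs_rnd_sub (P : ℕ) (x : ℚ) : |rnd P x - x| ≤ 1 / 2 ^ P := by
  have h1 := rnd_le P x
  have h2 := lt_rnd_add P x
  rw [abs_le]
  constructor <;> linarith

/-- truncation to `[-B, B]` -/
def clampQ (B x : ℚ) : ℚ := max (-B) (min B x)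

theorem clampQ_eq {B x : ℚ} (h : |x| ≤ B) : clampQ B x = x := by
  obtain ⟨h1, h2⟩ := abs_le.1 h
  unfold clampQ
  rw [min_eq_right h2, max_eq_right h1]



/-- the off-diagonal part of row `p` applied to `x` -/
def offd (N : ℕ) (M : ℕ → ℕ → ℚ) (x : ℕ → ℚ) (p : ℕ) : ℚ :=
  ∑ q ∈ range N, if q = p then 0 else M p q * x q

/-- the unrounded Jacobi value -/
def jval (N : ℕ) (M : ℕ → ℕ → ℚ) (b : ℕ → ℚ) (x : ℕ → ℚ) (p : ℕ) : ℚ :=
  (b p - offd N M x p) / M p p

/-- the rounded and truncated Jacobi step -/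
def jstep (N : ℕ) (M : ℕ → ℕ → ℚ) (b : ℕ → ℚ) (P : ℕ) (B : ℚ) (x : ℕ → ℚ) (p : ℕ) : ℚ :=
  clampQ B (rnd P (jval N M b x p))

/-- `x` is the sequence of rounded Jacobi iterates starting at `0`, at the indices `< N` -/
structure IsJac (N : ℕ) (M : ℕ → ℕ → ℚ) (b : ℕ → ℚ) (P : ℕ) (B : ℚ) (x : ℕ → ℕ → ℚ) : Prop where
  zero : ∀ p < N, x 0 p = 0
  succ : ∀ k, ∀ p < N, x (k + 1) p = jstep N M b P B (x k) p

theorem offd_cast (N : ℕ) (M : ℕ → ℕ → ℚ) (x : ℕ → ℚ) (p : ℕ) :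
    ((offd N M x p : ℚ) : ℝ) = ∑ q ∈ range N, if q = p then 0 else (M p q : ℝ) * x q := by
  unfold offd
  push_cast
  refine sum_congr rfl fun q _ => ?_
  split_ifs <;> simp

theorem abs_offd_le {N : ℕ} {M : ℕ → ℕ → ℚ} {x : ℕ → ℚ} {p : ℕ} {S D : ℝ} (hD : 0 ≤ D)
    (hS : (∑ q ∈ range N, if q = p then 0 else |(M p q : ℝ)|) ≤ S)
    (hx : ∀ q < N, |(x q : ℝ)| ≤ D) : |((offd N M x p : ℚ) : ℝ)| ≤ S * D := by
  rw [offd_cast]
  refine (abs_sum_le_sum_abs _ _).trans ?_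
  have h1 : ∀ q ∈ range N, |(if q = p then 0 else (M p q : ℝ) * x q)| ≤
      (if q = p then 0 else |(M p q : ℝ)|) * D := by
    intro q hq
    split_ifs with h
    · simp
    · rw [abs_mul]
      exact mul_le_mul_of_nonneg_left (hx q (mem_range.1 hq)) (abs_nonneg _)
  refine (sum_le_sum h1).trans ?_
  rw [← sum_mul]
  exact mul_le_mul_of_nonneg_right hS hD

theorem offd_sub (N : ℕ) (M : ℕ → ℕ → ℚ) (x y : ℕ → ℚ) (p : ℕ) :
    offd N M x p - offd N M y p = offd N M (fun q => x q - y q) p := by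
  unfold offd
  rw [← sum_sub_distrib]
  refine sum_congr rfl fun q _ => ?_
  split_ifs
  · simp
  · ring

theorem sum_split {N p : ℕ} (hp : p < N) (f : ℕ → ℝ) :
    ∑ q ∈ range N, f q = f p + ∑ q ∈ range N, if q = p then 0 else f q := by
  have h1 : ∀ q ∈ range N, f q = (if q = p then f q else 0) + (if q = p then 0 else f q) := by
    intro q _
    split_ifs <;> simp
  rw [sum_congr rfl h1, sum_add_distrib, sum_ite_eq' (range N) p f, if_pos (mem_range.2 hp)]

/-- hypotheses of the solver: real data `M', b'`, rational approximations `M, b`. -/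
structure Data (N : ℕ) (M' : ℕ → ℕ → ℝ) (b' : ℕ → ℝ) (M : ℕ → ℕ → ℚ) (b : ℕ → ℚ)
    (m₀ Mx β η : ℝ) : Prop where
  m₀_pos : 0 < m₀
  η_nonneg : 0 ≤ η
  β_nonneg : 0 ≤ β
  diag_ge : ∀ p < N, m₀ ≤ M' p p
  diag_le : ∀ p < N, M' p p ≤ Mx
  off_le : ∀ p < N, (∑ q ∈ range N, if q = p then 0 else |M' p q|) ≤ M' p p / 4
  b_le : ∀ p < N, |b' p| ≤ β
  M_close : ∀ p < N, ∀ q < N, |(M p q : ℝ) - M' p q| ≤ η
  b_close : ∀ p < N, |(b p : ℝ) - b' p| ≤ η
  small : N * η ≤ m₀ / 16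

namespace Data

variable {N : ℕ} {M' : ℕ → ℕ → ℝ} {b' : ℕ → ℝ} {M : ℕ → ℕ → ℚ} {b : ℕ → ℚ} {m₀ Mx β η : ℝ}

theorem η_le (d : Data N M' b' M b m₀ Mx β η) {p : ℕ} (hp : p < N) : η ≤ m₀ / 16 := by
  have h1 : (1 : ℝ) ≤ N := by exact_mod_cast (by omega : 1 ≤ N)
  have := d.small
  nlinarith [d.η_nonneg]

theorem diag_ge' (d : Data N M' b' M b m₀ Mx β η) {p : ℕ} (hp : p < N) :
    15 / 16 * M' p p ≤ (M p p : ℝ) := by
  have h1 := (abs_le.1 (d.M_close p hp p hp)).1
  have h2 := d.η_le hp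
  have h3 := d.diag_ge p hp
  linarith

theorem diag_le' (d : Data N M' b' M b m₀ Mx β η) {p : ℕ} (hp : p < N) :
    (M p p : ℝ) ≤ 2 * Mx := by
  have h1 := (abs_le.1 (d.M_close p hp p hp)).2
  have h2 := d.η_le hp
  have h3 := d.diag_ge p hp
  have h4 := d.diag_le p hp
  have := d.m₀_pos
  linarith

theorem off_le' (d : Data N M' b' M b m₀ Mx β η) {p : ℕ} (hp : p < N) :
    (∑ q ∈ range N, if q = p then 0 else |(M p q : ℝ)|) ≤ M p p / 3 := by
  have h1 : (∑ q ∈ range N, if q = p then 0 else |(M p q : ℝ)|) ≤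
      ∑ q ∈ range N, ((if q = p then 0 else |M' p q|) + η) := by
    refine sum_le_sum fun q hq => ?_
    have hc := d.M_close p hp q (mem_range.1 hq)
    have hη := d.η_nonneg
    split_ifs
    · linarith
    · have := abs_sub_abs_le_abs_sub (M p q : ℝ) (M' p q)
      linarith
  rw [sum_add_distrib, sum_const, card_range, nsmul_eq_mul] at h1
  have h2 := d.off_le p hp
  have h3 := d.small
  have h4 := d.diag_ge' hp
  have h5 := d.diag_ge p hp
  linarith

end Data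

variable {N : ℕ} {M' : ℕ → ℕ → ℝ} {b' : ℕ → ℝ} {M : ℕ → ℕ → ℚ} {b : ℕ → ℚ} {m₀ Mx β η : ℝ}

theorem jval_bound (d : Data N M' b' M b m₀ Mx β η) {x : ℕ → ℚ} {X : ℝ} (hX0 : 0 ≤ X)
    (hx : ∀ q < N, |(x q : ℝ)| ≤ X) {p : ℕ} (hp : p < N) :
    |((jval N M b x p : ℚ) : ℝ)| ≤ 16 / 15 * ((β + η) / m₀) + X / 3 := by
  have hm := d.m₀_pos
  have h1 := d.diag_ge' hp
  have h2 := d.diag_ge p hp
  have hMp : 0 < (M p p : ℝ) := by linarith
  have h3 := abs_offd_le hX0 (d.off_le' hp) hx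
  have h4 : |(b p : ℝ)| ≤ β + η := by
    have := abs_sub_abs_le_abs_sub (b p : ℝ) (b' p)
    linarith [d.b_le p hp, d.b_close p hp]
  unfold jval
  push_cast
  rw [abs_div, abs_of_pos hMp, div_le_iff₀ hMp]
  refine (abs_sub _ _).trans ?_
  have h5 : β + η ≤ 16 / 15 * ((β + η) / m₀) * (M p p : ℝ) := by
    have h6 : 0 ≤ β + η := add_nonneg d.β_nonneg d.η_nonneg
    have h7 : 15 / 16 * m₀ ≤ (M p p : ℝ) := by linarith
    have h8 : 16 / 15 * ((β + η) / m₀) * (15 / 16 * m₀) = β + η := by field_simp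
    calc β + η = 16 / 15 * ((β + η) / m₀) * (15 / 16 * m₀) := h8.symm
      _ ≤ _ := by
        apply mul_le_mul_of_nonneg_left h7
        positivity
  nlinarith

theorem jval_sub (N : ℕ) (M : ℕ → ℕ → ℚ) (b x y : ℕ → ℚ) (p : ℕ) :
    jval N M b x p - jval N M b y p = - offd N M (fun q => x q - y q) p / M p p := by
  unfold jval
  rw [← sub_div, ← offd_sub]
  ring

theorem jval_lip (d : Data N M' b' M b m₀ Mx β η) {x y : ℕ → ℚ} {D : ℝ} (hD : 0 ≤ D)
    (hx : ∀ q < N, |((x q - y q : ℚ) : ℝ)| ≤ D) {p : ℕ} (hp : p < N) :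
    |((jval N M b x p - jval N M b y p : ℚ) : ℝ)| ≤ D / 3 := by
  have hm := d.m₀_pos
  have h1 := d.diag_ge' hp
  have h2 := d.diag_ge p hp
  have hMp : 0 < (M p p : ℝ) := by linarith
  rw [jval_sub]
  have h3 := abs_offd_le (M := M) (p := p) (x := fun q => x q - y q) hD (d.off_le' hp) hx
  push_cast
  rw [abs_div, abs_neg, abs_of_pos hMp, div_le_iff₀ hMp]
  linarith

theorem cast_abs_rnd_sub (P : ℕ) (x : ℚ) : |((rnd P x : ℚ) : ℝ) - (x : ℝ)| ≤ 1 / 2 ^ P := by
  have h := abs_rnd_sub P x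
  have h2 : ((|rnd P x - x| : ℚ) : ℝ) ≤ ((1 / 2 ^ P : ℚ) : ℝ) := by exact_mod_cast h
  push_cast at h2
  exact h2

/-- **the rounded Jacobi iteration**: the iterates stay bounded by `X` and the last one nearly
solves the TRUE system `M' x = b'`. -/
theorem IsJac.spec {P : ℕ} {B : ℚ} {x : ℕ → ℕ → ℚ} (hj : IsJac N M b P B x)
    (d : Data N M' b' M b m₀ Mx β η) {X : ℝ} (hX : 2 * ((β + η) / m₀) + 2 / 2 ^ P ≤ X)
    (hB : X ≤ (B : ℝ)) (K : ℕ) :
    (∀ p < N, |(x K p : ℝ)| ≤ X) ∧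
    (∀ p < N, |(∑ q ∈ range N, M' p q * (x K q : ℝ)) - b' p| ≤
      η + N * η * X + 2 * Mx * (X / 3 ^ K + 4 / 2 ^ P)) := by
  have hP : (0 : ℝ) < 1 / 2 ^ P := by positivity
  have hβη : 0 ≤ (β + η) / m₀ :=
    div_nonneg (add_nonneg d.β_nonneg d.η_nonneg) d.m₀_pos.le
  have h2P : (2 : ℝ) / 2 ^ P = 2 * (1 / 2 ^ P) := by ring
  have hX0 : 0 ≤ X := by
    rw [h2P] at hX
    linarith
  -- no truncation happens
  have key : ∀ k, (∀ p < N, |(x k p : ℝ)| ≤ X) ∧
      (∀ p < N, x (k + 1) p = rnd P (jval N M b (x k) p)) := by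
    intro k
    induction k with
    | zero =>
      have h0 : ∀ p < N, |(x 0 p : ℝ)| ≤ X := by
        intro p hp
        rw [hj.zero p hp]
        simpa using hX0
      refine ⟨h0, fun p hp => ?_⟩
      rw [hj.succ 0 p hp]
      unfold jstep
      apply clampQ_eq
      have h1 := jval_bound d hX0 h0 hp
      have h2 := cast_abs_rnd_sub P (jval N M b (x 0) p)
      have h3 : |((rnd P (jval N M b (x 0) p) : ℚ) : ℝ)| ≤ X := by
        have := abs_sub_abs_le_abs_sub ((rnd P (jval N M b (x 0) p) : ℚ) : ℝ)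
          ((jval N M b (x 0) p : ℚ) : ℝ)
        rw [h2P] at hX
        linarith
      have h4 : ((|rnd P (jval N M b (x 0) p)| : ℚ) : ℝ) ≤ (B : ℝ) := by
        push_cast
        exact h3.trans hB
      exact_mod_cast h4
    | succ k ih =>
      obtain ⟨ih1, ih2⟩ := ih
      have h0 : ∀ p < N, |(x (k + 1) p : ℝ)| ≤ X := by
        intro p hp
        rw [ih2 p hp]
        have h1 := jval_bound d hX0 ih1 hp
        have h2 := cast_abs_rnd_sub P (jval N M b (x k) p)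
        have := abs_sub_abs_le_abs_sub ((rnd P (jval N M b (x k) p) : ℚ) : ℝ)
          ((jval N M b (x k) p : ℚ) : ℝ)
        rw [h2P] at hX
        linarith
      refine ⟨h0, fun p hp => ?_⟩
      rw [hj.succ (k + 1) p hp]
      unfold jstep
      apply clampQ_eq
      have h1 := jval_bound d hX0 h0 hp
      have h2 := cast_abs_rnd_sub P (jval N M b (x (k + 1)) p)
      have h3 : |((rnd P (jval N M b (x (k + 1)) p) : ℚ) : ℝ)| ≤ X := by
        have := abs_sub_abs_le_abs_sub ((rnd P (jval N M b (x (k + 1)) p) : ℚ) : ℝ)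
          ((jval N M b (x (k + 1)) p : ℚ) : ℝ)
        rw [h2P] at hX
        linarith
      have h4 : ((|rnd P (jval N M b (x (k + 1)) p)| : ℚ) : ℝ) ≤ (B : ℝ) := by
        push_cast
        exact h3.trans hB
      exact_mod_cast h4
  -- increments
  have hinc : ∀ k, ∀ p < N, |((x (k + 1) p - x k p : ℚ) : ℝ)| ≤ X / 3 ^ k + 3 * (1 / 2 ^ P) := by
    intro k
    induction k with
    | zero =>
      intro p hp
      rw [hj.zero p hp, sub_zero, pow_zero, div_one]
      have := (key 1).1 p hp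
      simp only [zero_add]
      linarith
    | succ k ih =>
      intro p hp
      have hD : 0 ≤ X / 3 ^ k + 3 * (1 / 2 ^ P) := by positivity
      have h1 := jval_lip d hD ih hp
      rw [(key (k + 1)).2 p hp, (key k).2 p hp]
      have h2 := cast_abs_rnd_sub P (jval N M b (x (k + 1)) p)
      have h3 := cast_abs_rnd_sub P (jval N M b (x k) p)
      push_cast at h1 ⊢
      have h4 : X / 3 ^ (k + 1) = X / 3 ^ k / 3 := by rw [pow_succ]; field_simp
      rw [h4]
      rw [abs_le] at h1 h2 h3 ⊢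
      constructor <;> linarith [h1.1, h1.2, h2.1, h2.2, h3.1, h3.2]
  refine ⟨(key K).1, fun p hp => ?_⟩
  have hm := d.m₀_pos
  have hMp1 := d.diag_ge' hp
  have hMp2 := d.diag_ge p hp
  have hMp : 0 < (M p p : ℝ) := by linarith
  have hMp3 := d.diag_le' hp
  -- residual of the approximate system
  have hres : |(∑ q ∈ range N, (M p q : ℝ) * (x K q : ℝ)) - b p| ≤
      2 * Mx * (X / 3 ^ K + 4 / 2 ^ P) := by
    have e1 : (∑ q ∈ range N, (M p q : ℝ) * (x K q : ℝ)) - b p =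
        (M p p : ℝ) * ((x K p : ℝ) - ((jval N M b (x K) p : ℚ) : ℝ)) := by
      rw [sum_split hp]
      have e2 : ((jval N M b (x K) p : ℚ) : ℝ) =
          ((b p : ℝ) - ∑ q ∈ range N, if q = p then 0 else (M p q : ℝ) * (x K q : ℝ)) / M p p := by
        unfold jval
        push_cast
        rw [offd_cast]
      rw [e2]
      field_simp
      ring
    rw [e1, abs_mul, abs_of_pos hMp]
    have h1 := hinc K p hp
    have h2 := cast_abs_rnd_sub P (jval N M b (x K) p)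
    rw [(key K).2 p hp] at h1
    push_cast at h1
    have h3 : |(x K p : ℝ) - ((jval N M b (x K) p : ℚ) : ℝ)| ≤ X / 3 ^ K + 4 / 2 ^ P := by
      have h4 : (4 : ℝ) / 2 ^ P = 4 * (1 / 2 ^ P) := by ring
      rw [h4]
      rw [abs_le] at h1 h2 ⊢
      constructor <;> linarith [h1.1, h1.2, h2.1, h2.2]
    have h5 : 0 ≤ X / 3 ^ K + 4 / 2 ^ P := by positivity
    calc (M p p : ℝ) * |(x K p : ℝ) - ((jval N M b (x K) p : ℚ) : ℝ)|
        ≤ (M p p : ℝ) * (X / 3 ^ K + 4 / 2 ^ P) := mul_le_mul_of_nonneg_left h3 hMp.le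
      _ ≤ _ := mul_le_mul_of_nonneg_right hMp3 h5
  have hdiff : |(∑ q ∈ range N, M' p q * (x K q : ℝ)) - ∑ q ∈ range N, (M p q : ℝ) * (x K q : ℝ)| ≤
      N * η * X := by
    rw [← sum_sub_distrib]
    refine (abs_sum_le_sum_abs _ _).trans ?_
    have h1 : ∀ q ∈ range N, |M' p q * (x K q : ℝ) - (M p q : ℝ) * (x K q : ℝ)| ≤ η * X := by
      intro q hq
      rw [← sub_mul, abs_mul, abs_sub_comm]
      exact mul_le_mul (d.M_close p hp q (mem_range.1 hq)) ((key K).1 q (mem_range.1 hq))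
        (abs_nonneg _) d.η_nonneg
    refine (sum_le_sum h1).trans ?_
    rw [sum_const, card_range, nsmul_eq_mul, mul_assoc]
  have hb := d.b_close p hp
  rw [abs_le] at hres hdiff hb ⊢
  constructor <;> linarith [hres.1, hres.2, hdiff.1, hdiff.2, hb.1, hb.2]

end Crest.Agent.R338.Cal
end

-- ▼ part R338/Cal2
section

/-!
# Row 338, node CAL (G.4): the rounded Jacobi iteration is polynomial time

`jacL N M b P B K` is the list of the first `N` coordinates of the `K`-th rounded Jacobi iterate.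
-/

namespace Crest.Agent.R338.Cal

open Finset Crest.Agent.Lib.PT

/-- one step on lists -/
def jstepL (N : ℕ) (M : ℕ → ℕ → ℚ) (b : ℕ → ℚ) (P : ℕ) (B : ℚ) (x : List ℚ) : List ℚ :=
  (List.range N).map (fun p => jstep N M b P B (fun q => x.getD q 0) p)

/-- the `K`-th iterate as a list of length `N` -/
def jacL (N : ℕ) (M : ℕ → ℕ → ℚ) (b : ℕ → ℚ) (P : ℕ) (B : ℚ) (K : ℕ) : List ℚ :=
  (jstepL N M b P B)^[K] []

/-- coordinates of the `K`-th iterate -/
def jac (N : ℕ) (M : ℕ → ℕ → ℚ) (b : ℕ → ℚ) (P : ℕ) (B : ℚ) (K : ℕ) (p : ℕ) : ℚ :=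
  (jacL N M b P B K).getD p 0

theorem jstepL_getD (N : ℕ) (M : ℕ → ℕ → ℚ) (b : ℕ → ℚ) (P : ℕ) (B : ℚ) (x : List ℚ) {p : ℕ}
    (hp : p < N) : (jstepL N M b P B x).getD p 0 = jstep N M b P B (fun q => x.getD q 0) p := by
  unfold jstepL
  rw [List.getD_eq_getElem?_getD, List.getElem?_map, List.getElem?_range hp]
  rfl

theorem isJac_jac (N : ℕ) (M : ℕ → ℕ → ℚ) (b : ℕ → ℚ) (P : ℕ) (B : ℚ) :
    IsJac N M b P B (fun k => jac N M b P B k) where
  zero p _ := by simp [jac, jacL]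
  succ k p hp := by
    unfold jac jacL
    rw [Function.iterate_succ_apply']
    exact jstepL_getD N M b P B _ hp

section PTpart

variable {α : Type} [PTCode α]

theorem PTF.rnd {P : α → ℕ} {f : α → ℚ} (hP : PTU P) (hf : PTF f) :
    PTF (fun a => Cal.rnd (P a) (f a)) := by
  have h2 : PTF (fun a => ((2 ^ P a : ℕ) : ℚ)) := (PTF.natTwoPow hP).ratNatCast
  have h : PTF (fun a => ((⌊f a * ((2 ^ P a : ℕ) : ℚ)⌋ : ℤ) : ℚ) / ((2 ^ P a : ℕ) : ℚ)) :=
    PTF.ratDiv (PTF.ratIntCast (PTF.ratFloor (PTF.ratMul hf h2))) h2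
  refine h.of_eq fun a => ?_
  unfold Cal.rnd
  push_cast
  rfl

theorem PTF.clampQ {B f : α → ℚ} (hB : PTF B) (hf : PTF f) :
    PTF (fun a => Cal.clampQ (B a) (f a)) := by
  unfold Cal.clampQ
  exact PTF.ratMax (PTF.ratNeg hB) (PTF.ratMin hB hf)

/-- a truncated grid rational is a grid rational -/
theorem clampQ_grid (P B : ℕ) (z : ℤ) :
    ∃ z' : ℤ, z'.natAbs ≤ B * 2 ^ P ∧ Cal.clampQ (B : ℚ) ((z : ℚ) / 2 ^ P) = mkRat z' (2 ^ P) := by
  have hpos : (0 : ℚ) < 2 ^ P := by positivity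
  have hmk : ∀ w : ℤ, mkRat w (2 ^ P) = (w : ℚ) / 2 ^ P := by
    intro w
    rw [Rat.mkRat_eq_div]
    push_cast
    rfl
  rcases le_or_gt |((z : ℚ) / 2 ^ P)| (B : ℚ) with h | h
  · refine ⟨z, ?_, ?_⟩
    · rw [abs_div, abs_of_pos hpos, div_le_iff₀ hpos] at h
      have h2 : ((z.natAbs : ℕ) : ℚ) ≤ ((B * 2 ^ P : ℕ) : ℚ) := by
        push_cast
        rw [Nat.cast_natAbs]
        push_cast
        exact h
      exact_mod_cast h2
    · rw [Cal.clampQ_eq h, hmk]
  · rcases lt_abs.1 h with h1 | h1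
    · refine ⟨(B : ℤ) * 2 ^ P, ?_, ?_⟩
      · rw [Int.natAbs_mul, Int.natAbs_natCast, Int.natAbs_pow]
        rfl
      · rw [hmk]
        push_cast
        rw [mul_div_assoc, div_self hpos.ne', mul_one]
        unfold Cal.clampQ
        rw [min_eq_left h1.le, max_eq_right]
        have : (0 : ℚ) ≤ B := by positivity
        linarith
    · refine ⟨-((B : ℤ) * 2 ^ P), ?_, ?_⟩
      · rw [Int.natAbs_neg, Int.natAbs_mul, Int.natAbs_natCast, Int.natAbs_pow]
        rfl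
      · rw [hmk]
        push_cast
        rw [neg_div, mul_div_assoc, div_self hpos.ne', mul_one]
        unfold Cal.clampQ
        have : (0 : ℚ) ≤ B := by positivity
        rw [min_eq_right (by linarith), max_eq_left (by linarith)]

theorem sz_clamp_rnd (P B : ℕ) (x : ℚ) :
    sz (Cal.clampQ (B : ℚ) (Cal.rnd P x)) ≤ 2 * (3 + (B.size + P + 1)) + 1 + (P + 1) := by
  unfold Cal.rnd
  obtain ⟨z', h1, h2⟩ := clampQ_grid P B ⌊x * 2 ^ P⌋
  rw [h2, sz_rat]
  have h3 : (mkRat z' (2 ^ P)).den.size ≤ P + 1 := by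
    rw [Nat.size_le]
    have : (mkRat z' (2 ^ P)).den ≤ 2 ^ P := by
      rw [Rat.den_mkRat]
      split_ifs
      · exact Nat.one_le_two_pow
      · exact Nat.div_le_self _ _
    exact this.trans_lt (Nat.pow_lt_pow_right (by norm_num) (by omega))
  have h4 : (mkRat z' (2 ^ P)).num.natAbs.size ≤ B.size + P + 1 := by
    rw [Nat.size_le]
    calc _ ≤ z'.natAbs := Arith.natAbs_num_mkRat_le _ _
      _ ≤ B * 2 ^ P := h1
      _ ≤ 2 ^ B.size * 2 ^ P := Nat.mul_le_mul_right _ (Nat.lt_size_self B).le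
      _ = 2 ^ (B.size + P) := by rw [pow_add]
      _ < 2 ^ (B.size + P + 1) := Nat.pow_lt_pow_right (by norm_num) (by omega)
  omega

/-- the context of the step -/
theorem ptf_entry {M : α → ℕ → ℕ → ℚ} (hM : PTF (fun t : α × ℕ × ℕ => M t.1 t.2.1 t.2.2))
    {γ : Type} [PTCode γ] {f : γ → α} {g h : γ → ℕ} (hf : PTF f) (hg : PTF g) (hh : PTF h) :
    PTF (fun c => M (f c) (g c) (h c)) :=
  PTF.comp (g := fun t : α × ℕ × ℕ => M t.1 t.2.1 t.2.2) (f := fun c => (f c, g c, h c)) hM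
    (PTF.prodMk hf (PTF.prodMk hg hh))

theorem ptf_vec {b : α → ℕ → ℚ} (hb : PTF₂ b)
    {γ : Type} [PTCode γ] {f : γ → α} {g : γ → ℕ} (hf : PTF f) (hg : PTF g) :
    PTF (fun c => b (f c) (g c)) :=
  PTF.comp (g := fun t : α × ℕ => b t.1 t.2) (f := fun c => (f c, g c)) hb (PTF.prodMk hf hg)

theorem ptf_offd {γ : Type} [PTCode γ] {N : γ → ℕ} {M : γ → ℕ → ℕ → ℚ} {x : γ → ℕ → ℚ}
    {p : γ → ℕ} (hN : PTU N) (hM : PTF (fun t : γ × ℕ × ℕ => M t.1 t.2.1 t.2.2))
    (hx : PTF₂ x) (hp : PTF p) : PTF (fun c => offd (N c) (M c) (x c) (p c)) := by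
  unfold offd
  refine PTF.ratSumRange (n := N) (f := fun c q => if q = p c then 0 else M c (p c) q * x c q)
    hN ?_
  refine PTF.ite (PTPred.natEq PTF.snd (PTF.comp hp PTF.fst)) (PTF.const 0) ?_
  exact PTF.ratMul (ptf_entry hM PTF.fst (PTF.comp hp PTF.fst) PTF.snd)
    (ptf_vec hx PTF.fst PTF.snd)

theorem ptf_jval {γ : Type} [PTCode γ] {N : γ → ℕ} {M : γ → ℕ → ℕ → ℚ} {b x : γ → ℕ → ℚ}
    {p : γ → ℕ} (hN : PTU N) (hM : PTF (fun t : γ × ℕ × ℕ => M t.1 t.2.1 t.2.2))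
    (hb : PTF₂ b) (hx : PTF₂ x) (hp : PTF p) :
    PTF (fun c => jval (N c) (M c) (b c) (x c) (p c)) := by
  unfold jval
  exact PTF.ratDiv (PTF.ratSub (ptf_vec hb PTF.id hp) (ptf_offd hN hM hx hp))
    (ptf_entry hM PTF.id hp hp)

theorem ptf_jstep {γ : Type} [PTCode γ] {N P : γ → ℕ} {M : γ → ℕ → ℕ → ℚ} {b x : γ → ℕ → ℚ}
    {B : γ → ℚ} {p : γ → ℕ} (hN : PTU N)
    (hM : PTF (fun t : γ × ℕ × ℕ => M t.1 t.2.1 t.2.2))
    (hb : PTF₂ b) (hP : PTU P) (hB : PTF B) (hx : PTF₂ x) (hp : PTF p) :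
    PTF (fun c => jstep (N c) (M c) (b c) (P c) (B c) (x c) (p c)) := by
  unfold jstep
  exact PTF.clampQ hB (PTF.rnd hP (ptf_jval hN hM hb hx hp))

theorem ptf_jstepL {N P : α → ℕ} {M : α → ℕ → ℕ → ℚ} {b : α → ℕ → ℚ} {B : α → ℚ}
    (hN : PTU N) (hM : PTF (fun t : α × ℕ × ℕ => M t.1 t.2.1 t.2.2))
    (hb : PTF₂ b) (hP : PTU P) (hB : PTF B) :
    PTF (fun t : α × List ℚ => jstepL (N t.1) (M t.1) (b t.1) (P t.1) (B t.1) t.2) := by
  have hN1 : PTU (fun t : (α × List ℚ) × ℕ => N t.1.1) :=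
    PTU.comp hN (PTF.comp PTF.fst PTF.fst)
  have hx : PTF₂ (fun (t : (α × List ℚ) × ℕ) (q : ℕ) => t.1.2.getD (min q (N t.1.1)) 0) := by
    refine PTF.getD (PTF.natMinUn PTF.snd
      (PTU.comp (n := fun t : (α × List ℚ) × ℕ => N t.1.1) hN1 PTF.fst)) ?_ (PTF.const 0)
    exact PTF.comp (g := fun t : (α × List ℚ) × ℕ => t.1.2) (PTF.comp PTF.snd PTF.fst) PTF.fst
  have h1 : PTF (fun t : (α × List ℚ) × ℕ => t.1.1) := PTF.comp PTF.fst PTF.fst
  have h11 : PTF (fun t : ((α × List ℚ) × ℕ) × ℕ × ℕ => t.1.1.1) :=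
    PTF.comp (g := fun t : (α × List ℚ) × ℕ => t.1.1) h1 PTF.fst
  have h12 : PTF (fun t : ((α × List ℚ) × ℕ) × ℕ => t.1.1.1) :=
    PTF.comp (g := fun t : (α × List ℚ) × ℕ => t.1.1) h1 PTF.fst
  have hM1 : PTF (fun t : ((α × List ℚ) × ℕ) × ℕ × ℕ => M t.1.1.1 t.2.1 t.2.2) :=
    ptf_entry hM h11 (PTF.comp PTF.fst PTF.snd) (PTF.comp PTF.snd PTF.snd)
  have hb1 : PTF₂ (fun (t : (α × List ℚ) × ℕ) (q : ℕ) => b t.1.1 q) :=
    ptf_vec hb h12 PTF.snd
  have hstep : PTF (fun t : (α × List ℚ) × ℕ =>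
      jstep (N t.1.1) (M t.1.1) (b t.1.1) (P t.1.1) (B t.1.1)
        (fun q => t.1.2.getD (min q (N t.1.1)) 0) t.2) :=
    ptf_jstep (γ := (α × List ℚ) × ℕ) (N := fun t => N t.1.1) (M := fun t => M t.1.1)
      (b := fun t => b t.1.1) (P := fun t => P t.1.1) (B := fun t => B t.1.1)
      (x := fun t q => t.1.2.getD (min q (N t.1.1)) 0) (p := fun t => t.2)
      hN1 hM1 hb1 (PTU.comp hP h1) (PTF.comp hB h1) hx PTF.snd
  have h := PTF.tabulate (n := fun t : α × List ℚ => N t.1)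
      (f := fun (t : α × List ℚ) p => jstep (N t.1) (M t.1) (b t.1) (P t.1) (B t.1)
        (fun q => t.2.getD (min q (N t.1)) 0) p) (PTU.comp hN PTF.fst) hstep
  refine h.of_eq fun t => ?_
  unfold jstepL
  refine List.map_congr_left fun p _ => ?_
  have e : offd (N t.1) (M t.1) (fun q => t.2.getD (min q (N t.1)) 0) p =
      offd (N t.1) (M t.1) (fun q => t.2.getD q 0) p := by
    unfold offd
    refine sum_congr rfl fun q hq => ?_
    simp only [min_eq_left (mem_range.1 hq).le]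
  unfold jstep jval
  rw [e]

/-- the `K`-th iterate is a polynomial time function of the parameters -/
theorem ptf_jacL {N P K B : α → ℕ} {M : α → ℕ → ℕ → ℚ} {b : α → ℕ → ℚ}
    (hN : PTU N) (hM : PTF (fun t : α × ℕ × ℕ => M t.1 t.2.1 t.2.2))
    (hb : PTF₂ b) (hP : PTU P) (hB : PTF B) (hK : PTU K) :
    PTF (fun a => jacL (N a) (M a) (b a) (P a) (B a) (K a)) := by
  unfold jacL
  have hstepL := ptf_jstepL hN hM hb hP (PTF.ratNatCast hB)
  have hszN : PB (fun a => N a * (2 * (2 * (3 + (sz (B a) + P a + 1)) + 1 + (P a + 1)) + 1)) := by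
    have h1 := hN.pb
    have h2 := hP.pb
    have h3 := PTF.sz hB
    fun_prop
  refine PTF.iterate' hK hstepL (PTF.const []) hszN ?_
  intro a i _
  cases i with
  | zero => simp
  | succ i =>
    rw [Function.iterate_succ_apply']
    generalize (jstepL (N a) (M a) (b a) (P a) (B a))^[i] [] = x
    refine (sz_list_le (m := 2 * (3 + (sz (B a) + P a + 1)) + 1 + (P a + 1)) ?_).trans ?_
    · intro q hq
      unfold jstepL at hq
      obtain ⟨p, _, rfl⟩ := List.mem_map.1 hq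
      unfold jstep
      have := sz_clamp_rnd (P a) (B a) (jval (N a) (M a) (b a) (fun q => x.getD q 0) p)
      rw [sz_nat]
      exact this
    · simp [jstepL]

/-- coordinate `p` of the solution; `p` may be given in binary (it is `0` for `p ≥ N`) -/
theorem ptf_jac {N P K B : α → ℕ} {M : α → ℕ → ℕ → ℚ} {b : α → ℕ → ℚ}
    (hN : PTU N) (hM : PTF (fun t : α × ℕ × ℕ => M t.1 t.2.1 t.2.2))
    (hb : PTF₂ b) (hP : PTU P) (hB : PTF B) (hK : PTU K) :
    PTF₂ (fun a p => jac (N a) (M a) (b a) (P a) (B a) (K a) p) := by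
  have h1 := ptf_jacL hN hM hb hP hB hK
  have h2 : PTF (fun t : α × ℕ => (jacL (N t.1) (M t.1) (b t.1) (P t.1) (B t.1) (K t.1)).getD
      (min t.2 (N t.1)) 0) :=
    PTF.getD (PTF.natMinUn PTF.snd (PTU.comp hN PTF.fst)) (PTF.comp h1 PTF.fst) (PTF.const 0)
  refine h2.of_eq fun t => ?_
  unfold jac
  rcases le_total t.2 (N t.1) with h | h
  · rw [min_eq_left h]
  · rw [min_eq_right h]
    have hlen : (jacL (N t.1) (M t.1) (b t.1) (P t.1) (B t.1) (K t.1)).length ≤ N t.1 := by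
      unfold jacL
      cases K t.1 with
      | zero => simp
      | succ k =>
        rw [Function.iterate_succ_apply']
        simp [jstepL]
    rw [List.getD_eq_default _ _ hlen]
    exact (List.getD_eq_default _ _ (hlen.trans h)).symm

end PTpart

end Crest.Agent.R338.Cal
end

-- ▼ part R338/CalDefs
section

/-!
# Row 338, node CAL: the exact real calibration (definitions; G.4, D.11)

`linsol N M b` is the exact real solution of `∑_{q<N} M p q x q = b p` (`p < N`), `0` outside.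
Index of the pair `(i, j)`, `i < j < n`: `p = i * n + j < n * n`.
`Acal`, `acal` are the exact solution of the calibration equations `Calib … 0`.
-/

set_option autoImplicit false

noncomputable section

namespace Crest.Agent.R338.Cal

open Finset Matrix

/-- exact solution of a linear system with indices `< N` -/
def linsol (N : ℕ) (M : ℕ → ℕ → ℝ) (b : ℕ → ℝ) (p : ℕ) : ℝ :=
  if h : p < N then
    ((Matrix.of fun i j : Fin N => M i j)⁻¹ *ᵥ (fun i : Fin N => b i)) ⟨p, h⟩ else 0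

/-- the hopping matrix on pair indices (rows: matrix element, columns: unknowns) -/
def Mcal (n k p q : ℕ) : ℝ :=
  if p / n < p % n ∧ q / n < q % n then Mhop n k (q / n) (q % n) (p / n) (p % n)
  else if p = q then 1 else 0

/-- the right hand side `t_ij - F_ij` -/
def bcal (n k : ℕ) (j0 : ℝ) (J : ℕ → ℕ → ℝ) (p : ℕ) : ℝ :=
  if p / n < p % n then
    (1 / 2) * √(j0 * J (p / n) (p % n) * Dlt n k (p / n) (p % n)) -
      fock (n0' n k) (site n k (p / n)) (site n k (p % n))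
  else 0

/-- exact hopping amplitudes of the designer potential -/
def Acal (n k : ℕ) (j0 : ℝ) (J : ℕ → ℕ → ℝ) (i j : ℕ) : ℝ :=
  if i < j ∧ j < n then linsol (n * n) (Mcal n k) (bcal n k j0 J) (i * n + j) else 0

/-- exact on-site offsets of the designer potential -/
def acal (n k : ℕ) (j0 : ℝ) (J : ℕ → ℕ → ℝ) (i : ℕ) : ℝ :=
  if i < n then
    muS n k i - fock (n0' n k) (site n k i) (site n k i) -
      (∑ i' ∈ range n, ∑ j' ∈ range n,
        if i' < j' then Acal n k j0 J i' j' * Mhop n k i' j' i i else 0)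
  else 0

/-- **CalStmt**: the exact calibration.  `j0`, `J` arbitrary in `[0,1]`. -/
def CalStmt : Prop := ∃ C : ℕ, 1 ≤ C ∧ ∀ n k : ℕ, 2 ≤ n → (C * n) ^ C ≤ k →
  ∀ (j0 : ℝ) (J : ℕ → ℕ → ℝ), 0 ≤ j0 → j0 ≤ 1 → (∀ i j, 0 ≤ J i j ∧ J i j ≤ 1) →
    Calib n k j0 J (Acal n k j0 J) (acal n k j0 J) 0 ∧
    (∀ i j, |Acal n k j0 J i j| ≤ (n0' n k : ℝ) ^ C) ∧
    (∀ i, |acal n k j0 J i| ≤ (n0' n k : ℝ) ^ C)

/-- **HopStmt** (node HK, 866; D.11): dominance of the hopping matrix -/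
def HopStmt : Prop := ∃ C : ℕ, 1 ≤ C ∧ ∀ n k : ℕ, (C * (n + 1)) ^ C ≤ k →
  (∀ i j, i < j → j < n → 1 / (k : ℝ) ^ C ≤ Mhop n k i j i j) ∧
  (∀ i j i' j', i < j → j < n → i' < j' → j' < n → (i', j') ≠ (i, j) →
    4 * (n : ℝ) ^ 2 * |Mhop n k i' j' i j| ≤ Mhop n k i j i j)

end Crest.Agent.R338.Cal

end
end

-- ▼ part R338/Cal3
section

/-!
# Row 338, node CAL: the exact solution of a row diagonally dominant system
-/

set_option autoImplicit false

noncomputable section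

namespace Crest.Agent.R338.Cal

open Finset Matrix

/-- row diagonal dominance with ratio `1/4` and diagonal at least `m₀ > 0` -/
structure Dom (N : ℕ) (M : ℕ → ℕ → ℝ) (m₀ : ℝ) : Prop where
  pos : 0 < m₀
  diag : ∀ p < N, m₀ ≤ M p p
  off : ∀ p < N, (∑ q ∈ range N, if q = p then 0 else |M p q|) ≤ M p p / 4

variable {N : ℕ} {M : ℕ → ℕ → ℝ} {m₀ : ℝ}

theorem Dom.stab (d : Dom N M m₀) {z : ℕ → ℝ} {e : ℝ}
    (h : ∀ p < N, |∑ q ∈ range N, M p q * z q| ≤ e) : ∀ p < N, |z p| ≤ 4 / 3 * (e / m₀) := by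
  rcases Nat.eq_zero_or_pos N with hN | hN
  · intro p hp
    omega
  obtain ⟨r, hr, hmax⟩ := exists_max_image (range N) (fun p => |z p|) ⟨0, mem_range.2 hN⟩
  have hr' := mem_range.1 hr
  have h1 := h r hr'
  have h2 : |∑ q ∈ range N, if q = r then 0 else M r q * z q| ≤ M r r / 4 * |z r| := by
    refine (abs_sum_le_sum_abs _ _).trans ?_
    have h3 : ∀ q ∈ range N, |(if q = r then 0 else M r q * z q)| ≤
        (if q = r then 0 else |M r q|) * |z r| := by
      intro q hq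
      split_ifs with hqr
      · simp
      · rw [abs_mul]
        exact mul_le_mul_of_nonneg_left (hmax q hq) (abs_nonneg _)
    refine (sum_le_sum h3).trans ?_
    rw [← sum_mul]
    exact mul_le_mul_of_nonneg_right (d.off r hr') (abs_nonneg _)
  rw [sum_split hr'] at h1
  have h4 := d.diag r hr'
  have hm := d.pos
  have h5 : M r r * |z r| ≤ e + M r r / 4 * |z r| := by
    have h6 : |M r r * z r| ≤ |M r r * z r + ∑ q ∈ range N, if q = r then 0 else M r q * z q| +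
        |∑ q ∈ range N, if q = r then 0 else M r q * z q| := by
      have := abs_sub (M r r * z r + ∑ q ∈ range N, if q = r then 0 else M r q * z q)
        (∑ q ∈ range N, if q = r then 0 else M r q * z q)
      rwa [add_sub_cancel_right] at this
    rw [abs_mul, abs_of_pos (by linarith : 0 < M r r)] at h6
    linarith
  have h7 : |z r| ≤ 4 / 3 * (e / m₀) := by
    have h8 : m₀ * |z r| ≤ M r r * |z r| := mul_le_mul_of_nonneg_right h4 (abs_nonneg _)
    have h9 : m₀ * |z r| ≤ 4 / 3 * e := by linarith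
    rw [← mul_div_assoc, le_div_iff₀ hm]
    linarith
  intro p hp
  exact (hmax p (mem_range.2 hp)).trans h7

theorem Dom.det_ne_zero (d : Dom N M m₀) : (Matrix.of fun i j : Fin N => M i j).det ≠ 0 := by
  apply det_ne_zero_of_sum_row_lt_diag
  intro k
  have h1 := d.off k k.2
  have h2 := d.diag k k.2
  have hm := d.pos
  have e : ∑ j ∈ univ.erase k, ‖(Matrix.of fun i j : Fin N => M i j) k j‖ =
      ∑ q ∈ range N, if q = k then 0 else |M k q| := by
    rw [sum_range, ← sum_erase_add _ _ (mem_univ k)]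
    simp only [if_true, add_zero]
    refine sum_congr rfl fun j hj => ?_
    have : (j : ℕ) ≠ k := fun h => (mem_erase.1 hj).1 (Fin.ext h)
    rw [if_neg this]
    rfl
  rw [e]
  have h3 : ‖(Matrix.of fun i j : Fin N => M i j) k k‖ = M k k := by
    rw [of_apply, Real.norm_eq_abs, abs_of_pos (by linarith)]
  rw [h3]
  linarith

theorem Dom.linsol_spec (d : Dom N M m₀) (b : ℕ → ℝ) {p : ℕ} (hp : p < N) :
    ∑ q ∈ range N, M p q * linsol N M b q = b p := by
  set A : Matrix (Fin N) (Fin N) ℝ := Matrix.of fun i j : Fin N => M i j with hA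
  have hdet : IsUnit A.det := isUnit_iff_ne_zero.2 d.det_ne_zero
  have h1 : A *ᵥ (A⁻¹ *ᵥ (fun i : Fin N => b i)) = fun i : Fin N => b i := by
    rw [mulVec_mulVec, mul_nonsing_inv _ hdet, one_mulVec]
  have h2 := congrFun h1 ⟨p, hp⟩
  rw [sum_range, ← h2]
  unfold mulVec dotProduct
  refine sum_congr rfl fun q _ => ?_
  have e1 : linsol N M b q = (A⁻¹ *ᵥ (fun i : Fin N => b i)) q := by
    unfold linsol
    rw [dif_pos q.2]
  rw [e1]
  rfl

theorem linsol_of_le (M : ℕ → ℕ → ℝ) (b : ℕ → ℝ) {p : ℕ} (hp : N ≤ p) : linsol N M b p = 0 := by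
  unfold linsol
  rw [dif_neg (by omega)]

theorem Dom.abs_linsol_le (d : Dom N M m₀) {b : ℕ → ℝ} {β : ℝ} (hβ : 0 ≤ β)
    (hb : ∀ p < N, |b p| ≤ β) (p : ℕ) : |linsol N M b p| ≤ 4 / 3 * (β / m₀) := by
  rcases lt_or_ge p N with hp | hp
  · refine d.stab (z := linsol N M b) (e := β) (fun q hq => ?_) p hp
    rw [d.linsol_spec b hq]
    exact hb q hq
  · rw [linsol_of_le M b hp, abs_zero]
    have := d.pos
    positivity

/-- uniqueness / error estimate: an approximate solution is close to `linsol` -/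
theorem Dom.abs_sub_linsol_le (d : Dom N M m₀) {b : ℕ → ℝ} {x : ℕ → ℝ} {e : ℝ}
    (h : ∀ p < N, |(∑ q ∈ range N, M p q * x q) - b p| ≤ e) {p : ℕ} (hp : p < N) :
    |x p - linsol N M b p| ≤ 4 / 3 * (e / m₀) := by
  refine d.stab (z := fun q => x q - linsol N M b q) (e := e) (fun q hq => ?_) p hp
  have h1 : ∑ r ∈ range N, M q r * (x r - linsol N M b r) = (∑ r ∈ range N, M q r * x r) - b q := by
    rw [← d.linsol_spec b hq, ← sum_sub_distrib]
    refine sum_congr rfl fun r _ => ?_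
    ring
  rw [h1]
  exact h q hq

end Crest.Agent.R338.Cal

end
end

-- ▼ part R338/Cal4
section

/-!
# Row 338, node CAL: the exact solution of a diagonally dominant system is polynomial time

`PTR.linsol`: if `M`, `b` are `PTR` (unary indices) and `M a` is row diagonally dominant with
diagonal at least `2^-(B a)`, then the exact solution is `PTR`.
-/

set_option autoImplicit false

namespace Crest.Agent.R338.Cal

open Finset Crest.Agent.Lib.PT Crest.Agent.R338.Nu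

variable {α : Type} [PTCode α]

theorem half_pow_le_half_pow {m n : ℕ} (h : m ≤ n) : (1 / 2 : ℝ) ^ n ≤ (1 / 2) ^ m :=
  pow_le_pow_of_le_one (by norm_num) (by norm_num) h

theorem two_pow_mul_half {m n : ℕ} (h : m ≤ n) : (2 : ℝ) ^ m * (1 / 2) ^ n = (1 / 2) ^ (n - m) := by
  obtain ⟨d, rfl⟩ := Nat.exists_eq_add_of_le h
  rw [pow_add, ← mul_assoc, ← mul_pow]
  norm_num

theorem jac_of_le {N P K p : ℕ} (M : ℕ → ℕ → ℚ) (b : ℕ → ℚ) (B : ℚ) (h : N ≤ p) :
    jac N M b P B K p = 0 := by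
  unfold jac
  have hlen : (jacL N M b P B K).length ≤ N := by
    unfold jacL
    cases K with
    | zero => simp
    | succ k =>
      rw [Function.iterate_succ_apply']
      simp [jstepL]
  rw [List.getD_eq_default _ _ (hlen.trans h)]

/-- the numeric heart: precision bookkeeping -/
theorem jac_close {N B E F k e P K : ℕ} {M' : ℕ → ℕ → ℝ} {b' : ℕ → ℝ} {M : ℕ → ℕ → ℚ}
    {b : ℕ → ℚ} (d : Dom N M' ((1 / 2) ^ B)) (hMx : ∀ p < N, M' p p ≤ 2 ^ E)
    (hβ : ∀ p < N, |b' p| ≤ 2 ^ F)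
    (hM : ∀ p < N, ∀ q < N, |(M p q : ℝ) - M' p q| ≤ (1 / 2) ^ e)
    (hb : ∀ p < N, |(b p : ℝ) - b' p| ≤ (1 / 2) ^ e)
    (he : k + B + N + (F + B + 3) + 4 ≤ e) (hP : k + B + E + 7 ≤ P)
    (hK : k + B + E + (F + B + 3) + 5 ≤ K) {p : ℕ} (hp : p < N) :
    |((jac N M b P ((2 ^ (F + B + 3) : ℕ) : ℚ) K p : ℚ) : ℝ) - linsol N M' b' p| ≤
      (1 / 2) ^ k := by
  set G := F + B + 3 with hG
  have hη0 : (0 : ℝ) ≤ (1 / 2) ^ e := by positivity
  have hNe : (N : ℝ) * (1 / 2) ^ e ≤ (1 / 2) ^ (e - N) := by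
    have h1 : (N : ℝ) ≤ 2 ^ N := by exact_mod_cast Nat.lt_two_pow_self.le
    calc (N : ℝ) * (1 / 2) ^ e ≤ 2 ^ N * (1 / 2) ^ e := by gcongr
      _ = _ := two_pow_mul_half (by omega)
  have dd : Data N M' b' M b ((1 / 2) ^ B) (2 ^ E) (2 ^ F) ((1 / 2) ^ e) :=
    { m₀_pos := by positivity
      η_nonneg := hη0
      β_nonneg := by positivity
      diag_ge := d.diag
      diag_le := hMx
      off_le := d.off
      b_le := hβ
      M_close := hM
      b_close := hb
      small := by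
        refine hNe.trans ((half_pow_le_half_pow (show B + 4 ≤ e - N by omega)).trans (le_of_eq ?_))
        rw [pow_add]
        norm_num
        ring }
  have hPe : (2 : ℝ) / 2 ^ P = 2 * (1 / 2) ^ P := by
    rw [one_div, inv_pow, div_eq_mul_inv]
  have hX : 2 * (((2 : ℝ) ^ F + (1 / 2) ^ e) / (1 / 2) ^ B) + 2 / 2 ^ P ≤ (2 : ℝ) ^ G := by
    have h1 : (1 / 2 : ℝ) ^ e ≤ 1 := pow_le_one₀ (by norm_num) (by norm_num)
    have h2 : (1 : ℝ) ≤ 2 ^ F := one_le_pow₀ (by norm_num)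
    have h3 : ((2 : ℝ) ^ F + (1 / 2) ^ e) / (1 / 2) ^ B ≤ 2 ^ (F + 1) * 2 ^ B := by
      rw [div_le_iff₀ (by positivity)]
      have h4 : (2 : ℝ) ^ B * (1 / 2) ^ B = 1 := by rw [← mul_pow]; norm_num
      calc (2 : ℝ) ^ F + (1 / 2) ^ e ≤ 2 ^ F + 2 ^ F := by linarith
        _ = 2 ^ (F + 1) := by rw [pow_succ]; ring
        _ = 2 ^ (F + 1) * ((2 : ℝ) ^ B * (1 / 2) ^ B) := by rw [h4, mul_one]
        _ = _ := by ring
    have h5 : (2 : ℝ) / 2 ^ P ≤ 2 := by
      rw [hPe]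
      have : (1 / 2 : ℝ) ^ P ≤ 1 := pow_le_one₀ (by norm_num) (by norm_num)
      linarith
    have h6 : (1 : ℝ) ≤ 2 ^ F * 2 ^ B := by
      rw [← pow_add]
      exact one_le_pow₀ (by norm_num)
    calc _ ≤ 2 * ((2 : ℝ) ^ (F + 1) * 2 ^ B) + 2 := by linarith
      _ ≤ 8 * (2 ^ F * 2 ^ B) := by rw [pow_succ]; nlinarith
      _ = 2 ^ G := by rw [hG, pow_add, pow_add]; ring
  have hB : (2 : ℝ) ^ G ≤ (((2 ^ G : ℕ) : ℚ) : ℝ) := by
    push_cast
    exact le_rfl
  obtain ⟨-, hs⟩ := (isJac_jac N M b P ((2 ^ G : ℕ) : ℚ)).spec dd hX hB K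
  have hclose := d.abs_sub_linsol_le (b := b')
    (x := fun q => ((jac N M b P ((2 ^ G : ℕ) : ℚ) K q : ℚ) : ℝ)) hs hp
  refine hclose.trans ?_
  -- the four error terms
  have t1 : (1 / 2 : ℝ) ^ e ≤ (1 / 2) ^ (k + B + 4) := half_pow_le_half_pow (by omega)
  have t2 : (N : ℝ) * (1 / 2) ^ e * 2 ^ G ≤ (1 / 2) ^ (k + B + 4) := by
    calc (N : ℝ) * (1 / 2) ^ e * 2 ^ G ≤ (1 / 2) ^ (e - N) * 2 ^ G := by gcongr
      _ = 2 ^ G * (1 / 2) ^ (e - N) := mul_comm _ _
      _ = (1 / 2) ^ (e - N - G) := two_pow_mul_half (by omega)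
      _ ≤ _ := half_pow_le_half_pow (by omega)
  have t3 : 2 * (2 : ℝ) ^ E * (2 ^ G / 3 ^ K) ≤ (1 / 2) ^ (k + B + 4) := by
    have h1 : (2 : ℝ) ^ G / 3 ^ K ≤ 2 ^ G * (1 / 2) ^ K := by
      rw [div_eq_mul_inv]
      apply mul_le_mul_of_nonneg_left _ (by positivity)
      rw [one_div, inv_pow]
      apply inv_anti₀ (by positivity)
      exact pow_le_pow_left₀ (by norm_num) (by norm_num) _
    calc 2 * (2 : ℝ) ^ E * (2 ^ G / 3 ^ K) ≤ 2 * (2 : ℝ) ^ E * (2 ^ G * (1 / 2) ^ K) := by gcongr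
      _ = 2 ^ (1 + E + G) * (1 / 2) ^ K := by rw [pow_add, pow_add]; ring
      _ = (1 / 2) ^ (K - (1 + E + G)) := two_pow_mul_half (by omega)
      _ ≤ _ := half_pow_le_half_pow (by omega)
  have t4 : 2 * (2 : ℝ) ^ E * (4 / 2 ^ P) ≤ (1 / 2) ^ (k + B + 4) := by
    have h1 : (4 : ℝ) / 2 ^ P = 4 * (1 / 2) ^ P := by
      rw [one_div, inv_pow, div_eq_mul_inv]
    rw [h1]
    calc 2 * (2 : ℝ) ^ E * (4 * (1 / 2) ^ P) = 2 ^ (3 + E) * (1 / 2) ^ P := by
          rw [pow_add]; ring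
      _ = (1 / 2) ^ (P - (3 + E)) := two_pow_mul_half (by omega)
      _ ≤ _ := half_pow_le_half_pow (by omega)
  have hsum : (1 / 2 : ℝ) ^ e + N * (1 / 2) ^ e * 2 ^ G + 2 * 2 ^ E * (2 ^ G / 3 ^ K + 4 / 2 ^ P) ≤
      4 * (1 / 2) ^ (k + B + 4) := by
    rw [mul_add]
    linarith
  have hB0 : (0 : ℝ) < (1 / 2) ^ B := by positivity
  have h9 : ((1 / 2 : ℝ) ^ e + N * (1 / 2) ^ e * 2 ^ G + 2 * 2 ^ E * (2 ^ G / 3 ^ K + 4 / 2 ^ P)) /
      (1 / 2) ^ B ≤ 4 * (1 / 2) ^ (k + 4) := by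
    rw [div_le_iff₀ hB0]
    refine hsum.trans (le_of_eq ?_)
    rw [show k + B + 4 = (k + 4) + B by omega, pow_add _ (k + 4) B]
    ring
  calc _ ≤ 4 / 3 * (4 * (1 / 2 : ℝ) ^ (k + 4)) := by gcongr
    _ = (1 / 3) * (1 / 2) ^ k := by rw [pow_add]; norm_num; ring
    _ ≤ _ := by
      have : (0 : ℝ) ≤ (1 / 2) ^ k := by positivity
      linarith

/-- `PTU` bound of a `PTR` family over two truncated indices -/
theorem ptu_bound2 {N : α → ℕ} (hN : PTU N) {M : α → ℕ → ℕ → ℝ}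
    (hM : PTR (fun p : (α × Un) × Un => M p.1.1 p.1.2.val p.2.val)) :
    ∃ E : α → ℕ, PTU E ∧ ∀ a, ∀ p ≤ N a, ∀ q ≤ N a, |M a p q| ≤ 2 ^ E a := by
  obtain ⟨B, hB, hBb⟩ := hM.bound
  obtain ⟨C, hC, hCb⟩ := ptu_index_bound (α := α × Un) (n := fun p => N p.1)
    (PTU.comp hN PTF.fst) hB
  obtain ⟨E, hE, hEb⟩ := ptu_index_bound hN hC
  refine ⟨E, hE, fun a p hp q hq => ?_⟩
  refine (hBb ((a, Un.mk p), Un.mk q)).trans ?_
  exact pow_le_pow_right₀ (by norm_num) ((hCb (a, Un.mk p) q hq).trans (hEb a p hp))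

theorem ptu_bound1 {N : α → ℕ} (hN : PTU N) {b : α → ℕ → ℝ}
    (hb : PTR (fun p : α × Un => b p.1 p.2.val)) :
    ∃ F : α → ℕ, PTU F ∧ ∀ a, ∀ p ≤ N a, |b a p| ≤ 2 ^ F a := by
  obtain ⟨B, hB, hBb⟩ := hb.bound
  obtain ⟨C, hC, hCb⟩ := ptu_index_bound hN hB
  refine ⟨C, hC, fun a p hp => ?_⟩
  exact (hBb (a, Un.mk p)).trans (pow_le_pow_right₀ (by norm_num) (hCb a p hp))

/-- **exact linear solve in polynomial time** -/
theorem PTR.linsol {N B : α → ℕ} {M : α → ℕ → ℕ → ℝ} {b : α → ℕ → ℝ} (hN : PTU N) (hB : PTU B)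
    (hM : PTR (fun p : (α × Un) × Un => M p.1.1 p.1.2.val p.2.val))
    (hb : PTR (fun p : α × Un => b p.1 p.2.val))
    (hdom : ∀ a, Dom (N a) (M a) ((1 / 2) ^ B a)) :
    PTR (fun p : α × Un => Cal.linsol (N p.1) (M p.1) (b p.1) p.2.val) := by
  obtain ⟨E, hE, hEb⟩ := ptu_bound2 hN hM
  obtain ⟨F, hF, hFb⟩ := ptu_bound1 hN hb
  -- contexts: `c : (α × Un) × Un`, `c.1.1 = a`, `c.1.2 = index`, `c.2 = precision`
  have h11 : PTF (fun c : (α × Un) × Un => c.1.1) := PTF.comp PTF.fst PTF.fst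
  have hN1 : PTU (fun c : (α × Un) × Un => N c.1.1) := PTU.comp hN h11
  have hB1 : PTU (fun c : (α × Un) × Un => B c.1.1) := PTU.comp hB h11
  have hE1 : PTU (fun c : (α × Un) × Un => E c.1.1) := PTU.comp hE h11
  have hF1 : PTU (fun c : (α × Un) × Un => F c.1.1) := PTU.comp hF h11
  have hk : PTU (fun c : (α × Un) × Un => c.2.val) := PTU.val PTF.snd
  have hG : PTU (fun c : (α × Un) × Un => F c.1.1 + B c.1.1 + 3) :=
    PTU.add (PTU.add hF1 hB1) (PTU.const 3)
  have he : PTU (fun c : (α × Un) × Un =>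
      c.2.val + B c.1.1 + N c.1.1 + (F c.1.1 + B c.1.1 + 3) + 4) :=
    PTU.add (PTU.add (PTU.add (PTU.add hk hB1) hN1) hG) (PTU.const 4)
  have hP : PTU (fun c : (α × Un) × Un => c.2.val + B c.1.1 + E c.1.1 + 7) :=
    PTU.add (PTU.add (PTU.add hk hB1) hE1) (PTU.const 7)
  have hK : PTU (fun c : (α × Un) × Un =>
      c.2.val + B c.1.1 + E c.1.1 + (F c.1.1 + B c.1.1 + 3) + 5) :=
    PTU.add (PTU.add (PTU.add (PTU.add hk hB1) hE1) hG) (PTU.const 5)
  obtain ⟨qM, hqM, hqM'⟩ := hM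
  obtain ⟨qb, hqb, hqb'⟩ := hb
  let e : (α × Un) × Un → ℕ := fun c =>
    c.2.val + B c.1.1 + N c.1.1 + (F c.1.1 + B c.1.1 + 3) + 4
  let Mt : (α × Un) × Un → ℕ → ℕ → ℚ := fun c p q =>
    qM (((c.1.1, Un.mk (min p (N c.1.1))), Un.mk (min q (N c.1.1))), Un.mk (e c))
  let bt : (α × Un) × Un → ℕ → ℚ := fun c p =>
    qb ((c.1.1, Un.mk (min p (N c.1.1))), Un.mk (e c))
  have hMt : PTF (fun t : ((α × Un) × Un) × ℕ × ℕ => Mt t.1 t.2.1 t.2.2) := by
    have g1 : PTF (fun t : ((α × Un) × Un) × ℕ × ℕ => t.1.1.1) :=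
      PTF.comp (g := fun c : (α × Un) × Un => c.1.1) h11 PTF.fst
    have g2 : PTU (fun t : ((α × Un) × Un) × ℕ × ℕ => min t.2.1 (N t.1.1.1)) :=
      PTF.natMinUn (PTF.comp PTF.fst PTF.snd) (PTU.comp (n := fun c : (α × Un) × Un => N c.1.1)
        hN1 PTF.fst)
    have g3 : PTU (fun t : ((α × Un) × Un) × ℕ × ℕ => min t.2.2 (N t.1.1.1)) :=
      PTF.natMinUn (PTF.comp PTF.snd PTF.snd) (PTU.comp (n := fun c : (α × Un) × Un => N c.1.1)
        hN1 PTF.fst)
    have g4 : PTU (fun t : ((α × Un) × Un) × ℕ × ℕ => e t.1) := PTU.comp (n := e) he PTF.fst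
    exact PTF.comp hqM (PTF.prodMk (PTF.prodMk (PTF.prodMk g1 g2) g3) g4)
  have hbt : PTF₂ bt := by
    have g1 : PTF (fun t : ((α × Un) × Un) × ℕ => t.1.1.1) :=
      PTF.comp (g := fun c : (α × Un) × Un => c.1.1) h11 PTF.fst
    have g2 : PTU (fun t : ((α × Un) × Un) × ℕ => min t.2 (N t.1.1.1)) :=
      PTF.natMinUn PTF.snd (PTU.comp (n := fun c : (α × Un) × Un => N c.1.1) hN1 PTF.fst)
    have g4 : PTU (fun t : ((α × Un) × Un) × ℕ => e t.1) := PTU.comp (n := e) he PTF.fst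
    exact PTF.comp hqb (PTF.prodMk (PTF.prodMk g1 g2) g4)
  have hpow : PTF (fun c : (α × Un) × Un => 2 ^ (F c.1.1 + B c.1.1 + 3)) := PTF.natTwoPow hG
  have hj := ptf_jac (N := fun c : (α × Un) × Un => N c.1.1)
    (P := fun c : (α × Un) × Un => c.2.val + B c.1.1 + E c.1.1 + 7)
    (K := fun c : (α × Un) × Un => c.2.val + B c.1.1 + E c.1.1 + (F c.1.1 + B c.1.1 + 3) + 5)
    (B := fun c : (α × Un) × Un => 2 ^ (F c.1.1 + B c.1.1 + 3)) (M := Mt) (b := bt)
    hN1 hMt hbt hP hpow hK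
  have hidx : PTF (fun c : (α × Un) × Un => c.1.2.val) :=
    PTU.toPTF (PTU.val (PTF.comp PTF.snd PTF.fst))
  refine ⟨fun c => jac (N c.1.1) (Mt c) (bt c) (c.2.val + B c.1.1 + E c.1.1 + 7)
      ((2 ^ (F c.1.1 + B c.1.1 + 3) : ℕ) : ℚ)
      (c.2.val + B c.1.1 + E c.1.1 + (F c.1.1 + B c.1.1 + 3) + 5) c.1.2.val,
    PTF.comp (g := fun t : ((α × Un) × Un) × ℕ => _) (f := fun c => (c, c.1.2.val)) hj
      (PTF.prodMk PTF.id hidx), fun c => ?_⟩
  rcases lt_or_ge c.1.2.val (N c.1.1) with hp | hp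
  · refine jac_close (e := e c) (hdom c.1.1) (fun p hp => (le_abs_self _).trans
      (hEb c.1.1 p hp.le p hp.le)) (fun p hp => hFb c.1.1 p hp.le) ?_ ?_ le_rfl le_rfl le_rfl hp
    · intro p hp q hq
      have h := hqM' (((c.1.1, Un.mk (min p (N c.1.1))), Un.mk (min q (N c.1.1))), Un.mk (e c))
      simp only [min_eq_left hp.le, min_eq_left hq.le] at h
      simp only [Mt, min_eq_left hp.le, min_eq_left hq.le]
      exact h
    · intro p hp
      have h := hqb' ((c.1.1, Un.mk (min p (N c.1.1))), Un.mk (e c))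
      simp only [min_eq_left hp.le] at h
      simp only [bt, min_eq_left hp.le]
      exact h
  · beta_reduce
    rw [jac_of_le _ _ _ hp, linsol_of_le _ _ hp]
    simp

end Crest.Agent.R338.Cal
end

-- ▼ part R338/Cal5
section

/-!
# Row 338, node CAL: uniform bound of the Coulomb integrals of the oscillator orbitals
-/

set_option autoImplicit false

noncomputable section

open MeasureTheory Set Real
open Crest.MathPhysics.ElectronicCoulomb

namespace Crest.Agent.R338.Cal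

theorem abs_hf_le (m : ℕ) (s : ℝ) : |HO.hf m s| ≤ 5 := by
  have h1 := WKB.hf_sq_le m s
  have h2 : 18 / WKB.LL m ≤ 18 := div_le_self (by norm_num) (WKB.one_le_LL m)
  have h3 : HO.hf m s ^ 2 ≤ 5 ^ 2 := by linarith
  exact abs_le_of_sq_le_sq h3 (by norm_num)

theorem abs_phi_le (a : Fin 3 → ℕ) (x : CE.P3) : |CE.phi a x| ≤ 125 := by
  unfold CE.phi
  rw [Finset.abs_prod]
  calc ∏ c, |HO.hf (a c) (x c)| ≤ ∏ _c : Fin 3, (5 : ℝ) :=
        Finset.prod_le_prod (fun _ _ => abs_nonneg _) (fun c _ => abs_hf_le _ _)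
    _ = 125 := by rw [Finset.prod_const, Finset.card_univ, Fintype.card_fin]; norm_num

theorem integral_phi_sq (a : Fin 3 → ℕ) : ∫ x : CE.P3, CE.phi a x * CE.phi a x = 1 := by
  have h := HO.integral_Phi_mul_Phi (ι := Fin 3) a a
  rw [if_pos rfl] at h
  exact h

theorem integral_abs_phi_le (a b : Fin 3 → ℕ) : ∫ x : CE.P3, |CE.phi a x * CE.phi b x| ≤ 1 := by
  have ha := (Br.nice_phi a a).int
  have hb := (Br.nice_phi b b).int
  have h1 : ∫ x : CE.P3, |CE.phi a x * CE.phi b x| ≤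
      ∫ x : CE.P3, (CE.phi a x * CE.phi a x + CE.phi b x * CE.phi b x) / 2 := by
    refine integral_mono (Br.nice_phi a b).int.abs ((ha.add hb).div_const 2) fun x => ?_
    simp only [Pi.add_apply]
    rw [abs_le]
    constructor <;> nlinarith [sq_nonneg (CE.phi a x - CE.phi b x),
      sq_nonneg (CE.phi a x + CE.phi b x)]
  refine h1.trans (le_of_eq ?_)
  rw [integral_div, integral_add ha hb, integral_phi_sq, integral_phi_sq]
  norm_num

theorem abs_D_le {f g : CE.P3 → ℝ} (hf : Integrable f) (hg : CE.Nice g) {A B C : ℝ}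
    (hA : ∫ x, |f x| ≤ A) (hB : ∫ x, |g x| ≤ B) (hC : ∀ x, |g x| ≤ C) :
    |CE.D f g| ≤ 2 / √π * (A * B + C * A * √π ^ 3 / 2) := by
  have hA0 : 0 ≤ A := (integral_nonneg fun _ => abs_nonneg _).trans hA
  have hB0 : 0 ≤ B := (integral_nonneg fun _ => abs_nonneg _).trans hB
  have hC0 : 0 ≤ C := (abs_nonneg _).trans (hC 0)
  have hf0 : 0 ≤ ∫ x, |f x| := integral_nonneg fun _ => abs_nonneg _
  have hg0 : 0 ≤ ∫ x, |g x| := integral_nonneg fun _ => abs_nonneg _
  rw [CE.D_eq_heat hf hg, abs_mul, abs_of_pos (by positivity : 0 < 2 / √π)]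
  refine mul_le_mul_of_nonneg_left ?_ (by positivity)
  have hQ := CE.integrableOn_Q hf hg
  have hle1 : ∀ τ : ℝ, |CE.Q τ f g| ≤ A * B := by
    intro τ
    refine (norm_integral_le_integral_norm _).trans ((CE.norm_Q_le_one hf hg.int τ).trans ?_)
    exact mul_le_mul hA hB hg0 hA0
  have hle2 : ∀ τ : ℝ, 0 < τ → |CE.Q τ f g| ≤ C * A * √π ^ 3 * τ ^ (-3 : ℝ) := by
    intro τ hτ
    refine (norm_integral_le_integral_norm _).trans ((CE.norm_Q_le_cube hf hg.int hC hτ).trans ?_)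
    have e : (√π / τ) ^ 3 = √π ^ 3 * τ ^ (-3 : ℝ) := by
      rw [Real.rpow_neg hτ.le, div_pow]
      norm_num
      ring
    rw [e]
    have : C * (∫ x, |f x|) ≤ C * A := mul_le_mul_of_nonneg_left hA hC0
    calc C * (∫ x, |f x|) * (√π ^ 3 * τ ^ (-3 : ℝ)) ≤ C * A * (√π ^ 3 * τ ^ (-3 : ℝ)) :=
          mul_le_mul_of_nonneg_right this (by positivity)
      _ = _ := by ring
  have hsplit : ∫ τ in Ioi (0 : ℝ), CE.Q τ f g =
      (∫ τ in Ioc (0 : ℝ) 1, CE.Q τ f g) + ∫ τ in Ioi (1 : ℝ), CE.Q τ f g := by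
    rw [← setIntegral_union (Ioc_disjoint_Ioi le_rfl) measurableSet_Ioi
      (hQ.mono_set Ioc_subset_Ioi_self) (hQ.mono_set (Ioi_subset_Ioi zero_le_one)),
      Ioc_union_Ioi_eq_Ioi zero_le_one]
  rw [hsplit]
  refine (abs_add_le _ _).trans (add_le_add ?_ ?_)
  · have h1 : ‖∫ τ in Ioc (0 : ℝ) 1, CE.Q τ f g‖ ≤ A * B * (volume (Ioc (0 : ℝ) 1)).toReal :=
      norm_setIntegral_le_of_norm_le_const (by simp) (fun τ _ => hle1 τ)
    rw [Real.norm_eq_abs] at h1
    refine h1.trans (le_of_eq ?_)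
    simp
  · have h1 : IntegrableOn (fun τ : ℝ => C * A * √π ^ 3 * τ ^ (-3 : ℝ)) (Ioi 1) :=
      (integrableOn_Ioi_rpow_of_lt (by norm_num) one_pos).const_mul _
    have h2 : ‖∫ τ in Ioi (1 : ℝ), CE.Q τ f g‖ ≤ ∫ τ in Ioi (1 : ℝ), C * A * √π ^ 3 * τ ^ (-3 : ℝ) := by
      refine norm_integral_le_of_norm_le h1 ?_
      refine (ae_restrict_iff' measurableSet_Ioi).2 (Filter.Eventually.of_forall fun τ hτ => ?_)
      exact hle2 τ (lt_trans one_pos hτ)
    rw [Real.norm_eq_abs] at h2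
    refine h2.trans (le_of_eq ?_)
    rw [integral_const_mul, integral_Ioi_rpow_of_lt (by norm_num) one_pos]
    norm_num
    ring

/-- **uniform bound of the Coulomb integrals** -/
theorem abs_W4_le (a b c d : Idx) : |W4 a b c d| ≤ 50000 := by
  rw [Br.W4_eq]
  unfold CE.W
  have hC : ∀ x : CE.P3, |CE.phi c x * CE.phi d x| ≤ 15625 := by
    intro x
    rw [abs_mul]
    calc |CE.phi c x| * |CE.phi d x| ≤ 125 * 125 :=
          mul_le_mul (abs_phi_le c x) (abs_phi_le d x) (abs_nonneg _) (by norm_num)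
      _ = 15625 := by norm_num
  refine (abs_D_le (Br.nice_phi a b).int (Br.nice_phi c d) (integral_abs_phi_le a b)
    (integral_abs_phi_le c d) hC).trans ?_
  have hπ := Real.pi_pos
  have hs : √π * √π = π := Real.mul_self_sqrt hπ.le
  have hs0 : 0 < √π := Real.sqrt_pos.2 hπ
  have hs1 : 1 ≤ √π := by
    rw [Real.one_le_sqrt]
    linarith [Real.pi_gt_three]
  have e : 2 / √π * (1 * 1 + 15625 * 1 * √π ^ 3 / 2) = 2 / √π + 15625 * π := by
    have : √π ^ 3 = √π * π := by rw [pow_succ, pow_two, hs]; ring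
    rw [this]
    field_simp
  rw [e]
  have h1 : 2 / √π ≤ 2 := div_le_self (by norm_num) hs1
  have h2 := Real.pi_lt_d2
  linarith

end Crest.Agent.R338.Cal

end
end

-- ▼ part R338/Cal6

/-!
# Row 338, node CAL: the exact calibration from the dominance of the hopping matrix
-/

set_option autoImplicit false

noncomputable section

open MeasureTheory
open Crest.MathPhysics.ElectronicCoulomb

namespace Crest.Agent.R338.Cal

open Finset

/-! ### pair indices -/

theorem pair_div {n i j : ℕ} (hj : j < n) : (i * n + j) / n = i := by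
  rw [Nat.add_comm, Nat.add_mul_div_right _ _ (by omega), Nat.div_eq_of_lt hj, zero_add]

theorem pair_mod {n i j : ℕ} (hj : j < n) : (i * n + j) % n = j := by
  rw [Nat.add_comm, Nat.add_mul_mod_self_right, Nat.mod_eq_of_lt hj]

theorem pair_lt {n i j : ℕ} (hi : i < n) (hj : j < n) : i * n + j < n * n := by
  have h1 : (i + 1) * n ≤ n * n := Nat.mul_le_mul_right n hi
  have h2 : (i + 1) * n = i * n + n := by ring
  omega

theorem sum_range_mul' {M : Type*} [AddCommMonoid M] (m n : ℕ) (f : ℕ → M) :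
    ∑ q ∈ range (m * n), f q = ∑ i ∈ range m, ∑ j ∈ range n, f (i * n + j) := by
  induction m with
  | zero => simp
  | succ m ih =>
    rw [Nat.succ_mul, sum_range_add, sum_range_succ, ih]

/-! ### bounds -/

theorem abs_I4_le (a b c d : ℕ) : |EX.I4 a b c d| ≤ 1250 := by
  unfold EX.I4
  have hi : Integrable (fun s : ℝ => 625 * Real.exp (-2 * s ^ 2)) :=
    (integrable_exp_neg_mul_sq (by norm_num)).const_mul _
  rw [← Real.norm_eq_abs]
  refine (norm_integral_le_of_norm_le hi (Filter.Eventually.of_forall fun s => ?_)).trans ?_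
  · rw [norm_mul, Real.norm_of_nonneg (Real.exp_pos _).le, Real.norm_eq_abs, abs_mul, abs_mul,
      abs_mul]
    have h1 := abs_hf_le a s
    have h2 := abs_hf_le b s
    have h3 := abs_hf_le c s
    have h4 := abs_hf_le d s
    have h5 : |HO.hf a s| * |HO.hf b s| * (|HO.hf c s| * |HO.hf d s|) ≤ 5 * 5 * (5 * 5) := by
      gcongr
    have e : Real.exp (-(2 * s ^ 2)) = Real.exp (-2 * s ^ 2) := by congr 1; ring
    rw [e]
    calc _ ≤ Real.exp (-2 * s ^ 2) * (5 * 5 * (5 * 5)) := by gcongr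
      _ = _ := by ring
  · rw [integral_const_mul, integral_gaussian]
    have : √(Real.pi / 2) ≤ 2 := by
      rw [Real.sqrt_le_left (by norm_num)]
      linarith [Real.pi_lt_four]
    linarith

theorem abs_Mhop_le (n k i j i' j' : ℕ) : |Mhop n k i j i' j'| ≤ 1562500 := by
  rw [XF.Mhop_eq, abs_mul]
  calc _ ≤ (1250 : ℝ) * 1250 :=
        mul_le_mul (abs_I4_le _ _ _ _) (abs_I4_le _ _ _ _) (abs_nonneg _) (by norm_num)
    _ = _ := by norm_num

theorem card_core_le (n0 : ℕ) : (core n0).card ≤ n0 ^ 3 := by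
  unfold core
  refine (card_filter_le _ _).trans ?_
  rw [Fintype.card_piFinset]
  simp

theorem abs_fock_le (n0 : ℕ) (a b : Idx) : |fock n0 a b| ≤ 150000 * (n0 : ℝ) ^ 3 := by
  unfold fock
  refine (abs_sum_le_sum_abs _ _).trans ?_
  have h1 : ∀ c ∈ core n0, |2 * W4 a b c c - W4 a c c b| ≤ 150000 := by
    intro c _
    have h2 := abs_W4_le a b c c
    have h3 := abs_W4_le a c c b
    rw [abs_le] at h2 h3 ⊢
    constructor <;> linarith [h2.1, h2.2, h3.1, h3.2]
  refine (sum_le_sum h1).trans ?_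
  rw [sum_const, nsmul_eq_mul, mul_comm]
  have : ((core n0).card : ℝ) ≤ (n0 : ℝ) ^ 3 := by exact_mod_cast card_core_le n0
  linarith

theorem abs_Vc_le (n k i j : ℕ) : |Vc n k i j| ≤ 50000 := abs_W4_le _ _ _ _

theorem abs_Dlt_le (n k i j : ℕ) : |Dlt n k i j| ≤ 100000 := by
  unfold Dlt
  have h1 := abs_Vc_le n k i i
  have h2 := abs_Vc_le n k j j
  have h3 := abs_Vc_le n k i j
  rw [abs_le] at h1 h2 h3 ⊢
  constructor <;> linarith [h1.1, h1.2, h2.1, h2.2, h3.1, h3.2]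

theorem abs_muS_le (n k i : ℕ) : |muS n k i| ≤ 50000 * ((n : ℝ) + 1) := by
  unfold muS
  have h1 := abs_Vc_le n k i i
  have h2 : |∑ j ∈ (range n).erase i, Vc n k i j| ≤ 50000 * (n : ℝ) := by
    refine (abs_sum_le_sum_abs _ _).trans ((sum_le_sum fun j _ => abs_Vc_le n k i j).trans ?_)
    rw [sum_const, nsmul_eq_mul, mul_comm]
    have h3 : (((range n).erase i).card : ℝ) ≤ n := by
      have := card_erase_le (s := range n) (a := i)
      rw [card_range] at this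
      exact_mod_cast this
    linarith
  rw [abs_le] at h1 h2 ⊢
  constructor <;> linarith [h1.1, h1.2, h2.1, h2.2]

theorem abs_t_le {j0 : ℝ} (h0 : 0 ≤ j0) (h1 : j0 ≤ 1) {x : ℝ} (hx0 : 0 ≤ x) (hx1 : x ≤ 1)
    (n k i j : ℕ) : |1 / 2 * √(j0 * x * Dlt n k i j)| ≤ 50000 := by
  have hD := abs_Dlt_le n k i j
  have h2 : j0 * x * Dlt n k i j ≤ 100000 := by
    have h3 : 0 ≤ j0 * x := mul_nonneg h0 hx0
    have h4 : j0 * x ≤ 1 := by nlinarith
    calc j0 * x * Dlt n k i j ≤ j0 * x * |Dlt n k i j| :=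
          mul_le_mul_of_nonneg_left (le_abs_self _) h3
      _ ≤ 1 * 100000 := mul_le_mul h4 hD (abs_nonneg _) (by norm_num)
      _ = _ := by norm_num
  have h5 : √(j0 * x * Dlt n k i j) ≤ 100000 := by
    rw [Real.sqrt_le_left (by norm_num)]
    linarith
  rw [abs_of_nonneg (by positivity)]
  linarith

/-! ### dominance of `Mcal` -/

/-- the consequence of `HopStmt` for fixed `n`, `k` -/
structure Hop (n k C : ℕ) : Prop where
  diag : ∀ i j, i < j → j < n → 1 / (k : ℝ) ^ C ≤ Mhop n k i j i j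
  off : ∀ i j i' j', i < j → j < n → i' < j' → j' < n → (i', j') ≠ (i, j) →
    4 * (n : ℝ) ^ 2 * |Mhop n k i' j' i j| ≤ Mhop n k i j i j

theorem Hop.dom {n k C : ℕ} (h : Hop n k C) (hk : 1 ≤ k) :
    Dom (n * n) (Mcal n k) (1 / (k : ℝ) ^ C) := by
  have hk' : (1 : ℝ) ≤ k := by exact_mod_cast hk
  have hkC : (1 : ℝ) ≤ (k : ℝ) ^ C := one_le_pow₀ hk'
  have hm1 : 1 / (k : ℝ) ^ C ≤ 1 := by
    rw [div_le_one (by positivity)]
    exact hkC
  refine ⟨by positivity, fun p hp => ?_, fun p hp => ?_⟩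
  · unfold Mcal
    by_cases hv : p / n < p % n
    · have hn : 0 < n := by
        rcases Nat.eq_zero_or_pos n with h0 | h0
        · subst h0; simp at hp
        · exact h0
      rw [if_pos ⟨hv, hv⟩]
      exact h.diag _ _ hv (Nat.mod_lt _ hn)
    · rw [if_neg (fun hc => hv hc.1), if_pos rfl]
      exact hm1
  · have hn : 0 < n := by
      rcases Nat.eq_zero_or_pos n with h0 | h0
      · subst h0; simp at hp
      · exact h0
    by_cases hv : p / n < p % n
    · have hpp : Mcal n k p p = Mhop n k (p / n) (p % n) (p / n) (p % n) := by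
        unfold Mcal
        rw [if_pos ⟨hv, hv⟩]
      have hpos : 0 < Mcal n k p p := by
        rw [hpp]
        exact lt_of_lt_of_le (by positivity) (h.diag _ _ hv (Nat.mod_lt _ hn))
      have hterm : ∀ q ∈ range (n * n), (if q = p then 0 else |Mcal n k p q|) ≤
          Mcal n k p p / (4 * (n : ℝ) ^ 2) := by
        intro q hq
        have hn' : (0 : ℝ) < n := by exact_mod_cast hn
        split_ifs with hqp
        · positivity
        · by_cases hvq : q / n < q % n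
          · have e : Mcal n k p q = Mhop n k (q / n) (q % n) (p / n) (p % n) := by
              unfold Mcal
              rw [if_pos ⟨hv, hvq⟩]
            rw [e, hpp, le_div_iff₀ (by positivity), mul_comm]
            refine h.off _ _ _ _ hv (Nat.mod_lt _ hn) hvq (Nat.mod_lt _ hn) fun heq => hqp ?_
            have h1 := congrArg Prod.fst heq
            have h2 := congrArg Prod.snd heq
            simp only at h1 h2
            rw [← Nat.div_add_mod q n, ← Nat.div_add_mod p n, h1, h2]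
          · have e : Mcal n k p q = 0 := by
              unfold Mcal
              rw [if_neg (fun hc => hvq hc.2), if_neg (fun hc => hqp hc.symm)]
            rw [e, abs_zero]
            positivity
      refine (sum_le_sum hterm).trans (le_of_eq ?_)
      rw [sum_const, card_range, nsmul_eq_mul]
      have hn' : (n : ℝ) ≠ 0 := by exact_mod_cast hn.ne'
      push_cast
      field_simp
    · have hpp : Mcal n k p p = 1 := by
        unfold Mcal
        rw [if_neg (fun hc => hv hc.1), if_pos rfl]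
      have hterm : ∀ q ∈ range (n * n), (if q = p then 0 else |Mcal n k p q|) ≤ 0 := by
        intro q _
        split_ifs with hqp
        · exact le_rfl
        · have e : Mcal n k p q = 0 := by
            unfold Mcal
            rw [if_neg (fun hc => hv hc.1), if_neg (fun hc => hqp hc.symm)]
          rw [e, abs_zero]
      refine (sum_le_sum hterm).trans ?_
      rw [hpp, sum_const_zero]
      norm_num

/-- a function on pairs as a vector -/
def vec (n : ℕ) (A : ℕ → ℕ → ℝ) (p : ℕ) : ℝ := if p / n < p % n then A (p / n) (p % n) else 0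

/-- row of `Mcal` applied to a vector on pairs -/
theorem Mcal_vec (n k : ℕ) (A : ℕ → ℕ → ℝ) {i j : ℕ} (hij : i < j) (hj : j < n) :
    ∑ q ∈ range (n * n), Mcal n k (i * n + j) q * vec n A q =
      ∑ i' ∈ range n, ∑ j' ∈ range n, if i' < j' then A i' j' * Mhop n k i' j' i j else 0 := by
  rw [sum_range_mul']
  refine sum_congr rfl fun i' _ => sum_congr rfl fun j' hj' => ?_
  have hj'' := mem_range.1 hj'
  unfold Mcal vec
  rw [pair_div hj, pair_mod hj, pair_div hj'', pair_mod hj'']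
  by_cases h : i' < j'
  · rw [if_pos ⟨hij, h⟩, if_pos h, if_pos h]
    ring
  · rw [if_neg h, if_neg h, mul_zero]

theorem Mcal_vec_invalid (n k : ℕ) (A : ℕ → ℕ → ℝ) {p : ℕ} (hp : p < n * n)
    (hv : ¬ p / n < p % n) : ∑ q ∈ range (n * n), Mcal n k p q * vec n A q = 0 := by
  refine sum_eq_zero fun q _ => ?_
  unfold Mcal
  rw [if_neg (fun hc => hv hc.1)]
  by_cases hpq : p = q
  · subst hpq
    unfold vec
    rw [if_neg hv, mul_zero]
  · rw [if_neg hpq, zero_mul]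

/-- entries of the solution at non-pairs vanish -/
theorem Dom.linsol_invalid {n k : ℕ} {m₀ : ℝ} (d : Dom (n * n) (Mcal n k) m₀) (j0 : ℝ)
    (J : ℕ → ℕ → ℝ) {p : ℕ} (hp : p < n * n) (hv : ¬ p / n < p % n) :
    linsol (n * n) (Mcal n k) (bcal n k j0 J) p = 0 := by
  have h := d.linsol_spec (bcal n k j0 J) hp
  have hb : bcal n k j0 J p = 0 := by
    unfold bcal
    rw [if_neg hv]
  rw [hb] at h
  rw [← h]
  symm
  rw [sum_eq_single p]
  · unfold Mcal
    rw [if_neg (fun hc => hv hc.1), if_pos rfl, one_mul]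
  · intro q _ hqp
    unfold Mcal
    rw [if_neg (fun hc => hv hc.1), if_neg (fun hc => hqp hc.symm), zero_mul]
  · intro hc
    exact absurd (mem_range.2 hp) hc

theorem Dom.vec_Acal {n k : ℕ} {m₀ : ℝ} (d : Dom (n * n) (Mcal n k) m₀) (j0 : ℝ)
    (J : ℕ → ℕ → ℝ) {p : ℕ} (hp : p < n * n) :
    vec n (Acal n k j0 J) p = linsol (n * n) (Mcal n k) (bcal n k j0 J) p := by
  have hn : 0 < n := by
    rcases Nat.eq_zero_or_pos n with h0 | h0
    · subst h0; simp at hp
    · exact h0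
  unfold vec
  by_cases hv : p / n < p % n
  · rw [if_pos hv]
    unfold Acal
    rw [if_pos ⟨hv, Nat.mod_lt _ hn⟩]
    congr 1
    rw [mul_comm]
    exact Nat.div_add_mod p n
  · rw [if_neg hv, d.linsol_invalid j0 J hp hv]

/-- **the calibration is exact** -/
theorem Dom.isCal {n k : ℕ} {m₀ : ℝ} (d : Dom (n * n) (Mcal n k) m₀) (j0 : ℝ)
    (J : ℕ → ℕ → ℝ) : P2.IsCal n k j0 J (Acal n k j0 J) (acal n k j0 J) := by
  refine ⟨⟨fun i hi j hj hij => ?_, fun i hi => ?_⟩, fun i j h => ?_, fun i h => ?_⟩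
  · have h1 : ∑ q ∈ range (n * n), Mcal n k (i * n + j) q * vec n (Acal n k j0 J) q =
        bcal n k j0 J (i * n + j) := by
      rw [← d.linsol_spec (bcal n k j0 J) (pair_lt hi hj)]
      refine sum_congr rfl fun q hq => ?_
      rw [d.vec_Acal j0 J (mem_range.1 hq)]
    rw [Mcal_vec n k _ hij hj] at h1
    rw [h1]
    unfold bcal
    rw [pair_div hj, pair_mod hj, if_pos hij]
    rw [abs_le]
    constructor <;> linarith
  · have : acal n k j0 J i = muS n k i - fock (n0' n k) (site n k i) (site n k i) -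
        (∑ i' ∈ range n, ∑ j' ∈ range n,
          if i' < j' then Acal n k j0 J i' j' * Mhop n k i' j' i i else 0) := by
      unfold acal
      rw [if_pos hi]
    rw [this, abs_le]
    constructor <;> linarith
  · unfold Acal
    rw [if_neg h]
  · unfold acal
    rw [if_neg (by omega)]

/-- uniqueness of the exact calibration -/
theorem Dom.isCal_unique {n k : ℕ} {m₀ : ℝ} (d : Dom (n * n) (Mcal n k) m₀) {j0 : ℝ}
    {J A A' : ℕ → ℕ → ℝ} {a a' : ℕ → ℝ} (h : P2.IsCal n k j0 J A a)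
    (h' : P2.IsCal n k j0 J A' a') : A = A' ∧ a = a' := by
  obtain ⟨⟨h1, h2⟩, h3, h4⟩ := h
  obtain ⟨⟨h1', h2'⟩, h3', h4'⟩ := h'
  have hz : ∀ p < n * n, |vec n (fun i j => A i j - A' i j) p| ≤ 4 / 3 * (0 / m₀) := by
    refine d.stab fun p hp => ?_
    have hn : 0 < n := by
      rcases Nat.eq_zero_or_pos n with h0 | h0
      · subst h0; simp at hp
      · exact h0
    by_cases hv : p / n < p % n
    · have hpe : p / n * n + p % n = p := by
        rw [mul_comm]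
        exact Nat.div_add_mod p n
      have hmod := Nat.mod_lt p hn
      rw [← hpe, Mcal_vec n k _ hv hmod]
      have e : (∑ i' ∈ range n, ∑ j' ∈ range n, if i' < j' then
          (A i' j' - A' i' j') * Mhop n k i' j' (p / n) (p % n) else 0) =
          (∑ i' ∈ range n, ∑ j' ∈ range n, if i' < j' then
            A i' j' * Mhop n k i' j' (p / n) (p % n) else 0) -
          ∑ i' ∈ range n, ∑ j' ∈ range n, if i' < j' then
            A' i' j' * Mhop n k i' j' (p / n) (p % n) else 0 := by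
        rw [← sum_sub_distrib]
        refine sum_congr rfl fun i' _ => ?_
        rw [← sum_sub_distrib]
        refine sum_congr rfl fun j' _ => ?_
        split_ifs
        · ring
        · ring
      rw [e]
      have g1 := h1 _ (hv.trans hmod) _ hmod hv
      have g2 := h1' _ (hv.trans hmod) _ hmod hv
      rw [abs_le] at g1 g2 ⊢
      constructor <;> linarith [g1.1, g1.2, g2.1, g2.2]
    · rw [Mcal_vec_invalid n k _ hp hv, abs_zero]
  have hAA : A = A' := by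
    funext i j
    by_cases hij : i < j ∧ j < n
    · have h5 := hz (i * n + j) (pair_lt (hij.1.trans hij.2) hij.2)
      unfold vec at h5
      rw [pair_div hij.2, pair_mod hij.2, if_pos hij.1, zero_div, mul_zero] at h5
      have := abs_nonpos_iff.1 h5
      linarith
    · rw [h3 i j hij, h3' i j hij]
  refine ⟨hAA, ?_⟩
  funext i
  rcases lt_or_ge i n with hi | hi
  · have g1 := h2 i hi
    have g2 := h2' i hi
    rw [hAA] at g1
    rw [abs_le] at g1 g2
    linarith [g1.1, g1.2, g2.1, g2.2]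
  · rw [h4 i hi, h4' i hi]

/-- `calSol` of `P2Defs` is `(Acal, acal)` -/
theorem Dom.calSol_eq {n k : ℕ} {m₀ : ℝ} (d : Dom (n * n) (Mcal n k) m₀) (j0 : ℝ)
    (J : ℕ → ℕ → ℝ) : P2.calSol n k j0 J = (Acal n k j0 J, acal n k j0 J) := by
  unfold P2.calSol
  have hex : ∃ p : (ℕ → ℕ → ℝ) × (ℕ → ℝ), P2.IsCal n k j0 J p.1 p.2 :=
    ⟨(Acal n k j0 J, acal n k j0 J), d.isCal j0 J⟩
  rw [dif_pos hex]
  obtain ⟨h1, h2⟩ := d.isCal_unique hex.choose_spec (d.isCal j0 J)
  exact Prod.ext h1 h2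

/-! ### polynomial bounds -/

theorem base_le {n k C : ℕ} (hC : 2000000 ≤ C) (h : (C * (n + 1)) ^ C ≤ k) :
    2000000 * (n + 1) ≤ k := by
  have h1 : 1 ≤ C * (n + 1) := Nat.mul_pos (by omega) (by omega)
  calc 2000000 * (n + 1) ≤ C * (n + 1) := Nat.mul_le_mul_right _ hC
    _ = (C * (n + 1)) ^ 1 := (pow_one _).symm
    _ ≤ (C * (n + 1)) ^ C := Nat.pow_le_pow_right h1 (by omega)
    _ ≤ k := h

theorem n0'_le {n k : ℕ} (h : 2000000 * (n + 1) ≤ k) : n0' n k ≤ k ^ 15 := by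
  have hn : n ≤ k := by omega
  have h32 : 32 ≤ k := by omega
  have hY : Yn n ≤ k ^ 4 := by
    unfold Yn
    calc 16 * n ^ 3 + 16 * n ^ 2 ≤ 16 * k ^ 3 + 16 * k ^ 3 := by
          refine Nat.add_le_add (Nat.mul_le_mul_left _ (Nat.pow_le_pow_left hn 3))
            (Nat.mul_le_mul_left _ ?_)
          exact (Nat.pow_le_pow_left hn 2).trans (Nat.pow_le_pow_right (by omega) (by omega))
      _ = 32 * k ^ 3 := by ring
      _ ≤ k * k ^ 3 := Nat.mul_le_mul_right _ h32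
      _ = k ^ 4 := by ring
  unfold n0'
  calc 16 * (k ^ 3) ^ 2 * Yn n ^ 2 ≤ k * (k ^ 3) ^ 2 * (k ^ 4) ^ 2 :=
        Nat.mul_le_mul (Nat.mul_le_mul_right _ (by omega)) (Nat.pow_le_pow_left hY 2)
    _ = k ^ 15 := by ring

theorem bounds {n k C : ℕ} {m₀ : ℝ} (d : Dom (n * n) (Mcal n k) m₀) (hm : m₀ = 1 / (k : ℝ) ^ C)
    (hk : 2000000 * (n + 1) ≤ k) {j0 : ℝ} {J : ℕ → ℕ → ℝ} (h0 : 0 ≤ j0) (h1 : j0 ≤ 1)
    (hJ : ∀ i j, 0 ≤ J i j ∧ J i j ≤ 1) :
    (∀ i j, |Acal n k j0 J i j| ≤ (k : ℝ) ^ (C + 48)) ∧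
    ∀ i, |acal n k j0 J i| ≤ (k : ℝ) ^ (C + 52) := by
  have hkr : (2000000 : ℝ) * (n + 1) ≤ k := by exact_mod_cast hk
  have hn0 : (0 : ℝ) ≤ n := by positivity
  have hk1 : (2000000 : ℝ) ≤ k := by nlinarith
  have hkn : (n : ℝ) + 1 ≤ k := by nlinarith
  have hkp : (1 : ℝ) ≤ k := by linarith
  have hf : ∀ a b : Idx, |fock (n0' n k) a b| ≤ (k : ℝ) ^ 46 := by
    intro a b
    refine (abs_fock_le _ a b).trans ?_
    have h2 : ((n0' n k : ℕ) : ℝ) ≤ (k : ℝ) ^ 15 := by exact_mod_cast n0'_le hk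
    calc 150000 * ((n0' n k : ℕ) : ℝ) ^ 3 ≤ k * ((k : ℝ) ^ 15) ^ 3 := by
          gcongr
          linarith
      _ = (k : ℝ) ^ 46 := by ring
  have hb : ∀ p < n * n, |bcal n k j0 J p| ≤ (k : ℝ) ^ 47 := by
    intro p _
    unfold bcal
    split_ifs with hv
    · have h2 := abs_t_le h0 h1 (hJ (p / n) (p % n)).1 (hJ (p / n) (p % n)).2 n k (p / n) (p % n)
      have h3 := hf (site n k (p / n)) (site n k (p % n))
      have h4 : (1 : ℝ) ≤ (k : ℝ) ^ 46 := one_le_pow₀ hkp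
      have h5 : 50000 + (k : ℝ) ^ 46 ≤ (k : ℝ) ^ 47 := by
        have : (k : ℝ) ^ 47 = k * (k : ℝ) ^ 46 := by ring
        rw [this]
        nlinarith
      rw [abs_le] at h2 h3 ⊢
      constructor <;> linarith [h2.1, h2.2, h3.1, h3.2]
    · rw [abs_zero]
      positivity
  have hA : ∀ i j, |Acal n k j0 J i j| ≤ (k : ℝ) ^ (C + 48) := by
    intro i j
    unfold Acal
    split_ifs with hij
    · refine (d.abs_linsol_le (β := (k : ℝ) ^ 47) (by positivity) hb _).trans ?_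
      rw [hm, div_div_eq_mul_div, div_one]
      have e : (k : ℝ) ^ (C + 48) = k * ((k : ℝ) ^ 47 * (k : ℝ) ^ C) := by
        rw [pow_add]; ring
      rw [e]
      apply mul_le_mul_of_nonneg_right _ (by positivity)
      linarith
    · rw [abs_zero]
      positivity
  refine ⟨hA, fun i => ?_⟩
  unfold acal
  split_ifs with hi
  · have h2 := abs_muS_le n k i
    have h3 := hf (site n k i) (site n k i)
    have h4 : |∑ i' ∈ range n, ∑ j' ∈ range n,
        if i' < j' then Acal n k j0 J i' j' * Mhop n k i' j' i i else 0| ≤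
        (k : ℝ) ^ 2 * ((k : ℝ) ^ (C + 48) * 1562500) := by
      refine (abs_sum_le_sum_abs _ _).trans ?_
      have h5 : ∀ i' ∈ range n, |∑ j' ∈ range n,
          if i' < j' then Acal n k j0 J i' j' * Mhop n k i' j' i i else 0| ≤
          n * ((k : ℝ) ^ (C + 48) * 1562500) := by
        intro i' _
        refine (abs_sum_le_sum_abs _ _).trans ?_
        have h6 : ∀ j' ∈ range n, |(if i' < j' then Acal n k j0 J i' j' * Mhop n k i' j' i i
            else 0)| ≤ (k : ℝ) ^ (C + 48) * 1562500 := by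
          intro j' _
          split_ifs
          · rw [abs_mul]
            exact mul_le_mul (hA _ _) (abs_Mhop_le _ _ _ _ _ _) (abs_nonneg _) (by positivity)
          · rw [abs_zero]
            positivity
        refine (sum_le_sum h6).trans (le_of_eq ?_)
        rw [sum_const, card_range, nsmul_eq_mul]
      refine (sum_le_sum h5).trans ?_
      rw [sum_const, card_range, nsmul_eq_mul, ← mul_assoc]
      have : (n : ℝ) * n ≤ (k : ℝ) ^ 2 := by nlinarith
      exact mul_le_mul_of_nonneg_right this (by positivity)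
    have h7 : (k : ℝ) ^ 2 * ((k : ℝ) ^ (C + 48) * 1562500) ≤ (k : ℝ) ^ (C + 51) := by
      have e : (k : ℝ) ^ (C + 51) = (k : ℝ) ^ 2 * ((k : ℝ) ^ (C + 48) * k) := by
        rw [pow_add, pow_add]; ring
      rw [e]
      gcongr
      linarith
    have h8 : 50000 * ((n : ℝ) + 1) ≤ (k : ℝ) ^ (C + 51) := by
      calc 50000 * ((n : ℝ) + 1) ≤ (k : ℝ) ^ 1 := by rw [pow_one]; linarith
        _ ≤ (k : ℝ) ^ (C + 51) := pow_le_pow_right₀ hkp (by omega)
    have h9 : (k : ℝ) ^ 46 ≤ (k : ℝ) ^ (C + 51) := pow_le_pow_right₀ hkp (by omega)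
    have h10 : 3 * (k : ℝ) ^ (C + 51) ≤ (k : ℝ) ^ (C + 52) := by
      have e : (k : ℝ) ^ (C + 52) = k * (k : ℝ) ^ (C + 51) := by
        rw [pow_add, pow_add]; ring
      rw [e]
      apply mul_le_mul_of_nonneg_right _ (by positivity)
      linarith
    rw [abs_le] at h2 h3 h4 ⊢
    constructor <;> linarith [h2.1, h2.2, h3.1, h3.2, h4.1, h4.2]
  · rw [abs_zero]
    positivity

/-- node CAL from node HK -/
theorem calStmt_of_hop (H : HopStmt) : P2.CalStmt := by
  obtain ⟨C, hC, H⟩ := H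
  refine ⟨C + 2000000, by omega, fun n k hk j0 J => ?_⟩
  have hk2 := base_le (by omega) hk
  have hkC : (C * (n + 1)) ^ C ≤ k := by
    refine le_trans ?_ hk
    calc (C * (n + 1)) ^ C ≤ ((C + 2000000) * (n + 1)) ^ C :=
          Nat.pow_le_pow_left (Nat.mul_le_mul_right _ (by omega)) _
      _ ≤ ((C + 2000000) * (n + 1)) ^ (C + 2000000) :=
          Nat.pow_le_pow_right (Nat.mul_pos (by omega) (by omega)) (by omega)
  obtain ⟨H1, H2⟩ := H n k hkC
  have d : Dom (n * n) (Mcal n k) (1 / (k : ℝ) ^ C) := Hop.dom ⟨H1, H2⟩ (by omega)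
  have hkp : (1 : ℝ) ≤ k := by
    have : 1 ≤ k := by omega
    exact_mod_cast this
  refine ⟨⟨(Acal n k j0 J, acal n k j0 J), d.isCal j0 J, fun p hp => ?_⟩,
    fun h0 h1 hJ A a hA => ?_⟩
  · obtain ⟨e1, e2⟩ := d.isCal_unique hp (d.isCal j0 J)
    exact Prod.ext e1 e2
  · obtain ⟨e1, e2⟩ := d.isCal_unique hA (d.isCal j0 J)
    obtain ⟨b1, b2⟩ := bounds d rfl hk2 h0 h1 hJ
    rw [e1, e2]
    exact ⟨fun i j => (b1 i j).trans (pow_le_pow_right₀ hkp (by omega)),
      fun i => (b2 i).trans (pow_le_pow_right₀ hkp (by omega))⟩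

end Crest.Agent.R338.Cal

end
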