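import Crest.Agent.R338.HO1a

/-!
# Row 338, NODE EX, file EX0 (helper439): explicit coefficients

`hc m p : ℚ`   : coefficient of `x^p` in the physicists' Hermite polynomial `H_m`
                 (`H_0 = 1`, `H_{m+1} = 2 x H_m - H_m'`), closed formula.
`hf_eq`        : `hf m x = π^(-1/4) / √(2^m m!) * (∑_{p ≤ m} hc m p x^p) * exp (-x²/2)`.
`hh a b p : ℚ` : coefficient of `x^p` in `H_a H_b`.
-/

set_option autoImplicit false

open MeasureTheory Polynomial Real Finset

noncomputable section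

namespace Crest.Agent.R338.EX

open Crest.Agent.R338.HO

/-- coefficient of `x^p` in the physicists' Hermite polynomial `H_m` -/
def hc (m p : ℕ) : ℚ :=
  if p ≤ m ∧ (m - p) % 2 = 0 then
    (-1) ^ ((m - p) / 2) * (m.factorial : ℚ) * 2 ^ p /
      ((((m - p) / 2).factorial : ℚ) * (p.factorial : ℚ))
  else 0

theorem hc_of_le {m p j : ℕ} (h : m = p + 2 * j) :
    hc m p = (-1) ^ j * (m.factorial : ℚ) * 2 ^ p / ((j.factorial : ℚ) * (p.factorial : ℚ)) := by
  have h1 : p ≤ m ∧ (m - p) % 2 = 0 := by omega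
  have h2 : (m - p) / 2 = j := by omega
  rw [hc, if_pos h1, h2]

theorem hc_of_lt {m p : ℕ} (h : m < p) : hc m p = 0 := by
  rw [hc, if_neg (by omega)]

theorem hc_of_odd {m p : ℕ} (h : (m - p) % 2 = 1) : hc m p = 0 := by
  rw [hc, if_neg (by omega)]

theorem hc_zero_zero : hc 0 0 = 1 := by
  rw [hc_of_le (j := 0) rfl]; simp

theorem hc_zero_succ (p : ℕ) : hc 0 (p + 1) = 0 := hc_of_lt (by omega)

/-- recursion, `p = 0` -/
theorem hc_succ_zero (m : ℕ) : hc (m + 1) 0 = -hc m 1 := by
  rcases Nat.even_or_odd' (m + 1) with ⟨j, hj | hj⟩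
  · obtain ⟨i, rfl⟩ : ∃ i, j = i + 1 := ⟨j - 1, by omega⟩
    rw [hc_of_le (j := i + 1) (by omega), hc_of_le (m := m) (p := 1) (j := i) (by omega)]
    have hm : m = 1 + 2 * i := by omega
    have h1 : ((m + 1).factorial : ℚ) = ((m : ℚ) + 1) * (m.factorial : ℚ) := by
      rw [Nat.factorial_succ]; push_cast; ring
    have h2 : ((i + 1).factorial : ℚ) = ((i : ℚ) + 1) * (i.factorial : ℚ) := by
      rw [Nat.factorial_succ]; push_cast; ring
    have h3 : (i.factorial : ℚ) ≠ 0 := by exact_mod_cast i.factorial_ne_zero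
    have h4 : ((i : ℚ) + 1) ≠ 0 := by positivity
    rw [h1, h2]
    have h5 : (m : ℚ) = 1 + 2 * i := by rw [hm]; push_cast; ring
    rw [h5]
    simp only [Nat.factorial_zero, Nat.factorial_one, Nat.cast_one, pow_zero, mul_one, pow_one]
    field_simp
    ring
  · rw [hc_of_odd (by omega)]
    rcases Nat.lt_or_ge m 1 with h | h
    · rw [hc_of_lt h]; simp
    · rw [hc_of_odd (by omega)]; simp

/-- recursion, `p + 1` -/
theorem hc_succ_succ (m p : ℕ) :
    hc (m + 1) (p + 1) = 2 * hc m p - ((p : ℚ) + 2) * hc m (p + 2) := by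
  by_cases hpm : p ≤ m
  · rcases Nat.even_or_odd' (m - p) with ⟨j, hj | hj⟩
    · rcases Nat.eq_zero_or_pos j with rfl | hj0
      · rw [hc_of_lt (m := m) (p := p + 2) (by omega)]
        have hmp : m = p := by omega
        subst hmp
        rw [hc_of_le (j := 0) (by omega), hc_of_le (j := 0) (by omega)]
        have h1 : ((m + 1).factorial : ℚ) ≠ 0 := by exact_mod_cast (m + 1).factorial_ne_zero
        have h2 : (m.factorial : ℚ) ≠ 0 := by exact_mod_cast m.factorial_ne_zero
        simp only [pow_zero, Nat.factorial_zero, Nat.cast_one, one_mul]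
        field_simp
        ring
      · obtain ⟨i, rfl⟩ : ∃ i, j = i + 1 := ⟨j - 1, by omega⟩
        rw [hc_of_le (m := m + 1) (p := p + 1) (j := i + 1) (by omega),
          hc_of_le (m := m) (p := p) (j := i + 1) (by omega),
          hc_of_le (m := m) (p := p + 2) (j := i) (by omega)]
        have hm : m = p + 2 * i + 2 := by omega
        have h1 : ((m + 1).factorial : ℚ) = ((m : ℚ) + 1) * (m.factorial : ℚ) := by
          rw [Nat.factorial_succ]; push_cast; ring
        have h2 : ((i + 1).factorial : ℚ) = ((i : ℚ) + 1) * (i.factorial : ℚ) := by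
          rw [Nat.factorial_succ]; push_cast; ring
        have h6 : ((p + 1).factorial : ℚ) = ((p : ℚ) + 1) * (p.factorial : ℚ) := by
          rw [Nat.factorial_succ]; push_cast; ring
        have h7 : ((p + 2).factorial : ℚ) = ((p : ℚ) + 2) * (((p : ℚ) + 1) * (p.factorial : ℚ)) := by
          rw [show p + 2 = (p + 1) + 1 from rfl, Nat.factorial_succ, Nat.factorial_succ]
          push_cast; ring
        have h3 : (i.factorial : ℚ) ≠ 0 := by exact_mod_cast i.factorial_ne_zero
        have h4 : ((i : ℚ) + 1) ≠ 0 := by positivity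
        have h8 : (p.factorial : ℚ) ≠ 0 := by exact_mod_cast p.factorial_ne_zero
        have h9 : ((p : ℚ) + 1) ≠ 0 := by positivity
        have h10 : ((p : ℚ) + 2) ≠ 0 := by positivity
        have h5 : (m : ℚ) = p + 2 * i + 2 := by rw [hm]; push_cast; ring
        rw [h1, h2, h6, h7, h5]
        field_simp
        ring
    · rw [hc_of_odd (m := m + 1) (by omega), hc_of_odd (m := m) (p := p) (by omega)]
      rcases Nat.lt_or_ge m (p + 2) with h | h
      · rw [hc_of_lt h]; simp
      · rw [hc_of_odd (m := m) (p := p + 2) (by omega)]; simp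
  · rw [hc_of_lt (m := m + 1) (by omega), hc_of_lt (m := m) (p := p) (by omega),
      hc_of_lt (m := m) (p := p + 2) (by omega)]
    simp

/-- physicists' Hermite polynomial as an explicit real polynomial -/
def HP (m : ℕ) : Polynomial ℝ := ∑ p ∈ range (m + 1), C ((hc m p : ℚ) : ℝ) * X ^ p

theorem coeff_HP (m p : ℕ) : (HP m).coeff p = ((hc m p : ℚ) : ℝ) := by
  unfold HP
  rw [finsetSum_coeff]
  simp only [coeff_C_mul, coeff_X_pow, mul_ite, mul_one, mul_zero]
  rw [Finset.sum_ite_eq (range (m + 1)) p]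
  split_ifs with h
  · rfl
  · rw [mem_range] at h
    rw [hc_of_lt (by omega)]; simp

theorem HP_zero : HP 0 = 1 := by
  ext p
  rw [coeff_HP, coeff_one]
  cases p with
  | zero => rw [hc_zero_zero]; simp
  | succ p => rw [hc_zero_succ]; simp

theorem HP_succ (m : ℕ) : HP (m + 1) = 2 * X * HP m - derivative (HP m) := by
  ext p
  rw [coeff_HP, coeff_sub, coeff_derivative]
  cases p with
  | zero =>
    have : (2 * X * HP m).coeff 0 = 0 := by
      rw [mul_assoc, mul_left_comm]; simp
    rw [this, hc_succ_zero, coeff_HP]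
    push_cast; ring
  | succ p =>
    have : (2 * X * HP m).coeff (p + 1) = 2 * (HP m).coeff p := by
      rw [mul_assoc, show (2 : ℝ[X]) = C 2 from rfl, coeff_C_mul, coeff_X_mul]
    rw [this, hc_succ_succ, coeff_HP, coeff_HP]
    push_cast; ring

/-- normalization constant of `h_m` : `π^(-1/4) / √(2^m m!)` -/
def hn (m : ℕ) : ℝ := π ^ (-(1 / 4) : ℝ) / √((2 : ℝ) ^ m * (m.factorial : ℝ))


theorem hn_succ (m : ℕ) : hn (m + 1) * √(2 * ((m : ℝ) + 1)) = hn m := by
  unfold hn
  have h1 : (2 : ℝ) ^ (m + 1) * ((m + 1).factorial : ℝ) =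
      (2 * ((m : ℝ) + 1)) * ((2 : ℝ) ^ m * (m.factorial : ℝ)) := by
    rw [Nat.factorial_succ]; push_cast; ring
  have h2 : (0 : ℝ) ≤ 2 * ((m : ℝ) + 1) := by positivity
  rw [h1, Real.sqrt_mul h2]
  have h3 := sqrt_ne m
  have h4 : √((2 : ℝ) ^ m * (m.factorial : ℝ)) ≠ 0 := (Real.sqrt_pos.2 (by positivity)).ne'
  field_simp

theorem hP_eq (m : ℕ) : hP m = C (hn m) * HP m := by
  induction m with
  | zero =>
    rw [hP_zero, HP_zero, mul_one]
    unfold hn; simp
  | succ m ih =>
    rw [hP_succ, ih, HP_succ, derivative_mul, derivative_C, zero_mul, zero_add]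
    have e1 : 2 * X * (C (hn m) * HP m) - C (hn m) * derivative (HP m) =
        C (hn m) * (2 * X * HP m - derivative (HP m)) := by ring
    rw [e1, ← mul_assoc, ← C_mul]
    congr 2
    rw [← hn_succ m]
    have h3 := sqrt_ne m
    field_simp

theorem eval_HP (m : ℕ) (x : ℝ) :
    (HP m).eval x = ∑ p ∈ range (m + 1), ((hc m p : ℚ) : ℝ) * x ^ p := by
  unfold HP; simp [eval_finsetSum]

theorem hf_eq (m : ℕ) (x : ℝ) :
    hf m x = hn m * (HP m).eval x * Real.exp (-(x ^ 2) / 2) := by
  unfold hf; rw [hP_eq]; simp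

/-- coefficient of `x^p` in `H_a H_b` -/
def hh (a b p : ℕ) : ℚ := ∑ i ∈ range (p + 1), hc a i * hc b (p - i)

theorem coeff_HP_mul (a b p : ℕ) : (HP a * HP b).coeff p = ((hh a b p : ℚ) : ℝ) := by
  rw [coeff_mul, Finset.Nat.sum_antidiagonal_eq_sum_range_succ_mk]
  unfold hh
  push_cast
  refine Finset.sum_congr rfl fun i _ => ?_
  rw [coeff_HP, coeff_HP]

theorem natDegree_HP_le (m : ℕ) : (HP m).natDegree ≤ m := by
  rw [natDegree_le_iff_coeff_eq_zero]
  intro N hN
  rw [coeff_HP, hc_of_lt hN]; simp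


theorem eval_HP_mul (a b : ℕ) (x : ℝ) : (HP a).eval x * (HP b).eval x =
    ∑ p ∈ range (a + b + 1), ((hh a b p : ℚ) : ℝ) * x ^ p := by
  rw [← eval_mul, eval_eq_sum_range' (n := a + b + 1)]
  · refine Finset.sum_congr rfl fun p _ => ?_
    rw [coeff_HP_mul]
  · have := natDegree_mul_le.trans (add_le_add (natDegree_HP_le a) (natDegree_HP_le b))
    omega

end Crest.Agent.R338.EX
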