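import Crest.Agent.R338.Ten

/-!
# Row 338, node I.4 (a): the algebra of one block of four spins
-/

set_option autoImplicit false

namespace Crest.Agent.R338.HB

open Matrix Finset

/-- basis states of one block of four spins -/
abbrev B4 : Type := Fin 4 → Bool

/-- flip the spin `a` -/
def flp (a : Fin 4) (i : B4) : B4 := Function.update i a (!(i a))

/-- exchange the spins `a` and `b` -/
def swp (a b : Fin 4) (i : B4) : B4 := fun c => i (Equiv.swap a b c)

/-- sign of a spin -/
def sg (b : Bool) : ℤ := if b then -1 else 1

/-- the integer vectors spanning the singlet space -/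
def EZ (s : Bool) (i : B4) : ℤ :=
  match s, i 0, i 1, i 2, i 3 with
  | false, false, true, false, true => 1
  | false, false, true, true, false => -1
  | false, true, false, false, true => -1
  | false, true, false, true, false => 1
  | true, false, false, true, true => 2
  | true, true, true, false, false => 2
  | true, false, true, false, true => -1
  | true, false, true, true, false => -1
  | true, true, false, false, true => -1
  | true, true, false, true, false => -1
  | _, _, _, _, _ => 0

/-- twice the spin component `α` (`0 = x`, `1 = i y`, `2 = z`) of the spin `a`, as an action on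
functions -/
def TZ (al : Fin 3) (a : Fin 4) (v : B4 → ℤ) (i : B4) : ℤ :=
  match al with
  | 0 => v (flp a i)
  | 1 => sg (i a) * v (flp a i)
  | 2 => sg (i a) * v i

/-- sum over all `16` basis states, explicitly -/
def sum16 (f : B4 → ℤ) : ℤ :=
  f ![false, false, false, false] + f ![false, false, false, true] + f ![false, false, true, false]
  + f ![false, false, true, true] + f ![false, true, false, false] + f ![false, true, false, true]
  + f ![false, true, true, false] + f ![false, true, true, true] + f ![true, false, false, false]
  + f ![true, false, false, true] + f ![true, false, true, false]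
  + f ![true, false, true, true] + f ![true, true, false, false] + f ![true, true, false, true]
  + f ![true, true, true, false] + f ![true, true, true, true]

/-- Twelve times... the integer Gram matrix. -/
def GZ (a b : Fin 4) (s t : Bool) : ℤ :=
  if a = b then (match s, t with
    | false, false => 4
    | true, true => 12
    | _, _ => 0)
  else if (a = 0 ∧ b = 1) ∨ (a = 1 ∧ b = 0) ∨ (a = 2 ∧ b = 3) ∨ (a = 3 ∧ b = 2) then
    (match s, t with
    | false, false => -4
    | true, true => 4
    | _, _ => 0)
  else if (a = 0 ∧ b = 2) ∨ (a = 2 ∧ b = 0) ∨ (a = 1 ∧ b = 3) ∨ (a = 3 ∧ b = 1) then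
    (match s, t with
    | false, false => 0
    | true, true => -8
    | _, _ => -4)
  else (match s, t with
    | false, false => 0
    | true, true => -8
    | _, _ => 4)

set_option maxRecDepth 100000 in
theorem gramZ : ∀ (al be : Fin 3) (a b : Fin 4) (s t : Bool),
    sum16 (fun i => TZ al a (EZ s) i * TZ be b (EZ t) i) = if al = be then GZ a b s t else 0 := by
  decide +kernel

theorem orthZ : ∀ (al : Fin 3) (a : Fin 4) (s t : Bool),
    sum16 (fun i => EZ s i * TZ al a (EZ t) i) = 0 := by
  decide +kernel

theorem normZ : ∀ (s t : Bool),
    sum16 (fun i => EZ s i * EZ t i) = if s = t then (if s then 12 else 4) else 0 := by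
  decide +kernel

/-- `2 K` as an action on functions: the sum of the six exchanges. -/
def KZ (v : B4 → ℤ) (i : B4) : ℤ :=
  v (swp 0 1 i) + v (swp 0 2 i) + v (swp 0 3 i) + v (swp 1 2 i) + v (swp 1 3 i) + v (swp 2 3 i)

theorem KZ_E : ∀ (s : Bool) (i : B4), KZ (EZ s) i = 0 := by
  decide +kernel

theorem KZ_T : ∀ (al : Fin 3) (a : Fin 4) (s : Bool) (i : B4),
    KZ (TZ al a (EZ s)) i = 2 * TZ al a (EZ s) i := by
  decide +kernel

/-- `(2K)² - 8 (2K) + 12 = 12 Π` -/
theorem KZ_sq : ∀ (i j : B4),
    KZ (KZ (fun k => if k = j then 1 else 0)) i - 8 * KZ (fun k => if k = j then 1 else 0) i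
      + 12 * (if i = j then 1 else 0) = 3 * (EZ false i * EZ false j) + EZ true i * EZ true j := by
  decide +kernel

theorem PZ_E : ∀ (i : B4),
    EZ false (swp 0 1 i) = - EZ false i ∧ EZ true (swp 0 1 i) = EZ true i ∧
    2 * EZ false (swp 0 2 i) = EZ false i - EZ true i ∧
    2 * EZ true (swp 0 2 i) = - 3 * EZ false i - EZ true i ∧
    2 * EZ false (swp 0 3 i) = EZ false i + EZ true i ∧
    2 * EZ true (swp 0 3 i) = 3 * EZ false i - EZ true i := by
  decide +kernel

end Crest.Agent.R338.HB
private theorem rz_a54cba0d06 : type_of% @_root_.Crest.Agent.R338.HB.TZ.eq_1 := @_root_.Crest.Agent.R338.HB.TZ.eq_1 -- L42
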