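import Crest.Agent.R338.HO1a

-- ▼ part R338/HK1
section

/-!
Row 338 (S0529), node HK: Hermite functions of even index near the origin (blueprint D.6).
-/

set_option autoImplicit false

open MeasureTheory Set Real Filter
open scoped Topology

noncomputable section
namespace Crest.Agent.R338.HK
open Crest.Agent.R338.HO

/-- derivative of `hf m` -/
def dh (m : ℕ) (s : ℝ) : ℝ := √((m : ℝ) / 2) * hf (m - 1) s - √(((m : ℝ) + 1) / 2) * hf (m + 1) s

theorem hasDerivAt_h (m : ℕ) (s : ℝ) : HasDerivAt (hf m) (dh m s) s := hasDerivAt_hf m s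

theorem hasDerivAt_dh (m : ℕ) (s : ℝ) : HasDerivAt (dh m) ((s ^ 2 - (2 * m + 1)) * hf m s) s :=
  hasDerivAt_deriv_hf m s


/-- three term recursion at a point -/
theorem hf_add_two (n : ℕ) (s : ℝ) :
    hf (n + 2) s = √(2 / (n + 2)) * (s * hf (n + 1) s) - √((n + 1) / (n + 2)) * hf n s := by
  have h := x_mul_hf (n + 1) s
  rw [Nat.add_sub_cancel, show n + 1 + 1 = n + 2 by ring] at h
  push_cast at h
  have h1 : √(2 / ((n : ℝ) + 2)) * √(((n : ℝ) + 1 + 1) / 2) = 1 := by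
    rw [← Real.sqrt_mul (by positivity)]
    rw [show (2 / ((n : ℝ) + 2)) * (((n : ℝ) + 1 + 1) / 2) = 1 by field_simp; ring]
    exact Real.sqrt_one
  have h2 : √(2 / ((n : ℝ) + 2)) * √(((n : ℝ) + 1) / 2) = √(((n : ℝ) + 1) / ((n : ℝ) + 2)) := by
    rw [← Real.sqrt_mul (by positivity)]
    congr 1
    field_simp
  rw [h, mul_add, ← mul_assoc, h1, ← mul_assoc, h2]
  ring

/-- parity -/
theorem hf_neg (n : ℕ) (s : ℝ) : hf n (-s) = (-1) ^ n * hf n s := by
  induction n using Nat.twoStepInduction with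
  | zero => simp [hf_zero]
  | one =>
    have e : ∀ s, hf 1 s = √2 * (s * hf 0 s) := fun s => by
      have h := x_mul_hf 0 s
      simp only [Nat.cast_zero, zero_div, Real.sqrt_zero, zero_mul, add_zero, zero_add] at h
      rw [h, ← mul_assoc]
      have : √2 * √(1 / 2 : ℝ) = 1 := by
        rw [← Real.sqrt_mul (by norm_num)]; norm_num
      rw [this, one_mul]
    rw [e, e, hf_zero, hf_zero]; simp
  | more n ih1 ih2 =>
    rw [hf_add_two, hf_add_two, ih1, ih2]
    ring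

theorem hf_even (k : ℕ) (s : ℝ) : hf (2 * k) (-s) = hf (2 * k) s := by
  rw [hf_neg, pow_mul]; simp

theorem hf_odd_zero (k : ℕ) : hf (2 * k + 1) 0 = 0 := by
  have := hf_neg (2 * k + 1) 0
  rw [neg_zero, pow_succ, pow_mul] at this
  simp at this
  linarith

theorem dh_even_zero (k : ℕ) : dh (2 * k) 0 = 0 := by
  unfold dh
  rw [hf_odd_zero]
  rcases k with _ | k
  · simp
  · rw [show 2 * (k + 1) - 1 = 2 * k + 1 by omega, hf_odd_zero]; simp

/-- `h_{2k}(0)² = C(2k,k) 4^{-k} / √π` -/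
theorem hf_even_zero_sq (k : ℕ) : hf (2 * k) 0 ^ 2 = (k.centralBinom : ℝ) / 4 ^ k / √π := by
  induction k with
  | zero =>
    have h : (π ^ (-(1 / 4) : ℝ)) ^ 2 = (√π)⁻¹ := by
      rw [← Real.rpow_natCast, ← Real.rpow_mul Real.pi_pos.le, Real.sqrt_eq_rpow,
        ← Real.rpow_neg Real.pi_pos.le]
      norm_num
    have h0 : hf (2 * 0) 0 = π ^ (-(1 / 4) : ℝ) := by
      rw [mul_zero, hf_zero]; norm_num
    rw [h0, h]
    simp
  | succ k ih =>
    rw [show 2 * (k + 1) = 2 * k + 2 by ring, hf_add_two]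
    simp only [mul_zero, zero_mul, zero_sub, even_two, Even.neg_pow, mul_pow]
    rw [ih, Real.sq_sqrt (by positivity)]
    have h := Nat.succ_mul_centralBinom_succ k
    have h' : ((k : ℝ) + 1) * ((k + 1).centralBinom : ℝ) = 2 * (2 * k + 1) * (k.centralBinom : ℝ) := by
      exact_mod_cast h
    have h'' : ((k + 1).centralBinom : ℝ) = 2 * (2 * k + 1) * (k.centralBinom : ℝ) / (k + 1) := by
      field_simp; linarith
    rw [h'']
    push_cast
    field_simp
    ring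

/-- `p_k = C(2k,k) / 4^k` -/
def cb (k : ℕ) : ℝ := (k.centralBinom : ℝ) / 4 ^ k

theorem cb_pos (k : ℕ) : 0 < cb k := by
  unfold cb
  have := Nat.centralBinom_pos k
  positivity

theorem cb_succ (k : ℕ) : cb (k + 1) = cb k * ((2 * k + 1) / (2 * k + 2)) := by
  unfold cb
  have h := Nat.succ_mul_centralBinom_succ k
  have h' : ((k : ℝ) + 1) * ((k + 1).centralBinom : ℝ) = 2 * (2 * k + 1) * (k.centralBinom : ℝ) := by
    exact_mod_cast h
  have h'' : ((k + 1).centralBinom : ℝ) = 2 * (2 * k + 1) * (k.centralBinom : ℝ) / (k + 1) := by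
    field_simp; linarith
  rw [h'']
  field_simp
  ring

theorem cb_sq_le (k : ℕ) : cb k ^ 2 * (2 * k + 1) ≤ 1 := by
  induction k with
  | zero => simp [cb]
  | succ k ih =>
    rw [cb_succ, mul_pow, div_pow]
    have h0 := sq_nonneg (cb k)
    have : cb k ^ 2 * ((2 * (k : ℝ) + 1) ^ 2 / (2 * k + 2) ^ 2) * (2 * ((k + 1 : ℕ) : ℝ) + 1) =
        (cb k ^ 2 * (2 * k + 1)) * ((2 * k + 1) * (2 * k + 3) / (2 * k + 2) ^ 2) := by
      push_cast; ring
    rw [this]
    have h1 : (2 * (k : ℝ) + 1) * (2 * k + 3) / (2 * k + 2) ^ 2 ≤ 1 := by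
      rw [div_le_one (by positivity)]; nlinarith
    have h2 : 0 ≤ (2 * (k : ℝ) + 1) * (2 * k + 3) / (2 * k + 2) ^ 2 := by positivity
    calc (cb k ^ 2 * (2 * k + 1)) * ((2 * k + 1) * (2 * k + 3) / (2 * k + 2) ^ 2)
        ≤ 1 * 1 := mul_le_mul ih h1 h2 (by norm_num)
      _ = 1 := by norm_num

theorem le_cb_sq (k : ℕ) : 1 ≤ cb (k + 1) ^ 2 * (4 * (k + 1)) := by
  induction k with
  | zero =>
    have : cb 1 = 1 / 2 := by
      have := cb_succ 0
      simp [cb] at this ⊢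
      linarith
    simp only [zero_add, this]; norm_num
  | succ k ih =>
    rw [cb_succ, mul_pow, div_pow]
    have : cb (k + 1) ^ 2 * ((2 * ((k + 1 : ℕ) : ℝ) + 1) ^ 2 / (2 * ((k + 1 : ℕ) : ℝ) + 2) ^ 2) *
        (4 * (((k + 1 : ℕ) : ℝ) + 1)) =
        (cb (k + 1) ^ 2 * (4 * (k + 1))) * ((2 * k + 3) ^ 2 / (4 * ((k + 1) * (k + 2)))) := by
      push_cast; field_simp; ring
    rw [this]
    have h1 : 1 ≤ (2 * (k : ℝ) + 3) ^ 2 / (4 * ((k + 1) * (k + 2))) := by
      rw [one_le_div (by positivity)]; nlinarith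
    nlinarith

/-- `κ_m = √(2m+1)` -/
def kap (m : ℕ) : ℝ := √(2 * m + 1)

theorem kap_sq (m : ℕ) : kap m ^ 2 = 2 * m + 1 := Real.sq_sqrt (by positivity)

theorem one_le_kap (m : ℕ) : 1 ≤ kap m := by
  unfold kap
  rw [Real.one_le_sqrt]
  have : (0 : ℝ) ≤ m := m.cast_nonneg
  linarith

theorem kap_pos (m : ℕ) : 0 < kap m := lt_of_lt_of_le one_pos (one_le_kap m)

/-- two-sided bound of `h_{2k}(0)²`: upper bound `≤ 1 / κ` -/
theorem hf_zero_sq_le (k : ℕ) : hf (2 * k) 0 ^ 2 ≤ 1 / kap (2 * k) := by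
  rw [hf_even_zero_sq]
  change cb k / √π ≤ _
  have h1 := cb_sq_le k
  have h2 : kap (2 * k) ^ 2 = 4 * k + 1 := by rw [kap_sq]; push_cast; ring
  have hk := kap_pos (2 * k)
  have hp : √π ^ 2 = π := Real.sq_sqrt Real.pi_pos.le
  have hp0 : 0 < √π := Real.sqrt_pos.2 Real.pi_pos
  rw [div_le_div_iff₀ hp0 hk, one_mul]
  refine abs_le_of_sq_le_sq' ?_ hp0.le |>.2
  rw [mul_pow, h2, hp]
  have h3 : cb k ^ 2 * (4 * k + 1) ≤ 2 := by nlinarith [sq_nonneg (cb k)]
  linarith [Real.pi_gt_three]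

/-- lower bound `≥ (1/2) / κ` (indeed `0.3`) -/
theorem le_hf_zero_sq (k : ℕ) : 1 / (2 * kap (2 * k)) ≤ hf (2 * k) 0 ^ 2 := by
  rw [hf_even_zero_sq]
  change _ ≤ cb k / √π
  have h2 : kap (2 * k) ^ 2 = 4 * k + 1 := by rw [kap_sq]; push_cast; ring
  have hk := kap_pos (2 * k)
  have hp : √π ^ 2 = π := Real.sq_sqrt Real.pi_pos.le
  have hp0 : 0 < √π := Real.sqrt_pos.2 Real.pi_pos
  have hc := cb_pos k
  rw [div_le_div_iff₀ (by positivity) hp0, one_mul]
  refine abs_le_of_sq_le_sq' ?_ (by positivity) |>.2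
  rw [mul_pow, mul_pow, h2, hp]
  have hpi := Real.pi_lt_d2
  rcases k with _ | k
  · simp [cb]; linarith
  · have h1 := le_cb_sq k
    have h3 : 1 ≤ cb (k + 1) ^ 2 * (4 * ((k + 1 : ℕ) : ℝ) + 1) := by
      push_cast
      nlinarith [sq_nonneg (cb (k + 1))]
    nlinarith

theorem hf_zero_ne (k : ℕ) : hf (2 * k) 0 ≠ 0 := by
  intro h
  have := le_hf_zero_sq k
  rw [h] at this
  have h2 : 0 < 1 / (2 * kap (2 * k)) := by have := kap_pos (2 * k); positivity
  have h3 : (0 : ℝ) ^ 2 = 0 := by norm_num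
  rw [h3] at this
  exact absurd (lt_of_lt_of_le h2 this) (lt_irrefl 0)

end Crest.Agent.R338.HK
end
end

-- ▼ part R338/HK2
section

/-!
Row 338 (S0529), node HK: energy, cosine approximation near `0` and global bound for the Hermite
functions of even index (blueprint D.1, D.6).
-/

set_option autoImplicit false

open MeasureTheory Set Real Filter
open scoped Topology

noncomputable section
namespace Crest.Agent.R338.HK
open Crest.Agent.R338.HO

/-- energy `A(s) = h'² + (κ² - s²) h²` -/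
def En (m : ℕ) (s : ℝ) : ℝ := dh m s ^ 2 + (kap m ^ 2 - s ^ 2) * hf m s ^ 2

theorem hasDerivAt_En (m : ℕ) (s : ℝ) : HasDerivAt (En m) (-2 * s * hf m s ^ 2) s := by
  have h1 := ((hasDerivAt_dh m s).pow 2).add
    (((hasDerivAt_const s (kap m ^ 2)).sub (hasDerivAt_pow 2 s)).mul ((hasDerivAt_h m s).pow 2))
  refine HasDerivAt.congr_deriv (f := En m) h1 ?_
  have hk := kap_sq m
  simp only [Nat.cast_ofNat, Nat.add_one_sub_one, pow_one, Pi.pow_apply, Pi.sub_apply]
  rw [hk]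
  ring

theorem En_antitone (m : ℕ) : AntitoneOn (En m) (Ici 0) := by
  apply antitoneOn_of_deriv_nonpos (convex_Ici 0)
  · exact fun x _ => (hasDerivAt_En m x).continuousAt.continuousWithinAt
  · exact fun x _ => (hasDerivAt_En m x).differentiableAt.differentiableWithinAt
  · intro x hx
    rw [interior_Ici, mem_Ioi] at hx
    rw [(hasDerivAt_En m x).deriv]
    have := sq_nonneg (hf m x)
    nlinarith [mul_nonneg hx.le this]

theorem En_zero (k : ℕ) : En (2 * k) 0 = kap (2 * k) ^ 2 * hf (2 * k) 0 ^ 2 := by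
  unfold En
  rw [dh_even_zero]; ring

theorem En_le (k : ℕ) {s : ℝ} (hs : 0 ≤ s) :
    dh (2 * k) s ^ 2 + (kap (2 * k) ^ 2 - s ^ 2) * hf (2 * k) s ^ 2 ≤
      kap (2 * k) ^ 2 * hf (2 * k) 0 ^ 2 := by
  rw [← En_zero]
  exact En_antitone (2 * k) (mem_Ici.2 le_rfl) (mem_Ici.2 hs) hs

theorem hf_sq_le_near (k : ℕ) {s : ℝ} (hs : |s| ≤ kap (2 * k) / 2) :
    hf (2 * k) s ^ 2 ≤ 4 / 3 * hf (2 * k) 0 ^ 2 := by
  have key : ∀ s : ℝ, 0 ≤ s → s ≤ kap (2 * k) / 2 → hf (2 * k) s ^ 2 ≤ 4 / 3 * hf (2 * k) 0 ^ 2 := by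
    intro s hs0 hs
    have h := En_le k hs0
    have hk := kap_pos (2 * k)
    have h2 : s ^ 2 ≤ kap (2 * k) ^ 2 / 4 := by nlinarith
    have h3 := sq_nonneg (dh (2 * k) s)
    have h4 := sq_nonneg (hf (2 * k) s)
    have h5 : 3 / 4 * kap (2 * k) ^ 2 * hf (2 * k) s ^ 2 ≤ kap (2 * k) ^ 2 * hf (2 * k) 0 ^ 2 := by
      nlinarith
    have h6 : 0 < kap (2 * k) ^ 2 := by positivity
    have h7 : kap (2 * k) ^ 2 * (3 / 4 * hf (2 * k) s ^ 2) ≤ kap (2 * k) ^ 2 * hf (2 * k) 0 ^ 2 := by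
      linarith
    have h8 := le_of_mul_le_mul_left h7 h6
    linarith
  rcases le_total 0 s with h | h
  · rw [abs_of_nonneg h] at hs; exact key s h hs
  · rw [abs_of_nonpos h] at hs
    rw [← hf_even]
    exact key (-s) (by linarith) hs

theorem abs_hf_le_near (k : ℕ) {s : ℝ} (hs : |s| ≤ kap (2 * k) / 2) :
    |hf (2 * k) s| ≤ 6 / 5 * |hf (2 * k) 0| := by
  have h := hf_sq_le_near k hs
  apply abs_le_of_sq_le_sq' _ (by positivity) |>.2
  rw [sq_abs, mul_pow, sq_abs]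
  nlinarith [sq_nonneg (hf (2 * k) 0)]

/-- variation of constants -/
theorem duhamel (k : ℕ) (s : ℝ) :
    kap (2 * k) * (hf (2 * k) s - hf (2 * k) 0 * cos (kap (2 * k) * s)) =
      ∫ r in (0 : ℝ)..s, r ^ 2 * hf (2 * k) r * sin (kap (2 * k) * (s - r)) := by
  set m := 2 * k with hm
  set κ := kap m with hκ
  set h0 := hf m 0 with hh0
  have hκ2 : κ ^ 2 = 2 * m + 1 := kap_sq m
  have hF : ∀ r ∈ uIcc 0 s, HasDerivAt
      (fun r => (hf m r - h0 * cos (κ * r)) * (κ * cos (κ * (s - r))) +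
        (dh m r + h0 * (κ * sin (κ * r))) * sin (κ * (s - r)))
      (r ^ 2 * hf m r * sin (κ * (s - r))) r := by
    intro r _
    have a1 : HasDerivAt (fun r => κ * r) κ r := by
      simpa using (hasDerivAt_id r).const_mul κ
    have a2 : HasDerivAt (fun r => κ * (s - r)) (-κ) r := by
      have := ((hasDerivAt_const r s).sub (hasDerivAt_id r)).const_mul κ
      simpa using this
    have b1 : HasDerivAt (fun r => hf m r - h0 * cos (κ * r)) (dh m r - h0 * (-sin (κ * r) * κ)) r :=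
      (hasDerivAt_h m r).sub (a1.cos.const_mul h0)
    have b2 : HasDerivAt (fun r => κ * cos (κ * (s - r))) (κ * (-sin (κ * (s - r)) * -κ)) r :=
      a2.cos.const_mul κ
    have b3 : HasDerivAt (fun r => dh m r + h0 * (κ * sin (κ * r)))
        ((r ^ 2 - (2 * m + 1)) * hf m r + h0 * (κ * (cos (κ * r) * κ))) r :=
      (hasDerivAt_dh m r).add ((a1.sin.const_mul κ).const_mul h0)
    have b4 : HasDerivAt (fun r => sin (κ * (s - r))) (cos (κ * (s - r)) * -κ) r := a2.sin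
    refine ((b1.mul b2).add (b3.mul b4)).congr_deriv ?_
    rw [← hκ2]
    ring
  have hint : IntervalIntegrable (fun r => r ^ 2 * hf m r * sin (κ * (s - r))) volume 0 s := by
    apply Continuous.intervalIntegrable
    have := continuous_hf m
    fun_prop
  have h := intervalIntegral.integral_eq_sub_of_hasDerivAt hF hint
  rw [h]
  have e0 : dh m 0 = 0 := by rw [hm]; exact dh_even_zero k
  simp only [sub_self, mul_zero, cos_zero, mul_one, sin_zero, add_zero, sub_zero, e0, ← hh0, zero_mul]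
  ring

/-- cosine approximation near the origin (D.6) -/
theorem abs_sub_cos_le (k : ℕ) {s : ℝ} (hs : |s| ≤ kap (2 * k) / 2) :
    |hf (2 * k) s - hf (2 * k) 0 * cos (kap (2 * k) * s)| ≤
      2 / 5 * |hf (2 * k) 0| * |s| ^ 3 / kap (2 * k) := by
  have hk := kap_pos (2 * k)
  have key : ∀ s : ℝ, 0 ≤ s → s ≤ kap (2 * k) / 2 →
      |hf (2 * k) s - hf (2 * k) 0 * cos (kap (2 * k) * s)| ≤
      2 / 5 * |hf (2 * k) 0| * |s| ^ 3 / kap (2 * k) := by
    intro s hs0 hs
    have h := duhamel k s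
    have hb : ‖∫ r in (0 : ℝ)..s, r ^ 2 * hf (2 * k) r * sin (kap (2 * k) * (s - r))‖ ≤
        |∫ r in (0 : ℝ)..s, (6 / 5 * |hf (2 * k) 0|) * r ^ 2| := by
      apply intervalIntegral.norm_integral_le_abs_of_norm_le
      · refine (ae_restrict_mem measurableSet_uIoc).mono fun r hr => ?_
        rw [uIoc_of_le hs0] at hr
        rw [Real.norm_eq_abs, abs_mul, abs_mul, abs_of_nonneg (sq_nonneg r)]
        have h1 : |hf (2 * k) r| ≤ 6 / 5 * |hf (2 * k) 0| := by
          apply abs_hf_le_near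
          rw [abs_of_pos hr.1]; linarith [hr.2]
        have h2 := abs_sin_le_one (kap (2 * k) * (s - r))
        have h3 := sq_nonneg r
        calc r ^ 2 * |hf (2 * k) r| * |sin (kap (2 * k) * (s - r))|
            ≤ r ^ 2 * |hf (2 * k) r| * 1 := by gcongr
          _ = r ^ 2 * |hf (2 * k) r| := mul_one _
          _ ≤ r ^ 2 * (6 / 5 * |hf (2 * k) 0|) := by gcongr
          _ = _ := by ring
      · apply Continuous.intervalIntegrable
        fun_prop
    rw [← h, intervalIntegral.integral_const_mul, integral_pow, Real.norm_eq_abs, abs_mul,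
      abs_of_pos hk] at hb
    have e1 : |6 / 5 * |hf (2 * k) 0| * ((s ^ (2 + 1) - 0 ^ (2 + 1)) / (((2 : ℕ) : ℝ) + 1))| =
        2 / 5 * |hf (2 * k) 0| * s ^ 3 := by
      rw [abs_of_nonneg]
      · norm_num
        ring
      · norm_num
        positivity
    rw [e1] at hb
    rw [le_div_iff₀ hk, abs_of_nonneg hs0, mul_comm]
    exact hb
  rcases le_total 0 s with h | h
  · exact key s h (by rwa [abs_of_nonneg h] at hs)
  · have := key (-s) (by linarith) (by rwa [abs_of_nonpos h] at hs)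
    rw [hf_even, mul_neg, cos_neg, abs_neg] at this
    exact this

theorem tendsto_hf (m : ℕ) : Tendsto (hf m) atTop (𝓝 0) := by
  have h1 := (Polynomial.tendsto_div_exp_atTop (hP m)).norm
  rw [norm_zero] at h1
  apply squeeze_zero_norm' _ h1
  filter_upwards [eventually_ge_atTop (2 : ℝ)] with x hx
  unfold hf
  rw [norm_mul, norm_div]
  rw [div_eq_mul_inv]
  apply mul_le_mul_of_nonneg_left _ (norm_nonneg _)
  rw [Real.norm_of_nonneg (Real.exp_pos _).le, Real.norm_of_nonneg (Real.exp_pos _).le,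
    ← Real.exp_neg]
  apply Real.exp_le_exp.2
  nlinarith

theorem tendsto_hf_mul_dh (m : ℕ) : Tendsto (fun s => hf m s * dh m s) atTop (𝓝 0) := by
  unfold dh
  have h := (tendsto_hf m).mul (((tendsto_hf (m - 1)).const_mul √((m : ℝ) / 2)).sub
    ((tendsto_hf (m + 1)).const_mul √(((m : ℝ) + 1) / 2)))
  simpa using h

/-- beyond the turning point `h²` decreases -/
theorem hf_sq_antitone (m : ℕ) : AntitoneOn (fun s => hf m s ^ 2) (Ici (kap m)) := by
  have hP : ∀ s, HasDerivAt (fun s => hf m s * dh m s)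
      (dh m s ^ 2 + (s ^ 2 - kap m ^ 2) * hf m s ^ 2) s := fun s => by
    refine ((hasDerivAt_h m s).mul (hasDerivAt_dh m s)).congr_deriv ?_
    rw [kap_sq]; ring
  have hmono : MonotoneOn (fun s => hf m s * dh m s) (Ici (kap m)) := by
    apply monotoneOn_of_deriv_nonneg (convex_Ici _)
    · exact fun x _ => (hP x).continuousAt.continuousWithinAt
    · exact fun x _ => (hP x).differentiableAt.differentiableWithinAt
    · intro x hx
      rw [interior_Ici, mem_Ioi] at hx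
      rw [(hP x).deriv]
      have h1 : 0 ≤ x ^ 2 - kap m ^ 2 := by
        have := kap_pos m
        nlinarith
      positivity
  have hneg : ∀ s ∈ Ici (kap m), hf m s * dh m s ≤ 0 := by
    intro s hs
    refine ge_of_tendsto (tendsto_hf_mul_dh m) ?_
    filter_upwards [eventually_ge_atTop s] with t ht
    exact hmono hs (mem_Ici.2 (le_trans hs ht)) ht
  apply antitoneOn_of_deriv_nonpos (convex_Ici _)
  · exact fun x _ => ((hasDerivAt_h m x).pow 2).continuousAt.continuousWithinAt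
  · exact fun x _ => ((hasDerivAt_h m x).pow 2).differentiableAt.differentiableWithinAt
  · intro x hx
    rw [interior_Ici, mem_Ioi] at hx
    have h1 : HasDerivAt (fun s => hf m s ^ 2) _ x := (hasDerivAt_h m x).pow 2
    rw [h1.deriv]
    have := hneg x hx.le
    simp only [Nat.cast_ofNat, Nat.add_one_sub_one, pow_one]
    linarith

/-- global bound relative to the value at the origin -/
theorem abs_hf_le (k : ℕ) (s : ℝ) :
    |hf (2 * k) s| ≤ (1 + kap (2 * k) ^ 2) * |hf (2 * k) 0| := by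
  have hk := kap_pos (2 * k)
  have hd : ∀ s, 0 ≤ s → s ≤ kap (2 * k) → |dh (2 * k) s| ≤ kap (2 * k) * |hf (2 * k) 0| := by
    intro s h0 h1
    have h := En_le k h0
    have h2 : 0 ≤ kap (2 * k) ^ 2 - s ^ 2 := by nlinarith
    have h3 : dh (2 * k) s ^ 2 ≤ kap (2 * k) ^ 2 * hf (2 * k) 0 ^ 2 := by
      nlinarith [mul_nonneg h2 (sq_nonneg (hf (2 * k) s))]
    apply abs_le_of_sq_le_sq' _ (by positivity) |>.2
    rw [sq_abs, mul_pow, sq_abs]
    exact h3
  have key1 : ∀ s, 0 ≤ s → s ≤ kap (2 * k) →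
      |hf (2 * k) s| ≤ (1 + kap (2 * k) ^ 2) * |hf (2 * k) 0| := by
    intro s h0 h1
    have h2 : ‖hf (2 * k) s - hf (2 * k) 0‖ ≤ kap (2 * k) * |hf (2 * k) 0| * ‖s - 0‖ := by
      apply Convex.norm_image_sub_le_of_norm_hasDerivWithin_le (s := Icc 0 (kap (2 * k)))
        (f' := dh (2 * k)) (x := 0) (y := s)
      · exact fun x _ => (hasDerivAt_h (2 * k) x).hasDerivWithinAt
      · exact fun x hx => hd x hx.1 hx.2
      · exact convex_Icc _ _
      · exact ⟨le_rfl, hk.le⟩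
      · exact ⟨h0, h1⟩
    rw [sub_zero, Real.norm_eq_abs, Real.norm_eq_abs, abs_of_nonneg h0] at h2
    have h3 : |hf (2 * k) s| ≤ |hf (2 * k) s - hf (2 * k) 0| + |hf (2 * k) 0| := by
      have := abs_add_le (hf (2 * k) s - hf (2 * k) 0) (hf (2 * k) 0)
      simpa using this
    have h4 : kap (2 * k) * |hf (2 * k) 0| * s ≤ kap (2 * k) ^ 2 * |hf (2 * k) 0| := by
      have := abs_nonneg (hf (2 * k) 0)
      have : kap (2 * k) * |hf (2 * k) 0| * s ≤ kap (2 * k) * |hf (2 * k) 0| * kap (2 * k) := by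
        gcongr
      linarith
    linarith
  have key : ∀ s, 0 ≤ s → |hf (2 * k) s| ≤ (1 + kap (2 * k) ^ 2) * |hf (2 * k) 0| := by
    intro s h0
    rcases le_total s (kap (2 * k)) with h1 | h1
    · exact key1 s h0 h1
    · have h2 := hf_sq_antitone (2 * k) (mem_Ici.2 le_rfl) (mem_Ici.2 h1) h1
      have h3 := key1 (kap (2 * k)) hk.le le_rfl
      exact (sq_le_sq.1 h2).trans h3
  rcases le_total 0 s with h | h
  · exact key s h
  · rw [← hf_even]; exact key (-s) (by linarith)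

end Crest.Agent.R338.HK
end
end

-- ▼ part R338/HK3
section

/-!
Row 338 (S0529), node HK: Gaussian integrals of products of four Hermite functions of even index
(blueprint D.11).
-/

set_option autoImplicit false

open MeasureTheory Set Real Filter
open scoped Topology

noncomputable section
namespace Crest.Agent.R338.HK
open Crest.Agent.R338.HO

/-- `∫ e^{-2s²} cos(ω s) ds = √(π/2) e^{-ω²/8}` -/
theorem integral_gauss_cos (w : ℝ) :
    ∫ s : ℝ, Real.exp (-2 * s ^ 2) * cos (w * s) = √(π / 2) * Real.exp (-w ^ 2 / 8) := by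
  have h := fourierIntegral_gaussian (b := (2 : ℂ)) (by norm_num) (w : ℂ)
  have e1 : ∀ s : ℝ, Complex.exp (Complex.I * w * s) * Complex.exp (-2 * (s : ℂ) ^ 2) =
      ((Real.exp (-2 * s ^ 2) * cos (w * s) : ℝ) : ℂ) +
        ((Real.exp (-2 * s ^ 2) * sin (w * s) : ℝ) : ℂ) * Complex.I := by
    intro s
    have : Complex.I * w * s = ((w * s : ℝ) : ℂ) * Complex.I := by push_cast; ring
    rw [this, Complex.exp_mul_I]
    push_cast
    ring
  have i0 : Integrable (fun s : ℝ => Real.exp (-2 * s ^ 2)) := integrable_exp_neg_mul_sq (by norm_num)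
  have i1 : Integrable (fun s : ℝ => Real.exp (-2 * s ^ 2) * cos (w * s)) := by
    refine i0.mono' (by fun_prop) (Eventually.of_forall fun s => ?_)
    rw [norm_mul, Real.norm_of_nonneg (Real.exp_pos _).le]
    have := abs_cos_le_one (w * s)
    exact mul_le_of_le_one_right (Real.exp_pos _).le this
  have i2 : Integrable (fun s : ℝ => Real.exp (-2 * s ^ 2) * sin (w * s)) := by
    refine i0.mono' (by fun_prop) (Eventually.of_forall fun s => ?_)
    rw [norm_mul, Real.norm_of_nonneg (Real.exp_pos _).le]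
    have := abs_sin_le_one (w * s)
    exact mul_le_of_le_one_right (Real.exp_pos _).le this
  have e2 : ∫ s : ℝ, Complex.exp (Complex.I * w * s) * Complex.exp (-2 * (s : ℂ) ^ 2) =
      ((∫ s : ℝ, Real.exp (-2 * s ^ 2) * cos (w * s) : ℝ) : ℂ) +
        ((∫ s : ℝ, Real.exp (-2 * s ^ 2) * sin (w * s) : ℝ) : ℂ) * Complex.I := by
    simp_rw [e1]
    rw [integral_add i1.ofReal (i2.ofReal.mul_const _), integral_mul_const]
    congr 1
    · exact integral_complex_ofReal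
    · congr 1
      exact integral_complex_ofReal
  rw [e2] at h
  have h2 : ((π : ℂ) / 2) ^ (1 / 2 : ℂ) * Complex.exp (-(w : ℂ) ^ 2 / (4 * 2)) =
      ((√(π / 2) * Real.exp (-w ^ 2 / 8) : ℝ) : ℂ) := by
    have : ((π : ℂ) / 2) ^ (1 / 2 : ℂ) = ((√(π / 2) : ℝ) : ℂ) := by
      rw [Real.sqrt_eq_rpow, Complex.ofReal_cpow (by positivity)]
      push_cast
      rfl
    rw [this]
    push_cast
    congr 2
    ring
  rw [h2] at h
  have h3 := congrArg Complex.re h
  simp only [Complex.add_re, Complex.ofReal_re, Complex.mul_re, Complex.I_re, Complex.ofReal_im,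
    Complex.I_im] at h3
  linarith

theorem integrable_gauss_cos (w : ℝ) : Integrable (fun s : ℝ => Real.exp (-2 * s ^ 2) * cos (w * s)) := by
  have i0 : Integrable (fun s : ℝ => Real.exp (-2 * s ^ 2)) := integrable_exp_neg_mul_sq (by norm_num)
  refine i0.mono' (by fun_prop) (Eventually.of_forall fun s => ?_)
  rw [norm_mul, Real.norm_of_nonneg (Real.exp_pos _).le]
  have := abs_cos_le_one (w * s)
  exact mul_le_of_le_one_right (Real.exp_pos _).le this

/-- `J(κ) = ∫ e^{-2s²} ∏ cos(κ_a s) ds` -/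
def J4 (a b c d : ℝ) : ℝ :=
  ∫ s : ℝ, Real.exp (-2 * s ^ 2) * (cos (a * s) * cos (b * s) * cos (c * s) * cos (d * s))

theorem cos4 (a b c d s : ℝ) : cos (a * s) * cos (b * s) * cos (c * s) * cos (d * s) =
    1 / 8 * (cos ((a + b + c + d) * s) + cos ((a + b + c - d) * s) + cos ((a + b - c + d) * s) +
      cos ((a + b - c - d) * s) + cos ((a - b + c + d) * s) + cos ((a - b + c - d) * s) +
      cos ((a - b - c + d) * s) + cos ((a - b - c - d) * s)) := by
  have h : ∀ x y : ℝ, cos x * cos y = (cos (x + y) + cos (x - y)) / 2 := fun x y => by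
    rw [cos_add, cos_sub]; ring
  have e1 : cos (a * s) * cos (b * s) = (cos ((a + b) * s) + cos ((a - b) * s)) / 2 := by
    rw [h]; ring_nf
  have e2 : ∀ x, cos (x * s) * cos (c * s) = (cos ((x + c) * s) + cos ((x - c) * s)) / 2 := fun x => by
    rw [h]; ring_nf
  have e3 : ∀ x, cos (x * s) * cos (d * s) = (cos ((x + d) * s) + cos ((x - d) * s)) / 2 := fun x => by
    rw [h]; ring_nf
  rw [e1, div_mul_eq_mul_div, add_mul, e2, e2]
  rw [div_mul_eq_mul_div]
  have e4 : ((cos ((a + b + c) * s) + cos ((a + b - c) * s)) / 2 +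
      (cos ((a - b + c) * s) + cos ((a - b - c) * s)) / 2) * cos (d * s) =
      (cos ((a + b + c) * s) * cos (d * s) + cos ((a + b - c) * s) * cos (d * s)) / 2 +
      (cos ((a - b + c) * s) * cos (d * s) + cos ((a - b - c) * s) * cos (d * s)) / 2 := by ring
  rw [e4, e3, e3, e3, e3]
  ring

/-- `g(ω) = √(π/2) e^{-ω²/8}` -/
def gω (w : ℝ) : ℝ := √(π / 2) * Real.exp (-w ^ 2 / 8)

theorem gω_pos (w : ℝ) : 0 < gω w := by
  unfold gω
  have : 0 < √(π / 2) := Real.sqrt_pos.2 (by positivity)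
  positivity

theorem J4_eq (a b c d : ℝ) : J4 a b c d =
    1 / 8 * (gω (a + b + c + d) + gω (a + b + c - d) + gω (a + b - c + d) + gω (a + b - c - d) +
      gω (a - b + c + d) + gω (a - b + c - d) + gω (a - b - c + d) + gω (a - b - c - d)) := by
  have e : ∀ s : ℝ, Real.exp (-2 * s ^ 2) * (cos (a * s) * cos (b * s) * cos (c * s) * cos (d * s)) =
      1 / 8 * ∑ i : Fin 8, Real.exp (-2 * s ^ 2) * cos (![a + b + c + d, a + b + c - d,
        a + b - c + d, a + b - c - d, a - b + c + d, a - b + c - d, a - b - c + d,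
        a - b - c - d] i * s) := fun s => by
    rw [cos4, Fin.sum_univ_eight]
    simp only [Matrix.cons_val]
    ring
  unfold J4
  simp_rw [e]
  rw [integral_const_mul, integral_finsetSum _ fun i _ => integrable_gauss_cos _]
  simp only [integral_gauss_cos]
  rw [Fin.sum_univ_eight]
  simp only [Matrix.cons_val]
  rfl

theorem gω_le {w t : ℝ} (ht : 0 ≤ t) (h : t ≤ |w|) : gω w ≤ √(π / 2) * Real.exp (-t ^ 2 / 8) := by
  unfold gω
  apply mul_le_mul_of_nonneg_left _ (Real.sqrt_nonneg _)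
  apply Real.exp_le_exp.2
  have : t ^ 2 ≤ w ^ 2 := by
    rw [← sq_abs w]; exact pow_le_pow_left₀ ht h 2
  linarith

theorem gω_zero : gω 0 = √(π / 2) := by simp [gω]

/-- lower bound for the resonant case -/
theorem J4_diag_ge (a b : ℝ) : √(π / 2) / 4 ≤ J4 a b a b := by
  rw [J4_eq]
  have e1 : a + b - a - b = 0 := by ring
  have e2 : a - b - a + b = 0 := by ring
  rw [e1, e2, gω_zero]
  have p := fun w => (gω_pos w).le
  have := p (a + b + a + b)
  have := p (a + b + a - b)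
  have := p (a + b - a + b)
  have := p (a - b + a + b)
  have := p (a - b + a - b)
  have := p (a - b - a - b)
  linarith

theorem J4_nonneg (a b c d : ℝ) : 0 ≤ J4 a b c d := by
  rw [J4_eq]
  have p := fun w => (gω_pos w).le
  have := p (a + b + c + d)
  have := p (a + b + c - d)
  have := p (a + b - c + d)
  have := p (a + b - c - d)
  have := p (a - b + c + d)
  have := p (a - b + c - d)
  have := p (a - b - c + d)
  have := p (a - b - c - d)
  linarith

theorem J4_le_one (a b c d : ℝ) : J4 a b c d ≤ √(π / 2) := by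
  rw [J4_eq]
  have p : ∀ w, gω w ≤ √(π / 2) := fun w => by
    have := gω_le (w := w) le_rfl (abs_nonneg w)
    simpa using this
  have := p (a + b + c + d)
  have := p (a + b + c - d)
  have := p (a + b - c + d)
  have := p (a + b - c - d)
  have := p (a - b + c + d)
  have := p (a - b + c - d)
  have := p (a - b - c + d)
  have := p (a - b - c - d)
  linarith

/-- all eight signed sums are at least `t` in absolute value -/
def Sep (t a b c d : ℝ) : Prop :=
  t ≤ |a + b + c + d| ∧ t ≤ |a + b + c - d| ∧ t ≤ |a + b - c + d| ∧ t ≤ |a + b - c - d| ∧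
  t ≤ |a - b + c + d| ∧ t ≤ |a - b + c - d| ∧ t ≤ |a - b - c + d| ∧ t ≤ |a - b - c - d|

theorem J4_le_of_sep {t a b c d : ℝ} (ht : 0 ≤ t) (h : Sep t a b c d) :
    J4 a b c d ≤ √(π / 2) * Real.exp (-t ^ 2 / 8) := by
  rw [J4_eq]
  obtain ⟨h1, h2, h3, h4, h5, h6, h7, h8⟩ := h
  have := gω_le ht h1
  have := gω_le ht h2
  have := gω_le ht h3
  have := gω_le ht h4
  have := gω_le ht h5
  have := gω_le ht h6
  have := gω_le ht h7
  have := gω_le ht h8
  linarith

/-- `∫ e^{-2s²} h_a h_b h_c h_d` -/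
def GI (a b c d : ℕ) : ℝ :=
  ∫ s : ℝ, Real.exp (-2 * s ^ 2) * (hf a s * hf b s * hf c s * hf d s)

theorem GI_integrable (a b c d : ℕ) :
    Integrable (fun s : ℝ => Real.exp (-2 * s ^ 2) * (hf a s * hf b s * hf c s * hf d s)) := by
  have h := integrable_poly_gauss (hP a * hP b * hP c * hP d) (b := 4) (by norm_num)
  refine h.congr (Eventually.of_forall fun s => ?_)
  simp only [Polynomial.eval_mul, hf]
  have : Real.exp (-4 * s ^ 2) = Real.exp (-2 * s ^ 2) * (Real.exp (-(s ^ 2) / 2) *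
      Real.exp (-(s ^ 2) / 2) * Real.exp (-(s ^ 2) / 2) * Real.exp (-(s ^ 2) / 2)) := by
    rw [← Real.exp_add, ← Real.exp_add, ← Real.exp_add, ← Real.exp_add]
    congr 1; ring
  rw [this]; ring

theorem tele4 {x1 x2 x3 x4 c1 c2 c3 c4 e : ℝ} (hx2 : |x2| ≤ 6 / 5)
    (hx3 : |x3| ≤ 6 / 5) (hx4 : |x4| ≤ 6 / 5) (h1 : |c1| ≤ 1) (h2 : |c2| ≤ 1) (h3 : |c3| ≤ 1)
    (e1 : |x1 - c1| ≤ e) (e2 : |x2 - c2| ≤ e) (e3 : |x3 - c3| ≤ e)
    (e4 : |x4 - c4| ≤ e) : |x1 * x2 * x3 * x4 - c1 * c2 * c3 * c4| ≤ 6 * e := by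
  have he : 0 ≤ e := (abs_nonneg _).trans e1
  have h : x1 * x2 * x3 * x4 - c1 * c2 * c3 * c4 = (x1 - c1) * x2 * x3 * x4 +
      c1 * (x2 - c2) * x3 * x4 + c1 * c2 * (x3 - c3) * x4 + c1 * c2 * c3 * (x4 - c4) := by ring
  rw [h]
  have b1 : |(x1 - c1) * x2 * x3 * x4| ≤ e * (6 / 5) * (6 / 5) * (6 / 5) := by
    simp only [abs_mul]; gcongr
  have b2 : |c1 * (x2 - c2) * x3 * x4| ≤ 1 * e * (6 / 5) * (6 / 5) := by
    simp only [abs_mul]; gcongr
  have b3 : |c1 * c2 * (x3 - c3) * x4| ≤ 1 * 1 * e * (6 / 5) := by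
    simp only [abs_mul]; gcongr
  have b4 : |c1 * c2 * c3 * (x4 - c4)| ≤ 1 * 1 * 1 * e := by
    simp only [abs_mul]; gcongr
  have := abs_add_le ((x1 - c1) * x2 * x3 * x4 + c1 * (x2 - c2) * x3 * x4 +
    c1 * c2 * (x3 - c3) * x4) (c1 * c2 * c3 * (x4 - c4))
  have := abs_add_le ((x1 - c1) * x2 * x3 * x4 + c1 * (x2 - c2) * x3 * x4)
    (c1 * c2 * (x3 - c3) * x4)
  have := abs_add_le ((x1 - c1) * x2 * x3 * x4) (c1 * (x2 - c2) * x3 * x4)
  linarith

end Crest.Agent.R338.HK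
end
end

-- ▼ part R338/HK4

/-!
Row 338 (S0529), node HK: `∫ e^{-2s²} h_a h_b h_c h_d = ∏ h(0) (J(κ_a, κ_b, κ_c, κ_d) + O(1/κ))`.
-/

set_option autoImplicit false

open MeasureTheory Set Real Filter
open scoped Topology

noncomputable section
namespace Crest.Agent.R338.HK
open Crest.Agent.R338.HO

theorem exp_bound {t : ℝ} (ht : 1 ≤ t) : t ^ 8 * Real.exp (-t ^ 2 / 4) ≤ 122880 / t := by
  have h := Real.pow_div_factorial_le_exp (t ^ 2 / 4) (by positivity) 5
  have e1 : Real.exp (-t ^ 2 / 4) = 1 / Real.exp (t ^ 2 / 4) := by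
    rw [one_div, ← Real.exp_neg]; congr 1; ring
  have hf : ((Nat.factorial 5 : ℕ) : ℝ) = 120 := by norm_num [Nat.factorial]
  rw [hf] at h
  have h2 : t ^ 10 ≤ 122880 * Real.exp (t ^ 2 / 4) := by
    have : (t ^ 2 / 4) ^ 5 / 120 = t ^ 10 / 122880 := by ring
    rw [this] at h
    rw [div_le_iff₀ (by norm_num)] at h
    linarith
  have h3 : t ^ 9 ≤ t ^ 10 := pow_le_pow_right₀ ht (by norm_num)
  have ht0 : 0 < t := by linarith
  rw [e1, mul_one_div, div_le_div_iff₀ (Real.exp_pos _) ht0]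
  calc t ^ 8 * t = t ^ 9 := by ring
    _ ≤ _ := h3.trans h2

/-- relative values -/
def rl (k : ℕ) (s : ℝ) : ℝ := hf (2 * k) s / hf (2 * k) 0

theorem rl_near {k : ℕ} {s t : ℝ} (h : t ≤ kap (2 * k)) (hs : |s| ≤ t / 2) : |rl k s| ≤ 6 / 5 := by
  unfold rl
  rw [abs_div, div_le_iff₀ (abs_pos.2 (hf_zero_ne k))]
  exact abs_hf_le_near k (by linarith)

theorem rl_cos {k : ℕ} {s t : ℝ} (ht : 0 < t) (h : t ≤ kap (2 * k)) (hs : |s| ≤ t / 2) :
    |rl k s - cos (kap (2 * k) * s)| ≤ 2 / 5 * |s| ^ 3 / t := by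
  have h0 := abs_pos.2 (hf_zero_ne k)
  have h1 := abs_sub_cos_le k (s := s) (by linarith)
  have e : rl k s - cos (kap (2 * k) * s) =
      (hf (2 * k) s - hf (2 * k) 0 * cos (kap (2 * k) * s)) / hf (2 * k) 0 := by
    unfold rl
    field_simp [hf_zero_ne k]
  rw [e, abs_div, div_le_iff₀ h0]
  refine h1.trans ?_
  have h2 : 2 / 5 * |hf (2 * k) 0| * |s| ^ 3 / kap (2 * k) ≤
      2 / 5 * |hf (2 * k) 0| * |s| ^ 3 / t := by
    apply div_le_div_of_nonneg_left (by positivity) ht h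
  refine h2.trans (le_of_eq ?_)
  ring

theorem rl_far {k : ℕ} {t : ℝ} (ht : 1 ≤ t) (h : kap (2 * k) ≤ 2 * t) (s : ℝ) :
    |rl k s| ≤ 5 * t ^ 2 := by
  unfold rl
  rw [abs_div, div_le_iff₀ (abs_pos.2 (hf_zero_ne k))]
  refine (abs_hf_le k s).trans ?_
  gcongr
  have hk := kap_pos (2 * k)
  nlinarith

theorem cube_le_exp (s : ℝ) : |s| ^ 3 ≤ Real.exp (s ^ 2) := by
  have h := Real.quadratic_le_exp_of_nonneg (sq_nonneg s)
  have e : s ^ 2 = |s| ^ 2 := (sq_abs s).symm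
  refine le_trans ?_ h
  rw [e]
  have := abs_nonneg s
  nlinarith [sq_nonneg (|s| ^ 2 - |s|), sq_nonneg (|s|), pow_nonneg this 3, sq_nonneg (|s| ^ 2)]

theorem point_bound {k1 k2 k3 k4 : ℕ} {t : ℝ} (ht : 1 ≤ t)
    (h1 : t ≤ kap (2 * k1)) (h2 : t ≤ kap (2 * k2)) (h3 : t ≤ kap (2 * k3)) (h4 : t ≤ kap (2 * k4))
    (g1 : kap (2 * k1) ≤ 2 * t) (g2 : kap (2 * k2) ≤ 2 * t) (g3 : kap (2 * k3) ≤ 2 * t)
    (g4 : kap (2 * k4) ≤ 2 * t) (s : ℝ) :
    Real.exp (-2 * s ^ 2) * |rl k1 s * rl k2 s * rl k3 s * rl k4 s -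
      cos (kap (2 * k1) * s) * cos (kap (2 * k2) * s) * cos (kap (2 * k3) * s) *
        cos (kap (2 * k4) * s)| ≤ 160000000 / t * Real.exp (-s ^ 2) := by
  have ht0 : 0 < t := by linarith
  rcases le_total |s| (t / 2) with hs | hs
  · have hb := tele4 (rl_near h2 hs) (rl_near h3 hs) (rl_near h4 hs) (abs_cos_le_one _)
      (abs_cos_le_one _) (abs_cos_le_one _) (rl_cos ht0 h1 hs) (rl_cos ht0 h2 hs)
      (rl_cos ht0 h3 hs) (rl_cos ht0 h4 hs)
    have e : Real.exp (-2 * s ^ 2) = Real.exp (-s ^ 2) * Real.exp (-s ^ 2) := by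
      rw [← Real.exp_add]; congr 1; ring
    have hc := cube_le_exp s
    have hc2 : |s| ^ 3 * Real.exp (-s ^ 2) ≤ 1 := by
      rw [Real.exp_neg, ← div_eq_mul_inv, div_le_one (Real.exp_pos _)]
      exact hc
    calc _ ≤ Real.exp (-2 * s ^ 2) * (6 * (2 / 5 * |s| ^ 3 / t)) := by gcongr
      _ = 12 / 5 / t * (|s| ^ 3 * Real.exp (-s ^ 2)) * Real.exp (-s ^ 2) := by rw [e]; ring
      _ ≤ 12 / 5 / t * 1 * Real.exp (-s ^ 2) := by gcongr
      _ ≤ 160000000 / t * 1 * Real.exp (-s ^ 2) := by gcongr; norm_num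
      _ = _ := by ring
  · have f1 := rl_far ht g1 s
    have f2 := rl_far ht g2 s
    have f3 := rl_far ht g3 s
    have f4 := rl_far ht g4 s
    have hx : |rl k1 s * rl k2 s * rl k3 s * rl k4 s| ≤ 625 * t ^ 8 := by
      simp only [abs_mul]
      calc |rl k1 s| * |rl k2 s| * |rl k3 s| * |rl k4 s| ≤
          (5 * t ^ 2) * (5 * t ^ 2) * (5 * t ^ 2) * (5 * t ^ 2) := by gcongr
        _ = _ := by ring
    have hc : |cos (kap (2 * k1) * s) * cos (kap (2 * k2) * s) * cos (kap (2 * k3) * s) *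
        cos (kap (2 * k4) * s)| ≤ 1 := by
      simp only [abs_mul]
      calc _ ≤ (1 : ℝ) * 1 * 1 * 1 := by
            gcongr <;> exact abs_cos_le_one _
        _ = 1 := by norm_num
    have ht8 : 1 ≤ t ^ 8 := one_le_pow₀ ht
    have hd : |rl k1 s * rl k2 s * rl k3 s * rl k4 s -
      cos (kap (2 * k1) * s) * cos (kap (2 * k2) * s) * cos (kap (2 * k3) * s) *
        cos (kap (2 * k4) * s)| ≤ 1250 * t ^ 8 := by
      refine (abs_sub _ _).trans ?_
      linarith
    have e : Real.exp (-2 * s ^ 2) ≤ Real.exp (-t ^ 2 / 4) * Real.exp (-s ^ 2) := by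
      rw [← Real.exp_add]
      apply Real.exp_le_exp.2
      have : (t / 2) ^ 2 ≤ s ^ 2 := by
        rw [← sq_abs s]; gcongr
      linarith
    have hb := exp_bound ht
    calc _ ≤ (Real.exp (-t ^ 2 / 4) * Real.exp (-s ^ 2)) * (1250 * t ^ 8) := by gcongr
      _ = 1250 * (t ^ 8 * Real.exp (-t ^ 2 / 4)) * Real.exp (-s ^ 2) := by ring
      _ ≤ 1250 * (122880 / t) * Real.exp (-s ^ 2) := by gcongr
      _ = 153600000 / t * Real.exp (-s ^ 2) := by ring
      _ ≤ 160000000 / t * Real.exp (-s ^ 2) := by gcongr; norm_num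

/-- product of the values at the origin -/
def P4 (k1 k2 k3 k4 : ℕ) : ℝ := hf (2 * k1) 0 * hf (2 * k2) 0 * hf (2 * k3) 0 * hf (2 * k4) 0

theorem P4_ne (k1 k2 k3 k4 : ℕ) : P4 k1 k2 k3 k4 ≠ 0 := by
  unfold P4
  have := hf_zero_ne
  exact mul_ne_zero (mul_ne_zero (mul_ne_zero (this _) (this _)) (this _)) (this _)

theorem GI_approx {k1 k2 k3 k4 : ℕ} {t : ℝ} (ht : 1 ≤ t)
    (h1 : t ≤ kap (2 * k1)) (h2 : t ≤ kap (2 * k2)) (h3 : t ≤ kap (2 * k3)) (h4 : t ≤ kap (2 * k4))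
    (g1 : kap (2 * k1) ≤ 2 * t) (g2 : kap (2 * k2) ≤ 2 * t) (g3 : kap (2 * k3) ≤ 2 * t)
    (g4 : kap (2 * k4) ≤ 2 * t) :
    |GI (2 * k1) (2 * k2) (2 * k3) (2 * k4) / P4 k1 k2 k3 k4 -
      J4 (kap (2 * k1)) (kap (2 * k2)) (kap (2 * k3)) (kap (2 * k4))| ≤ 320000000 / t := by
  have ht0 : 0 < t := by linarith
  have e1 : GI (2 * k1) (2 * k2) (2 * k3) (2 * k4) / P4 k1 k2 k3 k4 =
      ∫ s : ℝ, Real.exp (-2 * s ^ 2) * (rl k1 s * rl k2 s * rl k3 s * rl k4 s) := by
    unfold GI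
    rw [← integral_div]
    congr 1
    ext s
    unfold rl P4
    have n1 := hf_zero_ne k1
    have n2 := hf_zero_ne k2
    have n3 := hf_zero_ne k3
    have n4 := hf_zero_ne k4
    field_simp
  have i1 : Integrable (fun s : ℝ => Real.exp (-2 * s ^ 2) * (rl k1 s * rl k2 s * rl k3 s * rl k4 s)) := by
    refine ((GI_integrable (2 * k1) (2 * k2) (2 * k3) (2 * k4)).div_const (P4 k1 k2 k3 k4)).congr
      (Eventually.of_forall fun s => ?_)
    unfold rl P4
    have n1 := hf_zero_ne k1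
    have n2 := hf_zero_ne k2
    have n3 := hf_zero_ne k3
    have n4 := hf_zero_ne k4
    field_simp
  have i0 : Integrable (fun s : ℝ => Real.exp (-2 * s ^ 2)) := integrable_exp_neg_mul_sq (by norm_num)
  have i2 : Integrable (fun s : ℝ => Real.exp (-2 * s ^ 2) * (cos (kap (2 * k1) * s) *
      cos (kap (2 * k2) * s) * cos (kap (2 * k3) * s) * cos (kap (2 * k4) * s))) := by
    refine i0.mono' (by fun_prop) (Eventually.of_forall fun s => ?_)
    rw [norm_mul, Real.norm_of_nonneg (Real.exp_pos _).le]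
    refine mul_le_of_le_one_right (Real.exp_pos _).le ?_
    rw [Real.norm_eq_abs]
    simp only [abs_mul]
    calc _ ≤ (1 : ℝ) * 1 * 1 * 1 := by
          gcongr <;> exact abs_cos_le_one _
      _ = 1 := by norm_num
  rw [e1, J4, ← integral_sub i1 i2, ← Real.norm_eq_abs]
  have i3 : Integrable (fun s : ℝ => 160000000 / t * Real.exp (-s ^ 2)) := by
    have := integrable_exp_neg_mul_sq (b := 1) (by norm_num)
    refine (this.const_mul (160000000 / t)).congr (Eventually.of_forall fun s => ?_)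
    simp
  refine (norm_integral_le_of_norm_le i3 (Eventually.of_forall fun s => ?_)).trans ?_
  · rw [← mul_sub, norm_mul, Real.norm_of_nonneg (Real.exp_pos _).le, Real.norm_eq_abs]
    exact point_bound ht h1 h2 h3 h4 g1 g2 g3 g4 s
  · rw [integral_const_mul]
    have : ∫ s : ℝ, Real.exp (-s ^ 2) = √π := by
      have := integral_gaussian 1
      simpa using this
    rw [this]
    have hp : √π ≤ 2 := by
      rw [Real.sqrt_le_left (by norm_num)]
      linarith [Real.pi_lt_four]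
    calc 160000000 / t * √π ≤ 160000000 / t * 2 := by gcongr
      _ = _ := by ring

/-- lower bound for the resonant integrals -/
theorem GI_diag_ge {k1 k2 : ℕ} {t : ℝ} (ht : 1 ≤ t) (h1 : t ≤ kap (2 * k1)) (h2 : t ≤ kap (2 * k2))
    (g1 : kap (2 * k1) ≤ 2 * t) (g2 : kap (2 * k2) ≤ 2 * t) :
    (3 / 10 - 320000000 / t) * P4 k1 k2 k1 k2 ≤ GI (2 * k1) (2 * k2) (2 * k1) (2 * k2) := by
  have h := GI_approx ht h1 h2 h1 h2 g1 g2 g1 g2
  have hJ := J4_diag_ge (kap (2 * k1)) (kap (2 * k2))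
  have hP : 0 < P4 k1 k2 k1 k2 := by
    unfold P4
    have n1 := hf_zero_ne k1
    have n2 := hf_zero_ne k2
    have : hf (2 * k1) 0 * hf (2 * k2) 0 * hf (2 * k1) 0 * hf (2 * k2) 0 =
      (hf (2 * k1) 0 * hf (2 * k2) 0) ^ 2 := by ring
    rw [this]
    positivity
  have hs : (6 / 5 : ℝ) ≤ √(π / 2) := by
    apply Real.le_sqrt_of_sq_le
    linarith [Real.pi_gt_d2]
  rw [abs_le] at h
  have h3 : 3 / 10 - 320000000 / t ≤ GI (2 * k1) (2 * k2) (2 * k1) (2 * k2) / P4 k1 k2 k1 k2 := by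
    linarith [h.1]
  rwa [le_div_iff₀ hP] at h3

/-- upper bound in general -/
theorem GI_le {k1 k2 k3 k4 : ℕ} {t : ℝ} (ht : 1 ≤ t)
    (h1 : t ≤ kap (2 * k1)) (h2 : t ≤ kap (2 * k2)) (h3 : t ≤ kap (2 * k3)) (h4 : t ≤ kap (2 * k4))
    (g1 : kap (2 * k1) ≤ 2 * t) (g2 : kap (2 * k2) ≤ 2 * t) (g3 : kap (2 * k3) ≤ 2 * t)
    (g4 : kap (2 * k4) ≤ 2 * t) :
    |GI (2 * k1) (2 * k2) (2 * k3) (2 * k4)| ≤ (2 + 320000000 / t) * |P4 k1 k2 k3 k4| := by
  have h := GI_approx ht h1 h2 h3 h4 g1 g2 g3 g4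
  have hP := abs_pos.2 (P4_ne k1 k2 k3 k4)
  have hJ := J4_le_one (kap (2 * k1)) (kap (2 * k2)) (kap (2 * k3)) (kap (2 * k4))
  have hJ0 := J4_nonneg (kap (2 * k1)) (kap (2 * k2)) (kap (2 * k3)) (kap (2 * k4))
  have hs : √(π / 2) ≤ 2 := by
    rw [Real.sqrt_le_left (by norm_num)]
    linarith [Real.pi_lt_four]
  rw [← div_le_iff₀ hP, ← abs_div]
  rw [abs_le] at h ⊢
  constructor <;> linarith [h.1, h.2]

/-- upper bound in the separated case -/
theorem GI_le_sep {k1 k2 k3 k4 : ℕ} {t K : ℝ} (ht : 1 ≤ t) (hK : 1 ≤ K) (hKt : K ≤ t)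
    (h1 : t ≤ kap (2 * k1)) (h2 : t ≤ kap (2 * k2)) (h3 : t ≤ kap (2 * k3)) (h4 : t ≤ kap (2 * k4))
    (g1 : kap (2 * k1) ≤ 2 * t) (g2 : kap (2 * k2) ≤ 2 * t) (g3 : kap (2 * k3) ≤ 2 * t)
    (g4 : kap (2 * k4) ≤ 2 * t)
    (hS : Sep K (kap (2 * k1)) (kap (2 * k2)) (kap (2 * k3)) (kap (2 * k4))) :
    |GI (2 * k1) (2 * k2) (2 * k3) (2 * k4)| ≤ 320000016 / K * |P4 k1 k2 k3 k4| := by
  have h := GI_approx ht h1 h2 h3 h4 g1 g2 g3 g4
  have hP := abs_pos.2 (P4_ne k1 k2 k3 k4)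
  have hK0 : 0 < K := by linarith
  have hJ := J4_le_of_sep hK0.le hS
  have hJ0 := J4_nonneg (kap (2 * k1)) (kap (2 * k2)) (kap (2 * k3)) (kap (2 * k4))
  have hs : √(π / 2) ≤ 2 := by
    rw [Real.sqrt_le_left (by norm_num)]
    linarith [Real.pi_lt_four]
  have he : Real.exp (-K ^ 2 / 8) ≤ 8 / K := by
    have h5 := Real.add_one_le_exp (K ^ 2 / 8)
    have e1 : Real.exp (-K ^ 2 / 8) = 1 / Real.exp (K ^ 2 / 8) := by
      rw [one_div, ← Real.exp_neg]; congr 1; ring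
    rw [e1, div_le_div_iff₀ (Real.exp_pos _) hK0]
    nlinarith
  have h6 : √(π / 2) * Real.exp (-K ^ 2 / 8) ≤ 2 * (8 / K) := by gcongr
  have h7 : 320000000 / t ≤ 320000000 / K := by gcongr
  rw [← div_le_iff₀ hP, ← abs_div]
  have e2 : 320000016 / K = 320000000 / K + 2 * (8 / K) := by ring
  rw [e2]
  rw [abs_le] at h ⊢
  constructor <;> linarith [h.1, h.2]

end Crest.Agent.R338.HK
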