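import Crest.Agent.R338.HK4
import Crest.Agent.R338.Bridge

-- ▼ part R338/HK5
section

/-!
Row 338 (S0529), node HK: the site frequencies: windows and separation (Sidon property).
-/

set_option autoImplicit false

open MeasureTheory Set Real Filter
open scoped Topology

noncomputable section
namespace Crest.Agent.R338.HK
open Crest.Agent.R338 (Yn nu mi n0' site vhop Mhop w1 Idx)

theorem Yn_pos {n : ℕ} (hn : 0 < n) : 0 < Yn n := by unfold Yn; positivity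

theorem le_nu (n i : ℕ) : Yn n ≤ nu n i := by unfold nu; omega

theorem nu_le {n i : ℕ} (hi : i < n) : 4 * nu n i ≤ 5 * Yn n := by
  unfold nu Yn
  nlinarith [Nat.mul_le_mul_left (n ^ 2) (Nat.succ_le_of_lt hi), Nat.mul_le_mul hi.le hi.le,
    Nat.mul_le_mul_left (16 * n ^ 2) hi.le, sq_nonneg (n : ℤ)]

/-- Sidon property -/
theorem nu_sidon {n i j k l : ℕ} (hi : i < n) (hj : j < n) (hk : k < n) (hl : l < n)
    (h : nu n i + nu n j = nu n k + nu n l) : (i = k ∧ j = l) ∨ (i = l ∧ j = k) := by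
  have h1 : 4 * n ^ 2 * (i + j) + (i ^ 2 + j ^ 2) = 4 * n ^ 2 * (k + l) + (k ^ 2 + l ^ 2) := by
    unfold nu at h; linarith
  have b1 : i ^ 2 + j ^ 2 < 4 * n ^ 2 := by nlinarith
  have b2 : k ^ 2 + l ^ 2 < 4 * n ^ 2 := by nlinarith
  have hs : i + j = k + l := by
    by_contra hne
    rcases Nat.lt_or_gt_of_ne hne with hlt | hlt
    · have : 4 * n ^ 2 * (i + j + 1) ≤ 4 * n ^ 2 * (k + l) := Nat.mul_le_mul_left _ hlt
      nlinarith
    · have : 4 * n ^ 2 * (k + l + 1) ≤ 4 * n ^ 2 * (i + j) := Nat.mul_le_mul_left _ hlt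
      nlinarith
  have hq : i ^ 2 + j ^ 2 = k ^ 2 + l ^ 2 := by rw [hs] at h1; omega
  have hp : ((i : ℤ) - k) * ((i : ℤ) - l) = 0 := by
    have e1 : (i : ℤ) + j = k + l := by exact_mod_cast hs
    have e2 : (i : ℤ) ^ 2 + j ^ 2 = k ^ 2 + l ^ 2 := by exact_mod_cast hq
    have e3 : (j : ℤ) = k + l - i := by linarith
    rw [e3] at e2
    nlinarith
  rcases mul_eq_zero.1 hp with h0 | h0
  · left; constructor <;> omega
  · right; constructor <;> omega

/-- half of `m_i` -/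
def ki (n k i : ℕ) : ℕ := (k ^ 3 * nu n i) ^ 2

/-- half of `m'_i = n0 - m_i` -/
def ki' (n k i : ℕ) : ℕ := (k ^ 3) ^ 2 * (8 * Yn n ^ 2 - nu n i ^ 2)

theorem mi_eq (n k i : ℕ) : mi n k i = 2 * ki n k i := rfl

theorem nu_sq_le {n i : ℕ} (hi : i < n) : 16 * nu n i ^ 2 ≤ 25 * Yn n ^ 2 := by
  have h := nu_le hi
  have h2 : (4 * nu n i) ^ 2 ≤ (5 * Yn n) ^ 2 := Nat.pow_le_pow_left h 2
  nlinarith

theorem mi'_eq (n k : ℕ) {i : ℕ} (hi : i < n) : n0' n k - mi n k i = 2 * ki' n k i := by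
  unfold n0' mi ki'
  have h4 : nu n i ^ 2 ≤ 8 * Yn n ^ 2 := by have := nu_sq_le hi; omega
  obtain ⟨d, hd⟩ := Nat.exists_eq_add_of_le h4
  have e : 8 * Yn n ^ 2 - nu n i ^ 2 = d := by omega
  rw [e]
  have : 16 * (k ^ 3) ^ 2 * Yn n ^ 2 = 2 * (k ^ 3 * nu n i) ^ 2 + 2 * ((k ^ 3) ^ 2 * d) := by
    calc 16 * (k ^ 3) ^ 2 * Yn n ^ 2 = 2 * (k ^ 3) ^ 2 * (8 * Yn n ^ 2) := by ring
      _ = 2 * (k ^ 3) ^ 2 * (nu n i ^ 2 + d) := by rw [hd]
      _ = _ := by ring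
  omega

/-- `t = 2 K Y` -/
def tS (n k : ℕ) : ℝ := 2 * (k : ℝ) ^ 3 * Yn n

theorem one_le_Yn {n : ℕ} (hn : 0 < n) : (1 : ℝ) ≤ Yn n := by
  have := Yn_pos hn
  exact_mod_cast this

theorem le_tS {n k : ℕ} (hn : 0 < n) (hk : 0 < k) : (k : ℝ) ^ 3 ≤ tS n k := by
  unfold tS
  have h1 := one_le_Yn hn
  have h2 : (0 : ℝ) ≤ (k : ℝ) ^ 3 := by positivity
  nlinarith

theorem one_le_k3 {k : ℕ} (hk : 0 < k) : (1 : ℝ) ≤ (k : ℝ) ^ 3 := by
  have : (1 : ℝ) ≤ k := by exact_mod_cast hk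
  exact one_le_pow₀ this

theorem kap_ki_sq (n k i : ℕ) : kap (2 * ki n k i) ^ 2 = (2 * ((k : ℝ) ^ 3 * nu n i)) ^ 2 + 1 := by
  rw [kap_sq]
  unfold ki
  push_cast
  ring

theorem kap_ki_ge (n k i : ℕ) : 2 * ((k : ℝ) ^ 3 * nu n i) ≤ kap (2 * ki n k i) := by
  have h := kap_ki_sq n k i
  have h2 := kap_pos (2 * ki n k i)
  nlinarith

theorem kap_ki_le {n k i : ℕ} (hn : 0 < n) (hk : 0 < k) :
    kap (2 * ki n k i) ≤ 2 * ((k : ℝ) ^ 3 * nu n i) + 1 / 4 := by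
  have h := kap_ki_sq n k i
  have h2 := kap_pos (2 * ki n k i)
  have h3 : (1 : ℝ) ≤ (k : ℝ) ^ 3 := one_le_k3 hk
  have h4 : (Yn n : ℝ) ≤ nu n i := by exact_mod_cast le_nu n i
  have h5 := one_le_Yn hn
  have h6 : (16 : ℝ) ≤ Yn n := by
    have : 16 ≤ Yn n := by
      unfold Yn
      have : 1 ≤ n ^ 3 := Nat.one_le_pow _ _ hn
      nlinarith
    exact_mod_cast this
  have h7 : (16 : ℝ) ≤ (k : ℝ) ^ 3 * nu n i := by nlinarith
  by_contra hc
  push Not at hc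
  nlinarith

theorem win1 {n k i : ℕ} (hn : 0 < n) (hk : 0 < k) (hi : i < n) :
    tS n k ≤ kap (2 * ki n k i) ∧ kap (2 * ki n k i) ≤ 2 * tS n k := by
  have h1 := kap_ki_ge n k i
  have h2 := kap_ki_le (i := i) hn hk
  have h3 : (1 : ℝ) ≤ (k : ℝ) ^ 3 := one_le_k3 hk
  have h4 : (Yn n : ℝ) ≤ nu n i := by exact_mod_cast le_nu n i
  have h5 := one_le_Yn hn
  have h6 : (4 : ℝ) * nu n i ≤ 5 * Yn n := by exact_mod_cast nu_le hi
  unfold tS
  constructor
  · nlinarith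
  · have : (k : ℝ) ^ 3 * nu n i ≤ (k : ℝ) ^ 3 * (5 / 4 * Yn n) := by
      apply mul_le_mul_of_nonneg_left _ (by positivity); linarith
    nlinarith

theorem kap_ki'_sq {n k i : ℕ} (hi : i < n) :
    kap (2 * ki' n k i) ^ 2 = 4 * ((k : ℝ) ^ 3) ^ 2 * (8 * (Yn n : ℝ) ^ 2 - (nu n i : ℝ) ^ 2) + 1 := by
  rw [kap_sq]
  unfold ki'
  have h4 : nu n i ^ 2 ≤ 8 * Yn n ^ 2 := by have := nu_sq_le hi; omega
  push_cast [Nat.cast_sub h4]
  ring

theorem win2 {n k i : ℕ} (hn : 0 < n) (hk : 0 < k) (hi : i < n) :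
    2 * tS n k ≤ kap (2 * ki' n k i) ∧ kap (2 * ki' n k i) ≤ 2 * (2 * tS n k) := by
  have h := kap_ki'_sq (k := k) hi
  have h0 := kap_pos (2 * ki' n k i)
  have h3 : (1 : ℝ) ≤ (k : ℝ) ^ 3 := one_le_k3 hk
  have h4 : (Yn n : ℝ) ≤ nu n i := by exact_mod_cast le_nu n i
  have h5 := one_le_Yn hn
  have h6 : (16 : ℝ) * (nu n i : ℝ) ^ 2 ≤ 25 * (Yn n : ℝ) ^ 2 := by exact_mod_cast nu_sq_le hi
  have h7 : (Yn n : ℝ) ^ 2 ≤ (nu n i : ℝ) ^ 2 := by gcongr
  have hK : (1 : ℝ) ≤ ((k : ℝ) ^ 3) ^ 2 := one_le_pow₀ h3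
  have hY : (1 : ℝ) ≤ (Yn n : ℝ) ^ 2 := one_le_pow₀ h5
  have hKY : (1 : ℝ) ≤ ((k : ℝ) ^ 3) ^ 2 * (Yn n : ℝ) ^ 2 := by nlinarith
  unfold tS
  constructor
  · have e : (2 * (2 * (k : ℝ) ^ 3 * Yn n)) ^ 2 ≤ kap (2 * ki' n k i) ^ 2 := by
      rw [h]
      have : ((k : ℝ) ^ 3) ^ 2 * (8 * (Yn n : ℝ) ^ 2 - (nu n i : ℝ) ^ 2) ≥
          ((k : ℝ) ^ 3) ^ 2 * (103 / 16 * (Yn n : ℝ) ^ 2) := by
        apply mul_le_mul_of_nonneg_left _ (by positivity); linarith
      nlinarith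
    exact abs_le_of_sq_le_sq' e h0.le |>.2
  · have e : kap (2 * ki' n k i) ^ 2 ≤ (2 * (2 * (2 * (k : ℝ) ^ 3 * Yn n))) ^ 2 := by
      rw [h]
      have : ((k : ℝ) ^ 3) ^ 2 * (8 * (Yn n : ℝ) ^ 2 - (nu n i : ℝ) ^ 2) ≤
          ((k : ℝ) ^ 3) ^ 2 * (7 * (Yn n : ℝ) ^ 2) := by
        apply mul_le_mul_of_nonneg_left _ (by positivity); linarith
      nlinarith
    exact abs_le_of_sq_le_sq' e (by positivity) |>.2

theorem sep_aux {K d x : ℝ} {N : ℤ} (hK : 1 ≤ K) (hN : N ≠ 0) (hd : |d| ≤ 1)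
    (hx : x = 2 * K * N + d) : K ≤ |x| := by
  have h1 : (1 : ℝ) ≤ |(N : ℝ)| := by
    have := Int.one_le_abs hN
    exact_mod_cast this
  have h2 : |2 * K * (N : ℝ)| - |d| ≤ |x| := by
    rw [hx]
    have := abs_sub_abs_le_abs_sub (2 * K * (N : ℝ)) (-d)
    rw [abs_neg, sub_neg_eq_add] at this
    exact this
  rw [abs_mul, abs_of_pos (by linarith : (0 : ℝ) < 2 * K)] at h2
  nlinarith

/-- separation of the frequencies for different pairs -/
theorem sep_sites {n k i j a b : ℕ} (hn : 0 < n) (hk : 0 < k) (hi : i < n) (hj : j < n)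
    (ha : a < n) (hb : b < n) (hij : i ≠ j) (h1 : ¬ (i = a ∧ j = b)) (h2 : ¬ (i = b ∧ j = a)) :
    Sep ((k : ℝ) ^ 3) (kap (2 * ki n k i)) (kap (2 * ki n k j)) (kap (2 * ki n k a))
      (kap (2 * ki n k b)) := by
  have hK := one_le_k3 hk
  have hY := Yn_pos hn
  have w := fun i => le_nu n i
  have u := fun {i} (hi : i < n) => nu_le hi
  have wi := w i; have wj := w j; have wa := w a; have wb := w b
  have ui := u hi; have uj := u hj; have ua := u ha; have ub := u hb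
  -- remainders
  set δ : ℕ → ℝ := fun i => kap (2 * ki n k i) - 2 * ((k : ℝ) ^ 3 * nu n i) with hδ
  have d0 : ∀ i, 0 ≤ δ i := fun i => by have := kap_ki_ge n k i; simp only [hδ]; linarith
  have d1 : ∀ i, δ i ≤ 1 / 4 := fun i => by
    have := kap_ki_le (i := i) hn hk; simp only [hδ]; linarith
  have e : ∀ i, kap (2 * ki n k i) = 2 * (k : ℝ) ^ 3 * nu n i + δ i := fun i => by
    simp only [hδ]; ring
  have di0 := d0 i; have dj0 := d0 j; have da0 := d0 a; have db0 := d0 b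
  have di1 := d1 i; have dj1 := d1 j; have da1 := d1 a; have db1 := d1 b
  rw [e i, e j, e a, e b]
  refine ⟨?_, ?_, ?_, ?_, ?_, ?_, ?_, ?_⟩
  · refine sep_aux (N := nu n i + nu n j + nu n a + nu n b) (d := δ i + δ j + δ a + δ b) hK
      (by omega) (abs_le.2 ⟨by linarith, by linarith⟩) (by push_cast; ring)
  · refine sep_aux (N := nu n i + nu n j + nu n a - nu n b) (d := δ i + δ j + δ a - δ b) hK
      (by omega) (abs_le.2 ⟨by linarith, by linarith⟩) (by push_cast; ring)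
  · refine sep_aux (N := nu n i + nu n j - nu n a + nu n b) (d := δ i + δ j - δ a + δ b) hK
      (by omega) (abs_le.2 ⟨by linarith, by linarith⟩) (by push_cast; ring)
  · refine sep_aux (N := nu n i + nu n j - nu n a - nu n b) (d := δ i + δ j - δ a - δ b) hK
      ?_ (abs_le.2 ⟨by linarith, by linarith⟩) (by push_cast; ring)
    intro h0
    have h3 : nu n i + nu n j = nu n a + nu n b := by omega
    rcases nu_sidon hi hj ha hb h3 with h | h
    · exact h1 h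
    · exact h2 h
  · refine sep_aux (N := nu n i - nu n j + nu n a + nu n b) (d := δ i - δ j + δ a + δ b) hK
      (by omega) (abs_le.2 ⟨by linarith, by linarith⟩) (by push_cast; ring)
  · refine sep_aux (N := nu n i - nu n j + nu n a - nu n b) (d := δ i - δ j + δ a - δ b) hK
      ?_ (abs_le.2 ⟨by linarith, by linarith⟩) (by push_cast; ring)
    intro h0
    have h3 : nu n i + nu n a = nu n j + nu n b := by omega
    rcases nu_sidon hi ha hj hb h3 with h | h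
    · exact hij h.1
    · exact h2 ⟨h.1, h.2.symm⟩
  · refine sep_aux (N := nu n i - nu n j - nu n a + nu n b) (d := δ i - δ j - δ a + δ b) hK
      ?_ (abs_le.2 ⟨by linarith, by linarith⟩) (by push_cast; ring)
    intro h0
    have h3 : nu n i + nu n b = nu n j + nu n a := by omega
    rcases nu_sidon hi hb hj ha h3 with h | h
    · exact hij h.1
    · exact h1 ⟨h.1, h.2.symm⟩
  · refine sep_aux (N := nu n i - nu n j - nu n a - nu n b) (d := δ i - δ j - δ a - δ b) hK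
      (by omega) (abs_le.2 ⟨by linarith, by linarith⟩) (by push_cast; ring)

end Crest.Agent.R338.HK
end
end

-- ▼ part R338/HK6
section

/-!
Row 338 (S0529), node HK: the hopping matrix `Mhop` (blueprint D.11).
-/

set_option autoImplicit false

open MeasureTheory Set Real Filter
open scoped Topology

noncomputable section
namespace Crest.Agent.R338.HK
open Crest.Agent.R338 (Yn nu mi n0' site vhop Mhop w1 Idx)

theorem integral_prod3 (F : Fin 3 → ℝ → ℝ) :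
    ∫ x : EuclideanSpace ℝ (Fin 3), F 0 (x 0) * F 1 (x 1) * F 2 (x 2) =
      (∫ s, F 0 s) * (∫ s, F 1 s) * (∫ s, F 2 s) := by
  have h1 := (EuclideanSpace.volume_preserving_symm_measurableEquiv_toLp (Fin 3)).symm
  rw [← h1.integral_comp (MeasurableEquiv.measurableEmbedding _)]
  have h2 := integral_fintype_prod_eq_prod (μ := fun _ : Fin 3 => (volume : Measure ℝ)) F
  rw [Fin.prod_univ_three] at h2
  rw [← h2]
  simp only [Fin.prod_univ_three]
  rfl

theorem Mhop_eq (n k i j a b : ℕ) : Mhop n k i j a b =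
    GI (mi n k i) (mi n k j) (mi n k a) (mi n k b) *
    GI (n0' n k - mi n k i) (n0' n k - mi n k j) (n0' n k - mi n k a) (n0' n k - mi n k b) := by
  have hh : ∫ s, HO.hf 0 s * HO.hf 0 s = 1 := HO.integral_hf_zero_sq
  unfold Mhop
  rw [w1_eq]
  have e : ∀ x : EuclideanSpace ℝ (Fin 3), vhop n k i j x *
      (HO.Phi (site n k a) x * HO.Phi (site n k b) x) =
      (Real.exp (-2 * (x 0) ^ 2) * (HO.hf (mi n k i) (x 0) * HO.hf (mi n k j) (x 0) *
        HO.hf (mi n k a) (x 0) * HO.hf (mi n k b) (x 0))) *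
      (Real.exp (-2 * (x 1) ^ 2) * (HO.hf (n0' n k - mi n k i) (x 1) * HO.hf (n0' n k - mi n k j) (x 1) *
        HO.hf (n0' n k - mi n k a) (x 1) * HO.hf (n0' n k - mi n k b) (x 1))) *
      (HO.hf 0 (x 2) * HO.hf 0 (x 2)) := by
    intro x
    unfold vhop HO.Phi
    rw [Fin.prod_univ_three, Fin.prod_univ_three, hf_eq']
    simp only [site, Matrix.cons_val_zero, Matrix.cons_val_one, Matrix.cons_val]
    ring
  simp_rw [e]
  have h := integral_prod3 ![fun s => Real.exp (-2 * s ^ 2) * (HO.hf (mi n k i) s * HO.hf (mi n k j) s *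
        HO.hf (mi n k a) s * HO.hf (mi n k b) s),
      fun s => Real.exp (-2 * s ^ 2) * (HO.hf (n0' n k - mi n k i) s * HO.hf (n0' n k - mi n k j) s *
        HO.hf (n0' n k - mi n k a) s * HO.hf (n0' n k - mi n k b) s),
      fun s => HO.hf 0 s * HO.hf 0 s]
  simp only [Matrix.cons_val_zero, Matrix.cons_val_one, Matrix.cons_val] at h
  rw [h, hh, mul_one]
  rfl

/-- weight of a site: `h_{m_i}(0) h_{m'_i}(0)` -/
def Dp (n k i : ℕ) : ℝ := HO.hf (mi n k i) 0 * HO.hf (n0' n k - mi n k i) 0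

theorem Dp_sq_le {n k i : ℕ} (hn : 0 < n) (hk : 0 < k) (hi : i < n) :
    Dp n k i ^ 2 ≤ 1 / (2 * tS n k ^ 2) := by
  unfold Dp
  rw [mi'_eq n k hi, mi_eq, mul_pow]
  have h1 := hf_zero_sq_le (ki n k i)
  have h2 := hf_zero_sq_le (ki' n k i)
  have w1 := (win1 hn hk hi).1
  have w2 := (win2 hn hk hi).1
  have ht : 0 < tS n k := by
    have := le_tS hn hk; have := one_le_k3 hk; linarith
  have p1 := kap_pos (2 * ki n k i)
  have p2 := kap_pos (2 * ki' n k i)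
  calc _ ≤ (1 / kap (2 * ki n k i)) * (1 / kap (2 * ki' n k i)) := by gcongr
    _ ≤ (1 / tS n k) * (1 / (2 * tS n k)) := by gcongr
    _ = _ := by field_simp

theorem le_Dp_sq {n k i : ℕ} (hn : 0 < n) (hk : 0 < k) (hi : i < n) :
    1 / (32 * tS n k ^ 2) ≤ Dp n k i ^ 2 := by
  unfold Dp
  rw [mi'_eq n k hi, mi_eq, mul_pow]
  have h1 := le_hf_zero_sq (ki n k i)
  have h2 := le_hf_zero_sq (ki' n k i)
  have w1 := (win1 hn hk hi).2
  have w2 := (win2 hn hk hi).2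
  have ht : 0 < tS n k := by
    have := le_tS hn hk; have := one_le_k3 hk; linarith
  have p1 := kap_pos (2 * ki n k i)
  have p2 := kap_pos (2 * ki' n k i)
  calc 1 / (32 * tS n k ^ 2) = (1 / (2 * (2 * tS n k))) * (1 / (2 * (2 * (2 * tS n k)))) := by
        field_simp; norm_num
    _ ≤ (1 / (2 * kap (2 * ki n k i))) * (1 / (2 * kap (2 * ki' n k i))) := by gcongr
    _ ≤ _ := by gcongr


theorem P4_mul (n k : ℕ) {i j a b : ℕ} (hi : i < n) (hj : j < n) (ha : a < n) (hb : b < n) :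
    P4 (ki n k i) (ki n k j) (ki n k a) (ki n k b) * P4 (ki' n k i) (ki' n k j) (ki' n k a)
      (ki' n k b) = Dp n k i * Dp n k j * (Dp n k a * Dp n k b) := by
  unfold P4 Dp
  rw [mi'_eq n k hi, mi'_eq n k hj, mi'_eq n k ha, mi'_eq n k hb, mi_eq, mi_eq, mi_eq, mi_eq]
  ring

/-- size assumption on `k` -/
def Big (k : ℕ) : Prop := (10 : ℝ) ^ 11 ≤ (k : ℝ) ^ 3

theorem Big.pos {k : ℕ} (h : Big k) : 0 < k := by
  rcases Nat.eq_zero_or_pos k with h0 | h0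
  · subst h0; unfold Big at h; norm_num at h
  · exact h0

/-- diagonal entries of the hopping matrix -/
theorem Mhop_diag_ge {n k i j : ℕ} (hk : Big k) (hi : i < n) (hj : j < n) :
    1 / 16 * (Dp n k i * Dp n k j) ^ 2 ≤ Mhop n k i j i j := by
  have hn : 0 < n := by omega
  have hk0 := hk.pos
  have ht := le_tS hn hk0
  have hb : (10 : ℝ) ^ 11 ≤ tS n k := hk.trans ht
  have ht1 : 1 ≤ tS n k := le_trans (by norm_num) hb
  have wi := win1 hn hk0 hi
  have wj := win1 hn hk0 hj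
  have wi' := win2 hn hk0 hi
  have wj' := win2 hn hk0 hj
  have h1 := GI_diag_ge ht1 wi.1 wj.1 wi.2 wj.2
  have h2 := GI_diag_ge (t := 2 * tS n k) (by linarith) wi'.1 wj'.1 wi'.2 wj'.2
  rw [Mhop_eq, mi'_eq n k hi, mi'_eq n k hj, mi_eq, mi_eq]
  have hP := P4_mul n k hi hj hi hj
  have hp1 : 0 < P4 (ki n k i) (ki n k j) (ki n k i) (ki n k j) := by
    unfold P4
    have n1 := hf_zero_ne (ki n k i)
    have n2 := hf_zero_ne (ki n k j)
    have : HO.hf (2 * ki n k i) 0 * HO.hf (2 * ki n k j) 0 * HO.hf (2 * ki n k i) 0 *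
      HO.hf (2 * ki n k j) 0 = (HO.hf (2 * ki n k i) 0 * HO.hf (2 * ki n k j) 0) ^ 2 := by ring
    rw [this]; positivity
  have hp2 : 0 < P4 (ki' n k i) (ki' n k j) (ki' n k i) (ki' n k j) := by
    unfold P4
    have n1 := hf_zero_ne (ki' n k i)
    have n2 := hf_zero_ne (ki' n k j)
    have : HO.hf (2 * ki' n k i) 0 * HO.hf (2 * ki' n k j) 0 * HO.hf (2 * ki' n k i) 0 *
      HO.hf (2 * ki' n k j) 0 = (HO.hf (2 * ki' n k i) 0 * HO.hf (2 * ki' n k j) 0) ^ 2 := by ring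
    rw [this]; positivity
  have c1 : 320000000 / tS n k ≤ 1 / 25 := by
    rw [div_le_iff₀ (by linarith)]; linarith
  have c2 : 320000000 / (2 * tS n k) ≤ 1 / 25 := by
    rw [div_le_iff₀ (by linarith)]; linarith
  calc 1 / 16 * (Dp n k i * Dp n k j) ^ 2 = 1 / 16 * (P4 (ki n k i) (ki n k j) (ki n k i) (ki n k j) *
        P4 (ki' n k i) (ki' n k j) (ki' n k i) (ki' n k j)) := by rw [hP]; ring
    _ = (1 / 4 * P4 (ki n k i) (ki n k j) (ki n k i) (ki n k j)) *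
        (1 / 4 * P4 (ki' n k i) (ki' n k j) (ki' n k i) (ki' n k j)) := by ring
    _ ≤ ((3 / 10 - 320000000 / tS n k) * P4 (ki n k i) (ki n k j) (ki n k i) (ki n k j)) *
        ((3 / 10 - 320000000 / (2 * tS n k)) *
          P4 (ki' n k i) (ki' n k j) (ki' n k i) (ki' n k j)) := by
        have q1 : (1 / 4 : ℝ) ≤ 3 / 10 - 320000000 / tS n k := by linarith
        have q2 : (1 / 4 : ℝ) ≤ 3 / 10 - 320000000 / (2 * tS n k) := by linarith
        apply mul_le_mul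
        · exact mul_le_mul_of_nonneg_right q1 hp1.le
        · exact mul_le_mul_of_nonneg_right q2 hp2.le
        · positivity
        · exact mul_nonneg (by linarith) hp1.le
    _ ≤ _ := by
        apply mul_le_mul h1 h2
        · apply mul_nonneg _ hp2.le; linarith
        · exact le_trans (mul_nonneg (by linarith) hp1.le) h1


/-- off-diagonal entries: `{i,j} ≠ {a,b}`, `i ≠ j` (`a = b` allowed) -/
theorem Mhop_off {n k i j a b : ℕ} (hk : Big k) (hi : i < n) (hj : j < n) (ha : a < n) (hb : b < n)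
    (hij : i ≠ j) (h1 : ¬ (i = a ∧ j = b)) (h2 : ¬ (i = b ∧ j = a)) :
    |Mhop n k i j a b| ≤ 10 ^ 9 / (k : ℝ) ^ 3 * |Dp n k i * Dp n k j * (Dp n k a * Dp n k b)| := by
  have hn : 0 < n := by omega
  have hk0 := hk.pos
  have ht := le_tS hn hk0
  have hbt : (10 : ℝ) ^ 11 ≤ tS n k := hk.trans ht
  have ht1 : 1 ≤ tS n k := le_trans (by norm_num) hbt
  have wi := win1 hn hk0 hi; have wj := win1 hn hk0 hj
  have wa := win1 hn hk0 ha; have wb := win1 hn hk0 hb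
  have wi' := win2 hn hk0 hi; have wj' := win2 hn hk0 hj
  have wa' := win2 hn hk0 ha; have wb' := win2 hn hk0 hb
  have hs := sep_sites hn hk0 hi hj ha hb hij h1 h2
  have g1 := GI_le_sep ht1 (one_le_k3 hk0) ht wi.1 wj.1 wa.1 wb.1 wi.2 wj.2 wa.2 wb.2 hs
  have g2 := GI_le (t := 2 * tS n k) (by linarith) wi'.1 wj'.1 wa'.1 wb'.1 wi'.2 wj'.2 wa'.2 wb'.2
  rw [Mhop_eq, mi'_eq n k hi, mi'_eq n k hj, mi'_eq n k ha, mi'_eq n k hb, mi_eq, mi_eq, mi_eq,
    mi_eq, ← P4_mul n k hi hj ha hb, abs_mul, abs_mul]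
  have c2 : 320000000 / (2 * tS n k) ≤ 1 / 25 := by
    rw [div_le_iff₀ (by linarith)]; linarith
  have hK0 : (0 : ℝ) < (k : ℝ) ^ 3 := by have := one_le_k3 hk0; linarith
  have hm := mul_nonneg (abs_nonneg (P4 (ki n k i) (ki n k j) (ki n k a) (ki n k b)))
          (abs_nonneg (P4 (ki' n k i) (ki' n k j) (ki' n k a) (ki' n k b)))
  calc _ ≤ (320000016 / (k : ℝ) ^ 3 * |P4 (ki n k i) (ki n k j) (ki n k a) (ki n k b)|) *
      ((2 + 320000000 / (2 * tS n k)) * |P4 (ki' n k i) (ki' n k j) (ki' n k a) (ki' n k b)|) := by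
        gcongr
    _ ≤ (320000016 / (k : ℝ) ^ 3 * |P4 (ki n k i) (ki n k j) (ki n k a) (ki n k b)|) *
      ((2 + 1 / 25) * |P4 (ki' n k i) (ki' n k j) (ki' n k a) (ki' n k b)|) := by
        gcongr
    _ = (320000016 * (2 + 1 / 25)) / (k : ℝ) ^ 3 *
        (|P4 (ki n k i) (ki n k j) (ki n k a) (ki n k b)| *
          |P4 (ki' n k i) (ki' n k j) (ki' n k a) (ki' n k b)|) := by ring
    _ ≤ _ := by
        gcongr
        norm_num

end Crest.Agent.R338.HK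
end
end

-- ▼ part R338/HK7

/-!
Row 338 (S0529), node HK: the hopping matrix is row dominant; sizes (final form of D.11).
-/

set_option autoImplicit false

open MeasureTheory Set Real Filter
open scoped Topology

noncomputable section
namespace Crest.Agent.R338.HK
open Crest.Agent.R338 (Yn nu mi n0' site vhop Mhop w1 Idx)




theorem n0'_eq (n k : ℕ) : (n0' n k : ℝ) = 4 * tS n k ^ 2 := by
  unfold n0' tS
  push_cast
  ring

theorem abs_Dp_mul_le {n k i j : ℕ} (hn : 0 < n) (hk : 0 < k) (hi : i < n) (hj : j < n) :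
    |Dp n k i * Dp n k j| ≤ 1 / (2 * tS n k ^ 2) := by
  have h1 := Dp_sq_le hn hk hi
  have h2 := Dp_sq_le hn hk hj
  rw [abs_mul]
  have := two_mul_le_add_sq |Dp n k i| |Dp n k j|
  rw [sq_abs, sq_abs] at this
  linarith

theorem le_abs_Dp_mul {n k i j : ℕ} (hn : 0 < n) (hk : 0 < k) (hi : i < n) (hj : j < n) :
    1 / (32 * tS n k ^ 2) ≤ |Dp n k i * Dp n k j| := by
  have h1 := le_Dp_sq hn hk hi
  have h2 := le_Dp_sq hn hk hj
  have ht : 0 < tS n k := by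
    have := le_tS hn hk; have := one_le_k3 hk; linarith
  have h0 : 0 ≤ 1 / (32 * tS n k ^ 2) := by positivity
  apply abs_le_of_sq_le_sq' _ (abs_nonneg _) |>.2
  rw [sq_abs, mul_pow]
  calc (1 / (32 * tS n k ^ 2)) ^ 2 = 1 / (32 * tS n k ^ 2) * (1 / (32 * tS n k ^ 2)) := by ring
    _ ≤ _ := mul_le_mul h1 h2 h0 (sq_nonneg _)

theorem big_of {n k : ℕ} (hn : 2 ≤ n) (hk : (12000 * n) ^ 12000 ≤ k) : Big k := by
  have h1 : 12000 * n ≤ k := (Nat.le_self_pow (by norm_num) _).trans hk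
  have h2 : 24000 ≤ k := by omega
  have h3 : (24000 : ℝ) ≤ k := by exact_mod_cast h2
  unfold Big
  calc (10 : ℝ) ^ 11 ≤ 24000 ^ 3 := by norm_num
    _ ≤ (k : ℝ) ^ 3 := by gcongr

theorem k3_ge {n k : ℕ} (hk : (12000 * n) ^ 12000 ≤ k) (hn : 1 ≤ n) :
    1024 * 10 ^ 9 * (n : ℝ) ^ 2 ≤ (k : ℝ) ^ 3 := by
  have h1 : 12000 * n ≤ k := (Nat.le_self_pow (by norm_num) _).trans hk
  have h3 : (12000 : ℝ) * n ≤ k := by exact_mod_cast h1
  have h4 : (1 : ℝ) ≤ n := by exact_mod_cast hn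
  have h5 : (n : ℝ) ^ 2 ≤ (n : ℝ) ^ 3 := pow_le_pow_right₀ h4 (by norm_num)
  calc 1024 * 10 ^ 9 * (n : ℝ) ^ 2 ≤ 12000 ^ 3 * (n : ℝ) ^ 3 := by
        have : (0 : ℝ) ≤ (n : ℝ) ^ 2 := by positivity
        nlinarith
    _ = (12000 * (n : ℝ)) ^ 3 := by ring
    _ ≤ (k : ℝ) ^ 3 := by gcongr

theorem Mhop_off_le_diag {n k i j a b : ℕ} (hn : 2 ≤ n) (hk : (12000 * n) ^ 12000 ≤ k)
    (hi : i < n) (hj : j < n) (ha : a < n) (hb : b < n) (hij : i ≠ j)
    (h1 : ¬ (i = a ∧ j = b)) (h2 : ¬ (i = b ∧ j = a)) :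
    |Mhop n k i j a b| ≤ 1 / (4 * (n : ℝ) ^ 2) * Mhop n k a b a b := by
  have hB := big_of hn hk
  have hn0 : 0 < n := by omega
  have hk0 := hB.pos
  have h := Mhop_off hB hi hj ha hb hij h1 h2
  have hd := Mhop_diag_ge hB ha hb
  have ht : 0 < tS n k := by
    have := le_tS hn0 hk0; have := one_le_k3 hk0; linarith
  have e1 := abs_Dp_mul_le hn0 hk0 hi hj
  have e2 := le_abs_Dp_mul hn0 hk0 ha hb
  have e3 : |Dp n k i * Dp n k j| ≤ 16 * |Dp n k a * Dp n k b| := by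
    have : 1 / (2 * tS n k ^ 2) = 16 * (1 / (32 * tS n k ^ 2)) := by field_simp; norm_num
    rw [this] at e1
    linarith
  have hk3 := k3_ge hk (by omega)
  have hn2 : (0 : ℝ) < (n : ℝ) ^ 2 := by
    have : (0 : ℝ) < n := by exact_mod_cast hn0
    positivity
  have hK : (0 : ℝ) < (k : ℝ) ^ 3 := by have := one_le_k3 hk0; linarith
  rw [abs_mul (Dp n k i * Dp n k j)] at h
  calc |Mhop n k i j a b| ≤ 10 ^ 9 / (k : ℝ) ^ 3 * (|Dp n k i * Dp n k j| * |Dp n k a * Dp n k b|) := h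
    _ ≤ 10 ^ 9 / (k : ℝ) ^ 3 * ((16 * |Dp n k a * Dp n k b|) * |Dp n k a * Dp n k b|) := by
        gcongr
    _ = (256 * 10 ^ 9 / (k : ℝ) ^ 3) * (1 / 16 * (Dp n k a * Dp n k b) ^ 2) := by
        rw [← sq_abs (Dp n k a * Dp n k b)]; ring
    _ ≤ (256 * 10 ^ 9 / (k : ℝ) ^ 3) * Mhop n k a b a b := by gcongr
    _ ≤ 1 / (4 * (n : ℝ) ^ 2) * Mhop n k a b a b := by
        have hpos : 0 ≤ Mhop n k a b a b := le_trans (by positivity) hd
        apply mul_le_mul_of_nonneg_right _ hpos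
        rw [div_le_div_iff₀ hK (by positivity)]
        linarith


/-- lower bound of the diagonal -/
theorem Mhop_diag_ge' {n k a b : ℕ} (hn : 2 ≤ n) (hk : (12000 * n) ^ 12000 ≤ k)
    (ha : a < n) (hb : b < n) : 1 / (n0' n k : ℝ) ^ 3 ≤ Mhop n k a b a b := by
  have hB := big_of hn hk
  have hn0 : 0 < n := by omega
  have hk0 := hB.pos
  have hd := Mhop_diag_ge hB ha hb
  have e2 := le_abs_Dp_mul hn0 hk0 ha hb
  have hbt : (10 : ℝ) ^ 11 ≤ tS n k := le_trans hB (le_tS hn0 hk0)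
  have ht : 0 < tS n k := by linarith
  refine le_trans ?_ hd
  rw [← sq_abs, n0'_eq]
  have h1 : 1 / 16 * (1 / (32 * tS n k ^ 2)) ^ 2 ≤ 1 / 16 * |Dp n k a * Dp n k b| ^ 2 := by gcongr
  refine le_trans ?_ h1
  have : 1 / 16 * (1 / (32 * tS n k ^ 2)) ^ 2 = 1 / (16384 * tS n k ^ 4) := by
    field_simp; norm_num
  rw [this]
  apply one_div_le_one_div_of_le (by positivity)
  have h2 : (4 * tS n k ^ 2) ^ 3 = 64 * tS n k ^ 2 * tS n k ^ 4 := by ring
  rw [h2]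
  have h3 : (16384 : ℝ) ≤ 64 * tS n k ^ 2 := by nlinarith
  gcongr



end Crest.Agent.R338.HK
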