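import Crest.Agent.R338.CF3
import Crest.Agent.R338.Nu1
import Crest.Agent.Lib.PT.ListFns2
import Crest.Agent.Lib.PT.ArithRat
import Crest.Prelude.Def_CoulombProblem
import Crest.Agent.R338.Lag4

-- ▼ part R338/CFnu
section

/-!
# Row 338, module CFnu (helper608): the Coulomb integrals are computable in polynomial time

`ptr_W`: `PTR (fun x => CE.W (a x) (b x) (c x) (d x))` when all components of the multi-indices are unary.
-/

set_option autoImplicit false

open Real Finset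

namespace Crest.Agent.R338.CF

open Crest.Agent.Lib.PT Crest.Agent.R338.Nu

variable {α : Type} [PTCode α]

theorem ptu_half {n : α → ℕ} (hn : PTU n) : PTU (fun x => n x / 2) :=
  (PTF.natMinUn (PTF.natDiv hn.toPTF (PTF.const 2)) hn).of_eq
    (fun x => min_eq_left (Nat.div_le_self _ _))

theorem pt_even {n : α → ℕ} (hn : PTF n) : PTPred (fun x => Even (n x)) :=
  (PTPred.natEq (PTF.natMod hn (PTF.const 2)) (PTF.const 0)).of_iff
    (fun x => by rw [Nat.even_iff])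

theorem ptf_choose {n k : α → ℕ} (hn : PTU n) (hk : PTU k) : PTF (fun x => (n x).choose (k x)) := by
  have h1 : PTF (fun x => if k x ≤ n x then
      (n x).factorial / ((k x).factorial * (n x - k x).factorial) else 0) :=
    PTF.ite (PTU.le hk hn)
      (PTF.natDiv (PTF.natFactorial hn) (PTF.natMul (PTF.natFactorial hk)
        (PTF.natFactorial (PTU.sub hn hk)))) (PTF.const 0)
  refine h1.of_eq (fun x => ?_)
  split_ifs with h
  · exact (Nat.choose_eq_factorial_div_factorial h).symm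
  · exact (Nat.choose_eq_zero_of_lt (by omega)).symm

theorem ptf_kap {a b j : α → ℕ} (ha : PTU a) (hb : PTU b) (hj : PTU j) :
    PTF (fun x => HL.kap (a x) (b x) (j x)) := by
  unfold HL.kap
  exact PTF.natMul (PTF.natMul (PTF.natMul (ptf_choose ha hj) (ptf_choose hb hj))
    (PTF.natFactorial hj)) (PTF.natPow (PTF.const 2) hj)

theorem ptf_df {r : α → ℕ} (hr : PTU r) : PTF (fun x => HL.df (r x)) := by
  unfold HL.df
  exact PTF.natProdRange hr (f := fun _ i => 2 * i + 1)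
    (PTF.natAdd (PTF.natMul (PTF.const 2) PTF.snd) (PTF.const 1))

theorem ptu_e4 {a b c d j k : α → ℕ} (ha : PTU a) (hb : PTU b) (hc : PTU c) (hd : PTU d)
    (hj : PTU j) (hk : PTU k) : PTU (fun x => e4 (a x) (b x) (c x) (d x) (j x) (k x)) := by
  unfold e4
  exact ptu_half (PTU.add (PTU.sub (PTU.add ha hb) (PTU.mul (PTU.const 2) hj))
    (PTU.sub (PTU.add hc hd) (PTU.mul (PTU.const 2) hk)))

theorem ptr_w4 {a b c d j k : α → ℕ} (ha : PTU a) (hb : PTU b) (hc : PTU c) (hd : PTU d)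
    (hj : PTU j) (hk : PTU k) :
    PTR (fun x => (w4 (a x) (b x) (c x) (d x) (j x) (k x) : ℝ)) := by
  have he := ptu_e4 ha hb hc hd hj hk
  have h1 : PTR (fun x => if Even (a x + b x + (c x + d x)) then
      (HL.kap (a x) (b x) (j x) : ℝ) * (HL.kap (c x) (d x) (k x) : ℝ) * ((-1) ^ (c x + d x) *
      ((-1) ^ (e4 (a x) (b x) (c x) (d x) (j x) (k x)) *
        (HL.df (e4 (a x) (b x) (c x) (d x) (j x) (k x)) : ℝ))) else 0) := by
    refine PTR.ite (pt_even (PTF.natAdd (PTF.natAdd ha.toPTF hb.toPTF)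
      (PTF.natAdd hc.toPTF hd.toPTF))) ?_ PTR.zero
    refine PTR.mul (PTR.mul (PTR.natCast (ptf_kap ha hb hj)) (PTR.natCast (ptf_kap hc hd hk))) ?_
    exact PTR.mul (PTR.pow (PTR.neg PTR.one) (PTU.add hc hd))
      (PTR.mul (PTR.pow (PTR.neg PTR.one) he) (PTR.natCast (ptf_df he)))
  refine h1.of_eq (fun x => ?_)
  unfold w4 e4
  split_ifs with h
  · push_cast; ring
  · simp

theorem ptr_nr {m : α → ℕ} (hm : PTU m) : PTR (fun x => HL.nr (m x)) := by
  have h1 : PTR (fun x => √(((2 ^ m x * (m x).factorial : ℕ) : ℝ)⁻¹)) :=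
    PTR.sqrt (PTR.natInv (PTF.natMul (PTF.natPow (PTF.const 2) hm) (PTF.natFactorial hm)))
  refine h1.of_eq (fun x => ?_)
  unfold HL.nr
  rw [Real.sqrt_inv, one_div]
  push_cast
  rfl

theorem ptr_nr4 {a b c d : α → ℕ} (ha : PTU a) (hb : PTU b) (hc : PTU c) (hd : PTU d) :
    PTR (fun x => nr4 (a x) (b x) (c x) (d x)) := by
  unfold nr4
  exact PTR.mul (PTR.mul (ptr_nr ha) (ptr_nr hb)) (PTR.mul (ptr_nr hc) (ptr_nr hd))

/-- sixfold sums -/
theorem ptr_sum6 {n0 n1 n2 n3 n4 n5 : α → ℕ} (h0 : PTU n0) (h1 : PTU n1) (h2 : PTU n2)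
    (h3 : PTU n3) (h4 : PTU n4) (h5 : PTU n5) {F : α → ℕ → ℕ → ℕ → ℕ → ℕ → ℕ → ℝ}
    (hF : PTR (fun p : (((((α × Un) × Un) × Un) × Un) × Un) × Un =>
      F p.1.1.1.1.1.1 p.1.1.1.1.1.2.val p.1.1.1.1.2.val p.1.1.1.2.val p.1.1.2.val p.1.2.val p.2.val)) :
    PTR (fun x => ∑ i0 ∈ range (n0 x), ∑ i1 ∈ range (n1 x), ∑ i2 ∈ range (n2 x),
      ∑ i3 ∈ range (n3 x), ∑ i4 ∈ range (n4 x), ∑ i5 ∈ range (n5 x), F x i0 i1 i2 i3 i4 i5) := by
  refine PTR.sumRange h0 (r := fun x i0 => ∑ i1 ∈ range (n1 x), ∑ i2 ∈ range (n2 x),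
      ∑ i3 ∈ range (n3 x), ∑ i4 ∈ range (n4 x), ∑ i5 ∈ range (n5 x), F x i0 i1 i2 i3 i4 i5) ?_
  refine PTR.sumRange (α := α × Un) (n := fun p => n1 p.1) (PTU.comp h1 PTF.fst)
    (r := fun p i1 => ∑ i2 ∈ range (n2 p.1), ∑ i3 ∈ range (n3 p.1), ∑ i4 ∈ range (n4 p.1),
      ∑ i5 ∈ range (n5 p.1), F p.1 p.2.val i1 i2 i3 i4 i5) ?_
  refine PTR.sumRange (α := (α × Un) × Un) (n := fun p => n2 p.1.1) (PTU.comp h2 (by fun_prop))
    (r := fun p i2 => ∑ i3 ∈ range (n3 p.1.1), ∑ i4 ∈ range (n4 p.1.1),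
      ∑ i5 ∈ range (n5 p.1.1), F p.1.1 p.1.2.val p.2.val i2 i3 i4 i5) ?_
  refine PTR.sumRange (α := ((α × Un) × Un) × Un) (n := fun p => n3 p.1.1.1)
    (PTU.comp h3 (by fun_prop))
    (r := fun p i3 => ∑ i4 ∈ range (n4 p.1.1.1), ∑ i5 ∈ range (n5 p.1.1.1),
      F p.1.1.1 p.1.1.2.val p.1.2.val p.2.val i3 i4 i5) ?_
  refine PTR.sumRange (α := (((α × Un) × Un) × Un) × Un) (n := fun p => n4 p.1.1.1.1)
    (PTU.comp h4 (by fun_prop))
    (r := fun p i4 => ∑ i5 ∈ range (n5 p.1.1.1.1),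
      F p.1.1.1.1 p.1.1.1.2.val p.1.1.2.val p.1.2.val p.2.val i4 i5) ?_
  exact PTR.sumRange (α := ((((α × Un) × Un) × Un) × Un) × Un) (n := fun p => n5 p.1.1.1.1.1)
    (PTU.comp h5 (by fun_prop))
    (r := fun p i5 => F p.1.1.1.1.1 p.1.1.1.1.2.val p.1.1.1.2.val p.1.1.2.val p.1.2.val p.2.val i5) hF

theorem ptr_W {a b c d : α → Fin 3 → ℕ} (ha : ∀ i, PTU (fun x => a x i))
    (hb : ∀ i, PTU (fun x => b x i)) (hc : ∀ i, PTU (fun x => c x i))
    (hd : ∀ i, PTU (fun x => d x i)) : PTR (fun x => CE.W (a x) (b x) (c x) (d x)) := by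
  simp only [W_formula]
  have hpre : PTR (fun _ : α => √(2 / π)) := PTR.sqrt (by
    refine (PTR.mul (PTR.ofNat 2) PTR.piInv).of_eq (fun x => ?_)
    rw [div_eq_mul_inv])
  have hn : PTR (fun x => ∏ i, nr4 (a x i) (b x i) (c x i) (d x i)) := by
    simp only [Fin.prod_univ_three]
    exact PTR.mul (PTR.mul (ptr_nr4 (ha 0) (hb 0) (hc 0) (hd 0)) (ptr_nr4 (ha 1) (hb 1) (hc 1) (hd 1)))
      (ptr_nr4 (ha 2) (hb 2) (hc 2) (hd 2))
  refine PTR.mul (PTR.mul hpre hn) ?_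
  refine ptr_sum6 (F := fun x j0 k0 j1 k1 j2 k2 =>
    ((w4 (a x 0) (b x 0) (c x 0) (d x 0) j0 k0 : ℝ) * (w4 (a x 1) (b x 1) (c x 1) (d x 1) j1 k1 : ℝ) *
          (w4 (a x 2) (b x 2) (c x 2) (d x 2) j2 k2 : ℝ)) /
        (2 * ((e4 (a x 0) (b x 0) (c x 0) (d x 0) j0 k0 + e4 (a x 1) (b x 1) (c x 1) (d x 1) j1 k1 +
          e4 (a x 2) (b x 2) (c x 2) (d x 2) j2 k2 : ℕ) : ℝ) + 1))
    (PTU.succ (ha 0)) (PTU.succ (hc 0)) (PTU.succ (ha 1)) (PTU.succ (hc 1)) (PTU.succ (ha 2))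
    (PTU.succ (hc 2)) ?_
  have f6 : PTF (fun p : (((((α × Un) × Un) × Un) × Un) × Un) × Un => p.1.1.1.1.1.1) := by fun_prop
  have A : ∀ i, PTU (fun p : (((((α × Un) × Un) × Un) × Un) × Un) × Un => a p.1.1.1.1.1.1 i) :=
    fun i => PTU.comp (ha i) f6
  have B : ∀ i, PTU (fun p : (((((α × Un) × Un) × Un) × Un) × Un) × Un => b p.1.1.1.1.1.1 i) :=
    fun i => PTU.comp (hb i) f6
  have C : ∀ i, PTU (fun p : (((((α × Un) × Un) × Un) × Un) × Un) × Un => c p.1.1.1.1.1.1 i) :=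
    fun i => PTU.comp (hc i) f6
  have D : ∀ i, PTU (fun p : (((((α × Un) × Un) × Un) × Un) × Un) × Un => d p.1.1.1.1.1.1 i) :=
    fun i => PTU.comp (hd i) f6
  have i0 : PTU (fun p : (((((α × Un) × Un) × Un) × Un) × Un) × Un => p.1.1.1.1.1.2.val) :=
    PTU.val (by fun_prop)
  have i1 : PTU (fun p : (((((α × Un) × Un) × Un) × Un) × Un) × Un => p.1.1.1.1.2.val) :=
    PTU.val (by fun_prop)
  have i2 : PTU (fun p : (((((α × Un) × Un) × Un) × Un) × Un) × Un => p.1.1.1.2.val) :=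
    PTU.val (by fun_prop)
  have i3 : PTU (fun p : (((((α × Un) × Un) × Un) × Un) × Un) × Un => p.1.1.2.val) :=
    PTU.val (by fun_prop)
  have i4 : PTU (fun p : (((((α × Un) × Un) × Un) × Un) × Un) × Un => p.1.2.val) :=
    PTU.val (by fun_prop)
  have i5 : PTU (fun p : (((((α × Un) × Un) × Un) × Un) × Un) × Un => p.2.val) :=
    PTU.val (by fun_prop)
  have w0 := ptr_w4 (A 0) (B 0) (C 0) (D 0) i0 i1
  have w1 := ptr_w4 (A 1) (B 1) (C 1) (D 1) i2 i3
  have w2 := ptr_w4 (A 2) (B 2) (C 2) (D 2) i4 i5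
  have e0 := ptu_e4 (A 0) (B 0) (C 0) (D 0) i0 i1
  have e1 := ptu_e4 (A 1) (B 1) (C 1) (D 1) i2 i3
  have e2 := ptu_e4 (A 2) (B 2) (C 2) (D 2) i4 i5
  have hinv := PTR.natInv (PTF.natAdd (PTF.natMul (PTF.const 2)
    (PTU.toPTF (PTU.add (PTU.add e0 e1) e2))) (PTF.const 1))
  refine (PTR.mul (PTR.mul (PTR.mul w0 w1) w2) hinv).of_eq (fun p => ?_)
  rw [div_eq_mul_inv]
  push_cast
  rfl

end Crest.Agent.R338.CF
end

-- ▼ part R338/OutW
section

/-!
# Row 338, node WRITER: the code of a ground-energy instance is poly-time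

`ptf_instCode` : from poly-time nuclei (triples of rationals), electron number (unary) and
thresholds to the coded instance.
-/

set_option autoImplicit false

namespace Crest.Agent.R338.OutW

open Crest.Agent.Lib.PT Crest.Quantum.GateCircuit Crest.MathPhysics.CoulombProblem
open Crest.MathPhysics.ElectronicCoulomb

variable {α γ : Type} [PTCode α] [PTCode γ]

theorem ptf_natCode {f : α → ℕ} (hf : PTF f) : PTF (fun a => natCode (f a)) := by
  unfold natCode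
  refine PTF.append (PTF.flatten (PTF.map (f := fun _ b => [true, b]) (PTF.natBits hf) ?_))
    (PTF.const _)
  pt_prop

theorem ptf_intCode {f : α → ℤ} (hf : PTF f) : PTF (fun a => intCode (f a)) := by
  unfold intCode
  have h1 : PTF (fun a => natCode (f a).natAbs) := ptf_natCode (PTF.intNatAbs hf)
  have h2 : PTF (fun a => decide (f a < 0)) := PTF.comp Arith.ptf_intNeg hf
  exact PTF.listCons h2 h1

theorem ptf_ratCode {f : α → ℚ} (hf : PTF f) : PTF (fun a => ratCode (f a)) := by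
  unfold ratCode
  exact PTF.append (ptf_intCode (PTF.comp Arith.ptf_ratNum hf))
    (ptf_natCode (PTF.comp Arith.ptf_ratDen hf))

/-- a triple of rationals as a position -/
def trip (p : ℚ × ℚ × ℚ) : Fin 3 → ℚ := ![p.1, p.2.1, p.2.2]


theorem ptf_posCode {f : α → ℚ × ℚ × ℚ} (hf : PTF f) : PTF (fun a => posCode (trip (f a))) := by
  have e : ∀ p : ℚ × ℚ × ℚ, posCode (trip p) = ratCode p.1 ++ ratCode p.2.1 ++ ratCode p.2.2 := by
    intro p; rfl
  refine PTF.of_eq (PTF.append (PTF.append (ptf_ratCode (f := fun a => (f a).1) (by fun_prop))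
    (ptf_ratCode (f := fun a => (f a).2.1) (by fun_prop)))
    (ptf_ratCode (f := fun a => (f a).2.2) (by fun_prop))) (fun a => (e _).symm)

theorem ptf_listCode {l : α → List γ} {c : γ → List Bool} (hl : PTF l) (hc : PTF c) :
    PTF (fun a => listCode c (l a)) := by
  unfold listCode
  refine PTF.append (PTF.flatten (PTF.map (f := fun _ x => true :: c x) hl ?_)) (PTF.const _)
  have h1 : PTF (fun p : α × γ => c p.2) := PTF.comp hc PTF.snd
  exact PTF.listCons (PTF.const true) h1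

theorem ptf_unaryCode {n : α → ℕ} (hn : PTU n) : PTF (fun a => unaryCode (n a)) := by
  unfold unaryCode
  exact PTF.append (PTF.replicate hn (PTF.const true)) (PTF.const _)

theorem listCode_map {β : Type} (c : β → List Bool) (f : γ → β) (l : List γ) :
    listCode c (l.map f) = listCode (fun x => c (f x)) l := by
  unfold listCode
  rw [List.map_map]
  rfl

/-- the instance with the given data -/
def mkInst (nu : List (ℚ × ℚ × ℚ)) (el : ℕ) (lo up : ℚ) : Instance where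
  nuclei := nu.map trip
  electrons := el
  lower := lo
  upper := up

/-- **the writer** -/
theorem ptf_instCode {nu : α → List (ℚ × ℚ × ℚ)} {el : α → ℕ} {lo up : α → ℚ}
    (h1 : PTF nu) (h2 : PTU el) (h3 : PTF lo) (h4 : PTF up) :
    PTF (fun a => (⟨(mkInst (nu a) (el a) (lo a) (up a)).code⟩ : Bits)) := by
  refine PTF.bitsMk ?_
  have e : ∀ a, (mkInst (nu a) (el a) (lo a) (up a)).code =
      listCode (fun p => posCode (trip p)) (nu a) ++ unaryCode (el a) ++ ratCode (lo a) ++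
        ratCode (up a) := by
    intro a
    simp only [Instance.code, mkInst, listCode_map]
  refine PTF.of_eq ?_ (fun a => (e a).symm)
  exact PTF.append (PTF.append (PTF.append (ptf_listCode h1 (ptf_posCode PTF.id)) (ptf_unaryCode h2))
    (ptf_ratCode h3)) (ptf_ratCode h4)







end Crest.Agent.R338.OutW
end

-- ▼ part R338/Lag5
section

/-!
Row 338, node D.12 / G.6 (helper695): power series of `Dsel m` and `deriv (Dsel m)` with exact
rational coefficients and an explicit remainder bound.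
-/

set_option autoImplicit false

open MeasureTheory Set
open scoped Nat ContDiff

noncomputable section
namespace Crest.Agent.R338.Lag
open Crest.Agent.R338.HO

/-! ### Taylor polynomials of `cos` and `sin` with the sharp remainder -/

def cosT (J : ℕ) (y : ℝ) : ℝ := ∑ j ∈ Finset.range J, (-1) ^ j * y ^ (2 * j) / ((2 * j)! : ℝ)

def sinT (J : ℕ) (y : ℝ) : ℝ := ∑ j ∈ Finset.range J, (-1) ^ j * y ^ (2 * j + 1) / ((2 * j + 1)! : ℝ)

theorem hasDerivAt_monomial (n : ℕ) (c y : ℝ) :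
    HasDerivAt (fun y : ℝ => c * y ^ (n + 1) / ((n + 1)! : ℝ)) (c * y ^ n / (n ! : ℝ)) y := by
  have h := ((hasDerivAt_pow (n + 1) y).const_mul c).div_const ((n + 1)! : ℝ)
  refine h.congr_deriv ?_
  have h5 : ((n + 1)! : ℝ) = ((n : ℝ) + 1) * (n ! : ℝ) := by
    rw [Nat.factorial_succ]; push_cast; ring
  have h6 : (n ! : ℝ) ≠ 0 := by positivity
  have h7 : ((n : ℝ) + 1) ≠ 0 := by positivity
  rw [h5, Nat.add_sub_cancel]
  push_cast
  field_simp

theorem hasDerivAt_sinT (J : ℕ) (y : ℝ) : HasDerivAt (sinT J) (cosT J y) y := by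
  unfold sinT cosT
  apply HasDerivAt.fun_sum
  intro j _
  exact hasDerivAt_monomial (2 * j) ((-1) ^ j) y

theorem hasDerivAt_cosT (J : ℕ) (y : ℝ) : HasDerivAt (cosT (J + 1)) (-sinT J y) y := by
  have h1 : cosT (J + 1) = fun y => (∑ j ∈ Finset.range J,
      (-1) ^ (j + 1) * y ^ (2 * j + 1 + 1) / ((2 * j + 1 + 1)! : ℝ)) + 1 := by
    funext y
    unfold cosT
    rw [Finset.sum_range_succ']
    simp [mul_add]
  rw [h1]
  have h2 : -sinT J y = ∑ j ∈ Finset.range J, (-1) ^ (j + 1) * y ^ (2 * j + 1) / ((2 * j + 1)! : ℝ) := by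
    unfold sinT
    rw [← Finset.sum_neg_distrib]
    apply Finset.sum_congr rfl
    intro j _
    rw [pow_succ]; ring
  rw [h2]
  apply HasDerivAt.add_const
  apply HasDerivAt.fun_sum
  intro j _
  exact hasDerivAt_monomial (2 * j + 1) ((-1) ^ (j + 1)) y

theorem step_bound {f f' : ℝ → ℝ} (hf : ∀ y, HasDerivAt f (f' y) y) (h0 : f 0 = 0) (n : ℕ)
    (hb : ∀ y, 0 ≤ y → |f' y| ≤ y ^ n / (n ! : ℝ)) :
    ∀ y, 0 ≤ y → |f y| ≤ y ^ (n + 1) / ((n + 1)! : ℝ) := by
  intro y hy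
  have key := image_norm_le_of_norm_deriv_right_le_deriv_boundary' (f := f) (a := 0) (b := y)
    (f' := f') (B := fun y : ℝ => 1 * y ^ (n + 1) / ((n + 1)! : ℝ))
    (B' := fun y : ℝ => 1 * y ^ n / (n ! : ℝ))
    (fun x _ => (hf x).continuousAt.continuousWithinAt)
    (fun x _ => (hf x).hasDerivWithinAt)
    (by simp [h0])
    (fun x _ => (hasDerivAt_monomial n 1 x).continuousAt.continuousWithinAt)
    (fun x _ => (hasDerivAt_monomial n 1 x).hasDerivWithinAt)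
    (fun x hx => by
      rw [Real.norm_eq_abs, one_mul]
      exact hb x hx.1)
    (right_mem_Icc.2 hy)
  simpa using key

theorem cos_sin_remainder (J : ℕ) : (∀ y : ℝ, 0 ≤ y → |Real.cos y - cosT J y| ≤ y ^ (2 * J) / ((2 * J)! : ℝ)) ∧
    (∀ y : ℝ, 0 ≤ y → |Real.sin y - sinT J y| ≤ y ^ (2 * J + 1) / ((2 * J + 1)! : ℝ)) := by
  have hstep : ∀ J : ℕ, (∀ y : ℝ, 0 ≤ y → |Real.cos y - cosT J y| ≤ y ^ (2 * J) / ((2 * J)! : ℝ)) →
      (∀ y : ℝ, 0 ≤ y → |Real.sin y - sinT J y| ≤ y ^ (2 * J + 1) / ((2 * J + 1)! : ℝ)) := by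
    intro J h
    apply step_bound (f := fun y => Real.sin y - sinT J y) (f' := fun y => Real.cos y - cosT J y)
    · intro y
      exact (Real.hasDerivAt_sin y).sub (hasDerivAt_sinT J y)
    · simp [sinT]
    · exact h
  induction J with
  | zero =>
    have h0 : ∀ y : ℝ, 0 ≤ y → |Real.cos y - cosT 0 y| ≤ y ^ (2 * 0) / ((2 * 0)! : ℝ) := by
      intro y _
      simp [cosT, Real.abs_cos_le_one]
    exact ⟨h0, hstep 0 h0⟩
  | succ J ih =>
    have h1 : ∀ y : ℝ, 0 ≤ y → |Real.cos y - cosT (J + 1) y| ≤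
        y ^ (2 * (J + 1)) / ((2 * (J + 1))! : ℝ) := by
      have := step_bound (f := fun y => Real.cos y - cosT (J + 1) y)
        (f' := fun y => -(Real.sin y - sinT J y)) (n := 2 * J + 1)
        (by
          intro y
          have := (Real.hasDerivAt_cos y).sub (hasDerivAt_cosT J y)
          refine this.congr_deriv ?_
          ring)
        (by
          simp only [Real.cos_zero]
          unfold cosT
          rw [Finset.sum_range_succ']
          simp)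
        (by
          intro y hy
          rw [abs_neg]
          exact ih.2 y hy)
      intro y hy
      have h2 := this y hy
      rw [show 2 * (J + 1) = 2 * J + 1 + 1 by ring]
      exact h2
    exact ⟨h1, hstep _ h1⟩

theorem cosT_neg (J : ℕ) (y : ℝ) : cosT J (-y) = cosT J y := by
  unfold cosT
  apply Finset.sum_congr rfl
  intro j _
  rw [pow_mul, pow_mul, neg_sq]

theorem sinT_neg (J : ℕ) (y : ℝ) : sinT J (-y) = -sinT J y := by
  unfold sinT
  rw [← Finset.sum_neg_distrib]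
  apply Finset.sum_congr rfl
  intro j _
  rw [pow_succ, pow_mul, neg_sq, ← pow_mul, pow_succ]
  ring

theorem abs_cos_sub_cosT (J : ℕ) (y : ℝ) :
    |Real.cos y - cosT J y| ≤ |y| ^ (2 * J) / ((2 * J)! : ℝ) := by
  rcases le_total 0 y with h | h
  · rw [abs_of_nonneg h]
    exact (cos_sin_remainder J).1 y h
  · rw [abs_of_nonpos h, ← Real.cos_neg, ← cosT_neg]
    exact (cos_sin_remainder J).1 (-y) (by linarith)

theorem abs_sin_sub_sinT (J : ℕ) (y : ℝ) :
    |Real.sin y - sinT J y| ≤ |y| ^ (2 * J + 1) / ((2 * J + 1)! : ℝ) := by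
  rcases le_total 0 y with h | h
  · rw [abs_of_nonneg h]
    exact (cos_sin_remainder J).2 y h
  · have h1 := (cos_sin_remainder J).2 (-y) (by linarith)
    rw [Real.sin_neg, sinT_neg] at h1
    rw [abs_of_nonpos h, abs_sub_comm]
    have : sinT J y - Real.sin y = -Real.sin y - -sinT J y := by ring
    rw [this]
    exact h1

/-! ### Gaussian moments -/

theorem integral_pow_exp_half (n : ℕ) :
    ∫ t in Ioi (0 : ℝ), (2 * t) ^ n * Real.exp (-(t / 2)) = 2 * 4 ^ n * (n ! : ℝ) := by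
  have h := Real.integral_rpow_mul_exp_neg_mul_Ioi (a := (n : ℝ) + 1) (r := 1 / 2)
    (by positivity) (by norm_num)
  have h1 : ∫ t in Ioi (0 : ℝ), (2 * t) ^ n * Real.exp (-(t / 2)) =
      2 ^ n * ∫ t in Ioi (0 : ℝ), t ^ ((n : ℝ) + 1 - 1) * Real.exp (-((1 / 2) * t)) := by
    rw [← integral_const_mul]
    apply setIntegral_congr_fun measurableSet_Ioi
    intro t _
    simp only [add_sub_cancel_right, Real.rpow_natCast]
    rw [mul_pow, show (1 / 2) * t = t / 2 by ring]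
    ring
  rw [h1, h, Real.Gamma_nat_eq_factorial]
  have h2 : (1 / (1 / 2 : ℝ)) ^ ((n : ℝ) + 1) = 2 * 2 ^ n := by
    rw [one_div_one_div, Real.rpow_add_one (by norm_num), Real.rpow_natCast]; ring
  rw [h2]
  have h3 : (4 : ℝ) ^ n = 2 ^ n * 2 ^ n := by rw [← mul_pow]; norm_num
  rw [h3]; ring

theorem integral_gauss_moment (n : ℕ) :
    ∫ q in Ioi (0 : ℝ), q ^ (2 * n + 1) * Real.exp (-(q ^ 2) / 4) = 2 * 4 ^ n * (n ! : ℝ) := by
  rw [← integral_pow_exp_half, ← integral_half_sq (fun t => (2 * t) ^ n * Real.exp (-(t / 2)))]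
  apply setIntegral_congr_fun measurableSet_Ioi
  intro q _
  simp only
  have h1 : 2 * (q ^ 2 / 2) = q ^ 2 := by ring
  have h2 : -(q ^ 2 / 2 / 2) = -(q ^ 2) / 4 := by ring
  rw [h1, h2, ← pow_mul, pow_succ]; ring

theorem integrable_gauss_moment (n : ℕ) :
    IntegrableOn (fun q : ℝ => q ^ n * Real.exp (-(q ^ 2) / 4)) (Ioi 0) := by
  have := ((isPoly_pow n).gm (b := 1 / 4) (by norm_num)).integrableOn
  refine this.congr_fun (fun q _ => ?_) measurableSet_Ioi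
  simp only
  rw [show -(1 / 4) * q ^ 2 = -(q ^ 2) / 4 by ring]

/-- expansion of `q^(2j) gw m q` -/
theorem pow_mul_gw (m j : ℕ) (q : ℝ) : q ^ (2 * j) * gw m q =
    ∑ i ∈ Finset.range (m + 1), ((m.choose i : ℝ) * (-1) ^ i / ((i ! : ℝ) * 2 ^ i)) *
      (q ^ (2 * (j + i) + 1) * Real.exp (-(q ^ 2) / 4)) := by
  unfold gw lag
  rw [Finset.mul_sum, Finset.mul_sum]
  apply Finset.sum_congr rfl
  intro i _
  have h1 : (-(q ^ 2 / 2)) ^ i = (-1) ^ i * q ^ (2 * i) / 2 ^ i := by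
    rw [pow_mul, neg_pow, div_pow]; ring
  have h2 : (i ! : ℝ) ≠ 0 := by positivity
  rw [h1, show 2 * (j + i) + 1 = 2 * j + 2 * i + 1 by ring, pow_succ, pow_add]
  field_simp
  ring

/-- the exact (rational) power series coefficients: `∫ q^(2j) gw m q = dco m j` -/
def dco (m j : ℕ) : ℚ :=
  ∑ i ∈ Finset.range (m + 1), (m.choose i : ℚ) * (-1) ^ i * 2 ^ (2 * j + i + 1) * ((j + i)! : ℚ) / (i ! : ℚ)

theorem integral_pow_gw (m j : ℕ) :
    ∫ q in Ioi (0 : ℝ), q ^ (2 * j) * gw m q = (dco m j : ℝ) := by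
  simp only [pow_mul_gw]
  rw [integral_finsetSum]
  · unfold dco
    push_cast
    apply Finset.sum_congr rfl
    intro i _
    rw [integral_const_mul, integral_gauss_moment]
    have h2 : (i ! : ℝ) ≠ 0 := by positivity
    have h3 : (4 : ℝ) ^ (j + i) = 2 ^ (2 * j + i) * 2 ^ i := by
      rw [← pow_add, show 2 * j + i + i = 2 * (j + i) by ring, pow_mul]; norm_num
    rw [h3, pow_succ (2 : ℝ) (2 * j + i)]
    field_simp
  · intro i _
    exact (integrable_gauss_moment _).const_mul _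

theorem fact_ratio (J i : ℕ) : ((J + i)! : ℝ) / (i ! : ℝ) ≤ (J ! : ℝ) * 2 ^ (J + i) := by
  have h1 : ((J + i).choose i : ℝ) ≤ 2 ^ (J + i) := by
    exact_mod_cast Nat.choose_le_two_pow (J + i) i
  have h2 : ((J + i)! : ℝ) = ((J + i).choose i : ℝ) * (J ! : ℝ) * (i ! : ℝ) := by
    have := Nat.add_choose_mul_factorial_mul_factorial J i
    exact_mod_cast this.symm
  rw [h2]
  have h3 : (0 : ℝ) < (i ! : ℝ) := by positivity
  rw [mul_div_assoc, div_self h3.ne', mul_one, mul_comm]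
  exact mul_le_mul_of_nonneg_left h1 (by positivity)

theorem integral_abs_pow_gw_le (m J : ℕ) :
    ∫ q in Ioi (0 : ℝ), |q ^ (2 * J) * gw m q| ≤ 2 * 6 ^ m * 8 ^ J * (J ! : ℝ) := by
  have hi : ∀ i, IntegrableOn (fun q : ℝ => ((m.choose i : ℝ) / ((i ! : ℝ) * 2 ^ i)) *
      (q ^ (2 * (J + i) + 1) * Real.exp (-(q ^ 2) / 4))) (Ioi 0) :=
    fun i => (integrable_gauss_moment _).const_mul _
  calc ∫ q in Ioi (0 : ℝ), |q ^ (2 * J) * gw m q|
      ≤ ∫ q in Ioi (0 : ℝ), ∑ i ∈ Finset.range (m + 1), ((m.choose i : ℝ) / ((i ! : ℝ) * 2 ^ i)) *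
      (q ^ (2 * (J + i) + 1) * Real.exp (-(q ^ 2) / 4)) := by
        apply setIntegral_mono_on _ _ measurableSet_Ioi
        · intro q hq
          have hq0 : (0 : ℝ) < q := hq
          rw [pow_mul_gw]
          refine (Finset.abs_sum_le_sum_abs _ _).trans (Finset.sum_le_sum fun i _ => le_of_eq ?_)
          rw [abs_mul, abs_div, abs_mul, abs_pow, abs_neg, abs_one, one_pow, mul_one,
            abs_of_nonneg (show (0 : ℝ) ≤ (m.choose i : ℝ) by positivity),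
            abs_of_nonneg (show (0 : ℝ) ≤ (i ! : ℝ) * 2 ^ i by positivity),
            abs_of_nonneg (show (0 : ℝ) ≤ q ^ (2 * (J + i) + 1) * Real.exp (-(q ^ 2) / 4) by positivity)]
        · exact ((gm_gw m).2 (2 * J)).abs
        · exact integrable_finsetSum _ fun i _ => hi i
    _ = ∑ i ∈ Finset.range (m + 1), ((m.choose i : ℝ) / ((i ! : ℝ) * 2 ^ i)) *
          (2 * 4 ^ (J + i) * ((J + i)! : ℝ)) := by
        rw [integral_finsetSum _ fun i _ => hi i]
        apply Finset.sum_congr rfl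
        intro i _
        rw [integral_const_mul, integral_gauss_moment]
    _ ≤ ∑ i ∈ Finset.range (m + 1), (2 * 2 ^ m * 8 ^ J * (J ! : ℝ)) * ((m.choose i : ℝ) * 2 ^ i) := by
        apply Finset.sum_le_sum
        intro i hi
        have him : i ≤ m := by simpa [Nat.lt_succ_iff] using hi
        have h1 := fact_ratio J i
        have h2 : ((m.choose i : ℝ) / ((i ! : ℝ) * 2 ^ i)) * (2 * 4 ^ (J + i) * ((J + i)! : ℝ)) =
            (2 * (m.choose i : ℝ) * 4 ^ J * 2 ^ i) * (((J + i)! : ℝ) / (i ! : ℝ)) := by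
          have h3 : (4 : ℝ) ^ (J + i) = 4 ^ J * (2 ^ i * 2 ^ i) := by
            rw [pow_add, ← mul_pow]; norm_num
          have h4 : (i ! : ℝ) ≠ 0 := by positivity
          rw [h3]
          field_simp
        rw [h2]
        refine (mul_le_mul_of_nonneg_left h1 (by positivity)).trans ?_
        have h5 : (2 : ℝ) ^ i ≤ 2 ^ m := pow_le_pow_right₀ (by norm_num) him
        have h6 : (8 : ℝ) ^ J = 4 ^ J * 2 ^ J := by rw [← mul_pow]; norm_num
        rw [pow_add, h6]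
        have h7 : 0 ≤ 2 * (m.choose i : ℝ) * 4 ^ J * 2 ^ i * ((J ! : ℝ) * 2 ^ J) := by positivity
        calc 2 * (m.choose i : ℝ) * 4 ^ J * 2 ^ i * ((J ! : ℝ) * (2 ^ J * 2 ^ i))
            = (2 * (m.choose i : ℝ) * 4 ^ J * 2 ^ i * ((J ! : ℝ) * 2 ^ J)) * 2 ^ i := by ring
          _ ≤ (2 * (m.choose i : ℝ) * 4 ^ J * 2 ^ i * ((J ! : ℝ) * 2 ^ J)) * 2 ^ m :=
              mul_le_mul_of_nonneg_left h5 h7
          _ = _ := by ring
    _ = 2 * 6 ^ m * 8 ^ J * (J ! : ℝ) := by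
        rw [← Finset.mul_sum]
        have h8 : ∑ i ∈ Finset.range (m + 1), (m.choose i : ℝ) * 2 ^ i = 3 ^ m := by
          have := add_pow (2 : ℝ) 1 m
          norm_num at this
          rw [this]
          apply Finset.sum_congr rfl
          intro i _
          ring
        rw [h8, show (6 : ℝ) ^ m = 2 ^ m * 3 ^ m by rw [← mul_pow]; norm_num]
        ring

/-! ### the series -/



def serR (J m : ℕ) (x : ℝ) : ℝ :=
  ∑ j ∈ Finset.range J, (-1) ^ j * x ^ (2 * j) / ((2 * j)! : ℝ) * (dco m j : ℝ)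

def serR' (J m : ℕ) (x : ℝ) : ℝ :=
  ∑ j ∈ Finset.range J, -((-1) ^ j * x ^ (2 * j + 1) / ((2 * j + 1)! : ℝ) * (dco m (j + 1) : ℝ))



theorem serR_eq (J m : ℕ) (x : ℝ) :
    serR J m x = ∫ q in Ioi (0 : ℝ), gw m q * cosT J (q * x) := by
  have h1 : ∀ q : ℝ, gw m q * cosT J (q * x) =
      ∑ j ∈ Finset.range J, ((-1) ^ j * x ^ (2 * j) / ((2 * j)! : ℝ)) * (q ^ (2 * j) * gw m q) := by
    intro q
    unfold cosT
    rw [Finset.mul_sum]
    apply Finset.sum_congr rfl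
    intro j _
    rw [mul_pow]; ring
  simp only [h1]
  rw [integral_finsetSum _ fun j _ => ((gm_gw m).2 (2 * j)).const_mul _]
  unfold serR
  apply Finset.sum_congr rfl
  intro j _
  rw [integral_const_mul, integral_pow_gw]

theorem integrableOn_gw_cosT (J m : ℕ) (x : ℝ) :
    IntegrableOn (fun q => gw m q * cosT J (q * x)) (Ioi 0) := by
  have h1 : (fun q : ℝ => gw m q * cosT J (q * x)) = fun q =>
      ∑ j ∈ Finset.range J, ((-1) ^ j * x ^ (2 * j) / ((2 * j)! : ℝ)) * (q ^ (2 * j) * gw m q) := by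
    funext q
    unfold cosT
    rw [Finset.mul_sum]
    apply Finset.sum_congr rfl
    intro j _
    rw [mul_pow]; ring
  rw [h1]
  exact integrable_finsetSum _ fun j _ => ((gm_gw m).2 (2 * j)).const_mul _

theorem abs_Dsel_sub_serR (J m : ℕ) (x : ℝ) :
    |Dsel m x - serR J m x| ≤ 2 * 6 ^ m * (8 * x ^ 2 / ((J : ℝ) + 1)) ^ J := by
  have h0 : Dsel m x - serR J m x =
      ∫ q in Ioi (0 : ℝ), gw m q * (Real.cos (q * x) - cosT J (q * x)) := by
    rw [serR_eq]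
    have h1 : Dsel m x = ∫ q in Ioi (0 : ℝ), gw m q * Real.cos (q * x) := rfl
    rw [h1, ← integral_sub]
    · congr 1; ext q; ring
    · have := (gm_gw m).integrableOn_cos 0 x
      simp only [add_zero] at this
      exact this
    · exact integrableOn_gw_cosT J m x
  have hb : ∀ q ∈ Ioi (0 : ℝ), ‖gw m q * (Real.cos (q * x) - cosT J (q * x))‖ ≤
      (|x| ^ (2 * J) / ((2 * J)! : ℝ)) * |q ^ (2 * J) * gw m q| := by
    intro q hq
    have hq0 : (0 : ℝ) < q := hq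
    rw [norm_mul, Real.norm_eq_abs, Real.norm_eq_abs]
    have h2 := abs_cos_sub_cosT J (q * x)
    rw [abs_mul, mul_pow, abs_of_pos hq0] at h2
    have h3 : (|x| ^ (2 * J) / ((2 * J)! : ℝ)) * |q ^ (2 * J) * gw m q| =
        |gw m q| * (q ^ (2 * J) * |x| ^ (2 * J) / ((2 * J)! : ℝ)) := by
      rw [abs_mul, abs_pow, abs_of_pos hq0]; ring
    rw [h3]
    exact mul_le_mul_of_nonneg_left h2 (abs_nonneg _)
  rw [h0, ← Real.norm_eq_abs]
  refine (norm_integral_le_integral_norm _).trans ?_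
  have h4 : ∫ q in Ioi (0 : ℝ), ‖gw m q * (Real.cos (q * x) - cosT J (q * x))‖ ≤
      ∫ q in Ioi (0 : ℝ), (|x| ^ (2 * J) / ((2 * J)! : ℝ)) * |q ^ (2 * J) * gw m q| := by
    apply setIntegral_mono_on _ _ measurableSet_Ioi hb
    · apply Integrable.norm
      have a1 := (gm_gw m).integrableOn_cos 0 x
      simp only [add_zero] at a1
      refine (a1.sub (integrableOn_gw_cosT J m x)).congr ?_
      filter_upwards with q
      simp only [Pi.sub_apply]
      ring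
    · exact ((gm_gw m).2 (2 * J)).abs.const_mul _
  refine h4.trans ?_
  rw [integral_const_mul]
  have h5 := integral_abs_pow_gw_le m J
  have hx : |x| ^ (2 * J) = (x ^ 2) ^ J := by rw [pow_mul, sq_abs]
  refine (mul_le_mul_of_nonneg_left h5 (by positivity)).trans ?_
  rw [hx]
  have h6 : (J ! : ℝ) * ((J : ℝ) + 1) ^ J ≤ ((2 * J)! : ℝ) := by
    have := Nat.factorial_mul_pow_le_factorial (m := J) (n := J)
    rw [← two_mul] at this
    exact_mod_cast this
  rw [div_pow, mul_pow]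
  have h7 : (0 : ℝ) < ((2 * J)! : ℝ) := by positivity
  have h8 : (0 : ℝ) < ((J : ℝ) + 1) ^ J := by positivity
  rw [div_mul_eq_mul_div, div_le_iff₀ h7, mul_div_assoc', div_mul_eq_mul_div, le_div_iff₀ h8]
  have h9 : 0 ≤ (x ^ 2) ^ J * (2 * 6 ^ m * 8 ^ J) := by positivity
  nlinarith [mul_le_mul_of_nonneg_left h6 h9]

theorem deriv_Dsel_eq (m : ℕ) (x : ℝ) :
    deriv (Dsel m) x = -∫ q in Ioi (0 : ℝ), (q ^ 1 * gw m q) * Real.sin (q * x) := by
  rw [Dsel_eq, (hasDerivAt_CT (gm_gw m) 0 x).deriv, ← integral_neg]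
  unfold CT
  apply setIntegral_congr_fun measurableSet_Ioi
  intro q _
  simp only
  rw [zero_add, Real.cos_add_pi_div_two]
  ring

theorem gw_sinT (J m : ℕ) (x q : ℝ) : (q ^ 1 * gw m q) * sinT J (q * x) =
      ∑ j ∈ Finset.range J, ((-1) ^ j * x ^ (2 * j + 1) / ((2 * j + 1)! : ℝ)) *
        (q ^ (2 * (j + 1)) * gw m q) := by
  unfold sinT
  rw [Finset.mul_sum]
  apply Finset.sum_congr rfl
  intro j _
  rw [mul_pow, show 2 * (j + 1) = 2 * j + 1 + 1 by ring, pow_succ q (2 * j + 1)]; ring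

theorem integrableOn_gw_sinT (J m : ℕ) (x : ℝ) :
    IntegrableOn (fun q => (q ^ 1 * gw m q) * sinT J (q * x)) (Ioi 0) := by
  simp only [gw_sinT]
  exact integrable_finsetSum _ fun j _ => ((gm_gw m).2 (2 * (j + 1))).const_mul _

theorem serR'_eq (J m : ℕ) (x : ℝ) :
    serR' J m x = -∫ q in Ioi (0 : ℝ), (q ^ 1 * gw m q) * sinT J (q * x) := by
  simp only [gw_sinT]
  rw [integral_finsetSum _ fun j _ => ((gm_gw m).2 (2 * (j + 1))).const_mul _,
    ← Finset.sum_neg_distrib]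
  unfold serR'
  apply Finset.sum_congr rfl
  intro j _
  rw [integral_const_mul, integral_pow_gw]

theorem abs_deriv_Dsel_sub_serR' (J m : ℕ) (x : ℝ) :
    |deriv (Dsel m) x - serR' J m x| ≤ 16 * 6 ^ m * |x| * (8 * x ^ 2 / ((J : ℝ) + 1)) ^ J := by
  have isin : IntegrableOn (fun q => (q ^ 1 * gw m q) * Real.sin (q * x)) (Ioi 0) := by
    have a1 := ((gm_gw m).pow_mul 1).integrableOn_cos (-(Real.pi / 2)) x
    refine a1.congr_fun (fun q _ => ?_) measurableSet_Ioi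
    simp only
    rw [← sub_eq_add_neg, Real.cos_sub_pi_div_two]
  have h0 : deriv (Dsel m) x - serR' J m x =
      -∫ q in Ioi (0 : ℝ), (q ^ 1 * gw m q) * (Real.sin (q * x) - sinT J (q * x)) := by
    rw [serR'_eq, deriv_Dsel_eq]
    have : ∫ q in Ioi (0 : ℝ), (q ^ 1 * gw m q) * (Real.sin (q * x) - sinT J (q * x)) =
        (∫ q in Ioi (0 : ℝ), (q ^ 1 * gw m q) * Real.sin (q * x)) -
        ∫ q in Ioi (0 : ℝ), (q ^ 1 * gw m q) * sinT J (q * x) := by
      rw [← integral_sub isin (integrableOn_gw_sinT J m x)]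
      congr 1; ext q; ring
    rw [this]; ring
  have hb : ∀ q ∈ Ioi (0 : ℝ), ‖(q ^ 1 * gw m q) * (Real.sin (q * x) - sinT J (q * x))‖ ≤
      (|x| ^ (2 * J + 1) / ((2 * J + 1)! : ℝ)) * |q ^ (2 * (J + 1)) * gw m q| := by
    intro q hq
    have hq0 : (0 : ℝ) < q := hq
    rw [norm_mul, Real.norm_eq_abs, Real.norm_eq_abs]
    have h2 := abs_sin_sub_sinT J (q * x)
    rw [abs_mul, mul_pow, abs_of_pos hq0] at h2
    have h3 : (|x| ^ (2 * J + 1) / ((2 * J + 1)! : ℝ)) * |q ^ (2 * (J + 1)) * gw m q| =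
        |q ^ 1 * gw m q| * (q ^ (2 * J + 1) * |x| ^ (2 * J + 1) / ((2 * J + 1)! : ℝ)) := by
      rw [abs_mul, abs_pow, abs_of_pos hq0, abs_mul, abs_pow, abs_of_pos hq0,
        show 2 * (J + 1) = 2 * J + 1 + 1 by ring, pow_succ q (2 * J + 1)]; ring
    rw [h3]
    exact mul_le_mul_of_nonneg_left h2 (abs_nonneg _)
  rw [h0, abs_neg, ← Real.norm_eq_abs]
  refine (norm_integral_le_integral_norm _).trans ?_
  have h4 : ∫ q in Ioi (0 : ℝ), ‖(q ^ 1 * gw m q) * (Real.sin (q * x) - sinT J (q * x))‖ ≤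
      ∫ q in Ioi (0 : ℝ), (|x| ^ (2 * J + 1) / ((2 * J + 1)! : ℝ)) * |q ^ (2 * (J + 1)) * gw m q| := by
    apply setIntegral_mono_on _ _ measurableSet_Ioi hb
    · apply Integrable.norm
      refine (isin.sub (integrableOn_gw_sinT J m x)).congr ?_
      filter_upwards with q
      simp only [Pi.sub_apply]
      ring
    · exact ((gm_gw m).2 (2 * (J + 1))).abs.const_mul _
  refine h4.trans ?_
  rw [integral_const_mul]
  have h5 := integral_abs_pow_gw_le m (J + 1)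
  have hx : |x| ^ (2 * J + 1) = |x| * (x ^ 2) ^ J := by rw [pow_succ, pow_mul, sq_abs]; ring
  refine (mul_le_mul_of_nonneg_left h5 (by positivity)).trans ?_
  rw [hx]
  have h6 : ((J + 1)! : ℝ) * ((J : ℝ) + 1) ^ J ≤ ((2 * J + 1)! : ℝ) := by
    have a1 := Nat.factorial_mul_pow_le_factorial (m := J + 1) (n := J)
    have a2 : (J + 1)! * (J + 1) ^ J ≤ (J + 1)! * (J + 1 + 1) ^ J :=
      Nat.mul_le_mul_left _ (Nat.pow_le_pow_left (by omega) J)
    have a3 := a2.trans a1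
    rw [show J + 1 + J = 2 * J + 1 by ring] at a3
    exact_mod_cast a3
  rw [div_pow, mul_pow]
  have h7 : (0 : ℝ) < ((2 * J + 1)! : ℝ) := by positivity
  have h8 : (0 : ℝ) < ((J : ℝ) + 1) ^ J := by positivity
  rw [div_mul_eq_mul_div, div_le_iff₀ h7, mul_div_assoc', div_mul_eq_mul_div, le_div_iff₀ h8]
  have h9 : 0 ≤ |x| * (x ^ 2) ^ J * (2 * 6 ^ m * 8 ^ (J + 1)) := by positivity
  have h10 := mul_le_mul_of_nonneg_left h6 h9
  calc |x| * (x ^ 2) ^ J * (2 * 6 ^ m * 8 ^ (J + 1) * ((J + 1)! : ℝ)) * ((J : ℝ) + 1) ^ J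
      = |x| * (x ^ 2) ^ J * (2 * 6 ^ m * 8 ^ (J + 1)) * (((J + 1)! : ℝ) * ((J : ℝ) + 1) ^ J) := by ring
    _ ≤ |x| * (x ^ 2) ^ J * (2 * 6 ^ m * 8 ^ (J + 1)) * ((2 * J + 1)! : ℝ) := h10
    _ = _ := by rw [pow_succ]; ring

end Crest.Agent.R338.Lag
end
end

-- ▼ part R338/LagPT

/-!
Row 338, G.6 (helper695): `Dsel m x` and `deriv (Dsel m) x` are computable in polynomial time for
unary `m` and computable `x` with a unary bound.
-/

set_option autoImplicit false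

open scoped Nat

noncomputable section
namespace Crest.Agent.R338.Lag
open Crest.Agent.Lib.PT Crest.Agent.R338.Nu

variable {α : Type} [PTCode α]

theorem dco_eq_real (m j : ℕ) : ((dco m j : ℚ) : ℝ) =
    ∑ i ∈ Finset.range (m + 1), (m ! : ℝ) * (i ! : ℝ)⁻¹ * ((m - i)! : ℝ)⁻¹ * (-1) ^ i *
      2 ^ (2 * j + i + 1) * ((j + i)! : ℝ) * (i ! : ℝ)⁻¹ := by
  unfold dco
  push_cast
  apply Finset.sum_congr rfl
  intro i hi
  have him : i ≤ m := by simpa [Nat.lt_succ_iff] using hi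
  have h1 : (m.choose i : ℝ) = (m ! : ℝ) * (i ! : ℝ)⁻¹ * ((m - i)! : ℝ)⁻¹ := by
    rw [Nat.cast_choose ℝ him, div_eq_mul_inv, mul_inv, mul_assoc]
  rw [h1]
  ring

theorem ptr_dco {m j : α → ℕ} (hm : PTU m) (hj : PTU j) :
    PTR (fun a => ((dco (m a) (j a) : ℚ) : ℝ)) := by
  have hm1 : PTU (fun p : α × Un => m p.1) := PTU.comp hm PTF.fst
  have hj1 : PTU (fun p : α × Un => j p.1) := PTU.comp hj PTF.fst
  have hneg : PTR (fun _ : α × Un => (-1 : ℝ)) :=
    (PTR.constRat (-1)).of_eq (fun _ => by norm_num)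
  have htwo : PTR (fun _ : α × Un => (2 : ℝ)) := PTR.ofNat 2
  have h := PTR.sumRange (n := fun a => m a + 1)
    (r := fun a i => ((m a)! : ℝ) * (i ! : ℝ)⁻¹ * ((m a - i)! : ℝ)⁻¹ * (-1) ^ i *
      2 ^ (2 * j a + i + 1) * ((j a + i)! : ℝ) * (i ! : ℝ)⁻¹) (PTU.succ hm)
    ((((((((PTR.factorial hm1).mul (PTR.factorialInv ptu_snd)).mul
      (PTR.factorialInv (PTU.sub hm1 ptu_snd))).mul (PTR.pow hneg ptu_snd)).mul
      (PTR.pow htwo (PTU.succ (PTU.add (PTU.mul (PTU.const 2) hj1) ptu_snd)))).mul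
      (PTR.factorial (PTU.add hj1 ptu_snd))).mul (PTR.factorialInv ptu_snd)))
  exact h.of_eq (fun a => (dco_eq_real _ _).symm)

theorem ptr_serR {J m : α → ℕ} {x : α → ℝ} (hJ : PTU J) (hm : PTU m) (hx : PTR x) :
    PTR (fun a => serR (J a) (m a) (x a)) := by
  have hneg : PTR (fun _ : α × Un => (-1 : ℝ)) :=
    (PTR.constRat (-1)).of_eq (fun _ => by norm_num)
  have h2j : PTU (fun p : α × Un => 2 * p.2.val) := PTU.mul (PTU.const 2) ptu_snd
  have h := PTR.sumRange (n := J)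
    (r := fun a j => (-1) ^ j * x a ^ (2 * j) * ((2 * j)! : ℝ)⁻¹ * (dco (m a) j : ℝ)) hJ
    ((((PTR.pow hneg ptu_snd).mul (PTR.pow (hx.comp PTF.fst) h2j)).mul
      (PTR.factorialInv h2j)).mul (ptr_dco (PTU.comp hm PTF.fst) ptu_snd))
  refine h.of_eq (fun a => ?_)
  unfold serR
  apply Finset.sum_congr rfl
  intro j _
  rw [div_eq_mul_inv]

theorem ptr_serR' {J m : α → ℕ} {x : α → ℝ} (hJ : PTU J) (hm : PTU m) (hx : PTR x) :
    PTR (fun a => serR' (J a) (m a) (x a)) := by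
  have hneg : PTR (fun _ : α × Un => (-1 : ℝ)) :=
    (PTR.constRat (-1)).of_eq (fun _ => by norm_num)
  have h2j : PTU (fun p : α × Un => 2 * p.2.val + 1) := PTU.succ (PTU.mul (PTU.const 2) ptu_snd)
  have h := PTR.sumRange (n := J)
    (r := fun a j => -((-1) ^ j * x a ^ (2 * j + 1) * ((2 * j + 1)! : ℝ)⁻¹ *
      (dco (m a) (j + 1) : ℝ))) hJ
    ((((PTR.pow hneg ptu_snd).mul (PTR.pow (hx.comp PTF.fst) h2j)).mul
      (PTR.factorialInv h2j)).mul (ptr_dco (PTU.comp hm PTF.fst) (PTU.succ ptu_snd))).neg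
  refine h.of_eq (fun a => ?_)
  unfold serR'
  apply Finset.sum_congr rfl
  intro j _
  rw [div_eq_mul_inv]

/-- the remainder with `J = 32 B^2 + 3 m + 3 + k` terms -/
theorem rem_bound {x : ℝ} {B m k : ℕ} (hx : |x| ≤ B) :
    2 * 6 ^ m * (8 * x ^ 2 / (((32 * B ^ 2 + 3 * m + 3 + k : ℕ) : ℝ) + 1)) ^
      (32 * B ^ 2 + 3 * m + 3 + k) ≤ (1 / 2 : ℝ) ^ k := by
  set J := 32 * B ^ 2 + 3 * m + 3 + k with hJ
  have h1 : x ^ 2 ≤ (B : ℝ) ^ 2 := by
    rw [← sq_abs x]; exact pow_le_pow_left₀ (abs_nonneg _) hx 2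
  have h2 : 8 * x ^ 2 / ((J : ℝ) + 1) ≤ 1 / 4 := by
    rw [div_le_iff₀ (by positivity)]
    have h3 : (32 : ℝ) * (B : ℝ) ^ 2 ≤ (J : ℝ) := by
      rw [hJ]; push_cast
      have : (0 : ℝ) ≤ (m : ℝ) := Nat.cast_nonneg m
      have : (0 : ℝ) ≤ (k : ℝ) := Nat.cast_nonneg k
      linarith
    linarith
  have h0 : 0 ≤ 8 * x ^ 2 / ((J : ℝ) + 1) := by positivity
  have h4 : (8 * x ^ 2 / ((J : ℝ) + 1)) ^ J ≤ (1 / 4) ^ J := pow_le_pow_left₀ h0 h2 J
  have h5 : (6 : ℝ) ^ m ≤ 8 ^ m := pow_le_pow_left₀ (by norm_num) (by norm_num) m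
  have h6 : (1 / 4 : ℝ) ^ J ≤ (1 / 2) ^ (3 * m + 3 + k) * (1 / 2) ^ (3 * m + 3) := by
    rw [← pow_add, show (1 / 4 : ℝ) = (1 / 2) ^ 2 by norm_num, ← pow_mul]
    apply pow_le_pow_of_le_one (by norm_num) (by norm_num)
    omega
  have h7 : (8 : ℝ) ^ m * (1 / 2) ^ (3 * m) = 1 := by
    rw [pow_mul, ← mul_pow]; norm_num
  have h8 : (1 / 2 : ℝ) ^ (3 * m + 3 + k) ≤ (1 / 2) ^ k :=
    pow_le_pow_of_le_one (by norm_num) (by norm_num) (by omega)
  have h9 : (0 : ℝ) < (1 / 2) ^ k := by positivity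
  calc 2 * 6 ^ m * (8 * x ^ 2 / ((J : ℝ) + 1)) ^ J ≤ 2 * 8 ^ m *
        ((1 / 2) ^ (3 * m + 3 + k) * (1 / 2) ^ (3 * m + 3)) := by
        gcongr
        exact h4.trans h6
    _ = (8 ^ m * (1 / 2) ^ (3 * m)) * (2 * (1 / 2) ^ 3) * (1 / 2) ^ (3 * m + 3 + k) := by
        rw [pow_add (1 / 2 : ℝ) (3 * m) 3]; ring
    _ = (1 / 4) * (1 / 2) ^ (3 * m + 3 + k) := by rw [h7]; norm_num
    _ ≤ 1 * (1 / 2) ^ k := by
        apply mul_le_mul (by norm_num) h8 (by positivity) (by norm_num)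
    _ = _ := one_mul _

/-- **`Dsel m x` is computable** -/
theorem PTR.Dsel {m B : α → ℕ} {x : α → ℝ} (hm : PTU m) (hx : PTR x) (hB : PTU B)
    (h : ∀ a, |x a| ≤ B a) : PTR (fun a => Lag.Dsel (m a) (x a)) := by
  have hm1 : PTU (fun p : α × Un => m p.1) := PTU.comp hm PTF.fst
  have hB1 : PTU (fun p : α × Un => B p.1) := PTU.comp hB PTF.fst
  have hJ : PTU (fun p : α × Un => 32 * B p.1 ^ 2 + 3 * m p.1 + 3 + p.2.val) :=
    PTU.add (PTU.add (PTU.add (PTU.mul (PTU.const 32) (PTU.pow hB1 2))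
      (PTU.mul (PTU.const 3) hm1)) (PTU.const 3)) ptu_snd
  have hR := ptr_serR (α := α × Un) hJ hm1 (hx.comp PTF.fst)
  refine PTR.limit hR (fun p => ?_)
  rw [abs_sub_comm]
  exact (abs_Dsel_sub_serR _ _ _).trans (rem_bound (h p.1))

/-- **`deriv (Dsel m) x` is computable** -/
theorem PTR.derivDsel {m B : α → ℕ} {x : α → ℝ} (hm : PTU m) (hx : PTR x) (hB : PTU B)
    (h : ∀ a, |x a| ≤ B a) : PTR (fun a => deriv (Lag.Dsel (m a)) (x a)) := by
  have hm1 : PTU (fun p : α × Un => m p.1) := PTU.comp hm PTF.fst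
  have hB1 : PTU (fun p : α × Un => B p.1) := PTU.comp hB PTF.fst
  have hk : PTU (fun p : α × Un => p.2.val + (3 + B p.1)) :=
    PTU.add ptu_snd (PTU.add (PTU.const 3) hB1)
  have hJ : PTU (fun p : α × Un => 32 * B p.1 ^ 2 + 3 * m p.1 + 3 + (p.2.val + (3 + B p.1))) :=
    PTU.add (PTU.add (PTU.add (PTU.mul (PTU.const 32) (PTU.pow hB1 2))
      (PTU.mul (PTU.const 3) hm1)) (PTU.const 3)) hk
  have hR := ptr_serR' (α := α × Un) hJ hm1 (hx.comp PTF.fst)
  refine PTR.limit hR (fun p => ?_)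
  rw [abs_sub_comm]
  refine (abs_deriv_Dsel_sub_serR' _ _ _).trans ?_
  have h1 := rem_bound (m := m p.1) (k := p.2.val + (3 + B p.1)) (h p.1)
  set J := 32 * B p.1 ^ 2 + 3 * m p.1 + 3 + (p.2.val + (3 + B p.1)) with hJd
  have h2 : |x p.1| ≤ 2 ^ B p.1 := by
    refine (h p.1).trans ?_
    exact_mod_cast (Nat.lt_two_pow_self).le
  have h3 : 0 ≤ 2 * 6 ^ m p.1 * (8 * x p.1 ^ 2 / ((J : ℝ) + 1)) ^ J := by positivity
  calc 16 * 6 ^ m p.1 * |x p.1| * (8 * x p.1 ^ 2 / ((J : ℝ) + 1)) ^ J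
      = 8 * |x p.1| * (2 * 6 ^ m p.1 * (8 * x p.1 ^ 2 / ((J : ℝ) + 1)) ^ J) := by ring
    _ ≤ 8 * 2 ^ B p.1 * (1 / 2) ^ (p.2.val + (3 + B p.1)) := by
        apply mul_le_mul _ h1 h3 (by positivity)
        exact mul_le_mul_of_nonneg_left h2 (by norm_num)
    _ = (1 / 2) ^ p.2.val := by
        rw [pow_add, pow_add]
        have : (2 : ℝ) ^ B p.1 * (1 / 2) ^ B p.1 = 1 := by rw [← mul_pow]; norm_num
        calc 8 * 2 ^ B p.1 * ((1 / 2) ^ p.2.val * ((1 / 2) ^ 3 * (1 / 2) ^ B p.1))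
            = (8 * (1 / 2) ^ 3) * (2 ^ B p.1 * (1 / 2) ^ B p.1) * (1 / 2 : ℝ) ^ p.2.val := by ring
          _ = _ := by rw [this]; norm_num

end Crest.Agent.R338.Lag
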