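import Crest.Agent.R338.LatDefs

-- ▼ part R338/Lat1
section

/-!
Row 338, node C.1: `‖F1‖ ≤ (λ/2) exp(-a r²)` and the weak form `k1 = div F1`.
-/

set_option autoImplicit false

noncomputable section
open MeasureTheory Real Set Filter Topology
open scoped ContDiff

namespace Crest.Agent.R338.Lat

theorem gau_pos (τ : ℝ) (x : P3) : 0 < gau τ x := Real.exp_pos _

theorem gau_le_one (τ : ℝ) (x : P3) : gau τ x ≤ 1 := by
  unfold gau
  rw [Real.exp_le_one_iff]
  have : 0 ≤ τ ^ 2 * ‖x‖ ^ 2 := by positivity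
  linarith

/-- Gaussian tail as a function of `r` -/
theorem integral_Ioi_exp (r : ℝ) (hr : 0 < r) :
    ∫ τ in Ioi (0 : ℝ), Real.exp (-(τ ^ 2 * r ^ 2)) = √π / (2 * r) := by
  have h := integral_gaussian_Ioi (r ^ 2)
  have e : (fun τ : ℝ => Real.exp (-(τ ^ 2 * r ^ 2))) = fun τ => Real.exp (-(r ^ 2) * τ ^ 2) := by
    ext τ; congr 1; ring
  rw [e, h, Real.sqrt_div' _ (by positivity), Real.sqrt_sq hr.le]
  field_simp

theorem integrableOn_exp (r c : ℝ) (hr : 0 < r) :
    IntegrableOn (fun τ : ℝ => Real.exp (-(τ ^ 2 * r ^ 2))) (Ioi c) := by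
  have h := integrable_exp_neg_mul_sq (b := r ^ 2) (by positivity)
  refine (h.congr (Eventually.of_forall fun τ => ?_)).integrableOn
  simp only; congr 1; ring

/-- tail representation of `SR` -/
theorem SR_eq (a : ℝ) (x : P3) (hx : x ≠ 0) :
    SR a x = 2 / √π * ∫ τ in Ioi (√a), gau τ x := by
  have hr : 0 < ‖x‖ := norm_pos_iff.2 hx
  have hpi : 0 < √π := Real.sqrt_pos.2 Real.pi_pos
  have h1 := integral_Ioi_exp ‖x‖ hr
  have h2 : ∫ τ in Ioi (0 : ℝ), Real.exp (-(τ ^ 2 * ‖x‖ ^ 2)) =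
      (∫ τ in (0 : ℝ)..√a, gau τ x) + ∫ τ in Ioi (√a), gau τ x := by
    have h3 := intervalIntegral.integral_Ioi_sub_Ioi
      (f := fun τ : ℝ => Real.exp (-(τ ^ 2 * ‖x‖ ^ 2))) (μ := volume) (a := 0) (b := √a)
      (integrableOn_exp ‖x‖ 0 hr) (Real.sqrt_nonneg a)
    unfold gau
    linarith
  unfold SR LR
  have h4 : 1 / ‖x‖ = 2 / √π * ∫ τ in Ioi (0 : ℝ), Real.exp (-(τ ^ 2 * ‖x‖ ^ 2)) := by
    rw [h1]; field_simp
  rw [h4, h2]; ring

theorem SR_nonneg (a : ℝ) (x : P3) (hx : x ≠ 0) : 0 ≤ SR a x := by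
  rw [SR_eq a x hx]
  have : 0 ≤ ∫ τ in Ioi (√a), gau τ x := setIntegral_nonneg measurableSet_Ioi fun τ _ => (gau_pos τ x).le
  positivity

theorem integral_Ioi_shift {F : Type*} [NormedAddCommGroup F] [NormedSpace ℝ F] (f : ℝ → F) (c : ℝ) :
    ∫ τ in Ioi (0 : ℝ), f (τ + c) = ∫ τ in Ioi c, f τ := by
  have h := (measurePreserving_add_right (volume : Measure ℝ) c).setIntegral_preimage_emb
    (measurableEmbedding_addRight c) f (Ioi c)
  have e : (fun x : ℝ => x + c) ⁻¹' Ioi c = Ioi 0 := by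
    ext τ; simp
  rw [e] at h
  exact h

theorem integrableOn_Ioi_shift {F : Type*} [NormedAddCommGroup F] {f : ℝ → F} {c : ℝ}
    (hf : IntegrableOn f (Ioi c)) : IntegrableOn (fun τ => f (τ + c)) (Ioi 0) := by
  have h := (measurePreserving_add_right (volume : Measure ℝ) c).integrableOn_comp_preimage
    (measurableEmbedding_addRight c) (f := f) (s := Ioi c)
  have e : (fun x : ℝ => x + c) ⁻¹' Ioi c = Ioi 0 := by
    ext τ; simp
  rw [e] at h
  exact h.2 hf

/-- `∫_{√a}^∞ exp(-τ² r²) ≤ exp(-a r²) √π/(2 r)` -/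
theorem tail_le (a : ℝ) (x : P3) (hx : x ≠ 0) :
    ∫ τ in Ioi (√a), gau τ x ≤ gau (√a) x * (√π / (2 * ‖x‖)) := by
  have hr : 0 < ‖x‖ := norm_pos_iff.2 hx
  have h1 := integral_Ioi_exp ‖x‖ hr
  have h2 : ∫ τ in Ioi (√a), gau τ x = ∫ τ in Ioi (0 : ℝ), gau (τ + √a) x :=
    (integral_Ioi_shift (fun τ => gau τ x) (√a)).symm
  rw [h2, ← h1, ← integral_const_mul]
  refine setIntegral_mono_on ?_ ?_ measurableSet_Ioi ?_
  · have h3 : IntegrableOn (fun τ => gau τ x) (Ioi (√a)) := integrableOn_exp ‖x‖ (√a) hr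
    exact integrableOn_Ioi_shift h3
  · exact (integrableOn_exp ‖x‖ 0 hr).const_mul _
  · intro τ hτ
    have hτ : 0 < τ := hτ
    unfold gau
    rw [← Real.exp_add]
    apply Real.exp_le_exp.2
    have : 0 ≤ 2 * τ * √a * ‖x‖ ^ 2 := by positivity
    nlinarith [this]

theorem norm_F1_le (lam a : ℝ) (hl : 0 ≤ lam) (x : P3) :
    ‖F1 lam a x‖ ≤ lam / 2 * gau (√a) x := by
  unfold F1
  rcases eq_or_ne x 0 with rfl | hx
  · simp
    have := (gau_pos (√a) (0 : P3)).le
    positivity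
  · have hr : 0 < ‖x‖ := norm_pos_iff.2 hx
    have hpi : 0 < √π := Real.sqrt_pos.2 Real.pi_pos
    rw [norm_smul, Real.norm_eq_abs, abs_mul, abs_of_nonneg (SR_nonneg a x hx), abs_neg,
      abs_of_nonneg (by positivity : (0 : ℝ) ≤ lam / 2), mul_assoc]
    refine mul_le_mul_of_nonneg_left ?_ (by positivity)
    rw [SR_eq a x hx]
    have h := tail_le a x hx
    calc 2 / √π * (∫ τ in Ioi (√a), gau τ x) * ‖x‖
        ≤ 2 / √π * (gau (√a) x * (√π / (2 * ‖x‖))) * ‖x‖ := by gcongr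
      _ = gau (√a) x := by field_simp

end Crest.Agent.R338.Lat

namespace Crest.Agent.R338.Lat

variable {F' : Type*} [NormedAddCommGroup F'] [NormedSpace ℝ F']

/-- bounded continuous multiplier -/
theorem int_smul {φ : P3 → ℝ} (hφ : Continuous φ) {B : ℝ} (hB : ∀ x, |φ x| ≤ B) {g : P3 → F'}
    (hg : Integrable g) : Integrable (fun x => φ x • g x) := by
  refine (hg.norm.const_mul B).mono' (hφ.aestronglyMeasurable.smul hg.1)
    (Eventually.of_forall fun x => ?_)
  rw [norm_smul, Real.norm_eq_abs]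
  exact mul_le_mul_of_nonneg_right (hB x) (norm_nonneg _)

theorem norm_mul_gau_le (τ : ℝ) (hτ : 0 < τ) (x : P3) : ‖x‖ * gau τ x ≤ 1 / τ := by
  unfold gau
  have h0 := Real.add_one_le_exp (τ ^ 2 * ‖x‖ ^ 2)
  have h1 : τ * ‖x‖ ≤ Real.exp (τ ^ 2 * ‖x‖ ^ 2) := by nlinarith [sq_nonneg (τ * ‖x‖ - 1)]
  rw [Real.exp_neg, ← div_eq_mul_inv, div_le_div_iff₀ (Real.exp_pos _) hτ]
  linarith

theorem sq_mul_gau_le (τ : ℝ) (x : P3) : τ ^ 2 * ‖x‖ ^ 2 * gau τ x ≤ 1 := by
  unfold gau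
  have h0 := Real.add_one_le_exp (τ ^ 2 * ‖x‖ ^ 2)
  rw [Real.exp_neg, ← div_eq_mul_inv, div_le_one (Real.exp_pos _)]
  linarith

theorem hasFDerivAt_gau (τ : ℝ) (x : P3) :
    HasFDerivAt (gau τ) (gau τ x • (-(τ ^ 2) • ((2 : ℝ) • innerSL ℝ x))) x := by
  unfold gau
  have h1 : HasFDerivAt (fun x : P3 => ‖x‖ ^ 2) ((2 : ℝ) • innerSL ℝ x) x := by
    have h := (hasStrictFDerivAt_norm_sq x).hasFDerivAt
    rw [← Nat.cast_smul_eq_nsmul ℝ] at h
    exact_mod_cast h
  have h2 : HasFDerivAt (fun x : P3 => -(τ ^ 2 * ‖x‖ ^ 2)) (-(τ ^ 2) • ((2 : ℝ) • innerSL ℝ x)) x := by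
    have := (h1.const_mul (-(τ ^ 2)))
    refine this.congr_of_eventuallyEq (Eventually.of_forall fun y => ?_)
    simp only; ring
  exact h2.exp


/-- standard basis vectors -/
def bas (c : Fin 3) : P3 := EuclideanSpace.single c (1 : ℝ)

theorem sum_bas (x : P3) : ∑ c, x c • bas c = x := by
  ext i
  fin_cases i <;> simp [bas, Fin.sum_univ_three]

theorem inner_bas (x : P3) (c : Fin 3) : inner ℝ x (bas c) = x c := by
  simp [bas, EuclideanSpace.inner_single_right]

theorem hasFDerivAt_coord (c : Fin 3) (x : P3) :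
    HasFDerivAt (fun y : P3 => y c) (EuclideanSpace.proj c : P3 →L[ℝ] ℝ) x :=
  (EuclideanSpace.proj c : P3 →L[ℝ] ℝ).hasFDerivAt

theorem fderiv_xgau (τ : ℝ) (c : Fin 3) (x : P3) :
    fderiv ℝ (fun y : P3 => y c * gau τ y) x (bas c) = (1 - 2 * τ ^ 2 * x c ^ 2) * gau τ x := by
  have h := (hasFDerivAt_coord c x).mul (hasFDerivAt_gau τ x)
  have h' : fderiv ℝ (fun y : P3 => y c * gau τ y) x = _ := h.fderiv
  rw [h']
  simp only [add_apply, smul_apply, smul_eq_mul,
    innerSL_apply_apply, inner_bas]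
  have : (EuclideanSpace.proj c : P3 →L[ℝ] ℝ) (bas c) = 1 := by simp [bas]
  rw [this]; ring

theorem abs_coord_le (x : P3) (c : Fin 3) : |x c| ≤ ‖x‖ := by
  have := EuclideanSpace.norm_eq x
  rw [this]
  apply Real.abs_le_sqrt
  have h := Finset.single_le_sum (f := fun i => ‖x i‖ ^ 2) (fun i _ => by positivity)
    (Finset.mem_univ c)
  simpa using h

theorem continuous_coord (c : Fin 3) : Continuous fun x : P3 => x c :=
  (EuclideanSpace.proj c : P3 →L[ℝ] ℝ).continuous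

/-- Gaussian integration by parts, one coordinate -/
theorem ibp_coord (τ : ℝ) (hτ : 0 < τ) (c : Fin 3) {f : P3 → F'} (hf : ContDiff ℝ 1 f)
    (hi : Integrable f) (hi' : Integrable (fderiv ℝ f)) :
    ∫ x, (x c * gau τ x) • fderiv ℝ f x (bas c) =
      - ∫ x, ((1 - 2 * τ ^ 2 * x c ^ 2) * gau τ x) • f x := by
  have hd : ∀ x : P3, DifferentiableAt ℝ (fun y : P3 => y c * gau τ y) x := fun x =>
    ((hasFDerivAt_coord c x).mul (hasFDerivAt_gau τ x)).differentiableAt
  have hcont : Continuous fun x : P3 => x c * gau τ x :=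
    (continuous_coord c).mul (continuous_gau τ)
  have hb : ∀ x : P3, |x c * gau τ x| ≤ 1 / τ := fun x => by
    rw [abs_mul, abs_of_nonneg (gau_pos τ x).le]
    exact (mul_le_mul_of_nonneg_right (abs_coord_le x c) (gau_pos τ x).le).trans
      (norm_mul_gau_le τ hτ x)
  have hcont2 : Continuous fun x : P3 => (1 - 2 * τ ^ 2 * x c ^ 2) * gau τ x := by
    have := continuous_coord c
    have := continuous_gau τ
    fun_prop
  have hb2 : ∀ x : P3, |(1 - 2 * τ ^ 2 * x c ^ 2) * gau τ x| ≤ 3 := fun x => by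
    rw [abs_mul, abs_of_nonneg (gau_pos τ x).le]
    have h1 := gau_le_one τ x
    have h2 := sq_mul_gau_le τ x
    have h3 : x c ^ 2 ≤ ‖x‖ ^ 2 := by
      rw [← sq_abs]; exact pow_le_pow_left₀ (abs_nonneg _) (abs_coord_le x c) 2
    have h4 : |1 - 2 * τ ^ 2 * x c ^ 2| ≤ 1 + 2 * (τ ^ 2 * ‖x‖ ^ 2) := by
      rw [abs_le]
      constructor <;> nlinarith [sq_nonneg τ, sq_nonneg (x c), mul_le_mul_of_nonneg_left h3 (sq_nonneg τ), mul_nonneg (sq_nonneg τ) (sq_nonneg (x c))]
    calc |1 - 2 * τ ^ 2 * x c ^ 2| * gau τ x ≤ (1 + 2 * (τ ^ 2 * ‖x‖ ^ 2)) * gau τ x :=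
          mul_le_mul_of_nonneg_right h4 (gau_pos τ x).le
      _ ≤ 3 := by nlinarith
  have hfv : Integrable fun x => fderiv ℝ f x (bas c) :=
    hi'.apply_continuousLinearMap _
  have := integral_smul_fderiv_eq_neg_fderiv_smul_of_integrable (μ := (volume : Measure P3))
    (f := fun y : P3 => y c * gau τ y) (g := f) (v := bas c)
    (by simp only [fderiv_xgau]; exact int_smul hcont2 hb2 hi)
    (int_smul hcont hb hfv) (int_smul hcont hb hi) (fun x _ => hd x)
    (fun x _ => hf.differentiable (by simp) x)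
  simpa only [fderiv_xgau] using this

/-- Gaussian integration by parts -/
theorem ibp_gau (τ : ℝ) (hτ : 0 < τ) {f : P3 → F'} (hf : ContDiff ℝ 1 f)
    (hi : Integrable f) (hi' : Integrable (fderiv ℝ f)) :
    ∫ x, gau τ x • fderiv ℝ f x x = - ∫ x, ((3 - 2 * τ ^ 2 * ‖x‖ ^ 2) * gau τ x) • f x := by
  have e1 : ∀ x : P3, gau τ x • fderiv ℝ f x x =
      ∑ c, (x c * gau τ x) • fderiv ℝ f x (bas c) := fun x => by
    conv_lhs => rw [← sum_bas x, map_sum, sum_bas]
    rw [Finset.smul_sum]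
    refine Finset.sum_congr rfl fun c _ => ?_
    rw [map_smul, smul_smul, mul_comm]
  have e2 : ∀ x : P3, ((3 - 2 * τ ^ 2 * ‖x‖ ^ 2) * gau τ x) • f x =
      ∑ c, ((1 - 2 * τ ^ 2 * x c ^ 2) * gau τ x) • f x := fun x => by
    rw [← Finset.sum_smul, ← Finset.sum_mul]
    congr 2
    rw [norm_sq_P3, Fin.sum_univ_three, Fin.sum_univ_three]; ring
  have i1 : ∀ c, Integrable fun x : P3 => (x c * gau τ x) • fderiv ℝ f x (bas c) := fun c => by
    have hb : ∀ x : P3, |x c * gau τ x| ≤ 1 / τ := fun x => by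
      rw [abs_mul, abs_of_nonneg (gau_pos τ x).le]
      exact (mul_le_mul_of_nonneg_right (abs_coord_le x c) (gau_pos τ x).le).trans
        (norm_mul_gau_le τ hτ x)
    exact int_smul ((continuous_coord c).mul (continuous_gau τ)) hb
      (hi'.apply_continuousLinearMap _)
  have i2 : ∀ c, Integrable fun x : P3 => ((1 - 2 * τ ^ 2 * x c ^ 2) * gau τ x) • f x :=
    fun c => by
    have hcont2 : Continuous fun x : P3 => (1 - 2 * τ ^ 2 * x c ^ 2) * gau τ x := by
      have := continuous_coord c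
      have := continuous_gau τ
      fun_prop
    refine int_smul hcont2 (B := 3) (fun x => ?_) hi
    rw [abs_mul, abs_of_nonneg (gau_pos τ x).le]
    have h1 := gau_le_one τ x
    have h2 := sq_mul_gau_le τ x
    have h3 : x c ^ 2 ≤ ‖x‖ ^ 2 := by
      rw [← sq_abs]; exact pow_le_pow_left₀ (abs_nonneg _) (abs_coord_le x c) 2
    have h4 : |1 - 2 * τ ^ 2 * x c ^ 2| ≤ 1 + 2 * (τ ^ 2 * ‖x‖ ^ 2) := by
      rw [abs_le]
      constructor <;> nlinarith [sq_nonneg τ, sq_nonneg (x c), mul_le_mul_of_nonneg_left h3 (sq_nonneg τ), mul_nonneg (sq_nonneg τ) (sq_nonneg (x c))]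
    calc |1 - 2 * τ ^ 2 * x c ^ 2| * gau τ x ≤ (1 + 2 * (τ ^ 2 * ‖x‖ ^ 2)) * gau τ x :=
          mul_le_mul_of_nonneg_right h4 (gau_pos τ x).le
      _ ≤ 3 := by nlinarith
  simp_rw [e1, e2]
  rw [integral_finsetSum _ fun c _ => i1 c, integral_finsetSum _ fun c _ => i2 c,
    ← Finset.sum_neg_distrib]
  exact Finset.sum_congr rfl fun c _ => ibp_coord τ hτ c hf hi hi'

/-- truncated tail -/
def HT (a T : ℝ) (x : P3) : ℝ := ∫ τ in (√a)..T, gau τ x

theorem ftc_gau (a T : ℝ) (x : P3) :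
    ∫ τ in (√a)..T, (1 - 2 * τ ^ 2 * ‖x‖ ^ 2) * gau τ x = T * gau T x - √a * gau (√a) x := by
  have hd : ∀ τ ∈ uIcc (√a) T, HasDerivAt (fun τ : ℝ => τ * gau τ x)
      ((1 - 2 * τ ^ 2 * ‖x‖ ^ 2) * gau τ x) τ := fun τ _ => by
    have h1 : HasDerivAt (fun τ : ℝ => gau τ x) (gau τ x * (-(2 * τ * ‖x‖ ^ 2))) τ := by
      unfold gau
      have h2 : HasDerivAt (fun τ : ℝ => -(τ ^ 2 * ‖x‖ ^ 2)) (-(2 * τ * ‖x‖ ^ 2)) τ := by
        have := ((hasDerivAt_pow 2 τ).mul_const (‖x‖ ^ 2)).fun_neg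
        simpa using this
      exact h2.exp
    have := (hasDerivAt_id τ).mul h1
    refine this.congr_deriv ?_
    simp only [id]; ring
  refine intervalIntegral.integral_eq_sub_of_hasDerivAt hd ?_
  refine Continuous.intervalIntegrable ?_ _ _
  have := continuous_gau_param x
  fun_prop

theorem integral_div_T (a T : ℝ) (x : P3) :
    ∫ τ in (√a)..T, (3 - 2 * τ ^ 2 * ‖x‖ ^ 2) * gau τ x =
      2 * HT a T x + (T * gau T x - √a * gau (√a) x) := by
  rw [← ftc_gau, HT, ← intervalIntegral.integral_const_mul, ← intervalIntegral.integral_add]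
  · congr 1; ext τ; ring
  · exact ((continuous_gau_param x).intervalIntegrable _ _).const_mul _
  · refine Continuous.intervalIntegrable ?_ _ _
    have := continuous_gau_param x
    fun_prop

theorem continuous_gau2 : Continuous fun p : ℝ × P3 => gau p.1 p.2 := by
  unfold gau; fun_prop

/-- truncated weak form -/
theorem weak_T [CompleteSpace F'] (a T : ℝ) (ha : 0 < a) (hT : √a ≤ T) {f : P3 → F'} (hf : ContDiff ℝ 1 f)
    (hi : Integrable f) (hi' : Integrable (fderiv ℝ f)) :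
    ∫ x, HT a T x • fderiv ℝ f x x =
      - ∫ x, (2 * HT a T x + (T * gau T x - √a * gau (√a) x)) • f x := by
  have hsa : 0 < √a := Real.sqrt_pos.2 ha
  have : IsFiniteMeasure ((volume : Measure ℝ).restrict (uIoc (√a) T)) := by
    unfold uIoc; infer_instance
  have hfd : Continuous (fderiv ℝ f) := hf.continuous_fderiv (by simp)
  have hfc : Continuous f := hf.continuous
  have I1 : Integrable (Function.uncurry fun (τ : ℝ) (x : P3) => gau τ x • fderiv ℝ f x x)
      ((volume.restrict (uIoc (√a) T)).prod volume) := by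
    have hg : Integrable (fun p : ℝ × P3 => (1 / √a) * ‖fderiv ℝ f p.2‖)
        ((volume.restrict (uIoc (√a) T)).prod volume) :=
      (hi'.norm.const_mul (1 / √a)).comp_snd _
    refine hg.mono' ?_ ?_
    · refine Continuous.aestronglyMeasurable ?_
      have := continuous_gau2
      simp only [Function.uncurry_def]
      exact this.smul ((hfd.comp continuous_snd).clm_apply continuous_snd)
    · have hm : ∀ᵐ p : ℝ × P3 ∂((volume.restrict (uIoc (√a) T)).prod volume),
          p.1 ∈ uIoc (√a) T := by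
        have : ∀ᵐ τ : ℝ ∂(volume.restrict (uIoc (√a) T)), τ ∈ uIoc (√a) T :=
          ae_restrict_mem measurableSet_uIoc
        exact Measure.quasiMeasurePreserving_fst.ae this
      filter_upwards [hm] with p hp
      rw [uIoc_of_le hT] at hp
      have hp1 : 0 < p.1 := hsa.trans hp.1
      simp only [Function.uncurry]
      rw [norm_smul, Real.norm_eq_abs, abs_of_pos (gau_pos _ _)]
      calc gau p.1 p.2 * ‖fderiv ℝ f p.2 p.2‖ ≤ gau p.1 p.2 * (‖fderiv ℝ f p.2‖ * ‖p.2‖) := by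
            gcongr
            · exact (gau_pos _ _).le
            · exact ContinuousLinearMap.le_opNorm _ _
        _ = (‖p.2‖ * gau p.1 p.2) * ‖fderiv ℝ f p.2‖ := by ring
        _ ≤ (1 / √a) * ‖fderiv ℝ f p.2‖ := by
            gcongr
            exact (norm_mul_gau_le p.1 hp1 p.2).trans
              (one_div_le_one_div_of_le hsa hp.1.le)
  have I2 : Integrable (Function.uncurry fun (τ : ℝ) (x : P3) =>
      ((3 - 2 * τ ^ 2 * ‖x‖ ^ 2) * gau τ x) • f x)
      ((volume.restrict (uIoc (√a) T)).prod volume) := by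
    have hg : Integrable (fun p : ℝ × P3 => 5 * ‖f p.2‖)
        ((volume.restrict (uIoc (√a) T)).prod volume) :=
      (hi.norm.const_mul 5).comp_snd _
    refine hg.mono' ?_ (Eventually.of_forall fun p => ?_)
    · refine Continuous.aestronglyMeasurable ?_
      have := continuous_gau2
      simp only [Function.uncurry_def]
      fun_prop
    · simp only [Function.uncurry]
      rw [norm_smul, Real.norm_eq_abs, abs_mul, abs_of_pos (gau_pos _ _)]
      have h1 := gau_le_one p.1 p.2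
      have h2 := sq_mul_gau_le p.1 p.2
      have h4 : |3 - 2 * p.1 ^ 2 * ‖p.2‖ ^ 2| ≤ 3 + 2 * (p.1 ^ 2 * ‖p.2‖ ^ 2) := by
        rw [abs_le]
        constructor <;> nlinarith [mul_nonneg (sq_nonneg p.1) (sq_nonneg ‖p.2‖)]
      refine mul_le_mul_of_nonneg_right ?_ (norm_nonneg _)
      calc |3 - 2 * p.1 ^ 2 * ‖p.2‖ ^ 2| * gau p.1 p.2
          ≤ (3 + 2 * (p.1 ^ 2 * ‖p.2‖ ^ 2)) * gau p.1 p.2 :=
            mul_le_mul_of_nonneg_right h4 (gau_pos _ _).le
        _ ≤ 5 := by nlinarith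
  have s1 := intervalIntegral_integral_swap I1
  have s2 := intervalIntegral_integral_swap I2
  have e1 : ∀ x : P3, HT a T x • fderiv ℝ f x x =
      ∫ τ in (√a)..T, gau τ x • fderiv ℝ f x x := fun x => by
    rw [HT, intervalIntegral.integral_smul_const]
  have e2 : ∀ x : P3, (2 * HT a T x + (T * gau T x - √a * gau (√a) x)) • f x =
      ∫ τ in (√a)..T, ((3 - 2 * τ ^ 2 * ‖x‖ ^ 2) * gau τ x) • f x := fun x => by
    rw [intervalIntegral.integral_smul_const, integral_div_T]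
  simp_rw [e1, e2]
  rw [← s1, ← s2, ← intervalIntegral.integral_neg]
  refine intervalIntegral.integral_congr fun τ hτ => ?_
  have hτ0 : 0 < τ := by
    rw [uIcc_of_le hT] at hτ
    exact hsa.trans_le hτ.1
  exact ibp_gau τ hτ0 hf hi hi'

end Crest.Agent.R338.Lat
end
end

-- ▼ part R338/Lat2
section

/-!
Row 338, node C.1: the weak form `k1 = div F1` (limit of the truncated identity).
-/

set_option autoImplicit false

noncomputable section
open MeasureTheory Real Set Filter Topology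
open scoped ContDiff

namespace Crest.Agent.R338.Lat

variable {F' : Type*} [NormedAddCommGroup F'] [NormedSpace ℝ F']

theorem finrank_P3 : Module.finrank ℝ P3 = 3 := by simp [P3]

theorem integrableOn_inv_norm (r : ℝ) :
    IntegrableOn (fun x : P3 => ‖x‖⁻¹) (Metric.ball (0 : P3) r) := by
  have h := (integrableOn_fun_norm_addHaar (μ := (volume : Measure P3)) (f := fun y : ℝ => y⁻¹)
    (r := r)).2
  refine h ?_
  rw [finrank_P3]
  refine IntegrableOn.congr_fun (f := fun y : ℝ => y) ?_ ?_ measurableSet_Ioo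
  · exact (continuous_id.integrableOn_Icc (a := 0) (b := r)).mono_set Ioo_subset_Icc_self
  · intro y hy
    have : y ≠ 0 := hy.1.ne'
    simp only [smul_eq_mul]
    field_simp

/-- `f/|x|` is integrable for continuous integrable `f` -/
theorem integrable_inv_smul {f : P3 → F'} (hc : Continuous f) (hi : Integrable f) :
    Integrable (fun x : P3 => ‖x‖⁻¹ • f x) := by
  have hm : AEStronglyMeasurable (fun x : P3 => ‖x‖⁻¹ • f x) := by
    have h1 : Measurable fun x : P3 => ‖x‖⁻¹ := measurable_norm.inv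
    exact h1.aestronglyMeasurable.smul hc.aestronglyMeasurable
  obtain ⟨B, hB⟩ := (isCompact_closedBall (0 : P3) 1).exists_bound_of_continuousOn hc.continuousOn
  have hB0 : 0 ≤ B := (norm_nonneg _).trans (hB 0 (by simp))
  have h1 : IntegrableOn (fun x : P3 => ‖x‖⁻¹ • f x) (Metric.ball (0 : P3) 1) := by
    refine ((integrableOn_inv_norm 1).const_mul B).mono' hm.restrict ?_
    filter_upwards [ae_restrict_mem measurableSet_ball] with x hx
    rw [norm_smul, norm_inv, norm_norm, mul_comm]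
    have : ‖f x‖ ≤ B := hB x (Metric.ball_subset_closedBall hx)
    gcongr
  have h2 : IntegrableOn (fun x : P3 => ‖x‖⁻¹ • f x) (Metric.ball (0 : P3) 1)ᶜ := by
    refine hi.norm.integrableOn.mono' hm.restrict ?_
    filter_upwards [ae_restrict_mem measurableSet_ball.compl] with x hx
    rw [norm_smul, norm_inv, norm_norm]
    have h3 : 1 ≤ ‖x‖ := by simpa using hx
    have : ‖x‖⁻¹ ≤ 1 := inv_le_one_of_one_le₀ h3
    nlinarith [norm_nonneg (f x)]
  rw [← integrableOn_univ, ← union_compl_self (Metric.ball (0 : P3) 1)]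
  exact h1.union h2

theorem HT_nonneg (a T : ℝ) (hT : √a ≤ T) (x : P3) : 0 ≤ HT a T x :=
  intervalIntegral.integral_nonneg hT fun τ _ => (gau_pos τ x).le

theorem HT_le (a T : ℝ) (hT : √a ≤ T) (x : P3) (hx : x ≠ 0) :
    HT a T x ≤ √π / (2 * ‖x‖) := by
  have hr : 0 < ‖x‖ := norm_pos_iff.2 hx
  rw [← integral_Ioi_exp ‖x‖ hr, HT, intervalIntegral.integral_of_le hT]
  refine setIntegral_mono_set (integrableOn_exp ‖x‖ 0 hr)
    (Eventually.of_forall fun τ => (Real.exp_pos _).le) ?_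
  refine Eventually.of_forall fun τ hτ => ?_
  exact (Real.sqrt_nonneg a).trans_lt hτ.1

theorem tendsto_HT (a : ℝ) (x : P3) (hx : x ≠ 0) :
    Tendsto (fun n : ℕ => 2 / √π * HT a (√a + n) x) atTop (𝓝 (SR a x)) := by
  have hr : 0 < ‖x‖ := norm_pos_iff.2 hx
  rw [SR_eq a x hx]
  refine Tendsto.const_mul _ ?_
  have h := intervalIntegral_tendsto_integral_Ioi (μ := (volume : Measure ℝ)) (√a)
    (f := fun τ => gau τ x) (integrableOn_exp ‖x‖ (√a) hr)
    (b := fun n : ℕ => √a + (n : ℝ)) (tendsto_atTop_add_const_left _ _ tendsto_natCast_atTop_atTop)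
  exact h

theorem tendsto_Tgau (a : ℝ) (x : P3) (hx : x ≠ 0) :
    Tendsto (fun n : ℕ => (√a + n) * gau (√a + n) x) atTop (𝓝 0) := by
  have hr : 0 < ‖x‖ := norm_pos_iff.2 hx
  have h1 : Tendsto (fun u : ℝ => u * Real.exp (-(u ^ 2 * ‖x‖ ^ 2))) atTop (𝓝 0) := by
    have h2 : ∀ u : ℝ, 0 < u → u * Real.exp (-(u ^ 2 * ‖x‖ ^ 2)) ≤ 1 / (u * ‖x‖ ^ 2) := by
      intro u hu
      have h0 := Real.add_one_le_exp (u ^ 2 * ‖x‖ ^ 2)
      rw [Real.exp_neg, ← div_eq_mul_inv, div_le_div_iff₀ (Real.exp_pos _) (by positivity)]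
      nlinarith
    refine tendsto_of_tendsto_of_tendsto_of_le_of_le' tendsto_const_nhds
      (h := fun u : ℝ => 1 / (u * ‖x‖ ^ 2)) ?_ ?_ ?_
    · have : Tendsto (fun u : ℝ => u * ‖x‖ ^ 2) atTop atTop :=
        tendsto_id.atTop_mul_const (by positivity)
      exact this.inv_tendsto_atTop.congr fun u => by simp [one_div]
    · filter_upwards [eventually_gt_atTop 0] with u hu
      positivity
    · filter_upwards [eventually_gt_atTop 0] with u hu using h2 u hu
  exact h1.comp (tendsto_atTop_add_const_left _ (√a) tendsto_natCast_atTop_atTop)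

theorem ae_ne_zero : ∀ᵐ x : P3, x ≠ 0 := by
  have : (volume : Measure P3) {(0 : P3)} = 0 := by simp
  exact measure_eq_zero_iff_ae_notMem.1 this

/-- weak form for `SR` -/
theorem weak_SR [CompleteSpace F'] (a : ℝ) (ha : 0 < a) {f : P3 → F'} (hf : ContDiff ℝ 1 f)
    (hi : Integrable f) (hi' : Integrable (fderiv ℝ f)) :
    ∫ x, SR a x • fderiv ℝ f x x =
      - ∫ x, (2 * SR a x - 2 * √(a / π) * gau (√a) x) • f x := by
  have hpi : 0 < √π := Real.sqrt_pos.2 Real.pi_pos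
  have hfd : Continuous (fderiv ℝ f) := hf.continuous_fderiv (by simp)
  have hfc : Continuous f := hf.continuous
  have hHTc : ∀ T, Continuous fun x : P3 => HT a T x := fun T => by
    unfold HT
    have := continuous_gau2
    refine intervalIntegral.continuous_parametric_intervalIntegral_of_continuous' ?_ _ _
    exact this.comp (continuous_snd.prodMk continuous_fst)
  have L : Tendsto (fun n : ℕ => ∫ x, (2 / √π * HT a (√a + n) x) • fderiv ℝ f x x) atTop
      (𝓝 (∫ x, SR a x • fderiv ℝ f x x)) := by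
    refine tendsto_integral_of_dominated_convergence (fun x => ‖fderiv ℝ f x‖) ?_ hi'.norm ?_ ?_
    · intro n
      refine Continuous.aestronglyMeasurable ?_
      have := hHTc (√a + n)
      exact (continuous_const.mul this).smul (hfd.clm_apply continuous_id)
    · intro n
      filter_upwards [ae_ne_zero] with x hx
      have hr : 0 < ‖x‖ := norm_pos_iff.2 hx
      have h1 := HT_le a (√a + n) (by simp) x hx
      have h0 := HT_nonneg a (√a + n) (by simp) x
      rw [norm_smul, Real.norm_eq_abs, abs_of_nonneg (by positivity)]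
      calc 2 / √π * HT a (√a + n) x * ‖fderiv ℝ f x x‖
          ≤ 2 / √π * (√π / (2 * ‖x‖)) * (‖fderiv ℝ f x‖ * ‖x‖) := by
            gcongr
            exact ContinuousLinearMap.le_opNorm _ _
        _ = ‖fderiv ℝ f x‖ := by field_simp
    · filter_upwards [ae_ne_zero] with x hx
      exact (tendsto_HT a x hx).smul_const _
  have Rr : Tendsto (fun n : ℕ => ∫ x, (2 / √π * (2 * HT a (√a + n) x +
      ((√a + n) * gau (√a + n) x - √a * gau (√a) x))) • f x) atTop
      (𝓝 (∫ x, (2 * SR a x - 2 * √(a / π) * gau (√a) x) • f x)) := by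
    refine tendsto_integral_of_dominated_convergence
      (fun x => (2 + 2 / √π) * ‖‖x‖⁻¹ • f x‖ + 2 / √π * √a * ‖f x‖) ?_ ?_ ?_ ?_
    · intro n
      refine Continuous.aestronglyMeasurable ?_
      have := hHTc (√a + n)
      have h2 := continuous_gau (√a + n)
      have h3 := continuous_gau (√a)
      fun_prop
    · exact ((integrable_inv_smul hfc hi).norm.const_mul _).add (hi.norm.const_mul _)
    · intro n
      filter_upwards [ae_ne_zero] with x hx
      have hr : 0 < ‖x‖ := norm_pos_iff.2 hx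
      have h1 := HT_le a (√a + n) (by simp) x hx
      have h0 := HT_nonneg a (√a + n) (by simp) x
      have hn : 0 < √a + n := by
        have := Real.sqrt_pos.2 ha
        positivity
      have h2 : (√a + n) * gau (√a + n) x ≤ ‖x‖⁻¹ := by
        have := norm_mul_gau_le (√a + n) hn x
        rw [le_div_iff₀ hn] at this
        rw [← one_div, le_div_iff₀ hr]
        nlinarith
      have h2' : 0 ≤ (√a + n) * gau (√a + n) x := mul_nonneg hn.le (gau_pos _ _).le
      have h3 : √a * gau (√a) x ≤ √a := by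
        have := gau_le_one (√a) x
        nlinarith [Real.sqrt_nonneg a]
      have h3' : 0 ≤ √a * gau (√a) x := mul_nonneg (Real.sqrt_nonneg a) (gau_pos _ _).le
      have h4 : 2 / √π * (2 * HT a (√a + n) x) ≤ 2 * ‖x‖⁻¹ := by
        calc 2 / √π * (2 * HT a (√a + n) x) ≤ 2 / √π * (2 * (√π / (2 * ‖x‖))) := by gcongr
          _ = 2 * ‖x‖⁻¹ := by field_simp
      have h5 : |2 / √π * (2 * HT a (√a + n) x + ((√a + n) * gau (√a + n) x - √a * gau (√a) x))|
          ≤ (2 + 2 / √π) * ‖x‖⁻¹ + 2 / √π * √a := by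
        have hc : 0 < 2 / √π := by positivity
        rw [abs_le]
        constructor
        · have : 0 ≤ 2 / √π * (2 * HT a (√a + n) x) := by positivity
          have h6 : 2 / √π * (√a * gau (√a) x) ≤ 2 / √π * √a := by gcongr
          have h7 : 0 ≤ 2 / √π * ((√a + n) * gau (√a + n) x) := mul_nonneg hc.le h2'
          have h8 : 0 ≤ (2 + 2 / √π) * ‖x‖⁻¹ := by positivity
          nlinarith
        · have h6 : 0 ≤ 2 / √π * (√a * gau (√a) x) := mul_nonneg hc.le h3'
          have h7 : 2 / √π * ((√a + n) * gau (√a + n) x) ≤ 2 / √π * ‖x‖⁻¹ := by gcongr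
          have h8 : 0 ≤ 2 / √π * √a := by positivity
          nlinarith
      rw [norm_smul, Real.norm_eq_abs, norm_smul, norm_inv, norm_norm]
      calc _ ≤ ((2 + 2 / √π) * ‖x‖⁻¹ + 2 / √π * √a) * ‖f x‖ :=
            mul_le_mul_of_nonneg_right h5 (norm_nonneg _)
        _ = _ := by ring
    · filter_upwards [ae_ne_zero] with x hx
      refine Tendsto.smul_const ?_ _
      have h1 := tendsto_HT a x hx
      have h2 := tendsto_Tgau a x hx
      have h3 := (h1.const_mul 2).add ((h2.sub_const (√a * gau (√a) x)).const_mul (2 / √π))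
      have e : 2 * SR a x - 2 * √(a / π) * gau (√a) x =
          2 * SR a x + 2 / √π * (0 - √a * gau (√a) x) := by
        rw [Real.sqrt_div ha.le]; ring
      rw [e]
      exact h3.congr' (Eventually.of_forall fun n => by ring)
  have E : ∀ n : ℕ, ∫ x, (2 / √π * HT a (√a + n) x) • fderiv ℝ f x x =
      - ∫ x, (2 / √π * (2 * HT a (√a + n) x +
      ((√a + n) * gau (√a + n) x - √a * gau (√a) x))) • f x := fun n => by
    have h := weak_T a (√a + n) ha (by simp) hf hi hi'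
    simp_rw [mul_smul (2 / √π)]
    rw [integral_smul, integral_smul, h, smul_neg]
  exact tendsto_nhds_unique (L.congr E) Rr.neg


theorem continuous_LR (a : ℝ) : Continuous (LR a) := by
  have h := continuous_gau2
  have h2 : Continuous fun x : P3 => ∫ τ in (0 : ℝ)..√a, gau τ x := by
    refine intervalIntegral.continuous_parametric_intervalIntegral_of_continuous' ?_ _ _
    exact h.comp (continuous_snd.prodMk continuous_fst)
  exact continuous_const.mul h2

theorem continuous_Psi (lam a : ℝ) : Continuous (Psi lam a) := by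
  have h := continuous_LR a
  have h2 := continuous_gau (√a)
  unfold Psi
  fun_prop

theorem LR_nonneg (a : ℝ) (x : P3) : 0 ≤ LR a x := by
  unfold LR
  have : 0 ≤ ∫ τ in (0 : ℝ)..√a, gau τ x :=
    intervalIntegral.integral_nonneg (Real.sqrt_nonneg a) fun τ _ => (gau_pos τ x).le
  positivity

theorem LR_le (a : ℝ) (x : P3) : LR a x ≤ 2 / √π * √a := by
  unfold LR
  refine mul_le_mul_of_nonneg_left ?_ (by positivity)
  have h : ∫ τ in (0 : ℝ)..√a, gau τ x ≤ ∫ τ in (0 : ℝ)..√a, (1 : ℝ) :=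
    intervalIntegral.integral_mono_on (Real.sqrt_nonneg a)
      ((continuous_gau_param x).intervalIntegrable _ _) (by simp) fun τ _ => gau_le_one τ x
  simpa using h

theorem Psi_nonpos (lam a : ℝ) (hl : 0 ≤ lam) (x : P3) : Psi lam a x ≤ 0 := by
  unfold Psi
  have h1 := LR_nonneg a x
  have h2 := (gau_pos (√a) x).le
  have h3 : 0 ≤ lam * LR a x := mul_nonneg hl h1
  have h4 : 0 ≤ lam * √(a / π) * gau (√a) x := by positivity
  linarith

theorem abs_Psi_le (lam a : ℝ) (hl : 0 ≤ lam) (ha : 0 ≤ a) (x : P3) :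
    |Psi lam a x| ≤ 2 * lam * √a := by
  rw [abs_of_nonpos (Psi_nonpos lam a hl x)]
  unfold Psi
  have h1 := LR_le a x
  have h2 := gau_le_one (√a) x
  have h3 := (gau_pos (√a) x).le
  have hpi : 0 < √π := Real.sqrt_pos.2 Real.pi_pos
  have h4 : 1.7 ≤ √π := by
    rw [Real.le_sqrt' (by norm_num)]
    have := Real.pi_gt_three
    nlinarith
  have h5 : 3 / √π ≤ 2 := by
    rw [div_le_iff₀ hpi]; nlinarith
  have h6 : √(a / π) = √a / √π := Real.sqrt_div ha _
  have h7 : lam * LR a x ≤ lam * (2 / √π * √a) := mul_le_mul_of_nonneg_left h1 hl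
  have h8 : lam * √(a / π) * gau (√a) x ≤ lam * √(a / π) * 1 :=
    mul_le_mul_of_nonneg_left h2 (by positivity)
  have h9 : 3 / √π * (lam * √a) ≤ 2 * (lam * √a) :=
    mul_le_mul_of_nonneg_right h5 (by positivity)
  rw [h6] at h8 ⊢
  have h10 : lam * (2 / √π * √a) + lam * (√a / √π) * 1 = 3 / √π * (lam * √a) := by ring
  nlinarith

theorem measurable_SR (a : ℝ) : Measurable (SR a) := by
  unfold SR
  exact (measurable_const.div measurable_norm).sub (continuous_LR a).measurable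

theorem measurable_F1 (lam a : ℝ) : Measurable (F1 lam a) := by
  unfold F1
  exact (measurable_const.mul (measurable_SR a)).smul measurable_id


theorem k1_eq (lam a : ℝ) (x : P3) :
    k1 lam a x = -(lam * SR a x) + lam * √(a / π) * gau (√a) x := by
  unfold k1 Psi SR; ring

/-- `k1 f` is integrable -/
theorem integrable_k1 (lam a : ℝ) (hl : 0 ≤ lam) (ha : 0 ≤ a) {f : P3 → F'} (hfc : Continuous f)
    (hi : Integrable f) : Integrable (fun x => k1 lam a x • f x) := by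
  have h1 : Integrable fun x => ((-lam) • (‖x‖⁻¹ • f x)) := (integrable_inv_smul hfc hi).smul _
  have h2 : Integrable fun x => Psi lam a x • f x :=
    int_smul (continuous_Psi lam a) (abs_Psi_le lam a hl ha) hi
  refine (h1.sub h2).congr (Eventually.of_forall fun x => ?_)
  simp only [k1, Pi.sub_apply, one_div]
  rw [smul_smul, ← sub_smul]
  congr 1
  ring

/-- node C.1, one proton at the origin -/
theorem weak_k1 [CompleteSpace F'] (lam a : ℝ) (ha : 0 < a) {f : P3 → F'} (hf : ContDiff ℝ 1 f)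
    (hi : Integrable f) (hi' : Integrable (fderiv ℝ f)) :
    ∫ x, k1 lam a x • f x = - ∫ x, fderiv ℝ f x (F1 lam a x) := by
  have h := weak_SR a ha hf hi hi'
  have e1 : ∀ x, fderiv ℝ f x (F1 lam a x) = (-(lam / 2)) • (SR a x • fderiv ℝ f x x) := fun x => by
    rw [F1, map_smul, mul_smul]
  have e2 : ∀ x, k1 lam a x • f x = (-(lam / 2)) •
      ((2 * SR a x - 2 * √(a / π) * gau (√a) x) • f x) := fun x => by
    rw [smul_smul, k1_eq]; congr 1; ring
  simp_rw [e1, e2]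
  rw [integral_smul, integral_smul, h]
  simp

end Crest.Agent.R338.Lat
end
end

-- ▼ part R338/Lat3
section

/-!
Row 338, node C.1: `C1Weak` (sum over the lattice) and `C1Bound` (`‖FF‖ ≤ C λ K³`).
-/

set_option autoImplicit false

noncomputable section
open MeasureTheory Real Set Filter Topology
open scoped ContDiff

namespace Crest.Agent.R338.Lat

variable {F' : Type*} [NormedAddCommGroup F'] [NormedSpace ℝ F']

theorem k1_lin (lam a : ℝ) (x : P3) : k1 lam a x = lam * k1 1 a x := by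
  unfold k1 Psi; ring

theorem integrable_k1' (lam a : ℝ) (ha : 0 ≤ a) {f : P3 → F'} (hfc : Continuous f)
    (hi : Integrable f) : Integrable (fun x => k1 lam a x • f x) := by
  have h := (integrable_k1 1 a zero_le_one ha hfc hi).smul lam
  refine h.congr (Eventually.of_forall fun x => ?_)
  simp only [Pi.smul_apply]
  rw [k1_lin lam, smul_smul]

theorem integrable_k1_shift (lam a : ℝ) (ha : 0 ≤ a) (y : P3) {f : P3 → F'} (hfc : Continuous f)
    (hi : Integrable f) : Integrable (fun x => k1 lam a (x - y) • f x) := by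
  have h := integrable_k1' lam a ha (f := fun z => f (z + y)) (by fun_prop) (hi.comp_add_right y)
  have h2 := h.comp_sub_right y
  simpa using h2

/-- node C.1, one proton at `y` -/
theorem weak_k1_shift [CompleteSpace F'] (lam a : ℝ) (ha : 0 < a) (y : P3) {f : P3 → F'}
    (hf : ContDiff ℝ 1 f) (hi : Integrable f) (hi' : Integrable (fderiv ℝ f)) :
    ∫ x, k1 lam a (x - y) • f x = - ∫ x, fderiv ℝ f x (F1 lam a (x - y)) := by
  have hg : ContDiff ℝ 1 fun z => f (z + y) := hf.comp (contDiff_id.add contDiff_const)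
  have hfd : ∀ z, fderiv ℝ (fun z => f (z + y)) z = fderiv ℝ f (z + y) := fun z =>
    fderiv_comp_add_right y
  have hi2 : Integrable (fderiv ℝ fun z => f (z + y)) := by
    have : (fderiv ℝ fun z => f (z + y)) = fun z => fderiv ℝ f (z + y) := funext hfd
    rw [this]
    exact hi'.comp_add_right y
  have h := weak_k1 lam a ha hg (hi.comp_add_right y) hi2
  have e1 : ∫ x, k1 lam a (x - y) • f x = ∫ z, k1 lam a z • f (z + y) := by
    rw [← integral_add_right_eq_self (fun x => k1 lam a (x - y) • f x) y]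
    simp
  have e2 : ∫ x, fderiv ℝ f x (F1 lam a (x - y)) = ∫ z, fderiv ℝ (fun z => f (z + y)) z (F1 lam a z) := by
    rw [← integral_add_right_eq_self (fun x => fderiv ℝ f x (F1 lam a (x - y))) y]
    simp [hfd]
  rw [e1, e2, h]

theorem norm_F1_le' (lam a : ℝ) (x : P3) : ‖F1 lam a x‖ ≤ |lam| / 2 := by
  rcases le_total 0 lam with h | h
  · have h1 := norm_F1_le lam a h x
    have h2 := gau_le_one (√a) x
    rw [abs_of_nonneg h]
    nlinarith
  · have h1 := norm_F1_le (-lam) a (by linarith) x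
    have h2 := gau_le_one (√a) x
    have h3 : ‖F1 (-lam) a x‖ = ‖F1 lam a x‖ := by
      unfold F1
      rw [show (-(-lam / 2) * SR a x) = -(-(lam / 2) * SR a x) by ring, neg_smul, norm_neg]
    rw [h3] at h1
    rw [abs_of_nonpos h]
    nlinarith

theorem integrable_fderiv_F1 (lam a : ℝ) (y : P3) {f : P3 → F'} (hi' : Integrable (fderiv ℝ f)) :
    Integrable (fun x => fderiv ℝ f x (F1 lam a (x - y))) := by
  refine (hi'.norm.mul_const (|lam| / 2)).mono' ?_ (Eventually.of_forall fun x => ?_)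
  · have hm : Measurable fun x : P3 => F1 lam a (x - y) :=
      (measurable_F1 lam a).comp (measurable_id.sub_const y)
    exact (ContinuousLinearMap.id ℝ (P3 →L[ℝ] F')).aestronglyMeasurable_comp₂ hi'.1
      hm.aestronglyMeasurable
  · exact (ContinuousLinearMap.le_opNorm _ _).trans (by gcongr; exact norm_F1_le' lam a _)

/-- general weak form for the whole lattice -/
theorem weak_kk [CompleteSpace F'] (lam s a : ℝ) (nL : ℕ) (d : (Fin 3 → ℤ) → P3) (ha : 0 < a)
    {f : P3 → F'} (hf : ContDiff ℝ 1 f) (hi : Integrable f) (hi' : Integrable (fderiv ℝ f)) :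
    Integrable (fun x => kk lam s a nL d x • f x) ∧
      ∫ x, kk lam s a nL d x • f x = - ∫ x, fderiv ℝ f x (FF lam s a nL d x) := by
  have hk : ∀ α, Integrable (fun x => k1 lam a (x - nuc s d α) • f x) := fun α =>
    integrable_k1_shift lam a ha.le _ hf.continuous hi
  have e1 : ∀ x, kk lam s a nL d x • f x = ∑ α ∈ Box nL, k1 lam a (x - nuc s d α) • f x :=
    fun x => by rw [kk, Finset.sum_smul]
  have e2 : ∀ x, fderiv ℝ f x (FF lam s a nL d x) =
      ∑ α ∈ Box nL, fderiv ℝ f x (F1 lam a (x - nuc s d α)) := fun x => by rw [FF, map_sum]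
  simp_rw [e1, e2]
  refine ⟨integrable_finsetSum _ fun α _ => hk α, ?_⟩
  rw [integral_finsetSum _ fun α _ => hk α,
    integral_finsetSum _ fun α _ => integrable_fderiv_F1 lam a _ hi', ← Finset.sum_neg_distrib]
  exact Finset.sum_congr rfl fun α _ => weak_k1_shift lam a ha _ hf hi hi'


end Crest.Agent.R338.Lat
end
end

-- ▼ part R338/Lat4
section

/-!
Row 338, node C.1: Gaussian lattice sums and `C1Bound` (`‖FF‖ ≤ C λ K³`).
-/

set_option autoImplicit false

noncomputable section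
open MeasureTheory Real Set Filter Topology
open scoped ContDiff

namespace Crest.Agent.R338.Lat

/-- 1D Gaussian sums over lattice points -/
theorem sum_exp_le (β s x : ℝ) (hβ : 0 < β) (hs : 0 < s) (S : Finset ℤ) :
    ∑ k ∈ S, Real.exp (-(β * (x - s * (k : ℝ)) ^ 2)) ≤
      Real.exp (β * s ^ 2 / 4) * (√(2 * π / β) / s) := by
  set g : ℝ → ℝ := fun t => Real.exp (-(β / 2) * (x - s * t) ^ 2) with hg
  have hgi : Integrable g := by
    have h1 := integrable_exp_neg_mul_sq (b := β / 2) (by positivity)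
    have h2 := (h1.comp_sub_left x).comp_mul_left' hs.ne'
    exact h2
  have hgint : ∫ t, g t = √(2 * π / β) / s := by
    have h1 := integral_gaussian (β / 2)
    have h2 : ∫ t, g t = s⁻¹ * ∫ u, Real.exp (-(β / 2) * (x - u) ^ 2) := by
      have := Measure.integral_comp_mul_left (fun u => Real.exp (-(β / 2) * (x - u) ^ 2)) s
      rw [abs_of_pos (inv_pos.2 hs), smul_eq_mul] at this
      exact this
    rw [h2, integral_sub_left_eq_self (fun u => Real.exp (-(β / 2) * u ^ 2)) volume x, h1,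
      show π / (β / 2) = 2 * π / β by field_simp]
    field_simp
  have hcell : ∀ k : ℤ, Real.exp (-(β * (x - s * (k : ℝ)) ^ 2)) ≤
      Real.exp (β * s ^ 2 / 4) * ∫ t in Ioc (-(1 / 2) + (k : ℝ)) (-(1 / 2) + (k : ℝ) + 1), g t := by
    intro k
    rw [← integral_const_mul]
    have h1 : Real.exp (-(β * (x - s * (k : ℝ)) ^ 2)) =
        ∫ t in Ioc (-(1 / 2) + (k : ℝ)) (-(1 / 2) + (k : ℝ) + 1),
          Real.exp (-(β * (x - s * (k : ℝ)) ^ 2)) := by
      rw [setIntegral_const]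
      simp
    rw [h1]
    refine setIntegral_mono_on (by simp) (hgi.integrableOn.const_mul _) measurableSet_Ioc ?_
    intro t ht
    rw [hg, ← Real.exp_add]
    apply Real.exp_le_exp.2
    have h2 : (t - k) ^ 2 ≤ 1 / 4 := by
      have h3 : -(1 / 2) ≤ t - k := by linarith [ht.1]
      have h4 : t - k ≤ 1 / 2 := by linarith [ht.2]
      nlinarith
    have h5 : (x - s * t) ^ 2 ≤ 2 * (x - s * k) ^ 2 + 2 * (s ^ 2 * (t - k) ^ 2) := by
      nlinarith [sq_nonneg ((x - s * k) + s * (t - k))]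
    have h6 : s ^ 2 * (t - k) ^ 2 ≤ s ^ 2 * (1 / 4) := by gcongr
    nlinarith [mul_le_mul_of_nonneg_left h5 hβ.le, mul_le_mul_of_nonneg_left h6 hβ.le]
  calc ∑ k ∈ S, Real.exp (-(β * (x - s * (k : ℝ)) ^ 2))
      ≤ ∑ k ∈ S, Real.exp (β * s ^ 2 / 4) *
          ∫ t in Ioc (-(1 / 2) + (k : ℝ)) (-(1 / 2) + (k : ℝ) + 1), g t :=
        Finset.sum_le_sum fun k _ => hcell k
    _ = Real.exp (β * s ^ 2 / 4) *
          ∫ t in ⋃ k ∈ S, Ioc (-(1 / 2) + (k : ℝ)) (-(1 / 2) + (k : ℝ) + 1), g t := by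
        rw [← Finset.mul_sum, integral_biUnion_finset S (fun k _ => measurableSet_Ioc)
          ((pairwise_disjoint_Ioc_add_intCast (-(1 / 2) : ℝ)).set_pairwise _)
          (fun k _ => hgi.integrableOn)]
    _ ≤ Real.exp (β * s ^ 2 / 4) * (√(2 * π / β) / s) := by
        refine mul_le_mul_of_nonneg_left ?_ (Real.exp_pos _).le
        rw [← hgint]
        exact setIntegral_le_integral hgi (Eventually.of_forall fun t => (Real.exp_pos _).le)

/-- shifting a Gaussian by a small vector -/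
theorem gau_shift (τ : ℝ) (z d : P3) :
    Real.exp (-(τ ^ 2 * ‖z + d‖ ^ 2)) ≤
      Real.exp (τ ^ 2 * ‖d‖ ^ 2) * Real.exp (-(τ ^ 2 / 2 * ‖z‖ ^ 2)) := by
  rw [← Real.exp_add]
  apply Real.exp_le_exp.2
  have h1 : ‖z‖ ≤ ‖z + d‖ + ‖d‖ := by
    have := norm_add_le (z + d) (-d)
    simpa using this
  have h2 : ‖z‖ ^ 2 ≤ 2 * ‖z + d‖ ^ 2 + 2 * ‖d‖ ^ 2 := by
    nlinarith [sq_nonneg (‖z + d‖ - ‖d‖), norm_nonneg z, norm_nonneg (z + d), norm_nonneg d]
  nlinarith [mul_le_mul_of_nonneg_left h2 (sq_nonneg τ)]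

/-- 3D Gaussian sums over the box -/
theorem sum_exp3_le (β s : ℝ) (hβ : 0 < β) (hs : 0 < s) (nL : ℕ) (x : P3) :
    ∑ α ∈ Box nL, Real.exp (-(β * ‖x - pt s α‖ ^ 2)) ≤
      (Real.exp (β * s ^ 2 / 4) * (√(2 * π / β) / s)) ^ 3 := by
  have h0 : ∀ α, Real.exp (-(β * ‖x - pt s α‖ ^ 2)) = gau (√β) (x - pt s α) := fun α => by
    rw [gau, Real.sq_sqrt hβ.le]
  simp_rw [h0]
  rw [sum_gau]
  have h1 : ∀ c : Fin 3, Sx s nL (x c) (√β) ≤ Real.exp (β * s ^ 2 / 4) * (√(2 * π / β) / s) :=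
    fun c => by
    have := sum_exp_le β s (x c) hβ hs (Finset.Icc (-(nL : ℤ)) (nL : ℤ))
    unfold Sx
    rwa [Real.sq_sqrt hβ.le]
  calc ∏ c : Fin 3, Sx s nL (x c) (√β)
      ≤ ∏ _c : Fin 3, Real.exp (β * s ^ 2 / 4) * (√(2 * π / β) / s) :=
        Finset.prod_le_prod (fun c _ => Finset.sum_nonneg fun k _ => (Real.exp_pos _).le)
          fun c _ => h1 c
    _ = _ := by simp

theorem C1Bound_holds : C1Bound := by
  refine ⟨300, fun lam s K a nL d hl hs hK ha hd x => ?_⟩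
  have hK0 : 0 < K := by linarith
  have hapos : 0 < a := by rw [ha]; positivity
  have h1 : ‖FF lam s a nL d x‖ ≤ ∑ α ∈ Box nL, lam / 2 * (Real.exp 1 *
      Real.exp (-(a / 2 * ‖x - pt s α‖ ^ 2))) := by
    unfold FF
    refine (norm_sum_le _ _).trans (Finset.sum_le_sum fun α _ => ?_)
    refine (norm_F1_le lam a hl _).trans (mul_le_mul_of_nonneg_left ?_ (by positivity))
    have e : x - nuc s d α = (x - pt s α) + d α := by unfold nuc; abel
    rw [e]
    have h2 := gau_shift (√a) (x - pt s α) (d α)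
    rw [Real.sq_sqrt hapos.le] at h2
    unfold gau
    rw [Real.sq_sqrt hapos.le]
    refine h2.trans (mul_le_mul_of_nonneg_right ?_ (Real.exp_pos _).le)
    apply Real.exp_le_exp.2
    have h3 : ‖d α‖ ^ 2 ≤ (s / 4) ^ 2 := pow_le_pow_left₀ (norm_nonneg _) (hd α) 2
    calc a * ‖d α‖ ^ 2 ≤ a * (s / 4) ^ 2 := by gcongr
      _ = 1 / (16 * K ^ 2) := by rw [ha]; field_simp; ring
      _ ≤ 1 := by
        rw [div_le_one (by positivity)]; nlinarith
  rw [← Finset.mul_sum, ← Finset.mul_sum] at h1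
  have h4 := sum_exp3_le (a / 2) s (by positivity) hs nL x
  have h5 : a / 2 * s ^ 2 / 4 ≤ 1 / 8 := by
    rw [ha]
    have : 1 / (K * s) ^ 2 / 2 * s ^ 2 / 4 = 1 / (8 * K ^ 2) := by field_simp; ring
    rw [this]
    rw [div_le_div_iff₀ (by positivity) (by norm_num)]
    nlinarith
  have h6 : √(2 * π / (a / 2)) / s ≤ 3.6 * K := by
    have e : 2 * π / (a / 2) = (4 * π) * (K * s) ^ 2 := by rw [ha]; field_simp; ring
    rw [e, Real.sqrt_mul (by positivity), Real.sqrt_sq (by positivity)]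
    have h7 : √(4 * π) ≤ 3.6 := by
      rw [Real.sqrt_le_left (by norm_num)]
      have := Real.pi_lt_d2
      norm_num at this ⊢
      linarith
    rw [div_le_iff₀ hs]
    nlinarith [mul_le_mul_of_nonneg_right h7 (by positivity : 0 ≤ K * s)]
  have h8 : Real.exp (a / 2 * s ^ 2 / 4) ≤ 1.2 := by
    refine (Real.exp_le_exp.2 h5).trans ?_
    have := Real.exp_bound' (x := 1 / 8) (by norm_num) (by norm_num) (n := 3) (by norm_num)
    refine this.trans ?_
    norm_num [Finset.sum_range_succ, Nat.factorial]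
  have h9 : (Real.exp (a / 2 * s ^ 2 / 4) * (√(2 * π / (a / 2)) / s)) ^ 3 ≤ (4.4 * K) ^ 3 := by
    refine pow_le_pow_left₀ (by positivity) ?_ 3
    calc _ ≤ 1.2 * (3.6 * K) := by gcongr
      _ ≤ 4.4 * K := by nlinarith
  have h10 := Real.exp_one_lt_d9
  calc ‖FF lam s a nL d x‖ ≤ _ := h1
    _ ≤ lam / 2 * (2.7182818286 * (4.4 * K) ^ 3) := by
      gcongr
      · exact h4.trans h9
    _ ≤ 300 * lam * K ^ 3 := by
      have : 0 ≤ lam * K ^ 3 := by positivity
      nlinarith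

end Crest.Agent.R338.Lat
end
end

-- ▼ part R338/Lat5
section

/-!
Row 338, node C.2 (N3): the singular part has tiny matrix elements on smooth functions.
-/

set_option autoImplicit false

noncomputable section
open MeasureTheory Real Set Filter Topology
open scoped ContDiff

namespace Crest.Agent.R338.Lat

theorem gau_neg (τ : ℝ) (x : P3) : gau τ (-x) = gau τ x := by simp [gau]

theorem F1_neg (lam a : ℝ) (x : P3) : F1 lam a (-x) = -F1 lam a x := by
  unfold F1 SR LR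
  simp [gau_neg]

theorem integrable_gau (τ : ℝ) (hτ : 0 < τ) : Integrable (gau τ) := by
  have h := GaussianFourier.integrable_cexp_neg_mul_sq_norm_add (V := P3) (b := (τ ^ 2 : ℝ))
    (by rw [Complex.ofReal_re]; positivity) 0 0
  have h2 := h.norm
  refine h2.congr (Eventually.of_forall fun x => ?_)
  simp only [gau]
  rw [Complex.norm_exp]
  congr 1
  simp
  norm_cast
  ring

theorem integral_gau (τ : ℝ) (hτ : 0 < τ) : ∫ x : P3, gau τ x = (√π / τ) ^ 3 := by
  have h := GaussianFourier.integral_rexp_neg_mul_sq_norm (V := P3) (b := τ ^ 2) (by positivity)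
  have e : (fun x : P3 => gau τ x) = fun x : P3 => Real.exp (-τ ^ 2 * ‖x‖ ^ 2) := by
    ext x; unfold gau; congr 1; ring
  rw [e, h, finrank_P3]
  have e2 : √π / τ = √(π / τ ^ 2) := by rw [Real.sqrt_div' _ (by positivity), Real.sqrt_sq hτ.le]
  rw [e2, Real.sqrt_eq_rpow, ← Real.rpow_natCast _ 3, ← Real.rpow_mul (by positivity)]
  norm_num

theorem integrable_F1 (lam a : ℝ) (hl : 0 ≤ lam) (ha : 0 < a) : Integrable (F1 lam a) := by
  refine ((integrable_gau (√a) (Real.sqrt_pos.2 ha)).const_mul (lam / 2)).mono'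
    (measurable_F1 lam a).aestronglyMeasurable (Eventually.of_forall fun x => norm_F1_le lam a hl x)

theorem integral_F1 (lam a : ℝ) : ∫ x, F1 lam a x = 0 := by
  have h := integral_neg_eq_self (F1 lam a) (volume : Measure P3)
  have h2 : ∫ x, F1 lam a (-x) = - ∫ x, F1 lam a x := by
    rw [← integral_neg]
    exact integral_congr_ae (Eventually.of_forall fun x => F1_neg lam a x)
  rw [h2] at h
  have h3 : (2 : ℝ) • ∫ x, F1 lam a x = 0 := by
    rw [two_smul]
    nth_rewrite 1 [← h]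
    simp
  exact (smul_eq_zero.1 h3).resolve_left (by norm_num)

theorem pow4_exp_le (r : ℝ) (hr : 0 ≤ r) : (1 + r) ^ 4 * Real.exp (-(r ^ 2 / 2)) ≤ 64 := by
  have h1 := Real.quadratic_le_exp_of_nonneg (x := r ^ 2 / 2) (by positivity)
  rw [Real.exp_neg, ← div_eq_mul_inv, div_le_iff₀ (Real.exp_pos _)]
  nlinarith [sq_nonneg (r - 1), sq_nonneg (r ^ 2 - 1), sq_nonneg (r * (r - 1)), sq_nonneg r,
    mul_nonneg hr (sq_nonneg (r - 1)), pow_nonneg hr 3]

theorem lin_exp_le (τ r : ℝ) (_hτ : 0 < τ) :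
    r * Real.exp (-(τ ^ 2 * r ^ 2 / 4)) ≤ 1 / τ := by
  have h1 := Real.add_one_le_exp (τ ^ 2 * r ^ 2 / 4)
  rw [Real.exp_neg, ← div_eq_mul_inv, div_le_div_iff₀ (Real.exp_pos _) _hτ]
  nlinarith [sq_nonneg (τ * r - 2)]

/-- pointwise moment bound -/
theorem moment_pt (a : ℝ) (ha : 1 ≤ a) (z : P3) :
    ‖z‖ * (1 + ‖z‖) ^ 4 * gau (√a) z ≤ 64 / √a * gau (√a / 2) z := by
  have hsa : 0 < √a := Real.sqrt_pos.2 (by linarith)
  have e : gau (√a) z = Real.exp (-(a * ‖z‖ ^ 2 / 2)) * Real.exp (-(√a ^ 2 * ‖z‖ ^ 2 / 4)) *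
      gau (√a / 2) z := by
    unfold gau
    rw [← Real.exp_add, ← Real.exp_add]
    congr 1
    rw [div_pow, Real.sq_sqrt (by linarith)]
    ring
  have h1 := pow4_exp_le ‖z‖ (norm_nonneg z)
  have h1' : (1 + ‖z‖) ^ 4 * Real.exp (-(a * ‖z‖ ^ 2 / 2)) ≤ 64 := by
    refine le_trans (mul_le_mul_of_nonneg_left ?_ (by positivity)) h1
    apply Real.exp_le_exp.2
    nlinarith [sq_nonneg ‖z‖]
  have h2 := lin_exp_le (√a) ‖z‖ hsa
  have h3 := (gau_pos (√a / 2) z).le
  rw [e]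
  calc ‖z‖ * (1 + ‖z‖) ^ 4 * (Real.exp (-(a * ‖z‖ ^ 2 / 2)) *
        Real.exp (-(√a ^ 2 * ‖z‖ ^ 2 / 4)) * gau (√a / 2) z)
      = ((1 + ‖z‖) ^ 4 * Real.exp (-(a * ‖z‖ ^ 2 / 2))) *
        (‖z‖ * Real.exp (-(√a ^ 2 * ‖z‖ ^ 2 / 4))) * gau (√a / 2) z := by ring
    _ ≤ 64 * (1 / √a) * gau (√a / 2) z := by gcongr
    _ = _ := by ring

/-- weight comparison -/
theorem weight_shift (y z : P3) : 1 / (1 + ‖z + y‖) ^ 4 ≤ (1 + ‖z‖) ^ 4 / (1 + ‖y‖) ^ 4 := by
  rw [div_le_div_iff₀ (by positivity) (by positivity), one_mul, ← mul_pow]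
  refine pow_le_pow_left₀ (by positivity) ?_ 4
  have h : ‖y‖ ≤ ‖z + y‖ + ‖z‖ := by
    have := norm_sub_le (z + y) z
    simpa using this
  nlinarith [norm_nonneg z, norm_nonneg y, norm_nonneg (z + y), mul_nonneg (norm_nonneg z) (norm_nonneg (z + y))]

/-- one proton -/
theorem one_C2 (lam a : ℝ) (hl : 0 ≤ lam) (ha : 1 ≤ a) (y : P3) {f : P3 → ℂ} {M : ℝ}
    (hM : 0 ≤ M) (hf : ContDiff ℝ 1 f) (hi : Integrable f) (hi' : Integrable (fderiv ℝ f))
    (h1 : ∀ x v, ‖v‖ ≤ 1 → ‖fderiv ℝ f (x + v) - fderiv ℝ f x‖ ≤ M * ‖v‖ / (1 + ‖x‖) ^ 4)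
    (h2 : ∀ x, ‖fderiv ℝ f x‖ ≤ M / (1 + ‖x‖) ^ 4) :
    ‖∫ x, k1 lam a (x - y) • f x‖ ≤ 64 * lam * M * (√π * 2) ^ 3 / a ^ 2 / (1 + ‖y‖) ^ 4 := by
  have ha0 : 0 < a := by linarith
  have hsa : 0 < √a := Real.sqrt_pos.2 ha0
  rw [weak_k1_shift lam a ha0 y hf hi hi', norm_neg]
  have e1 : ∫ x, fderiv ℝ f x (F1 lam a (x - y)) = ∫ z, fderiv ℝ f (z + y) (F1 lam a z) := by
    rw [← integral_add_right_eq_self (fun x => fderiv ℝ f x (F1 lam a (x - y))) y]
    simp
  have i1 : Integrable fun z => fderiv ℝ f (z + y) (F1 lam a z) := by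
    have := (integrable_fderiv_F1 lam a y hi').comp_add_right y
    simpa using this
  have i2 : Integrable fun z => fderiv ℝ f y (F1 lam a z) :=
    (fderiv ℝ f y).integrable_comp (integrable_F1 lam a hl ha0)
  have e2 : ∫ z, fderiv ℝ f y (F1 lam a z) = 0 := by
    rw [(fderiv ℝ f y).integral_comp_comm (integrable_F1 lam a hl ha0), integral_F1, map_zero]
  have e3 : ∫ z, fderiv ℝ f (z + y) (F1 lam a z) =
      ∫ z, (fderiv ℝ f (z + y) - fderiv ℝ f y) (F1 lam a z) := by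
    have := integral_sub i1 i2
    rw [e2, sub_zero] at this
    rw [← this]
    rfl
  rw [e1, e3]
  have hb : ∀ z, ‖fderiv ℝ f (z + y) - fderiv ℝ f y‖ ≤
      2 * M * (‖z‖ * (1 + ‖z‖) ^ 4) / (1 + ‖y‖) ^ 4 := by
    intro z
    rcases le_total ‖z‖ 1 with hz | hz
    · have := h1 y z hz
      rw [add_comm z y]
      refine this.trans (div_le_div_of_nonneg_right ?_ (by positivity))
      have h3 : 1 ≤ (1 + ‖z‖) ^ 4 := one_le_pow₀ (by linarith [norm_nonneg z])
      have h4 : 0 ≤ M * ‖z‖ := mul_nonneg hM (norm_nonneg z)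
      nlinarith [mul_le_mul_of_nonneg_left h3 h4]
    · have h3 := h2 (z + y)
      have h4 := h2 y
      have h5 := weight_shift y z
      have h6 : 1 / (1 + ‖y‖) ^ 4 ≤ (1 + ‖z‖) ^ 4 / (1 + ‖y‖) ^ 4 := by
        gcongr
        exact one_le_pow₀ (by linarith [norm_nonneg z])
      have h7 : (1 + ‖z‖) ^ 4 / (1 + ‖y‖) ^ 4 ≤ ‖z‖ * (1 + ‖z‖) ^ 4 / (1 + ‖y‖) ^ 4 := by
        gcongr
        have : 0 ≤ (1 + ‖z‖) ^ 4 := by positivity
        nlinarith
      calc ‖fderiv ℝ f (z + y) - fderiv ℝ f y‖ ≤ ‖fderiv ℝ f (z + y)‖ + ‖fderiv ℝ f y‖ :=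
            norm_sub_le _ _
        _ ≤ M * (1 / (1 + ‖z + y‖) ^ 4) + M * (1 / (1 + ‖y‖) ^ 4) := by
            rw [mul_one_div, mul_one_div]; exact add_le_add h3 h4
        _ ≤ M * (‖z‖ * (1 + ‖z‖) ^ 4 / (1 + ‖y‖) ^ 4) +
            M * (‖z‖ * (1 + ‖z‖) ^ 4 / (1 + ‖y‖) ^ 4) :=
            add_le_add (mul_le_mul_of_nonneg_left (h5.trans h7) hM)
              (mul_le_mul_of_nonneg_left (h6.trans h7) hM)
        _ = _ := by ring
  have hb2 : ∀ z, ‖(fderiv ℝ f (z + y) - fderiv ℝ f y) (F1 lam a z)‖ ≤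
      (64 * lam * M / √a / (1 + ‖y‖) ^ 4) * gau (√a / 2) z := by
    intro z
    have h3 := moment_pt a ha z
    calc ‖(fderiv ℝ f (z + y) - fderiv ℝ f y) (F1 lam a z)‖
        ≤ ‖fderiv ℝ f (z + y) - fderiv ℝ f y‖ * ‖F1 lam a z‖ := ContinuousLinearMap.le_opNorm _ _
      _ ≤ (2 * M * (‖z‖ * (1 + ‖z‖) ^ 4) / (1 + ‖y‖) ^ 4) * (lam / 2 * gau (√a) z) := by
          gcongr
          · exact hb z
          · exact norm_F1_le lam a hl z
      _ = (M * lam / (1 + ‖y‖) ^ 4) * (‖z‖ * (1 + ‖z‖) ^ 4 * gau (√a) z) := by ring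
      _ ≤ (M * lam / (1 + ‖y‖) ^ 4) * (64 / √a * gau (√a / 2) z) := by gcongr
      _ = _ := by ring
  refine (norm_integral_le_of_norm_le
    ((integrable_gau (√a / 2) (by positivity)).const_mul _) (Eventually.of_forall hb2)).trans ?_
  rw [integral_const_mul, integral_gau _ (by positivity)]
  apply le_of_eq
  have e4 : (√π / (√a / 2)) ^ 3 = (√π * 2) ^ 3 / (a * √a) := by
    rw [show √π / (√a / 2) = (√π * 2) / √a by field_simp, div_pow]
    congr 1
    rw [pow_succ, Real.sq_sqrt ha0.le]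
  rw [e4]
  have e5 : a = √a * √a := (Real.mul_self_sqrt ha0.le).symm
  have e6 : ∀ q N : ℝ, 0 < q → 64 * lam * M / q / N * ((√π * 2) ^ 3 / (q * q * q)) =
      64 * lam * M * (√π * 2) ^ 3 / (q * q) ^ 2 / N := by
    intro q N hq
    rcases eq_or_ne N 0 with rfl | hN
    · simp
    · field_simp
  have e7 := e6 (√a) ((1 + ‖y‖) ^ 4) hsa
  rwa [← e5] at e7

end Crest.Agent.R338.Lat
end
end

-- ▼ part R338/Lat6
section

/-!
Row 338, node C.2: sum over the lattice, `C2Stmt`.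
-/

set_option autoImplicit false

noncomputable section
open MeasureTheory Real Set Filter Topology
open scoped ContDiff

namespace Crest.Agent.R338.Lat

/-- `(1+r)^{-4}` as a superposition of Gaussians -/
theorem pow4_le_integral (r : ℝ) (hr : 0 ≤ r) :
    1 / (1 + r) ^ 4 ≤ 4 * Real.exp 1 * ∫ τ in (0 : ℝ)..1, τ ^ 3 * Real.exp (-(τ ^ 2 * r ^ 2)) := by
  have hr1 : 0 < 1 + r := by linarith
  have hb : 0 ≤ 1 / (1 + r) := by positivity
  have hb1 : 1 / (1 + r) ≤ 1 := by rw [div_le_one hr1]; linarith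
  have hint : ∀ u v : ℝ, IntervalIntegrable
      (fun τ : ℝ => τ ^ 3 * Real.exp (-(τ ^ 2 * r ^ 2))) volume u v := fun u v =>
    Continuous.intervalIntegrable (by fun_prop) _ _
  have h1 : ∫ τ in (0 : ℝ)..(1 / (1 + r)), τ ^ 3 * Real.exp (-(τ ^ 2 * r ^ 2)) ≤
      ∫ τ in (0 : ℝ)..1, τ ^ 3 * Real.exp (-(τ ^ 2 * r ^ 2)) := by
    rw [← intervalIntegral.integral_add_adjacent_intervals (hint 0 (1 / (1 + r)))
      (hint (1 / (1 + r)) 1)]
    have : 0 ≤ ∫ τ in (1 / (1 + r))..1, τ ^ 3 * Real.exp (-(τ ^ 2 * r ^ 2)) :=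
      intervalIntegral.integral_nonneg hb1 fun τ hτ => by
        have : 0 ≤ τ := hb.trans hτ.1
        positivity
    linarith
  have h2 : ∫ τ in (0 : ℝ)..(1 / (1 + r)), τ ^ 3 * Real.exp (-1) ≤
      ∫ τ in (0 : ℝ)..(1 / (1 + r)), τ ^ 3 * Real.exp (-(τ ^ 2 * r ^ 2)) := by
    refine intervalIntegral.integral_mono_on hb (Continuous.intervalIntegrable (by fun_prop) _ _)
      (hint _ _) fun τ hτ => ?_
    have h3 : 0 ≤ τ := hτ.1
    refine mul_le_mul_of_nonneg_left (Real.exp_le_exp.2 ?_) (by positivity)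
    have h4 : τ * r ≤ 1 := by
      have := hτ.2
      rw [le_div_iff₀ hr1] at this
      nlinarith
    have h5 : 0 ≤ τ * r := mul_nonneg h3 hr
    nlinarith
  have h3 : ∫ τ in (0 : ℝ)..(1 / (1 + r)), τ ^ 3 * Real.exp (-1) =
      (1 / (1 + r)) ^ 4 / 4 * Real.exp (-1) := by
    rw [intervalIntegral.integral_mul_const, integral_pow]
    norm_num
  have h4 : (1 : ℝ) / (1 + r) ^ 4 = 4 * Real.exp 1 * ((1 / (1 + r)) ^ 4 / 4 * Real.exp (-1)) := by
    rw [Real.exp_neg]
    field_simp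
  rw [h4]
  refine mul_le_mul_of_nonneg_left ?_ (by positivity)
  rw [← h3]
  exact h2.trans h1

/-- lattice sum of the weight -/
theorem sum_weight_le (s : ℝ) (hs : 0 < s) (hs1 : s ≤ 1) (nL : ℕ) :
    ∑ α ∈ Box nL, 1 / (1 + ‖pt s α‖) ^ 4 ≤ 700 / s ^ 3 := by
  have h1 : ∑ α ∈ Box nL, 1 / (1 + ‖pt s α‖) ^ 4 ≤ ∑ α ∈ Box nL, 4 * Real.exp 1 *
      ∫ τ in (0 : ℝ)..1, τ ^ 3 * Real.exp (-(τ ^ 2 * ‖pt s α‖ ^ 2)) :=
    Finset.sum_le_sum fun α _ => pow4_le_integral _ (norm_nonneg _)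
  refine h1.trans ?_
  rw [← Finset.mul_sum, ← intervalIntegral.integral_finsetSum
    (fun α _ => Continuous.intervalIntegrable (by fun_prop) _ _)]
  have h2 : ∫ τ in (0 : ℝ)..1, ∑ α ∈ Box nL, τ ^ 3 * Real.exp (-(τ ^ 2 * ‖pt s α‖ ^ 2)) ≤
      ∫ τ in (0 : ℝ)..1, (1.3 * 2.6 / s) ^ 3 := by
    refine intervalIntegral.integral_mono_on_of_le_Ioo (by norm_num)
      (Continuous.intervalIntegrable (by fun_prop) _ _) (by simp) fun τ hτ => ?_
    have hτ0 : 0 < τ := hτ.1
    have h3 := sum_exp3_le (τ ^ 2) s (by positivity) hs nL 0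
    have h4 : ∑ α ∈ Box nL, τ ^ 3 * Real.exp (-(τ ^ 2 * ‖pt s α‖ ^ 2)) =
        τ ^ 3 * ∑ α ∈ Box nL, Real.exp (-(τ ^ 2 * ‖0 - pt s α‖ ^ 2)) := by
      rw [Finset.mul_sum]
      simp
    rw [h4]
    have h5 : Real.exp (τ ^ 2 * s ^ 2 / 4) ≤ 1.3 := by
      have h6 : τ ^ 2 * s ^ 2 / 4 ≤ 1 / 4 := by
        have h7 : τ ^ 2 ≤ 1 := by nlinarith [hτ.2]
        have h8 : s ^ 2 ≤ 1 := by nlinarith
        have : τ ^ 2 * s ^ 2 ≤ 1 * 1 := mul_le_mul h7 h8 (sq_nonneg _) (by norm_num)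
        linarith
      refine (Real.exp_le_exp.2 h6).trans ?_
      have := Real.exp_bound' (x := 1 / 4) (by norm_num) (by norm_num) (n := 3) (by norm_num)
      refine this.trans ?_
      norm_num [Finset.sum_range_succ, Nat.factorial]
    have h9 : √(2 * π / τ ^ 2) ≤ 2.6 / τ := by
      rw [Real.sqrt_div' _ (by positivity), Real.sqrt_sq hτ0.le]
      refine div_le_div_of_nonneg_right ?_ hτ0.le
      rw [Real.sqrt_le_left (by norm_num)]
      have := Real.pi_lt_d2
      norm_num at this ⊢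
      linarith
    calc τ ^ 3 * ∑ α ∈ Box nL, Real.exp (-(τ ^ 2 * ‖0 - pt s α‖ ^ 2))
        ≤ τ ^ 3 * (Real.exp (τ ^ 2 * s ^ 2 / 4) * (√(2 * π / τ ^ 2) / s)) ^ 3 := by gcongr
      _ ≤ τ ^ 3 * (1.3 * (2.6 / τ / s)) ^ 3 := by gcongr
      _ = (1.3 * 2.6 / s) ^ 3 := by
        rw [← mul_pow]; congr 1; field_simp
  have h10 := Real.exp_one_lt_d9
  have h11 : ∫ τ in (0 : ℝ)..1, (1.3 * 2.6 / s) ^ 3 = (1.3 * 2.6 / s) ^ 3 := by simp
  rw [h11] at h2
  calc 4 * Real.exp 1 * _ ≤ 4 * 2.7182818286 * (1.3 * 2.6 / s) ^ 3 := by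
        refine mul_le_mul (by linarith) h2 ?_ (by norm_num)
        exact intervalIntegral.integral_nonneg (by norm_num) fun τ hτ =>
          Finset.sum_nonneg fun α _ => by have := hτ.1; positivity
    _ ≤ 700 / s ^ 3 := by
        rw [div_pow]
        rw [mul_div_assoc', div_le_div_iff_of_pos_right (by positivity)]
        norm_num

theorem C2Stmt_holds : C2Stmt := by
  refine ⟨64 * 60 * (700 * 16), fun lam s K a nL d hl hs hK hKs ha hd f M hf hi hi' h1 h2 => ?_⟩
  have hK0 : 0 < K := by linarith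
  have hKs0 : 0 < K * s := by positivity
  have hs1 : s ≤ 1 := by nlinarith
  have ha1 : 1 ≤ a := by
    rw [ha, le_div_iff₀ (by positivity)]
    nlinarith
  have hM : 0 ≤ M := by
    have := (norm_nonneg _).trans (h2 0)
    simpa using this
  have hk : ∀ α, Integrable (fun x => k1 lam a (x - nuc s d α) • f x) := fun α =>
    integrable_k1_shift lam a (by linarith) _ hf.continuous hi
  have e1 : ∫ x, (kk lam s a nL d x : ℂ) * f x =
      ∑ α ∈ Box nL, ∫ x, k1 lam a (x - nuc s d α) • f x := by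
    rw [← integral_finsetSum _ fun α _ => hk α]
    refine integral_congr_ae (Eventually.of_forall fun x => ?_)
    simp only
    rw [kk, ← Complex.real_smul, Finset.sum_smul]
  rw [e1]
  have h3 : ∀ α, ‖∫ x, k1 lam a (x - nuc s d α) • f x‖ ≤
      64 * lam * M * (√π * 2) ^ 3 / a ^ 2 * 16 * (1 / (1 + ‖pt s α‖) ^ 4) := fun α => by
    refine (one_C2 lam a hl ha1 (nuc s d α) hM hf hi hi' h1 h2).trans ?_
    rw [div_eq_mul_one_div, mul_assoc (64 * lam * M * (√π * 2) ^ 3 / a ^ 2)]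
    refine mul_le_mul_of_nonneg_left ?_ (by positivity)
    have h4 : ‖pt s α‖ ≤ ‖nuc s d α‖ + s / 4 := by
      have e : pt s α = nuc s d α + d α := by unfold nuc; abel
      rw [e]
      exact (norm_add_le _ _).trans (by linarith [hd α])
    have h5 : (1 + ‖pt s α‖) ≤ 2 * (1 + ‖nuc s d α‖) := by
      have := norm_nonneg (nuc s d α)
      linarith
    have h6 : (1 + ‖pt s α‖) ^ 4 ≤ 16 * (1 + ‖nuc s d α‖) ^ 4 := by
      calc (1 + ‖pt s α‖) ^ 4 ≤ (2 * (1 + ‖nuc s d α‖)) ^ 4 :=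
            pow_le_pow_left₀ (by positivity) h5 4
        _ = _ := by ring
    rw [mul_one_div, div_le_div_iff₀ (by positivity) (by positivity)]
    linarith
  have h4 := sum_weight_le s hs hs1 nL
  have hpi3 : (√π * 2) ^ 3 ≤ 60 := by
    have h5 : √π ≤ 1.8 := by
      rw [Real.sqrt_le_left (by norm_num)]
      have := Real.pi_lt_d2
      norm_num at this ⊢
      linarith
    calc (√π * 2) ^ 3 ≤ (1.8 * 2) ^ 3 := by gcongr
      _ ≤ 60 := by norm_num
  calc ‖∑ α ∈ Box nL, ∫ x, k1 lam a (x - nuc s d α) • f x‖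
      ≤ ∑ α ∈ Box nL, 64 * lam * M * (√π * 2) ^ 3 / a ^ 2 * 16 * (1 / (1 + ‖pt s α‖) ^ 4) :=
        (norm_sum_le _ _).trans (Finset.sum_le_sum fun α _ => h3 α)
    _ = 64 * lam * M * (√π * 2) ^ 3 / a ^ 2 * 16 * ∑ α ∈ Box nL, 1 / (1 + ‖pt s α‖) ^ 4 := by
        rw [Finset.mul_sum]
    _ ≤ 64 * lam * M * 60 / a ^ 2 * 16 * (700 / s ^ 3) := by gcongr
    _ = 64 * 60 * (700 * 16) * lam * M * K ^ 4 * s := by
        rw [ha]
        field_simp

end Crest.Agent.R338.Lat
end
end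

-- ▼ part R338/LatV0

/-!
Row 338, part C assembly: size of `C_0 = -V0(0)`.
-/

set_option autoImplicit false

noncomputable section
open MeasureTheory Real Set Filter Topology
open scoped ContDiff

namespace Crest.Agent.R338.Lat

theorem Sx_nonneg (s : ℝ) (nL : ℕ) (x τ : ℝ) : 0 ≤ Sx s nL x τ :=
  Finset.sum_nonneg fun _ _ => (Real.exp_pos _).le

theorem Sx_le_card (s : ℝ) (nL : ℕ) (h : 1 ≤ nL) (x τ : ℝ) : Sx s nL x τ ≤ 3 * nL := by
  unfold Sx
  have h1 : ∑ k ∈ Finset.Icc (-(nL : ℤ)) (nL : ℤ), Real.exp (-(τ ^ 2 * (x - s * (k : ℝ)) ^ 2)) ≤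
      ∑ _k ∈ Finset.Icc (-(nL : ℤ)) (nL : ℤ), (1 : ℝ) := by
    refine Finset.sum_le_sum fun k _ => ?_
    rw [Real.exp_le_one_iff]
    have : 0 ≤ τ ^ 2 * (x - s * (k : ℝ)) ^ 2 := by positivity
    linarith
  refine h1.trans ?_
  rw [Finset.sum_const, nsmul_eq_mul, mul_one, Int.card_Icc]
  have h2 : ((nL : ℤ) + 1 - -(nL : ℤ)).toNat = 2 * nL + 1 := by omega
  rw [h2]
  have h3 : (1 : ℝ) ≤ nL := by exact_mod_cast h
  push_cast
  linarith

theorem Sx_le_div (s : ℝ) (hs : 0 < s) (nL : ℕ) (x τ : ℝ) (hτ : 0 < τ) (hτs : τ * s ≤ 1) :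
    Sx s nL x τ ≤ 3.4 / s / τ := by
  have h1 := sum_exp_le (τ ^ 2) s x (by positivity) hs (Finset.Icc (-(nL : ℤ)) (nL : ℤ))
  unfold Sx
  refine h1.trans ?_
  have h5 : Real.exp (τ ^ 2 * s ^ 2 / 4) ≤ 1.3 := by
    have h6 : τ ^ 2 * s ^ 2 / 4 ≤ 1 / 4 := by
      have : 0 ≤ τ * s := by positivity
      nlinarith
    refine (Real.exp_le_exp.2 h6).trans ?_
    have := Real.exp_bound' (x := 1 / 4) (by norm_num) (by norm_num) (n := 3) (by norm_num)
    refine this.trans ?_
    norm_num [Finset.sum_range_succ, Nat.factorial]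
  have h9 : √(2 * π / τ ^ 2) ≤ 2.6 / τ := by
    rw [Real.sqrt_div' _ (by positivity), Real.sqrt_sq hτ.le]
    refine div_le_div_of_nonneg_right ?_ hτ.le
    rw [Real.sqrt_le_left (by norm_num)]
    have := Real.pi_lt_d2
    norm_num at this ⊢
    linarith
  calc Real.exp (τ ^ 2 * s ^ 2 / 4) * (√(2 * π / τ ^ 2) / s) ≤ 1.3 * (2.6 / τ / s) := by gcongr
    _ ≤ 3.4 / s / τ := by
      rw [div_div, div_div, ← mul_div_assoc, mul_comm τ s]
      gcongr
      norm_num

theorem integral_arctan_le (c T : ℝ) (hc : 0 < c) (_hT : 0 ≤ T) :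
    ∫ τ in (0 : ℝ)..T, 1 / (1 + (c * τ) ^ 2) ≤ π / (2 * c) := by
  have hd : ∀ τ ∈ uIcc (0 : ℝ) T, HasDerivAt (fun τ : ℝ => Real.arctan (c * τ) / c)
      (1 / (1 + (c * τ) ^ 2)) τ := fun τ _ => by
    have h1 : HasDerivAt (fun τ : ℝ => c * τ) c τ := by
      simpa using (hasDerivAt_id τ).const_mul c
    have h2 := (h1.arctan).div_const c
    refine h2.congr_deriv ?_
    field_simp
  rw [intervalIntegral.integral_eq_sub_of_hasDerivAt hd
    (Continuous.intervalIntegrable (by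
      refine continuous_const.div (by fun_prop) fun x => by positivity) _ _)]
  simp only [mul_zero, Real.arctan_zero, zero_div, sub_zero]
  rw [div_le_div_iff₀ hc (by positivity)]
  have h3 := Real.arctan_lt_pi_div_two (c * T)
  nlinarith

theorem V0_nonpos (lam s a : ℝ) (nL : ℕ) (hl : 0 ≤ lam) (x : P3) : V0 lam s a nL x ≤ 0 := by
  rw [← Vs_zero]
  exact Finset.sum_nonpos fun α _ => Psi_nonpos lam a hl _

theorem V0_zero_bound (lam s K : ℝ) (nL : ℕ) (hl : 0 ≤ lam) (hs : 0 < s) (hK : 1 ≤ K)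
    (hnL : 1 ≤ nL) (hls : s ^ 3 = 4 * π * lam / 3) (x : P3) :
    -(V0 lam s (1 / (K * s) ^ 2) nL x) ≤ 100 * ((nL : ℝ) * s) ^ 2 := by
  set a : ℝ := 1 / (K * s) ^ 2 with ha
  have hK0 : 0 < K := by linarith
  have ha0 : 0 < a := by rw [ha]; positivity
  have hn : (1 : ℝ) ≤ nL := by exact_mod_cast hnL
  have hsa : √a = 1 / (K * s) := by
    rw [ha, Real.sqrt_div (by norm_num), Real.sqrt_one, Real.sqrt_sq (by positivity)]
  have hsa0 : 0 < √a := Real.sqrt_pos.2 ha0
  have hsas : ∀ τ, τ ≤ √a → τ * s ≤ 1 := fun τ hτ => by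
    have : τ * s ≤ √a * s := by gcongr
    refine this.trans ?_
    rw [hsa, div_mul_eq_mul_div, one_mul, div_le_one (by positivity)]
    nlinarith
  set A : ℝ := 3 * nL with hA
  set B : ℝ := 3.4 / s with hB
  have hA0 : 0 < A := by positivity
  have hB0 : 0 < B := by positivity
  have hprod : ∀ τ, 0 < τ → τ ≤ √a → ∏ c : Fin 3, Sx s nL (x c) τ ≤
      2 * A ^ 3 * (1 / (1 + (A / B * τ) ^ 2)) := by
    intro τ hτ hτa
    have b1 : ∀ c, Sx s nL (x c) τ ≤ A := fun c => Sx_le_card s nL hnL _ _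
    have b2 : ∀ c, Sx s nL (x c) τ ≤ B / τ := fun c => Sx_le_div s hs nL _ τ hτ (hsas τ hτa)
    have h0 : ∀ c, 0 ≤ Sx s nL (x c) τ := fun c => Sx_nonneg _ _ _ _
    rw [Fin.prod_univ_three, mul_one_div, le_div_iff₀ (by positivity)]
    have hBτ : B / τ * (A / B * τ) = A := by field_simp
    obtain ⟨u, hu⟩ : ∃ u, u = Sx s nL (x 0) τ := ⟨_, rfl⟩
    obtain ⟨v, hv⟩ : ∃ v, v = Sx s nL (x 1) τ := ⟨_, rfl⟩
    obtain ⟨w, hw⟩ : ∃ w, w = Sx s nL (x 2) τ := ⟨_, rfl⟩
    rw [← hu, ← hv, ← hw]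
    have hu0 : 0 ≤ u := hu ▸ h0 0
    have hv0 : 0 ≤ v := hv ▸ h0 1
    have hw0 : 0 ≤ w := hw ▸ h0 2
    have hu1 : u ≤ A := hu ▸ b1 0
    have hv1 : v ≤ A := hv ▸ b1 1
    have hw1 : w ≤ A := hw ▸ b1 2
    have hu2 : u ≤ B / τ := hu ▸ b2 0
    have hv2 : v ≤ B / τ := hv ▸ b2 1
    have h1 : u * v * w ≤ A * A * A :=
      mul_le_mul (mul_le_mul hu1 hv1 hv0 hA0.le) hw1 hw0 (by positivity)
    have hq : 0 ≤ A / B * τ := by positivity
    have h2 : (u * (A / B * τ)) ≤ A := (mul_le_mul_of_nonneg_right hu2 hq).trans_eq hBτ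
    have h3 : (v * (A / B * τ)) ≤ A := (mul_le_mul_of_nonneg_right hv2 hq).trans_eq hBτ
    have h4 : u * v * w * (A / B * τ) ^ 2 ≤ A * A * A := by
      calc u * v * w * (A / B * τ) ^ 2 = (u * (A / B * τ)) * (v * (A / B * τ)) * w := by ring
        _ ≤ A * A * A :=
          mul_le_mul (mul_le_mul h2 h3 (by positivity) hA0.le) hw1 hw0 (by positivity)
    calc u * v * w * (1 + (A / B * τ) ^ 2) = u * v * w + u * v * w * (A / B * τ) ^ 2 := by ring
      _ ≤ A * A * A + A * A * A := add_le_add h1 h4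
      _ = 2 * A ^ 3 := by ring
  have hcont : Continuous fun τ : ℝ => ∏ c : Fin 3, Sx s nL (x c) τ := by
    unfold Sx; fun_prop
  have hI : ∫ τ in (0 : ℝ)..√a, ∏ c : Fin 3, Sx s nL (x c) τ ≤ π * A ^ 2 * B := by
    calc ∫ τ in (0 : ℝ)..√a, ∏ c : Fin 3, Sx s nL (x c) τ
        ≤ ∫ τ in (0 : ℝ)..√a, 2 * A ^ 3 * (1 / (1 + (A / B * τ) ^ 2)) := by
          refine intervalIntegral.integral_mono_on_of_le_Ioo hsa0.le
            (hcont.intervalIntegrable _ _) (Continuous.intervalIntegrable ?_ _ _)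
            fun τ hτ => hprod τ hτ.1 hτ.2.le
          refine continuous_const.mul (continuous_const.div (by fun_prop) fun y => ?_)
          positivity
      _ = 2 * A ^ 3 * ∫ τ in (0 : ℝ)..√a, 1 / (1 + (A / B * τ) ^ 2) := by
          rw [intervalIntegral.integral_const_mul]
      _ ≤ 2 * A ^ 3 * (π / (2 * (A / B))) := by
          gcongr
          exact integral_arctan_le (A / B) (√a) (by positivity) hsa0.le
      _ = π * A ^ 2 * B := by field_simp
  have hE : √a * ∏ c : Fin 3, Sx s nL (x c) (√a) ≤ A ^ 2 * B := by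
    rw [Fin.prod_univ_three]
    have b1 : ∀ c, Sx s nL (x c) (√a) ≤ A := fun c => Sx_le_card s nL hnL _ _
    have b2 : Sx s nL (x 2) (√a) ≤ B / √a := Sx_le_div s hs nL _ _ hsa0 (hsas _ le_rfl)
    have h0 : ∀ c, 0 ≤ Sx s nL (x c) (√a) := fun c => Sx_nonneg _ _ _ _
    calc √a * (Sx s nL (x 0) (√a) * Sx s nL (x 1) (√a) * Sx s nL (x 2) (√a))
        ≤ √a * (A * A * (B / √a)) :=
          mul_le_mul_of_nonneg_left (mul_le_mul (mul_le_mul (b1 0) (b1 1) (h0 1) hA0.le) b2
            (h0 2) (by positivity)) hsa0.le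
      _ = A ^ 2 * B := by field_simp
  have hpi : 0 < √π := Real.sqrt_pos.2 Real.pi_pos
  have hpi2 : 1.7 ≤ √π := by
    rw [Real.le_sqrt' (by norm_num)]
    have := Real.pi_gt_three
    nlinarith
  have hpi3 : √π * √π = π := Real.mul_self_sqrt Real.pi_pos.le
  have hpi4 := Real.pi_lt_d2
  have hpi5 := Real.pi_gt_three
  have hV : -(V0 lam s a nL x) = lam * (2 / √π * ∫ τ in (0 : ℝ)..√a, ∏ c : Fin 3, Sx s nL (x c) τ) +
      lam * (1 / √π) * (√a * ∏ c : Fin 3, Sx s nL (x c) (√a)) := by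
    unfold V0
    rw [Real.sqrt_div ha0.le]; ring
  rw [hV]
  have hAB : 0 ≤ A ^ 2 * B := by positivity
  calc lam * (2 / √π * ∫ τ in (0 : ℝ)..√a, ∏ c : Fin 3, Sx s nL (x c) τ) +
      lam * (1 / √π) * (√a * ∏ c : Fin 3, Sx s nL (x c) (√a))
      ≤ lam * (2 / √π * (π * A ^ 2 * B)) + lam * (1 / √π) * (A ^ 2 * B) := by gcongr
    _ = (lam * (A ^ 2 * B)) * (2 * √π + 1 / √π) := by
        have e : π * A ^ 2 * B = (√π * √π) * A ^ 2 * B := by rw [hpi3]
        rw [e]; field_simp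
    _ ≤ (lam * (A ^ 2 * B)) * 5 := by
        gcongr
        have h1 : √π ≤ 1.8 := by
          rw [Real.sqrt_le_left (by norm_num)]
          norm_num at hpi4 ⊢
          linarith
        have h2 : 1 / √π ≤ 1 := by
          rw [div_le_one hpi]; linarith
        linarith
    _ = (153 * lam / s ^ 3) * ((nL : ℝ) * s) ^ 2 := by
        rw [hA, hB]; field_simp; ring
    _ ≤ 100 * ((nL : ℝ) * s) ^ 2 := by
        gcongr
        rw [hls, div_le_iff₀ (by rw [← hls]; positivity)]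
        nlinarith

end Crest.Agent.R338.Lat
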