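import Crest.Agent.R338.TA0
import Crest.Agent.R338.HO3
import Crest.Agent.R338.CE1
import Crest.Agent.R338.HO6
import Mathlib

-- ▼ part R338/TB1
section

/-!
# Row 338, module TB1 (helper789): `Config N` as a product of `N` copies of `Pos3`, Fubini
-/

set_option autoImplicit false

open MeasureTheory

noncomputable section

namespace Crest.Agent.R338.TB

open Crest.MathPhysics.ElectronicCoulomb

/-! ### currying is measure preserving -/

/-- uncurrying functions on a product -/
def unc {N : ℕ} (f : Fin N → Fin 3 → ℝ) : Fin N × Fin 3 → ℝ := fun ic => f ic.1 ic.2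

/-- uncurrying as a measurable equivalence -/
def uncE (N : ℕ) : (Fin N → Fin 3 → ℝ) ≃ᵐ (Fin N × Fin 3 → ℝ) where
  toFun := unc
  invFun g := fun i c => g (i, c)
  left_inv f := rfl
  right_inv g := rfl
  measurable_toFun := by
    refine measurable_pi_iff.2 fun ic => ?_
    exact (measurable_pi_apply ic.2).comp (measurable_pi_apply ic.1)
  measurable_invFun := by
    refine measurable_pi_iff.2 fun i => measurable_pi_iff.2 fun c => ?_
    exact measurable_pi_apply (i, c)

theorem mp_unc (N : ℕ) : MeasurePreserving (uncE N) volume volume := by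
  refine ⟨(uncE N).measurable, ?_⟩
  refine (Measure.pi_eq fun s _ => ?_).symm
  rw [(uncE N).map_apply]
  have e : (uncE N) ⁻¹' Set.pi Set.univ s = Set.pi Set.univ (fun i => Set.pi Set.univ fun c => s (i, c)) := by
    ext f
    simp only [Set.mem_preimage, Set.mem_pi, Set.mem_univ, true_imp_iff]
    constructor
    · intro h i c; exact h (i, c)
    · intro h ic; exact h ic.1 ic.2
  rw [e, volume_pi, Measure.pi_pi]
  simp only [volume_pi, Measure.pi_pi]
  rw [Fintype.prod_prod_type]

/-- all electron positions -/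
def cfg {N : ℕ} (x : Config N) : Fin N → Pos3 := fun i => elPos i x

theorem mp_cfg (N : ℕ) : MeasurePreserving (cfg (N := N)) volume volume := by
  have h1 := EuclideanSpace.volume_preserving_symm_measurableEquiv_toLp (Fin N × Fin 3)
  have h2 := (mp_unc N).symm
  have h3 : MeasurePreserving (fun (f : Fin N → Fin 3 → ℝ) (i : Fin N) =>
      (WithLp.toLp 2 (f i) : Pos3)) volume volume :=
    volume_preserving_pi fun i =>
      (EuclideanSpace.volume_preserving_symm_measurableEquiv_toLp (Fin 3)).symm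
  exact h3.comp (h2.comp h1)

/-- `cfg` as a measurable equivalence -/
def cfgE (N : ℕ) : Config N ≃ᵐ (Fin N → Pos3) where
  toFun := cfg
  invFun f := WithLp.toLp 2 fun ic => f ic.1 ic.2
  left_inv x := rfl
  right_inv f := rfl
  measurable_toFun := (mp_cfg N).measurable
  measurable_invFun := by
    refine (MeasurableEquiv.toLp 2 (Fin N × Fin 3 → ℝ)).measurable.comp ?_
    refine measurable_pi_iff.2 fun ic => ?_
    have h1 : Measurable (fun f : Fin N → Pos3 => f ic.1) := measurable_pi_apply ic.1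
    have h2 : Measurable (fun y : Pos3 => y ic.2) := by fun_prop
    exact h2.comp h1

theorem me_cfg (N : ℕ) : MeasurableEmbedding (cfg (N := N)) := (cfgE N).measurableEmbedding

theorem integral_cfg {N : ℕ} {β : Type*} [NormedAddCommGroup β] [NormedSpace ℝ β]
    (g : (Fin N → Pos3) → β) : ∫ x : Config N, g (cfg x) = ∫ y, g y :=
  (mp_cfg N).integral_comp (me_cfg N) g

theorem integrable_cfg {N : ℕ} {β : Type*} [NormedAddCommGroup β]
    {g : (Fin N → Pos3) → β} (h : Integrable g) : Integrable (fun x : Config N => g (cfg x)) :=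
  ((mp_cfg N).integrable_comp_emb (me_cfg N)).2 h

/-! ### one-body Fubini -/

theorem integral_prod_el {N : ℕ} (F : Fin N → Pos3 → ℝ) :
    ∫ x : Config N, ∏ k, F k (elPos k x) = ∏ k, ∫ y, F k y := by
  have := integral_cfg (N := N) (fun y : Fin N → Pos3 => ∏ k, F k (y k))
  rw [integral_fintype_prod_volume_eq_prod (fun k y => F k y)] at this
  exact this

theorem integrable_prod_el {N : ℕ} {F : Fin N → Pos3 → ℝ} (h : ∀ k, Integrable (F k)) :
    Integrable (fun x : Config N => ∏ k, F k (elPos k x)) :=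
  integrable_cfg (g := fun y : Fin N → Pos3 => ∏ k, F k (y k)) (Integrable.fintype_prod h)

/-! ### two-body Fubini -/

/-- splitting off two coordinates -/
def split2 (n : ℕ) (i : Fin (n + 2)) (j : Fin (n + 1)) (x : Fin (n + 2) → Pos3) :
    (Pos3 × Pos3) × (Fin n → Pos3) :=
  ((x i, x (i.succAbove j)), fun k => x (i.succAbove (j.succAbove k)))

/-- splitting off two coordinates, measurable equivalence -/
def split2E (n : ℕ) (i : Fin (n + 2)) (j : Fin (n + 1)) :
    (Fin (n + 2) → Pos3) ≃ᵐ (Pos3 × Pos3) × (Fin n → Pos3) :=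
  ((MeasurableEquiv.piFinSuccAbove (fun _ => Pos3) i).trans
    ((MeasurableEquiv.refl Pos3).prodCongr (MeasurableEquiv.piFinSuccAbove (fun _ => Pos3) j))).trans
    MeasurableEquiv.prodAssoc.symm

theorem split2E_apply (n : ℕ) (i : Fin (n + 2)) (j : Fin (n + 1)) (x : Fin (n + 2) → Pos3) :
    split2E n i j x = split2 n i j x := rfl

theorem mp_split2 (n : ℕ) (i : Fin (n + 2)) (j : Fin (n + 1)) :
    MeasurePreserving (split2E n i j) volume volume := by
  have h1 : MeasurePreserving (MeasurableEquiv.piFinSuccAbove (fun _ : Fin (n + 2) => Pos3) i)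
      volume volume := volume_preserving_piFinSuccAbove (fun _ => Pos3) i
  have h2 : MeasurePreserving (MeasurableEquiv.piFinSuccAbove (fun _ : Fin (n + 1) => Pos3) j)
      volume volume := volume_preserving_piFinSuccAbove (fun _ => Pos3) j
  have h3 : MeasurePreserving ((MeasurableEquiv.refl Pos3).prodCongr
      (MeasurableEquiv.piFinSuccAbove (fun _ : Fin (n + 1) => Pos3) j)) volume volume :=
    (MeasurePreserving.id volume).prod h2
  have h4 : MeasurePreserving (MeasurableEquiv.prodAssoc : (Pos3 × Pos3) × (Fin n → Pos3) ≃ᵐ _).symm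
      volume volume := (volume_preserving_prodAssoc).symm
  exact h4.comp (h3.comp h1)

theorem prod_erase2 {n : ℕ} (i : Fin (n + 2)) (j : Fin (n + 1)) {M : Type*} [CommMonoid M]
    (a : Fin (n + 2) → M) :
    ∏ k ∈ (Finset.univ.erase i).erase (i.succAbove j), a k =
      ∏ k : Fin n, a (i.succAbove (j.succAbove k)) := by
  have h1 : ∏ k, (if k = i ∨ k = i.succAbove j then 1 else a k) =
      ∏ k ∈ (Finset.univ.erase i).erase (i.succAbove j), a k := by
    rw [← Finset.prod_subset (s₁ := (Finset.univ.erase i).erase (i.succAbove j))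
      (Finset.subset_univ _)]
    · refine Finset.prod_congr rfl fun k hk => ?_
      have h1 : k ≠ i.succAbove j := Finset.ne_of_mem_erase hk
      have h2 : k ≠ i := Finset.ne_of_mem_erase (Finset.mem_of_mem_erase hk)
      rw [if_neg (by tauto)]
    · intro k _ hk
      rw [if_pos]
      by_contra hc
      push Not at hc
      exact hk (Finset.mem_erase.2 ⟨hc.2, Finset.mem_erase.2 ⟨hc.1, Finset.mem_univ _⟩⟩)
  rw [← h1, Fin.prod_univ_succAbove _ i, Fin.prod_univ_succAbove _ j]
  simp only [true_or, or_true, if_true, one_mul]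
  refine Finset.prod_congr rfl fun k _ => ?_
  rw [if_neg]
  rintro (h | h)
  · exact Fin.succAbove_ne i _ h
  · exact Fin.succAbove_ne j k (Fin.succAbove_right_injective h)

theorem pair_aux {n : ℕ} (i : Fin (n + 2)) (j : Fin (n + 1)) (K : Pos3 × Pos3 → ℝ)
    (F : Fin (n + 2) → Pos3 → ℝ) :
    ∫ x : Fin (n + 2) → Pos3, K (x i, x (i.succAbove j)) *
      ∏ k ∈ (Finset.univ.erase i).erase (i.succAbove j), F k (x k) =
      (∫ z, K z) * ∏ k ∈ (Finset.univ.erase i).erase (i.succAbove j), ∫ y, F k y := by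
  have h := (mp_split2 n i j).integral_comp (split2E n i j).measurableEmbedding
    (fun p : (Pos3 × Pos3) × (Fin n → Pos3) => K p.1 * ∏ k, F (i.succAbove (j.succAbove k)) (p.2 k))
  simp only [prod_erase2 i j]
  have e : ∀ x : Fin (n + 2) → Pos3, K (x i, x (i.succAbove j)) *
      ∏ k : Fin n, F (i.succAbove (j.succAbove k)) (x (i.succAbove (j.succAbove k))) =
      (fun p : (Pos3 × Pos3) × (Fin n → Pos3) =>
        K p.1 * ∏ k, F (i.succAbove (j.succAbove k)) (p.2 k)) (split2E n i j x) := by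
    intro x
    rw [split2E_apply]; rfl
  simp only [e]
  rw [h]
  have h2 : (∫ p : (Pos3 × Pos3) × (Fin n → Pos3),
      K p.1 * ∏ k, F (i.succAbove (j.succAbove k)) (p.2 k)) =
      (∫ z, K z) * ∫ y : Fin n → Pos3, ∏ k, F (i.succAbove (j.succAbove k)) (y k) :=
    integral_prod_mul (μ := (volume : Measure (Pos3 × Pos3)))
      (ν := (volume : Measure (Fin n → Pos3))) K
      (fun y => ∏ k, F (i.succAbove (j.succAbove k)) (y k))
  rw [h2, integral_fintype_prod_volume_eq_prod (fun k y => F (i.succAbove (j.succAbove k)) y)]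

theorem pair_aux_int {n : ℕ} (i : Fin (n + 2)) (j : Fin (n + 1)) {K : Pos3 × Pos3 → ℝ}
    {F : Fin (n + 2) → Pos3 → ℝ} (hK : Integrable K) (hF : ∀ k, Integrable (F k)) :
    Integrable (fun x : Fin (n + 2) → Pos3 => K (x i, x (i.succAbove j)) *
      ∏ k ∈ (Finset.univ.erase i).erase (i.succAbove j), F k (x k)) := by
  simp only [prod_erase2 i j]
  have h1 : Integrable (fun p : (Pos3 × Pos3) × (Fin n → Pos3) =>
      K p.1 * ∏ k, F (i.succAbove (j.succAbove k)) (p.2 k)) volume :=
    Integrable.mul_prod (μ := (volume : Measure (Pos3 × Pos3)))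
      (ν := (volume : Measure (Fin n → Pos3))) (f := K)
      (g := fun y : Fin n → Pos3 => ∏ k, F (i.succAbove (j.succAbove k)) (y k)) hK
      (Integrable.fintype_prod fun k => hF _)
  exact ((mp_split2 n i j).integrable_comp_emb (split2E n i j).measurableEmbedding).2 h1

theorem exists_succAbove {N : ℕ} {i j : Fin N} (h : i ≠ j) :
    ∃ (n : ℕ) (hn : N = n + 2) (j' : Fin (n + 1)), Fin.cast hn j = (Fin.cast hn i).succAbove j' := by
  obtain ⟨n, hn⟩ : ∃ n, N = n + 2 := by
    have h1 : Fintype.card (Fin N) = N := Fintype.card_fin N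
    have : 1 < N := by
      by_contra hc
      push Not at hc
      have : Subsingleton (Fin N) := by
        rcases Nat.lt_or_eq_of_le hc with h | h
        · have : N = 0 := by omega
          subst this; exact ⟨fun a => a.elim0⟩
        · subst h; exact inferInstance
      exact h (Subsingleton.elim i j)
    exact ⟨N - 2, by omega⟩
  subst hn
  obtain ⟨j', hj'⟩ := Fin.exists_succAbove_eq h.symm
  exact ⟨n, rfl, j', hj'.symm⟩

/-- two-body Fubini on configuration space -/
theorem integral_pair_el {N : ℕ} {i j : Fin N} (hij : i ≠ j) (K : Pos3 × Pos3 → ℝ)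
    (F : Fin N → Pos3 → ℝ) :
    ∫ x : Config N, K (elPos i x, elPos j x) *
      ∏ k ∈ (Finset.univ.erase i).erase j, F k (elPos k x) =
      (∫ z, K z) * ∏ k ∈ (Finset.univ.erase i).erase j, ∫ y, F k y := by
  obtain ⟨n, hn, j', hj'⟩ := exists_succAbove hij
  subst hn
  have hj : j = i.succAbove j' := hj'
  subst hj
  have h := integral_cfg (N := n + 2) (fun x : Fin (n + 2) → Pos3 => K (x i, x (i.succAbove j')) *
      ∏ k ∈ (Finset.univ.erase i).erase (i.succAbove j'), F k (x k))
  rw [pair_aux] at h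
  exact h

theorem integrable_pair_el {N : ℕ} {i j : Fin N} (hij : i ≠ j) {K : Pos3 × Pos3 → ℝ}
    {F : Fin N → Pos3 → ℝ} (hK : Integrable K) (hF : ∀ k, Integrable (F k)) :
    Integrable (fun x : Config N => K (elPos i x, elPos j x) *
      ∏ k ∈ (Finset.univ.erase i).erase j, F k (elPos k x)) := by
  obtain ⟨n, hn, j', hj'⟩ := exists_succAbove hij
  subst hn
  have hj : j = i.succAbove j' := hj'
  subst hj
  exact integrable_cfg (g := fun x : Fin (n + 2) → Pos3 => K (x i, x (i.succAbove j')) *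
      ∏ k ∈ (Finset.univ.erase i).erase (i.succAbove j'), F k (x k)) (pair_aux_int i j' hK hF)

end Crest.Agent.R338.TB
end
end

-- ▼ part R338/TB2
section

/-!
# Row 338, module TB2 (helper789): one-body matrix elements of tensor waves
-/

set_option autoImplicit false

open MeasureTheory
open scoped ComplexConjugate

noncomputable section

namespace Crest.Agent.R338.TB

open Crest.MathPhysics.ElectronicCoulomb
open Crest.Agent.R338.TA Crest.Agent.R338.HO

variable {N n0 : ℕ}

theorem Phi_lidx (m : Fin N → Sp n0) (x : Config N) :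
    Phi (lidx m) x = ∏ k, Phi (m k).1 (elPos k x) := by
  unfold Phi lidx elPos
  rw [Fintype.prod_prod_type]

/-- real part form of `conj a * b` -/
def cre (a b : ℂ) : ℝ := (conj a * b).re

theorem norm_sq_sum {β : Type*} [Fintype β] (a : β → ℂ) (p : β → ℝ) :
    ‖∑ m, a m * (p m : ℂ)‖ ^ 2 = ∑ m, ∑ m', cre (a m) (a m') * (p m * p m') := by
  have h1 : ((‖∑ m, a m * (p m : ℂ)‖ ^ 2 : ℝ) : ℂ) =
      (conj (∑ m, a m * (p m : ℂ))) * ∑ m, a m * (p m : ℂ) := by
    rw [Complex.conj_mul']; norm_cast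
  have h2 : (conj (∑ m, a m * (p m : ℂ))) * ∑ m, a m * (p m : ℂ) =
      ∑ m, ∑ m', (conj (a m) * a m') * ((p m * p m' : ℝ) : ℂ) := by
    rw [map_sum, Finset.sum_mul_sum]
    refine Finset.sum_congr rfl fun m _ => Finset.sum_congr rfl fun m' _ => ?_
    rw [map_mul, Complex.conj_ofReal]
    push_cast; ring
  have h3 := congrArg Complex.re (h1.trans h2)
  rw [Complex.ofReal_re] at h3
  rw [h3, Complex.re_sum]
  refine Finset.sum_congr rfl fun m _ => ?_
  rw [Complex.re_sum]
  refine Finset.sum_congr rfl fun m' _ => ?_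
  rw [Complex.re_mul_ofReal]
  rfl

theorem norm_sq_wav (C : Ten N n0) (s : Spin N) (x : Config N) :
    ‖wav C s x‖ ^ 2 = ∑ m : Fin N → Sp n0, ∑ m' : Fin N → Sp n0,
      cre (C fun i => (s i, m i)) (C fun i => (s i, m' i)) *
        (Phi (lidx m) x * Phi (lidx m') x) := by
  rw [wav_eq]
  exact norm_sq_sum (fun m : Fin N → Sp n0 => C fun i => (s i, m i)) (fun m => Phi (lidx m) x)

theorem Phi_mul_Phi (m m' : Fin N → Sp n0) (x : Config N) :
    Phi (lidx m) x * Phi (lidx m') x =
      ∏ k, (Phi (m k).1 (elPos k x) * Phi (m' k).1 (elPos k x)) := by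
  rw [Phi_lidx, Phi_lidx, Finset.prod_mul_distrib]

theorem integrable_PP (a b : Fin 3 → ℕ) : Integrable (fun y : Pos3 => Phi a y * Phi b y) := by
  have h := (memLp_Phi (ι := Fin 3) a 2).integrable_mul (memLp_Phi (ι := Fin 3) b 2)
  have h2 := h.re
  refine h2.congr (Filter.Eventually.of_forall fun x => ?_)
  simp only [Pi.mul_apply]
  rw [← Complex.ofReal_mul]
  rfl

theorem integral_PP (a b : Sp n0) : ∫ y : Pos3, Phi a.1 y * Phi b.1 y = if a = b then 1 else 0 := by
  rw [integral_Phi_mul_Phi]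
  by_cases h : a = b
  · rw [if_pos h, if_pos (congrArg Subtype.val h)]
  · rw [if_neg h, if_neg (fun h' => h (Subtype.ext h'))]

/-- admissible one-body functions -/
def OK1 (n0 : ℕ) (g : Pos3 → ℝ) : Prop :=
  ∀ a b : Sp n0, Integrable (fun y => g y * (Phi a.1 y * Phi b.1 y))

/-- one-body integrals of `g` -/
def gI (g : Pos3 → ℝ) (a b : Sp n0) : ℝ := ∫ y : Pos3, g y * (Phi a.1 y * Phi b.1 y)

/-- the factors of the one-body integrand -/
def F1k (g : Pos3 → ℝ) (i : Fin N) (m m' : Fin N → Sp n0) (k : Fin N) (y : Pos3) : ℝ :=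
  (if k = i then g y else 1) * (Phi (m k).1 y * Phi (m' k).1 y)

theorem one_form (g : Pos3 → ℝ) (i : Fin N) (m m' : Fin N → Sp n0) :
    (fun x : Config N => g (elPos i x) * (Phi (lidx m) x * Phi (lidx m') x)) =
      fun x => ∏ k, F1k g i m m' k (elPos k x) := by
  funext x
  unfold F1k
  rw [Finset.prod_mul_distrib, ← Phi_mul_Phi]
  congr 1
  have : ∀ k : Fin N, (if k = i then g (elPos k x) else 1) = if k = i then g (elPos i x) else 1 := by
    intro k
    by_cases hk : k = i
    · rw [if_pos hk, if_pos hk, hk]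
    · rw [if_neg hk, if_neg hk]
  simp only [this]
  rw [Finset.prod_ite_eq' Finset.univ i (fun _ => g (elPos i x)), if_pos (Finset.mem_univ i)]

theorem one_int {g : Pos3 → ℝ} (hg : OK1 n0 g) (i : Fin N) (m m' : Fin N → Sp n0) :
    Integrable (fun x : Config N => g (elPos i x) * (Phi (lidx m) x * Phi (lidx m') x)) := by
  rw [one_form]
  refine integrable_prod_el fun k => ?_
  unfold F1k
  by_cases hk : k = i
  · simp only [if_pos hk]; exact hg _ _
  · simp only [if_neg hk, one_mul]; exact integrable_PP _ _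

theorem prod_delta (S : Finset (Fin N)) (m m' : Fin N → Sp n0) :
    ∏ k ∈ S, (if m k = m' k then (1 : ℝ) else 0) = if (∀ k ∈ S, m k = m' k) then 1 else 0 := by
  split_ifs with h
  · exact Finset.prod_eq_one fun k hk => if_pos (h k hk)
  · push Not at h
    obtain ⟨k, hk, hne⟩ := h
    exact Finset.prod_eq_zero hk (if_neg hne)

theorem one_integral (g : Pos3 → ℝ) (i : Fin N) (m m' : Fin N → Sp n0) :
    ∫ x : Config N, g (elPos i x) * (Phi (lidx m) x * Phi (lidx m') x) =
      gI g (m i) (m' i) * (if ∀ k ∈ Finset.univ.erase i, m k = m' k then 1 else 0) := by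
  rw [one_form, integral_prod_el, ← Finset.mul_prod_erase Finset.univ _ (Finset.mem_univ i)]
  congr 1
  · unfold F1k gI; simp only [if_true]
  · rw [← prod_delta]
    refine Finset.prod_congr rfl fun k hk => ?_
    unfold F1k
    simp only [if_neg (Finset.ne_of_mem_erase hk), one_mul]
    exact integral_PP _ _

theorem sum_delta1 (i : Fin N) (m : Fin N → Sp n0) (f : (Fin N → Sp n0) → ℝ) :
    ∑ m' : Fin N → Sp n0, f m' * (if ∀ k ∈ Finset.univ.erase i, m k = m' k then 1 else 0) =
      ∑ b : Sp n0, f (Function.update m i b) := by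
  simp only [mul_ite, mul_one, mul_zero]
  rw [← Finset.sum_filter]
  refine (Finset.sum_nbij' (fun b => Function.update m i b) (fun m' => m' i) ?_ ?_ ?_ ?_ ?_).symm
  · intro b _
    refine Finset.mem_filter.2 ⟨Finset.mem_univ _, fun k hk => ?_⟩
    rw [Function.update_of_ne (Finset.ne_of_mem_erase hk)]
  · intro m' _; exact Finset.mem_univ _
  · intro b _; simp
  · intro m' hm'
    have h := (Finset.mem_filter.1 hm').2
    funext k
    by_cases hk : k = i
    · subst hk; simp
    · rw [Function.update_of_ne hk]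
      exact h k (Finset.mem_erase.2 ⟨hk, Finset.mem_univ k⟩)
  · intro b _; rfl

theorem update_pair (s : Spin N) (m : Fin N → Sp n0) (i : Fin N) (b : Sp n0) :
    Function.update (fun k => ((s k, m k) : Orb n0)) i (s i, b) =
      fun k => (s k, Function.update m i b k) := by
  funext k
  by_cases hk : k = i
  · subst hk; simp
  · simp [hk]

/-- one-body matrix element for one spin and one electron -/
theorem one_wav {g : Pos3 → ℝ} (hg : OK1 n0 g) (C : Ten N n0) (s : Spin N) (i : Fin N) :
    Integrable (fun x : Config N => g (elPos i x) * ‖wav C s x‖ ^ 2) ∧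
    ∫ x : Config N, g (elPos i x) * ‖wav C s x‖ ^ 2 =
      ∑ m : Fin N → Sp n0, ∑ b : Sp n0,
        cre (C fun k => (s k, m k)) (C fun k => (s k, Function.update m i b k)) * gI g (m i) b := by
  have e : (fun x : Config N => g (elPos i x) * ‖wav C s x‖ ^ 2) = fun x =>
      ∑ m : Fin N → Sp n0, ∑ m' : Fin N → Sp n0,
      cre (C fun i => (s i, m i)) (C fun i => (s i, m' i)) *
        (g (elPos i x) * (Phi (lidx m) x * Phi (lidx m') x)) := by
    funext x
    rw [norm_sq_wav, Finset.mul_sum]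
    refine Finset.sum_congr rfl fun m _ => ?_
    rw [Finset.mul_sum]
    refine Finset.sum_congr rfl fun m' _ => by ring
  have hi : ∀ m m' : Fin N → Sp n0, Integrable (fun x : Config N =>
      cre (C fun i => (s i, m i)) (C fun i => (s i, m' i)) *
        (g (elPos i x) * (Phi (lidx m) x * Phi (lidx m') x))) := fun m m' =>
    (one_int hg i m m').const_mul _
  refine ⟨by rw [e]; exact integrable_finsetSum _ fun m _ => integrable_finsetSum _ fun m' _ => hi m m', ?_⟩
  rw [e, integral_finsetSum _ fun m _ => integrable_finsetSum _ fun m' _ => hi m m']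
  refine Finset.sum_congr rfl fun m _ => ?_
  rw [integral_finsetSum _ fun m' _ => hi m m']
  have e2 : ∀ m' : Fin N → Sp n0, ∫ x : Config N,
      cre (C fun i => (s i, m i)) (C fun i => (s i, m' i)) *
        (g (elPos i x) * (Phi (lidx m) x * Phi (lidx m') x)) =
      cre (C fun i => (s i, m i)) (C fun i => (s i, m' i)) * gI g (m i) (m' i) *
        (if ∀ k ∈ Finset.univ.erase i, m k = m' k then 1 else 0) := by
    intro m'
    rw [integral_const_mul, one_integral, ← mul_assoc]
  simp only [e2]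
  rw [sum_delta1 i m (fun m' => cre (C fun i => (s i, m i)) (C fun i => (s i, m' i)) *
    gI g (m i) (m' i))]
  refine Finset.sum_congr rfl fun b _ => ?_
  rw [Function.update_self]

/-- **one-body matrix elements of tensor waves** -/
theorem one_body {g : Pos3 → ℝ} (hg : OK1 n0 g) (C : Ten N n0) :
    (∀ s, Integrable (fun x : Config N => (∑ i, g (elPos i x)) * ‖wav C s x‖ ^ 2)) ∧
    ∑ s, ∫ x : Config N, (∑ i, g (elPos i x)) * ‖wav C s x‖ ^ 2 =
      oneF (fun a b => gI g a b) C := by
  have h := fun s i => one_wav hg C s i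
  have hs : ∀ s, (fun x : Config N => (∑ i, g (elPos i x)) * ‖wav C s x‖ ^ 2) =
      fun x => ∑ i, g (elPos i x) * ‖wav C s x‖ ^ 2 := by
    intro s; funext x; rw [Finset.sum_mul]
  refine ⟨fun s => by rw [hs]; exact integrable_finsetSum _ fun i _ => (h s i).1, ?_⟩
  have e1 : ∀ s, ∫ x : Config N, (∑ i, g (elPos i x)) * ‖wav C s x‖ ^ 2 =
      ∑ i, ∑ m : Fin N → Sp n0, ∑ b : Sp n0,
        cre (C fun k => (s k, m k)) (C fun k => (s k, Function.update m i b k)) * gI g (m i) b := by
    intro s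
    rw [hs, integral_finsetSum _ fun i _ => (h s i).1]
    exact Finset.sum_congr rfl fun i _ => (h s i).2
  simp only [e1]
  rw [Finset.sum_comm]
  unfold oneF
  refine Finset.sum_congr rfl fun i _ => ?_
  rw [sum_tensor]
  refine Finset.sum_congr rfl fun s _ => Finset.sum_congr rfl fun m _ =>
    Finset.sum_congr rfl fun b _ => ?_
  simp only
  rw [update_pair]
  rfl

end Crest.Agent.R338.TB
end
end

-- ▼ part R338/TB3
section

/-!
# Row 338, module TB3 (helper789): two-body matrix elements of tensor waves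
-/

set_option autoImplicit false

open MeasureTheory
open scoped ComplexConjugate

noncomputable section

namespace Crest.Agent.R338.TB

open Crest.MathPhysics.ElectronicCoulomb
open Crest.Agent.R338.TA Crest.Agent.R338.HO

variable {N n0 : ℕ}

/-- the pair kernel of the two-body integrand -/
def K2 (a a' b b' : Sp n0) (z : Pos3 × Pos3) : ℝ :=
  (Phi a.1 z.1 * Phi a'.1 z.1) * (Phi b.1 z.2 * Phi b'.1 z.2) / ‖z.1 - z.2‖

theorem integral_K2 (a a' b b' : Sp n0) : ∫ z, K2 a a' b b' z = W4 a.1 a'.1 b.1 b'.1 := rfl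

theorem abs_Phi_le (m : Fin 3 → ℕ) (x : Pos3) : |Phi m x| ≤ 125 := by
  unfold Phi
  rw [Finset.abs_prod]
  calc ∏ c, |hf (m c) (x c)| ≤ ∏ _c : Fin 3, (5 : ℝ) :=
        Finset.prod_le_prod (fun c _ => abs_nonneg _) (fun c _ => abs_hf_le _ _)
    _ = 125 := by simp; norm_num

theorem nice_PP (a b : Fin 3 → ℕ) : CE.Nice (fun x : Pos3 => Phi a x * Phi b x) := by
  refine ⟨integrable_PP a b, ⟨125 * 125, fun x => ?_⟩⟩
  rw [abs_mul]
  exact mul_le_mul (abs_Phi_le a x) (abs_Phi_le b x) (abs_nonneg _) (by norm_num)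

theorem integrable_K2 (a a' b b' : Sp n0) : Integrable (K2 a a' b b') := by
  exact CE.integrable_D (integrable_PP a.1 a'.1) (nice_PP b.1 b'.1)

/-- the one-electron factors -/
def F2k (m m' : Fin N → Sp n0) (k : Fin N) (y : Pos3) : ℝ := Phi (m k).1 y * Phi (m' k).1 y

theorem two_form {i j : Fin N} (hij : i ≠ j) (m m' : Fin N → Sp n0) :
    (fun x : Config N => 1 / ‖elPos i x - elPos j x‖ * (Phi (lidx m) x * Phi (lidx m') x)) =
      fun x => K2 (m i) (m' i) (m j) (m' j) (elPos i x, elPos j x) *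
        ∏ k ∈ (Finset.univ.erase i).erase j,
          F2k m m' k (elPos k x) := by
  funext x
  rw [Phi_mul_Phi, ← Finset.mul_prod_erase Finset.univ _ (Finset.mem_univ i),
    ← Finset.mul_prod_erase (Finset.univ.erase i) _ (Finset.mem_erase.2 ⟨hij.symm, Finset.mem_univ j⟩)]
  unfold K2 F2k
  simp only
  ring

theorem two_int {i j : Fin N} (hij : i ≠ j) (m m' : Fin N → Sp n0) :
    Integrable (fun x : Config N =>
      1 / ‖elPos i x - elPos j x‖ * (Phi (lidx m) x * Phi (lidx m') x)) := by
  rw [two_form hij]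
  exact integrable_pair_el hij (integrable_K2 _ _ _ _) (fun k => integrable_PP _ _)

theorem two_integral {i j : Fin N} (hij : i ≠ j) (m m' : Fin N → Sp n0) :
    ∫ x : Config N, 1 / ‖elPos i x - elPos j x‖ * (Phi (lidx m) x * Phi (lidx m') x) =
      W4 (m i).1 (m' i).1 (m j).1 (m' j).1 *
        (if ∀ k ∈ (Finset.univ.erase i).erase j, m k = m' k then 1 else 0) := by
  rw [two_form hij, integral_pair_el hij, integral_K2]
  congr 1
  rw [← prod_delta]
  exact Finset.prod_congr rfl fun k _ => integral_PP _ _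

theorem sum_delta2 {i j : Fin N} (hij : i ≠ j) (m : Fin N → Sp n0) (f : (Fin N → Sp n0) → ℝ) :
    ∑ m' : Fin N → Sp n0, f m' *
      (if ∀ k ∈ (Finset.univ.erase i).erase j, m k = m' k then 1 else 0) =
      ∑ b : Sp n0, ∑ d : Sp n0, f (Function.update (Function.update m i b) j d) := by
  simp only [mul_ite, mul_one, mul_zero]
  rw [← Finset.sum_filter, ← Finset.sum_product']
  refine (Finset.sum_nbij' (fun p : Sp n0 × Sp n0 => Function.update (Function.update m i p.1) j p.2)
    (fun m' => (m' i, m' j)) ?_ ?_ ?_ ?_ ?_).symm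
  · intro p _
    refine Finset.mem_filter.2 ⟨Finset.mem_univ _, fun k hk => ?_⟩
    rw [Function.update_of_ne (Finset.ne_of_mem_erase hk),
      Function.update_of_ne (Finset.ne_of_mem_erase (Finset.mem_of_mem_erase hk))]
  · intro m' _; exact Finset.mem_product.2 ⟨Finset.mem_univ _, Finset.mem_univ _⟩
  · intro p _
    simp [Function.update_of_ne hij]
  · intro m' hm'
    have h := (Finset.mem_filter.1 hm').2
    funext k
    by_cases hkj : k = j
    · subst hkj; simp
    · by_cases hk : k = i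
      · subst hk; rw [Function.update_of_ne hkj]; simp
      · rw [Function.update_of_ne hkj, Function.update_of_ne hk]
        exact h k (Finset.mem_erase.2 ⟨hkj, Finset.mem_erase.2 ⟨hk, Finset.mem_univ k⟩⟩)
  · intro p _; rfl

theorem update_pair2 (s : Spin N) (m : Fin N → Sp n0) (i j : Fin N) (b d : Sp n0) :
    Function.update (Function.update (fun k => ((s k, m k) : Orb n0)) i (s i, b)) j (s j, d) =
      fun k => (s k, Function.update (Function.update m i b) j d k) := by
  rw [update_pair, update_pair]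

/-- two-body matrix element for one spin and one pair -/
theorem two_wav {i j : Fin N} (hij : i ≠ j) (C : Ten N n0) (s : Spin N) :
    Integrable (fun x : Config N => 1 / ‖elPos i x - elPos j x‖ * ‖wav C s x‖ ^ 2) ∧
    ∫ x : Config N, 1 / ‖elPos i x - elPos j x‖ * ‖wav C s x‖ ^ 2 =
      ∑ m : Fin N → Sp n0, ∑ b : Sp n0, ∑ d : Sp n0,
        cre (C fun k => (s k, m k))
          (C fun k => (s k, Function.update (Function.update m i b) j d k)) *
            W4 (m i).1 b.1 (m j).1 d.1 := by
  have e : (fun x : Config N => 1 / ‖elPos i x - elPos j x‖ * ‖wav C s x‖ ^ 2) = fun x =>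
      ∑ m : Fin N → Sp n0, ∑ m' : Fin N → Sp n0,
      cre (C fun i => (s i, m i)) (C fun i => (s i, m' i)) *
        (1 / ‖elPos i x - elPos j x‖ * (Phi (lidx m) x * Phi (lidx m') x)) := by
    funext x
    rw [norm_sq_wav, Finset.mul_sum]
    refine Finset.sum_congr rfl fun m _ => ?_
    rw [Finset.mul_sum]
    refine Finset.sum_congr rfl fun m' _ => by ring
  have hi : ∀ m m' : Fin N → Sp n0, Integrable (fun x : Config N =>
      cre (C fun i => (s i, m i)) (C fun i => (s i, m' i)) *
        (1 / ‖elPos i x - elPos j x‖ * (Phi (lidx m) x * Phi (lidx m') x))) := fun m m' =>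
    (two_int hij m m').const_mul _
  refine ⟨by rw [e]; exact integrable_finsetSum _ fun m _ => integrable_finsetSum _ fun m' _ => hi m m', ?_⟩
  rw [e, integral_finsetSum _ fun m _ => integrable_finsetSum _ fun m' _ => hi m m']
  refine Finset.sum_congr rfl fun m _ => ?_
  rw [integral_finsetSum _ fun m' _ => hi m m']
  have e2 : ∀ m' : Fin N → Sp n0, ∫ x : Config N,
      cre (C fun i => (s i, m i)) (C fun i => (s i, m' i)) *
        (1 / ‖elPos i x - elPos j x‖ * (Phi (lidx m) x * Phi (lidx m') x)) =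
      cre (C fun i => (s i, m i)) (C fun i => (s i, m' i)) * W4 (m i).1 (m' i).1 (m j).1 (m' j).1 *
        (if ∀ k ∈ (Finset.univ.erase i).erase j, m k = m' k then 1 else 0) := by
    intro m'
    rw [integral_const_mul, two_integral hij, ← mul_assoc]
  simp only [e2]
  rw [sum_delta2 hij m (fun m' => cre (C fun i => (s i, m i)) (C fun i => (s i, m' i)) *
    W4 (m i).1 (m' i).1 (m j).1 (m' j).1)]
  refine Finset.sum_congr rfl fun b _ => Finset.sum_congr rfl fun d _ => ?_
  rw [Function.update_self, Function.update_of_ne hij, Function.update_self]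

/-- **two-body matrix elements of tensor waves** -/
theorem two_body (C : Ten N n0) :
    (∀ s, Integrable (fun x : Config N =>
      (∑ i : Fin N, ∑ j : Fin N, if i < j then 1 / ‖elPos i x - elPos j x‖ else 0) *
        ‖wav C s x‖ ^ 2)) ∧
    ∑ s, ∫ x : Config N,
      (∑ i : Fin N, ∑ j : Fin N, if i < j then 1 / ‖elPos i x - elPos j x‖ else 0) *
        ‖wav C s x‖ ^ 2 =
      twoF (fun a b c d => W4 a.1 b.1 c.1 d.1) C := by
  have hs : ∀ s, (fun x : Config N =>
      (∑ i : Fin N, ∑ j : Fin N, if i < j then 1 / ‖elPos i x - elPos j x‖ else 0) *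
        ‖wav C s x‖ ^ 2) =
      fun x => ∑ i : Fin N, ∑ j : Fin N,
        (if i < j then 1 / ‖elPos i x - elPos j x‖ else 0) * ‖wav C s x‖ ^ 2 := by
    intro s; funext x; rw [Finset.sum_mul]
    refine Finset.sum_congr rfl fun i _ => ?_
    rw [Finset.sum_mul]
  have hi : ∀ s i j, Integrable (fun x : Config N =>
      (if i < j then 1 / ‖elPos i x - elPos j x‖ else 0) * ‖wav C s x‖ ^ 2) := by
    intro s i j
    by_cases hij : i < j
    · simp only [if_pos hij]; exact (two_wav hij.ne C s).1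
    · simp only [if_neg hij, zero_mul]; exact integrable_zero _ _ _
  refine ⟨fun s => by
    rw [hs]; exact integrable_finsetSum _ fun i _ => integrable_finsetSum _ fun j _ => hi s i j, ?_⟩
  have e1 : ∀ s, ∫ x : Config N,
      (∑ i : Fin N, ∑ j : Fin N, if i < j then 1 / ‖elPos i x - elPos j x‖ else 0) *
        ‖wav C s x‖ ^ 2 =
      ∑ i : Fin N, ∑ j : Fin N, if i < j then
        ∑ m : Fin N → Sp n0, ∑ b : Sp n0, ∑ d : Sp n0,
        cre (C fun k => (s k, m k))
          (C fun k => (s k, Function.update (Function.update m i b) j d k)) *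
            W4 (m i).1 b.1 (m j).1 d.1 else 0 := by
    intro s
    rw [hs, integral_finsetSum _ fun i _ => integrable_finsetSum _ fun j _ => hi s i j]
    refine Finset.sum_congr rfl fun i _ => ?_
    rw [integral_finsetSum _ fun j _ => hi s i j]
    refine Finset.sum_congr rfl fun j _ => ?_
    by_cases hij : i < j
    · simp only [if_pos hij]; exact (two_wav hij.ne C s).2
    · simp only [if_neg hij, zero_mul, integral_zero]
  simp only [e1]
  rw [Finset.sum_comm]
  unfold twoF
  refine Finset.sum_congr rfl fun i _ => ?_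
  rw [Finset.sum_comm]
  refine Finset.sum_congr rfl fun j _ => ?_
  by_cases hij : i < j
  · simp only [if_pos hij]
    rw [sum_tensor]
    refine Finset.sum_congr rfl fun s _ => Finset.sum_congr rfl fun m _ =>
      Finset.sum_congr rfl fun b _ => Finset.sum_congr rfl fun d _ => ?_
    simp only
    rw [update_pair2]
    rfl
  · simp only [if_neg hij, Finset.sum_const_zero]


end Crest.Agent.R338.TB
end
end

-- ▼ part R338/SC1
section

/-!
Row 338 (S0529), node SC: antisymmetric tensors, one- and two-body operators, frozen core.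
helper426.
-/

set_option autoImplicit false
set_option linter.unusedSectionVars false
set_option linter.unusedVariables false

open Finset Function

namespace Crest.Agent.R338.SC

section Basic

variable {ι Ω : Type*} [Fintype ι] [DecidableEq ι] [Fintype Ω] [DecidableEq Ω]

/-- antisymmetric tensors -/
def Anti (C : (ι → Ω) → ℂ) : Prop :=
  ∀ (σ : Equiv.Perm ι) (ω : ι → Ω), C (ω ∘ σ) = ((Equiv.Perm.sign σ : ℤ) : ℂ) * C ω

/-- one-body operator `∑ᵢ Mᵢ` -/
noncomputable def one (M : Ω → Ω → ℂ) (C : (ι → Ω) → ℂ) (ω : ι → Ω) : ℂ :=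
  ∑ i, ∑ β, M (ω i) β * C (update ω i β)

/-- the two-body term of the ordered pair `(i, j)` -/
noncomputable def pair (W : Ω → Ω → Ω → Ω → ℂ) (C : (ι → Ω) → ℂ) (ω : ι → Ω) (i j : ι) : ℂ :=
  ∑ β, ∑ δ, W (ω i) β (ω j) δ * C (update (update ω i β) j δ)

/-- two-body operator, sum over ordered pairs `i ≠ j` (no factor `1/2`) -/
noncomputable def two (W : Ω → Ω → Ω → Ω → ℂ) (C : (ι → Ω) → ℂ) (ω : ι → Ω) : ℂ :=
  ∑ i, ∑ j, if i = j then 0 else pair W C ω i j

/-- inner product of tensors -/
noncomputable def ip (C D : (ι → Ω) → ℂ) : ℂ := ∑ ω, starRingEnd ℂ (C ω) * D ω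

theorem sign_mul_self (σ : Equiv.Perm ι) :
    ((Equiv.Perm.sign σ : ℤ) : ℂ) * ((Equiv.Perm.sign σ : ℤ) : ℂ) = 1 := by
  have h := Int.units_mul_self (Equiv.Perm.sign σ)
  have h2 : ((Equiv.Perm.sign σ : ℤ)) * ((Equiv.Perm.sign σ : ℤ)) = 1 := by
    rw [← Units.val_mul, h]; rfl
  exact_mod_cast h2

theorem Anti.swap {C : (ι → Ω) → ℂ} (hC : Anti C) {i j : ι} (h : i ≠ j) (ω : ι → Ω) :
    C (ω ∘ Equiv.swap i j) = - C ω := by
  rw [hC, Equiv.Perm.sign_swap h]; simp

theorem Anti.zero_of_eq {C : (ι → Ω) → ℂ} (hC : Anti C) {i j : ι} (h : i ≠ j) {ω : ι → Ω}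
    (e : ω i = ω j) : C ω = 0 := by
  have h1 := hC.swap h ω
  have h2 : ω ∘ Equiv.swap i j = ω := by
    ext k
    simp only [comp_apply]
    by_cases hki : k = i
    · subst hki; rw [Equiv.swap_apply_left, e]
    · by_cases hkj : k = j
      · subst hkj; rw [Equiv.swap_apply_right, e]
      · rw [Equiv.swap_apply_of_ne_of_ne hki hkj]
  rw [h2] at h1
  have h3 : C ω + C ω = 0 := by nth_rewrite 1 [h1]; ring
  have : (2 : ℂ) * C ω = 0 := by rw [two_mul]; exact h3
  simpa using this

theorem Anti.injective {C : (ι → Ω) → ℂ} (hC : Anti C) {ω : ι → Ω} (h : C ω ≠ 0) :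
    Function.Injective ω := by
  intro i j e
  by_contra hij
  exact h (hC.zero_of_eq hij e)

theorem update_comp_perm (ω : ι → Ω) (σ : Equiv.Perm ι) (i : ι) (β : Ω) :
    update (ω ∘ σ) i β = update ω (σ i) β ∘ σ := by
  ext k
  by_cases h : k = i
  · subst h; simp
  · rw [update_of_ne h, comp_apply, comp_apply, update_of_ne (fun e => h (σ.injective e))]

theorem Anti.one {M : Ω → Ω → ℂ} {C : (ι → Ω) → ℂ} (hC : Anti C) : Anti (one M C) := by
  intro σ ω
  unfold SC.one
  rw [Finset.mul_sum, ← Equiv.sum_comp σ (fun i => ((Equiv.Perm.sign σ : ℤ) : ℂ) *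
    ∑ β, M (ω i) β * C (update ω i β))]
  refine Finset.sum_congr rfl fun i _ => ?_
  rw [Finset.mul_sum]
  refine Finset.sum_congr rfl fun β _ => ?_
  rw [update_comp_perm, hC, comp_apply]; ring

theorem pair_comp_perm {W : Ω → Ω → Ω → Ω → ℂ} {C : (ι → Ω) → ℂ} (hC : Anti C)
    (σ : Equiv.Perm ι) (ω : ι → Ω) (i j : ι) :
    pair W C (ω ∘ σ) i j = ((Equiv.Perm.sign σ : ℤ) : ℂ) * pair W C ω (σ i) (σ j) := by
  unfold pair
  rw [Finset.mul_sum]
  refine Finset.sum_congr rfl fun β _ => ?_
  rw [Finset.mul_sum]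
  refine Finset.sum_congr rfl fun δ _ => ?_
  rw [update_comp_perm, update_comp_perm, hC, comp_apply, comp_apply]; ring

theorem Anti.two {W : Ω → Ω → Ω → Ω → ℂ} {C : (ι → Ω) → ℂ} (hC : Anti C) : Anti (two W C) := by
  intro σ ω
  unfold SC.two
  rw [Finset.mul_sum, ← Equiv.sum_comp σ (fun i => ((Equiv.Perm.sign σ : ℤ) : ℂ) *
    ∑ j, if i = j then 0 else pair W C ω i j)]
  refine Finset.sum_congr rfl fun i _ => ?_
  rw [Finset.mul_sum, ← Equiv.sum_comp σ (fun j => ((Equiv.Perm.sign σ : ℤ) : ℂ) *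
    (if σ i = j then 0 else pair W C ω (σ i) j))]
  refine Finset.sum_congr rfl fun j _ => ?_
  simp only [EmbeddingLike.apply_eq_iff_eq]
  split_ifs with h
  · simp
  · rw [pair_comp_perm hC]

theorem Anti.add {C D : (ι → Ω) → ℂ} (hC : Anti C) (hD : Anti D) : Anti (C + D) := by
  intro σ ω
  simp only [Pi.add_apply]; rw [hC, hD]; ring

theorem Anti.smul {C : (ι → Ω) → ℂ} (hC : Anti C) (a : ℂ) : Anti (a • C) := by
  intro σ ω
  simp only [Pi.smul_apply, smul_eq_mul]; rw [hC]; ring

/-- exchanging the two entries at `i ≠ j` -/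
theorem Anti.exch {C : (ι → Ω) → ℂ} (hC : Anti C) {i j : ι} (h : i ≠ j) (ω : ι → Ω) (β δ : Ω) :
    C (update (update ω i β) j δ) = - C (update (update ω i δ) j β) := by
  rw [← hC.swap h]
  congr 1
  ext k
  simp only [comp_apply]
  by_cases hkj : k = j
  · subst hkj
    rw [update_self, Equiv.swap_apply_right, update_of_ne h, update_self]
  · rw [update_of_ne hkj]
    by_cases hki : k = i
    · subst hki
      rw [update_self, Equiv.swap_apply_left, update_self]
    · rw [update_of_ne hki, Equiv.swap_apply_of_ne_of_ne hki hkj, update_of_ne hkj,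
        update_of_ne hki]

end Basic

section Core

variable {K J V : Type*} [Fintype K] [DecidableEq K] [Fintype J] [DecidableEq J]
  [Fintype V] [DecidableEq V]

/-- put the core orbitals on the core positions, `v` on the others -/
def emb (v : J → V) : K ⊕ J → K ⊕ V := Sum.map id v

@[simp] theorem emb_inl (v : J → V) (c : K) : emb v (Sum.inl c : K ⊕ J) = Sum.inl c := rfl
@[simp] theorem emb_inr (v : J → V) (j : J) :
    (emb v (Sum.inr j : K ⊕ J) : K ⊕ V) = Sum.inr (v j) := rfl

/-- tensors supported on tuples with full core -/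
def Full (p : (K ⊕ J → K ⊕ V) → ℂ) : Prop := ∀ ω, p ω ≠ 0 → ∀ c : K, ∃ i, ω i = Sum.inl c

/-- the valence tensor -/
def val (p : (K ⊕ J → K ⊕ V) → ℂ) (v : J → V) : ℂ := p (emb v)

theorem update_inr (v : J → V) (j : J) (b : V) :
    update (emb v : K ⊕ J → K ⊕ V) (Sum.inr j) (Sum.inr b) = emb (update v j b) := by
  ext k
  rcases k with c | l
  · simp
  · by_cases h : l = j
    · subst h; simp
    · rw [update_of_ne (by simpa using h)]; simp [update_of_ne h]

theorem update_inl_self (v : J → V) (c : K) :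
    update (emb v : K ⊕ J → K ⊕ V) (Sum.inl c) (Sum.inl c) = emb v := by
  conv_rhs => rw [← update_eq_self (Sum.inl c) (emb v : K ⊕ J → K ⊕ V)]
  simp

theorem emb_comp_perm (v : J → V) (π : Equiv.Perm J) :
    (emb v : K ⊕ J → K ⊕ V) ∘ (Equiv.Perm.sumCongr 1 π) = emb (v ∘ π) := by
  ext k
  rcases k with c | l <;> simp

theorem Anti.val {p : (K ⊕ J → K ⊕ V) → ℂ} (hp : Anti p) : Anti (val p) := by
  intro π v
  unfold SC.val
  rw [← emb_comp_perm, hp]
  simp [Equiv.Perm.sign_sumCongr]

variable {p : (K ⊕ J → K ⊕ V) → ℂ}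

/-- replacing a core orbital at its own core position by something else kills `p` -/
theorem upd_core (hp : Anti p) (hf : Full p) (v : J → V) (c : K) (β : K ⊕ V) (h : β ≠ Sum.inl c) :
    p (update (emb v) (Sum.inl c) β) = 0 := by
  by_contra hne
  obtain ⟨i, hi⟩ := hf _ hne c
  by_cases hic : i = Sum.inl c
  · subst hic; rw [update_self] at hi; exact h hi
  · rw [update_of_ne hic] at hi
    rcases i with c' | j
    · simp only [emb_inl, Sum.inl.injEq] at hi; exact hic (by rw [hi])
    · simp at hi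

/-- a core orbital on a valence position kills `p` -/
theorem upd_val (hp : Anti p) (v : J → V) (j : J) (c : K) :
    p (update (emb v) (Sum.inr j) (Sum.inl c)) = 0 := by
  apply hp.zero_of_eq (i := Sum.inr j) (j := Sum.inl c) (by simp)
  rw [update_self, update_of_ne (by simp)]; rfl

theorem one_emb (hp : Anti p) (hf : Full p) (M : K ⊕ V → K ⊕ V → ℂ) (v : J → V) :
    one M p (emb v) = (∑ c : K, M (Sum.inl c) (Sum.inl c)) * val p v +
      one (fun a b : V => M (Sum.inr a) (Sum.inr b)) (val p) v := by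
  unfold one
  rw [Fintype.sum_sum_type]
  congr 1
  · rw [Finset.sum_mul]
    refine Finset.sum_congr rfl fun c _ => ?_
    rw [Finset.sum_eq_single (Sum.inl c)]
    · rw [update_inl_self]; rfl
    · intro β _ hβ; rw [upd_core hp hf v c β hβ, mul_zero]
    · intro h; exact absurd (Finset.mem_univ _) h
  · refine Finset.sum_congr rfl fun j _ => ?_
    rw [Fintype.sum_sum_type]
    rw [Finset.sum_eq_zero (s := (univ : Finset K)), zero_add]
    · refine Finset.sum_congr rfl fun b _ => ?_
      rw [update_inr]; rfl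
    · intro c _; rw [upd_val hp, mul_zero]

/-- core-core pair -/
theorem pair_ll (hp : Anti p) (hf : Full p) (W : K ⊕ V → K ⊕ V → K ⊕ V → K ⊕ V → ℂ) (v : J → V)
    {c c' : K} (h : c ≠ c') :
    pair W p (emb v) (Sum.inl c) (Sum.inl c') =
      (W (Sum.inl c) (Sum.inl c) (Sum.inl c') (Sum.inl c') -
        W (Sum.inl c) (Sum.inl c') (Sum.inl c') (Sum.inl c)) * val p v := by
  unfold pair
  have hne : (Sum.inl c : K ⊕ J) ≠ Sum.inl c' := by simpa using h
  have hne' : (Sum.inl c : K ⊕ V) ≠ Sum.inl c' := by simpa using h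
  have key : ∀ β δ : K ⊕ V, ¬ (β = Sum.inl c ∧ δ = Sum.inl c') →
      ¬ (β = Sum.inl c' ∧ δ = Sum.inl c) →
      p (update (update (emb v) (Sum.inl c) β) (Sum.inl c') δ) = 0 := by
    intro β δ h1 h2
    by_contra hn
    have hinj := hp.injective hn
    obtain ⟨i, hi⟩ := hf _ hn c
    obtain ⟨i', hi'⟩ := hf _ hn c'
    have a1 : β = Sum.inl c ∨ δ = Sum.inl c := by
      by_cases e1 : i = Sum.inl c'
      · subst e1; rw [update_self] at hi; exact Or.inr hi
      · rw [update_of_ne e1] at hi
        by_cases e2 : i = Sum.inl c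
        · subst e2; rw [update_self] at hi; exact Or.inl hi
        · rw [update_of_ne e2] at hi
          rcases i with k | j
          · simp only [emb_inl, Sum.inl.injEq] at hi; exact absurd (by rw [hi]) e2
          · simp at hi
    have a2 : β = Sum.inl c' ∨ δ = Sum.inl c' := by
      by_cases e1 : i' = Sum.inl c'
      · subst e1; rw [update_self] at hi'; exact Or.inr hi'
      · rw [update_of_ne e1] at hi'
        by_cases e2 : i' = Sum.inl c
        · subst e2; rw [update_self] at hi'; exact Or.inl hi'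
        · rw [update_of_ne e2] at hi'
          rcases i' with k | j
          · simp only [emb_inl, Sum.inl.injEq] at hi'; exact absurd (by rw [hi']) e1
          · simp at hi'
    rcases a1 with a1 | a1 <;> rcases a2 with a2 | a2
    · exact hne' (a1.symm.trans a2)
    · exact h1 ⟨a1, a2⟩
    · exact h2 ⟨a2, a1⟩
    · exact hne' (a1.symm.trans a2)
  have hv1 : p (update (update (emb v) (Sum.inl c) (Sum.inl c)) (Sum.inl c') (Sum.inl c')) =
      val p v := by
    rw [update_inl_self, update_inl_self]; rfl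
  have hv2 : p (update (update (emb v) (Sum.inl c) (Sum.inl c')) (Sum.inl c') (Sum.inl c)) =
      - val p v := by
    rw [hp.exch hne, hv1]
  rw [Fintype.sum_eq_add (Sum.inl c) (Sum.inl c') hne']
  · rw [Finset.sum_eq_single (Sum.inl c'), Finset.sum_eq_single (Sum.inl c), hv1, hv2]
    · simp only [emb_inl]; ring
    · intro δ _ hδ
      rw [key _ _ (fun e => hne' e.1.symm) (fun e => hδ e.2), mul_zero]
    · intro h; exact absurd (Finset.mem_univ _) h
    · intro δ _ hδ
      rw [key _ _ (fun e => hδ e.2) (fun e => hne' e.1), mul_zero]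
    · intro h; exact absurd (Finset.mem_univ _) h
  · rintro β ⟨hb1, hb2⟩
    refine Finset.sum_eq_zero fun δ _ => ?_
    rw [key _ _ (fun e => hb1 e.1) (fun e => hb2 e.1), mul_zero]

end Core

end Crest.Agent.R338.SC
end

-- ▼ part R338/SC2
section

/-!
Row 338 (S0529), node SC: Slater-Condon rules for a frozen core (continued). helper426.
-/

set_option autoImplicit false
set_option linter.unusedSectionVars false
set_option linter.unusedVariables false

open Finset Function

namespace Crest.Agent.R338.SC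

section Basic

variable {ι Ω : Type*} [Fintype ι] [DecidableEq ι] [Fintype Ω] [DecidableEq Ω]

theorem pair_comm (W : Ω → Ω → Ω → Ω → ℂ) (C : (ι → Ω) → ℂ) (ω : ι → Ω) {i j : ι} (h : i ≠ j) :
    pair W C ω i j = pair (fun a b c d => W c d a b) C ω j i := by
  unfold pair
  rw [Finset.sum_comm]
  refine Finset.sum_congr rfl fun δ _ => Finset.sum_congr rfl fun β _ => ?_
  rw [update_comm h]

end Basic

section Core

variable {K J V : Type*} [Fintype K] [DecidableEq K] [Fintype J] [DecidableEq J]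
  [Fintype V] [DecidableEq V]

variable {p : (K ⊕ J → K ⊕ V) → ℂ}

/-- core-valence pair -/
theorem pair_lr (hp : Anti p) (hf : Full p) (W : K ⊕ V → K ⊕ V → K ⊕ V → K ⊕ V → ℂ) (v : J → V)
    (c : K) (j : J) :
    pair W p (emb v) (Sum.inl c) (Sum.inr j) =
      ∑ b, (W (Sum.inl c) (Sum.inl c) (Sum.inr (v j)) (Sum.inr b) -
        W (Sum.inl c) (Sum.inr b) (Sum.inr (v j)) (Sum.inl c)) * val p (update v j b) := by
  have hne : (Sum.inl c : K ⊕ J) ≠ Sum.inr j := by simp
  have e1 : ∀ b : V, p (update (update (emb v) (Sum.inl c) (Sum.inl c)) (Sum.inr j) (Sum.inr b)) =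
      val p (update v j b) := by
    intro b; rw [update_inl_self, update_inr]; rfl
  have e2 : ∀ c' : K, p (update (update (emb v) (Sum.inl c) (Sum.inl c)) (Sum.inr j)
      (Sum.inl c')) = 0 := by
    intro c'; rw [update_inl_self, upd_val hp]
  have e3 : ∀ b : V, p (update (update (emb v) (Sum.inl c) (Sum.inr b)) (Sum.inr j) (Sum.inl c)) =
      - val p (update v j b) := by
    intro b; rw [hp.exch hne, e1]
  have e4 : ∀ c' : K, p (update (update (emb v) (Sum.inl c) (Sum.inl c')) (Sum.inr j)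
      (Sum.inl c)) = 0 := by
    intro c'; rw [hp.exch hne, e2, neg_zero]
  have e5 : ∀ β δ : K ⊕ V, β ≠ Sum.inl c → δ ≠ Sum.inl c →
      p (update (update (emb v) (Sum.inl c) β) (Sum.inr j) δ) = 0 := by
    intro β δ h1 h2
    by_contra hn
    obtain ⟨i, hi⟩ := hf _ hn c
    by_cases a1 : i = Sum.inr j
    · subst a1; rw [update_self] at hi; exact h2 hi
    · rw [update_of_ne a1] at hi
      by_cases a2 : i = Sum.inl c
      · subst a2; rw [update_self] at hi; exact h1 hi
      · rw [update_of_ne a2] at hi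
        rcases i with k | l
        · simp only [emb_inl, Sum.inl.injEq] at hi; exact absurd (by rw [hi]) a2
        · simp at hi
  unfold pair
  have main : ∀ β : K ⊕ V, (∑ δ, W (emb v (Sum.inl c : K ⊕ J)) β (emb v (Sum.inr j : K ⊕ J)) δ *
      p (update (update (emb v) (Sum.inl c) β) (Sum.inr j) δ)) =
      if β = Sum.inl c then ∑ b, W (Sum.inl c) (Sum.inl c) (Sum.inr (v j)) (Sum.inr b) *
        val p (update v j b)
      else W (Sum.inl c) β (Sum.inr (v j)) (Sum.inl c) *
        p (update (update (emb v) (Sum.inl c) β) (Sum.inr j) (Sum.inl c)) := by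
    intro β
    split_ifs with hβ
    · subst hβ
      rw [Fintype.sum_sum_type, Finset.sum_eq_zero (s := (univ : Finset K)), zero_add]
      · refine Finset.sum_congr rfl fun b _ => ?_
        rw [e1]; rfl
      · intro c' _; rw [e2, mul_zero]
    · rw [Finset.sum_eq_single (Sum.inl c)]
      · rfl
      · intro δ _ hδ; rw [e5 _ _ hβ hδ, mul_zero]
      · intro h; exact absurd (Finset.mem_univ _) h
  rw [Finset.sum_congr rfl fun β _ => main β, Fintype.sum_sum_type,
    Finset.sum_eq_single (s := (univ : Finset K)) c]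
  · rw [if_pos rfl, ← Finset.sum_add_distrib]
    refine Finset.sum_congr rfl fun b _ => ?_
    rw [if_neg (by simp), e3]; ring
  · intro c' _ hc'
    rw [if_neg (by simpa using hc'), e4, mul_zero]
  · intro h; exact absurd (Finset.mem_univ _) h

/-- valence-valence pair -/
theorem pair_rr (hp : Anti p) (hf : Full p) (W : K ⊕ V → K ⊕ V → K ⊕ V → K ⊕ V → ℂ) (v : J → V)
    {j l : J} (h : j ≠ l) :
    pair W p (emb v) (Sum.inr j) (Sum.inr l) =
      pair (fun a b c d : V => W (Sum.inr a) (Sum.inr b) (Sum.inr c) (Sum.inr d)) (val p) v j l := by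
  have hne : (Sum.inr j : K ⊕ J) ≠ Sum.inr l := by simpa using h
  unfold pair
  rw [Fintype.sum_sum_type, Finset.sum_eq_zero (s := (univ : Finset K)), zero_add]
  · refine Finset.sum_congr rfl fun b _ => ?_
    rw [Fintype.sum_sum_type, Finset.sum_eq_zero (s := (univ : Finset K)), zero_add]
    · refine Finset.sum_congr rfl fun d _ => ?_
      rw [update_inr, update_inr]; rfl
    · intro c _
      rw [update_inr, upd_val hp, mul_zero]
  · intro c _
    refine Finset.sum_eq_zero fun δ _ => ?_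
    rw [hp.zero_of_eq (i := Sum.inr j) (j := Sum.inl c) (by simp), mul_zero]
    rw [update_of_ne hne, update_self, update_of_ne (by simp), update_of_ne (by simp)]; rfl

/-- core energy, two-body part (sum over ordered pairs, to be halved) -/
noncomputable def coreTwo (W : K ⊕ V → K ⊕ V → K ⊕ V → K ⊕ V → ℂ) : ℂ :=
  ∑ c : K, ∑ c' : K, (W (Sum.inl c) (Sum.inl c) (Sum.inl c') (Sum.inl c') -
        W (Sum.inl c) (Sum.inl c') (Sum.inl c') (Sum.inl c))

/-- mean field of the core -/
noncomputable def coreField (W : K ⊕ V → K ⊕ V → K ⊕ V → K ⊕ V → ℂ) (a b : V) : ℂ :=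
  ∑ c : K, (W (Sum.inl c) (Sum.inl c) (Sum.inr a) (Sum.inr b) -
        W (Sum.inl c) (Sum.inr b) (Sum.inr a) (Sum.inl c))

/-- Slater-Condon rule for the two-body operator, frozen core -/
theorem two_emb (hp : Anti p) (hf : Full p) (W : K ⊕ V → K ⊕ V → K ⊕ V → K ⊕ V → ℂ)
    (hW : ∀ a b c d, W a b c d = W c d a b) (v : J → V) :
    two W p (emb v) = coreTwo W * val p v + 2 * one (coreField W) (val p) v +
      two (fun a b c d : V => W (Sum.inr a) (Sum.inr b) (Sum.inr c) (Sum.inr d)) (val p) v := by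
  have hW' : (fun a b c d => W c d a b) = W := by
    funext a b c d; exact (hW a b c d).symm
  have hlr : ∀ (c : K) (j : J), pair W p (emb v) (Sum.inr j) (Sum.inl c) =
      pair W p (emb v) (Sum.inl c) (Sum.inr j) := by
    intro c j
    rw [pair_comm W p (emb v) (i := (Sum.inr j : K ⊕ J)) (j := Sum.inl c) (by simp), hW']
  have hll : ∀ c c' : K, (if (Sum.inl c : K ⊕ J) = Sum.inl c' then (0 : ℂ)
      else pair W p (emb v) (Sum.inl c) (Sum.inl c')) =
      (W (Sum.inl c) (Sum.inl c) (Sum.inl c') (Sum.inl c') -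
        W (Sum.inl c) (Sum.inl c') (Sum.inl c') (Sum.inl c)) * val p v := by
    intro c c'
    split_ifs with h
    · rw [Sum.inl.injEq] at h; subst h; ring
    · exact pair_ll hp hf W v (by simpa using h)
  have hrr : ∀ j l : J, (if (Sum.inr j : K ⊕ J) = Sum.inr l then (0 : ℂ)
      else pair W p (emb v) (Sum.inr j) (Sum.inr l)) =
      if j = l then 0 else pair (fun a b c d : V => W (Sum.inr a) (Sum.inr b) (Sum.inr c)
        (Sum.inr d)) (val p) v j l := by
    intro j l
    by_cases h : j = l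
    · subst h; simp
    · rw [if_neg (by simpa using h), if_neg h]
      exact pair_rr hp hf W v h
  have hcross : (∑ c : K, ∑ j : J, pair W p (emb v) (Sum.inl c) (Sum.inr j)) =
      one (coreField W) (val p) v := by
    unfold one coreField
    rw [Finset.sum_comm]
    refine Finset.sum_congr rfl fun j _ => ?_
    simp_rw [pair_lr hp hf W v]
    rw [Finset.sum_comm]
    refine Finset.sum_congr rfl fun b _ => ?_
    rw [Finset.sum_mul]
  unfold two
  rw [Fintype.sum_sum_type]
  simp_rw [Fintype.sum_sum_type]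
  rw [Finset.sum_add_distrib, Finset.sum_add_distrib]
  have s1 : (∑ c : K, ∑ c' : K, (if (Sum.inl c : K ⊕ J) = Sum.inl c' then (0 : ℂ)
      else pair W p (emb v) (Sum.inl c) (Sum.inl c'))) = coreTwo W * val p v := by
    unfold coreTwo
    simp_rw [hll, Finset.sum_mul]
  have s2 : (∑ c : K, ∑ j : J, (if (Sum.inl c : K ⊕ J) = Sum.inr j then (0 : ℂ)
      else pair W p (emb v) (Sum.inl c) (Sum.inr j))) = one (coreField W) (val p) v := by
    rw [← hcross]
    refine Finset.sum_congr rfl fun c _ => Finset.sum_congr rfl fun j _ => ?_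
    rw [if_neg (by simp)]
  have s3 : (∑ j : J, ∑ c : K, (if (Sum.inr j : K ⊕ J) = Sum.inl c then (0 : ℂ)
      else pair W p (emb v) (Sum.inr j) (Sum.inl c))) = one (coreField W) (val p) v := by
    rw [← hcross, Finset.sum_comm]
    refine Finset.sum_congr rfl fun c _ => Finset.sum_congr rfl fun j _ => ?_
    rw [if_neg (by simp), hlr]
  rw [s1, s2, s3]
  simp_rw [hrr]
  ring

end Core

end Crest.Agent.R338.SC
end

-- ▼ part R338/SC3
section

/-!
Row 338 (S0529), node SC: sums of symmetric functions over tuples with full core; the maps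
between full-core antisymmetric tensors and valence tensors. helper426.
-/

set_option autoImplicit false
set_option linter.unusedSectionVars false
set_option linter.unusedVariables false

open Finset Function

namespace Crest.Agent.R338.SC

variable {K J V : Type*} [Fintype K] [DecidableEq K] [Fintype J] [DecidableEq J]
  [Fintype V] [DecidableEq V]

theorem emb_injective_iff (v : J → V) :
    Function.Injective (emb v : K ⊕ J → K ⊕ V) ↔ Function.Injective v := by
  constructor
  · intro h i j e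
    have := @h (Sum.inr i) (Sum.inr j) (by simp [e])
    simpa using this
  · intro h
    exact Sum.map_injective.2 ⟨Function.injective_id, h⟩

theorem exists_perm_of_full {ω : K ⊕ J → K ⊕ V} (hinj : Function.Injective ω)
    (hfull : ∀ c : K, ∃ i, ω i = Sum.inl c) :
    ∃ (τ : Equiv.Perm (K ⊕ J)) (v : J → V), emb v = ω ∘ τ := by
  classical
  choose pos hpos using hfull
  have hposinj : Function.Injective pos := by
    intro a b e
    have := hpos a
    rw [e, hpos b] at this
    simpa using this.symm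
  obtain ⟨g, hg⟩ := Finset.exists_equiv_extend_of_card_eq (α := K ⊕ J) (β := K ⊕ J)
    (t := Finset.univ) (by simp) (s := Finset.univ.image (Sum.inl : K → K ⊕ J))
    (f := fun x => Sum.elim pos (fun j => Sum.inr j) x) (by simp) (by
      intro x hx y hy e
      simp only [Finset.coe_image, Finset.coe_univ, Set.image_univ, Set.mem_range] at hx hy
      obtain ⟨a, rfl⟩ := hx
      obtain ⟨b, rfl⟩ := hy
      simp only [Sum.elim_inl] at e
      rw [hposinj e])
  let τ : Equiv.Perm (K ⊕ J) := g.trans (Equiv.subtypeUnivEquiv (by simp))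
  have hτ : ∀ c, τ (Sum.inl c) = pos c := by
    intro c
    have := hg (Sum.inl c) (by simp)
    simpa [τ] using this
  have h2 : ∀ j : J, ∃ b : V, ω (τ (Sum.inr j)) = Sum.inr b := by
    intro j
    rcases h : ω (τ (Sum.inr j)) with c | b
    · exfalso
      have h3 : ω (τ (Sum.inl c)) = Sum.inl c := by rw [hτ, hpos]
      have := hinj (h.trans h3.symm)
      have := τ.injective this
      simp at this
    · exact ⟨b, rfl⟩
  choose v hv using h2
  refine ⟨τ, v, ?_⟩
  ext k
  rcases k with c | j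
  · simp [hτ, hpos]
  · simp [hv]

theorem fiber_mem {v0 v : J → V} (hv0 : Function.Injective v0) {σ0 σ : Equiv.Perm (K ⊕ J)}
    (hx : (emb v : K ⊕ J → K ⊕ V) ∘ σ = emb v0 ∘ σ0) :
    ∃ π : Equiv.Perm J, v = v0 ∘ π ∧ σ = (Equiv.Perm.sumCongr 1 π)⁻¹ * σ0 := by
  have h1 : (emb v : K ⊕ J → K ⊕ V) = emb v0 ∘ (σ0 * σ⁻¹ : Equiv.Perm (K ⊕ J)) := by
    ext k
    have := congrFun hx (σ⁻¹ k)
    simpa [Equiv.Perm.mul_apply] using this
  set τ : Equiv.Perm (K ⊕ J) := σ0 * σ⁻¹ with hτ
  have hinj : Function.Injective (emb v0 : K ⊕ J → K ⊕ V) := (emb_injective_iff v0).2 hv0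
  have hfix : ∀ c : K, τ (Sum.inl c) = Sum.inl c := by
    intro c
    have := congrFun h1 (Sum.inl c)
    simp only [emb_inl, comp_apply] at this
    exact (hinj (this.symm.trans (emb_inl v0 c).symm))
  have hmaps : Set.MapsTo τ (Set.range (Sum.inl : K → K ⊕ J)) (Set.range Sum.inl) := by
    rintro _ ⟨c, rfl⟩
    exact ⟨c, (hfix c).symm⟩
  obtain ⟨⟨π1, π⟩, hπ⟩ := Equiv.Perm.mem_sumCongrHom_range_of_perm_mapsTo_inl hmaps
  have hπ' : Equiv.Perm.sumCongr π1 π = τ := hπ
  have hπ1 : π1 = 1 := by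
    ext c
    have := congrArg (fun (e : Equiv.Perm (K ⊕ J)) => e (Sum.inl c)) hπ'
    simp only [Equiv.Perm.sumCongr_apply, Sum.map_inl] at this
    rw [hfix] at this
    simpa using this
  subst hπ1
  refine ⟨π, ?_, ?_⟩
  · have h2 : (emb v : K ⊕ J → K ⊕ V) = emb (v0 ∘ π) := by
      rw [h1, ← emb_comp_perm, hπ']
    funext j
    have := congrFun h2 (Sum.inr j)
    simpa using this
  · rw [hπ', hτ]; simp [mul_inv_rev]

theorem card_fiber {v0 : J → V} (hv0 : Function.Injective v0) (σ0 : Equiv.Perm (K ⊕ J)) :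
    ((Finset.univ : Finset ((J → V) × Equiv.Perm (K ⊕ J))).filter
      (fun x => (emb x.1 : K ⊕ J → K ⊕ V) ∘ x.2 = emb v0 ∘ σ0)).card = (Fintype.card J).factorial := by
  classical
  rw [← Fintype.card_perm (α := J), ← Finset.card_univ]
  symm
  refine Finset.card_bij (fun π _ => (v0 ∘ π, (Equiv.Perm.sumCongr 1 π)⁻¹ * σ0)) ?_ ?_ ?_
  · intro π _
    simp only [Finset.mem_filter, Finset.mem_univ, true_and]
    rw [← emb_comp_perm]
    ext k
    simp [Equiv.Perm.mul_apply]
  · intro π _ π' _ h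
    simp only [Prod.mk.injEq] at h
    have h2 := mul_right_cancel h.2
    have h3 := inv_injective h2
    ext j
    have := congrArg (fun (e : Equiv.Perm (K ⊕ J)) => e (Sum.inr j)) h3
    simpa using this
  · intro x hx
    simp only [Finset.mem_filter, Finset.mem_univ, true_and] at hx
    obtain ⟨π, h1, h2⟩ := fiber_mem hv0 hx
    exact ⟨π, Finset.mem_univ _, Prod.ext h1.symm h2.symm⟩

/-- sums of symmetric functions supported on injective tuples with full core -/
theorem sum_sym (f : (K ⊕ J → K ⊕ V) → ℂ)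
    (hsym : ∀ (σ : Equiv.Perm (K ⊕ J)) (ω : K ⊕ J → K ⊕ V), f (ω ∘ σ) = f ω)
    (hinj : ∀ ω, f ω ≠ 0 → Function.Injective ω)
    (hfull : ∀ ω, f ω ≠ 0 → ∀ c : K, ∃ i, ω i = Sum.inl c) :
    ((Fintype.card J).factorial : ℂ) * ∑ ω, f ω =
      ((Fintype.card (K ⊕ J)).factorial : ℂ) * ∑ v : J → V, f (emb v) := by
  classical
  have h1 : ∑ x : (J → V) × Equiv.Perm (K ⊕ J), f ((emb x.1 : K ⊕ J → K ⊕ V) ∘ x.2) =
      ((Fintype.card (K ⊕ J)).factorial : ℂ) * ∑ v : J → V, f (emb v) := by
    rw [Fintype.sum_prod_type, Finset.mul_sum]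
    refine Finset.sum_congr rfl fun v _ => ?_
    simp_rw [hsym]
    rw [Finset.sum_const, Finset.card_univ, Fintype.card_perm, nsmul_eq_mul]
  rw [← h1, ← Finset.sum_fiberwise (s := Finset.univ)
    (g := fun x : (J → V) × Equiv.Perm (K ⊕ J) => (emb x.1 : K ⊕ J → K ⊕ V) ∘ x.2), Finset.mul_sum]
  refine Finset.sum_congr rfl fun ω _ => ?_
  have h2 : ∑ x ∈ Finset.univ.filter (fun x : (J → V) × Equiv.Perm (K ⊕ J) =>
      (emb x.1 : K ⊕ J → K ⊕ V) ∘ x.2 = ω), f ((emb x.1 : K ⊕ J → K ⊕ V) ∘ x.2) =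
      ((Finset.univ.filter (fun x : (J → V) × Equiv.Perm (K ⊕ J) =>
      (emb x.1 : K ⊕ J → K ⊕ V) ∘ x.2 = ω)).card : ℂ) * f ω := by
    rw [← nsmul_eq_mul, ← Finset.sum_const]
    refine Finset.sum_congr rfl fun x hx => ?_
    rw [(Finset.mem_filter.1 hx).2]
  rw [h2]
  by_cases hω : f ω = 0
  · rw [hω]; simp
  · obtain ⟨τ, v, hv⟩ := exists_perm_of_full (hinj ω hω) (hfull ω hω)
    have hω' : ω = emb v ∘ (τ⁻¹ : Equiv.Perm (K ⊕ J)) := by
      rw [hv]; ext k; simp
    have hvinj : Function.Injective v := by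
      rw [← emb_injective_iff (K := K), hv]
      exact (hinj ω hω).comp τ.injective
    rw [hω', card_fiber hvinj]


/-- the full-core tensor of a valence tensor -/
noncomputable def up (D : (J → V) → ℂ) (ω : K ⊕ J → K ⊕ V) : ℂ :=
  ((Fintype.card J).factorial : ℂ)⁻¹ * ∑ σ : Equiv.Perm (K ⊕ J),
    ((Equiv.Perm.sign σ : ℤ) : ℂ) * ∑ v : J → V, if (emb v : K ⊕ J → K ⊕ V) = ω ∘ σ then D v else 0

theorem up_anti (D : (J → V) → ℂ) : Anti (up (K := K) D) := by
  intro ρ ω
  unfold up
  rw [← Equiv.sum_comp (Equiv.mulLeft ρ) (fun σ => ((Equiv.Perm.sign σ : ℤ) : ℂ) *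
    ∑ v : J → V, if (emb v : K ⊕ J → K ⊕ V) = ω ∘ σ then D v else 0)]
  rw [Finset.mul_sum, Finset.mul_sum, Finset.mul_sum]
  refine Finset.sum_congr rfl fun σ _ => ?_
  have h1 : (ω ∘ ρ) ∘ σ = ω ∘ (Equiv.mulLeft ρ σ : Equiv.Perm (K ⊕ J)) := by
    ext k; simp
  rw [h1]
  have h2 : ((Equiv.Perm.sign (Equiv.mulLeft ρ σ : Equiv.Perm (K ⊕ J)) : ℤ) : ℂ) =
      ((Equiv.Perm.sign ρ : ℤ) : ℂ) * ((Equiv.Perm.sign σ : ℤ) : ℂ) := by
    rw [Equiv.coe_mulLeft, Equiv.Perm.sign_mul]; push_cast; rfl
  rw [h2]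
  have h3 := sign_mul_self ρ
  linear_combination (-((Fintype.card J).factorial : ℂ)⁻¹ * ((Equiv.Perm.sign σ : ℤ) : ℂ) *
    (∑ v : J → V, if (emb v : K ⊕ J → K ⊕ V) = ω ∘ (Equiv.mulLeft ρ σ : Equiv.Perm (K ⊕ J))
      then D v else 0)) * h3

theorem up_full (D : (J → V) → ℂ) : Full (up (K := K) D) := by
  intro ω hω c
  unfold up at hω
  have h1 := right_ne_zero_of_mul hω
  obtain ⟨σ, _, hσ⟩ := Finset.exists_ne_zero_of_sum_ne_zero h1
  obtain ⟨v, _, hv⟩ := Finset.exists_ne_zero_of_sum_ne_zero (right_ne_zero_of_mul hσ)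
  have h2 : (emb v : K ⊕ J → K ⊕ V) = ω ∘ σ := by
    by_contra h; rw [if_neg h] at hv; exact hv rfl
  exact ⟨σ (Sum.inl c), by have := congrFun h2 (Sum.inl c); simpa using this.symm⟩

theorem val_up {D : (J → V) → ℂ} (hD : Anti D) : val (up (K := K) D) = D := by
  classical
  funext v0
  by_cases hv0 : Function.Injective v0
  · unfold val up
    have h1 : (∑ σ : Equiv.Perm (K ⊕ J), ((Equiv.Perm.sign σ : ℤ) : ℂ) *
        ∑ v : J → V, if (emb v : K ⊕ J → K ⊕ V) = emb v0 ∘ σ then D v else 0) =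
        ∑ x ∈ (Finset.univ : Finset ((J → V) × Equiv.Perm (K ⊕ J))).filter
          (fun x => (emb x.1 : K ⊕ J → K ⊕ V) ∘ x.2 = emb v0 ∘ (1 : Equiv.Perm (K ⊕ J))), D v0 := by
      rw [Finset.sum_filter, Fintype.sum_prod_type, Finset.sum_comm]
      rw [← Equiv.sum_comp (Equiv.inv (Equiv.Perm (K ⊕ J)))]
      refine Finset.sum_congr rfl fun σ _ => ?_
      rw [Finset.mul_sum]
      refine Finset.sum_congr rfl fun v _ => ?_
      simp only [Equiv.inv_apply, Equiv.Perm.sign_inv]
      have hiff : ((emb v : K ⊕ J → K ⊕ V) = emb v0 ∘ (σ⁻¹ : Equiv.Perm (K ⊕ J))) ↔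
          ((emb v : K ⊕ J → K ⊕ V) ∘ σ = emb v0 ∘ (1 : Equiv.Perm (K ⊕ J))) := by
        constructor
        · intro h; rw [h]; ext k; simp
        · intro h; ext k
          have := congrFun h (σ⁻¹ k)
          simpa using this
      by_cases hc : (emb v : K ⊕ J → K ⊕ V) = emb v0 ∘ (σ⁻¹ : Equiv.Perm (K ⊕ J))
      · rw [if_pos hc, if_pos (hiff.1 hc)]
        obtain ⟨π, e1, e2⟩ := fiber_mem hv0 (hiff.1 hc)
        rw [e1, hD, e2]
        rw [mul_one, Equiv.Perm.sign_inv, Equiv.Perm.sign_sumCongr, Equiv.Perm.sign_one, one_mul,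
          ← mul_assoc, sign_mul_self, one_mul]
      · rw [if_neg hc, if_neg (fun h => hc (hiff.2 h)), mul_zero]
    rw [h1, Finset.sum_const, card_fiber hv0, nsmul_eq_mul, ← mul_assoc, inv_mul_cancel₀, one_mul]
    exact_mod_cast Nat.factorial_ne_zero _
  · have h2 : D v0 = 0 := by
      by_contra h; exact hv0 (hD.injective h)
    have h3 : up (K := K) D (emb v0) = 0 := by
      by_contra h
      exact hv0 ((emb_injective_iff v0).1 ((up_anti D).injective h))
    rw [h2]; exact h3

/-- transfer of forms -/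
theorem ip_transfer {p q : (K ⊕ J → K ⊕ V) → ℂ} (hp : Anti p) (hf : Full p) (hq : Anti q) :
    ((Fintype.card J).factorial : ℂ) * ip p q =
      ((Fintype.card (K ⊕ J)).factorial : ℂ) * ∑ v : J → V, starRingEnd ℂ (val p v) * q (emb v) := by
  unfold ip
  have hne : ∀ ω, starRingEnd ℂ (p ω) * q ω ≠ 0 → p ω ≠ 0 := by
    intro ω h h0; apply h; rw [h0]; simp
  rw [sum_sym (fun ω => starRingEnd ℂ (p ω) * q ω)]
  · rfl
  · intro σ ω
    rw [hp, hq, map_mul]
    have h3 := sign_mul_self σ
    have h4 : starRingEnd ℂ ((Equiv.Perm.sign σ : ℤ) : ℂ) = ((Equiv.Perm.sign σ : ℤ) : ℂ) := by simp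
    rw [h4]
    linear_combination (starRingEnd ℂ (p ω) * q ω) * h3
  · intro ω h; exact hp.injective (hne ω h)
  · intro ω h; exact hf ω (hne ω h)

theorem ip_self_transfer {p : (K ⊕ J → K ⊕ V) → ℂ} (hp : Anti p) (hf : Full p) :
    ((Fintype.card J).factorial : ℂ) * ip p p =
      ((Fintype.card (K ⊕ J)).factorial : ℂ) * ip (val p) (val p) :=
  ip_transfer hp hf hp

theorem one_transfer {p : (K ⊕ J → K ⊕ V) → ℂ} (hp : Anti p) (hf : Full p)
    (M : K ⊕ V → K ⊕ V → ℂ) :
    ((Fintype.card J).factorial : ℂ) * ip p (one M p) =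
      ((Fintype.card (K ⊕ J)).factorial : ℂ) * ((∑ c : K, M (Sum.inl c) (Sum.inl c)) *
        ip (val p) (val p) + ip (val p) (one (fun a b : V => M (Sum.inr a) (Sum.inr b)) (val p))) := by
  rw [ip_transfer hp hf hp.one]
  congr 1
  simp_rw [one_emb hp hf]
  unfold ip
  rw [Finset.mul_sum, ← Finset.sum_add_distrib]
  refine Finset.sum_congr rfl fun v _ => ?_
  ring

theorem two_transfer {p : (K ⊕ J → K ⊕ V) → ℂ} (hp : Anti p) (hf : Full p)
    (W : K ⊕ V → K ⊕ V → K ⊕ V → K ⊕ V → ℂ) (hW : ∀ a b c d, W a b c d = W c d a b) :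
    ((Fintype.card J).factorial : ℂ) * ip p (two W p) =
      ((Fintype.card (K ⊕ J)).factorial : ℂ) * (coreTwo W * ip (val p) (val p) +
        2 * ip (val p) (one (coreField W) (val p)) +
        ip (val p) (two (fun a b c d : V => W (Sum.inr a) (Sum.inr b) (Sum.inr c) (Sum.inr d))
          (val p))) := by
  rw [ip_transfer hp hf hp.two]
  congr 1
  simp_rw [two_emb hp hf W hW]
  unfold ip
  rw [Finset.mul_sum, Finset.mul_sum, ← Finset.sum_add_distrib, ← Finset.sum_add_distrib]
  refine Finset.sum_congr rfl fun v _ => ?_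
  ring

end Crest.Agent.R338.SC
end

-- ▼ part R338/Tens
section

/-!
Row 338, shared tensor conventions (part 3 of the blueprint).

`N` electrons, spatial orbitals `α` (finite type), spin `Fin 2`.  A tensor is a function
`C : (Fin N → Fin 2 × α) → ℂ`; electron `k` sits in spin-orbital `ω k`.
-/

noncomputable section

namespace Crest.Agent.R338.Tens

open scoped BigOperators

variable {N : ℕ} {α : Type*} [Fintype α] [DecidableEq α]

/-- antisymmetric tensors -/
def Antisym (C : (Fin N → Fin 2 × α) → ℂ) : Prop :=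
  ∀ (σ : Equiv.Perm (Fin N)) (ω : Fin N → Fin 2 × α),
    C (fun i => ω (σ i)) = ((Equiv.Perm.sign σ : ℤ) : ℂ) * C ω

/-- squared norm -/
def nsq (C : (Fin N → Fin 2 × α) → ℂ) : ℝ := ∑ ω, ‖C ω‖ ^ 2

/-- move electron `k` to the spatial orbital `b`, keeping its spin -/
def mv (ω : Fin N → Fin 2 × α) (k : Fin N) (b : α) : Fin N → Fin 2 × α :=
  Function.update ω k ((ω k).1, b)

/-- one-body form `∑_k ∑_ω ∑_b conj C(ω) w_{ω_k b} C(ω[k→b])` (spin diagonal) -/
def oneF (w : α → α → ℝ) (C : (Fin N → Fin 2 × α) → ℂ) : ℂ :=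
  ∑ ω, ∑ k, ∑ b, (starRingEnd ℂ) (C ω) * ((w (ω k).2 b : ℝ) : ℂ) * C (mv ω k b)

/-- two-body form `∑_{k<l} ∑_ω ∑_{b,d} conj C(ω) W_{ω_k b | ω_l d} C(ω[k→b,l→d])` -/
def twoF (W : α → α → α → α → ℝ) (C : (Fin N → Fin 2 × α) → ℂ) : ℂ :=
  ∑ ω, ∑ k, ∑ l, ∑ b, ∑ d, if k < l then
    (starRingEnd ℂ) (C ω) * ((W (ω k).2 b (ω l).2 d : ℝ) : ℂ) * C (mv (mv ω k b) l d) else 0

end Crest.Agent.R338.Tens

end
end

-- ▼ part R338/SC4
section

/-!
Row 338 (S0529), node SC: transport along equivalences and the frozen core theorem in the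
conventions of `Tens.lean`. helper426.
-/

set_option autoImplicit false
set_option linter.unusedSectionVars false
set_option linter.unusedVariables false

open Finset Function

namespace Crest.Agent.R338.SC

section Transport

variable {ι Ω ι' Ω' : Type*} [Fintype ι] [DecidableEq ι] [Fintype Ω] [DecidableEq Ω]
  [Fintype ι'] [DecidableEq ι'] [Fintype Ω'] [DecidableEq Ω']

/-- transport of a tensor -/
def tr (e : ι ≃ ι') (g : Ω ≃ Ω') (C : (ι → Ω) → ℂ) (ω : ι' → Ω') : ℂ := C (g.symm ∘ ω ∘ e)

theorem ip_tr (e : ι ≃ ι') (g : Ω ≃ Ω') (C D : (ι → Ω) → ℂ) :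
    ip (tr e g C) (tr e g D) = ip C D := by
  unfold ip tr
  rw [← Equiv.sum_comp (Equiv.arrowCongr e g)]
  refine Finset.sum_congr rfl fun ω _ => ?_
  have h : (g.symm ∘ (Equiv.arrowCongr e g) ω ∘ e) = ω := by
    ext k; simp [Equiv.arrowCongr]
  rw [h]

theorem tr_update (e : ι ≃ ι') (g : Ω ≃ Ω') (ω : ι' → Ω') (i : ι) (β : Ω) :
    g.symm ∘ update ω (e i) (g β) ∘ e = update (g.symm ∘ ω ∘ e) i β := by
  ext k
  by_cases h : k = i
  · subst h; simp
  · simp [update_of_ne h, update_of_ne (fun h' => h (e.injective h') : e k ≠ e i)]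

theorem one_tr (e : ι ≃ ι') (g : Ω ≃ Ω') (M : Ω → Ω → ℂ) (C : (ι → Ω) → ℂ) :
    one (fun a b => M (g.symm a) (g.symm b)) (tr e g C) = tr e g (one M C) := by
  funext ω
  unfold one tr
  rw [← Equiv.sum_comp e]
  refine Finset.sum_congr rfl fun i _ => ?_
  rw [← Equiv.sum_comp g]
  refine Finset.sum_congr rfl fun β _ => ?_
  rw [tr_update]; simp

theorem pair_tr (e : ι ≃ ι') (g : Ω ≃ Ω') (W : Ω → Ω → Ω → Ω → ℂ) (C : (ι → Ω) → ℂ)
    (ω : ι' → Ω') (i j : ι) :
    pair (fun a b c d => W (g.symm a) (g.symm b) (g.symm c) (g.symm d)) (tr e g C) ω (e i) (e j) =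
      pair W C (g.symm ∘ ω ∘ e) i j := by
  unfold pair tr
  rw [← Equiv.sum_comp g]
  refine Finset.sum_congr rfl fun β _ => ?_
  rw [← Equiv.sum_comp g]
  refine Finset.sum_congr rfl fun δ _ => ?_
  rw [tr_update, tr_update]; simp

theorem two_tr (e : ι ≃ ι') (g : Ω ≃ Ω') (W : Ω → Ω → Ω → Ω → ℂ) (C : (ι → Ω) → ℂ) :
    two (fun a b c d => W (g.symm a) (g.symm b) (g.symm c) (g.symm d)) (tr e g C) =
      tr e g (two W C) := by
  funext ω
  unfold two
  rw [← Equiv.sum_comp e]
  show _ = ∑ i, ∑ j, if i = j then 0 else pair W C (g.symm ∘ ω ∘ e) i j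
  refine Finset.sum_congr rfl fun i _ => ?_
  rw [← Equiv.sum_comp e]
  refine Finset.sum_congr rfl fun j _ => ?_
  rw [pair_tr]
  simp only [EmbeddingLike.apply_eq_iff_eq]

theorem anti_tr (e : ι ≃ ι') (g : Ω ≃ Ω') {C : (ι → Ω) → ℂ} (hC : Anti C) : Anti (tr e g C) := by
  intro σ ω
  unfold tr
  have h := hC (e.symm.permCongr σ) (g.symm ∘ ω ∘ e)
  rw [Equiv.Perm.sign_permCongr] at h
  rw [← h]
  congr 1
  ext k; simp [Equiv.permCongr_apply]

theorem tr_symm (e : ι ≃ ι') (g : Ω ≃ Ω') (C : (ι' → Ω') → ℂ) :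
    tr e g (tr e.symm g.symm C) = C := by
  funext ω
  unfold tr
  congr 1
  ext k; simp


end Transport

section Spin

open Crest.Agent.R338.Tens

variable {N : ℕ} {α : Type*} [Fintype α] [DecidableEq α]

/-- spin-diagonal one-body matrix -/
noncomputable def sM (w : α → α → ℝ) (x y : Fin 2 × α) : ℂ :=
  if x.1 = y.1 then ((w x.2 y.2 : ℝ) : ℂ) else 0

/-- spin-diagonal two-body tensor -/
noncomputable def sW (W : α → α → α → α → ℝ) (x y z u : Fin 2 × α) : ℂ :=
  if x.1 = y.1 ∧ z.1 = u.1 then ((W x.2 y.2 z.2 u.2 : ℝ) : ℂ) else 0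

theorem antisym_iff (C : (Fin N → Fin 2 × α) → ℂ) : Antisym C ↔ Anti C := Iff.rfl

theorem nsq_eq (C : (Fin N → Fin 2 × α) → ℂ) : ((nsq C : ℝ) : ℂ) = ip C C := by
  unfold nsq ip
  push_cast
  refine Finset.sum_congr rfl fun ω _ => ?_
  rw [mul_comm, Complex.mul_conj, Complex.normSq_eq_norm_sq]; push_cast; rfl

theorem oneF_eq (w : α → α → ℝ) (C : (Fin N → Fin 2 × α) → ℂ) :
    oneF w C = ip C (one (sM w) C) := by
  unfold oneF ip one
  refine Finset.sum_congr rfl fun ω _ => ?_
  rw [Finset.mul_sum]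
  refine Finset.sum_congr rfl fun i _ => ?_
  rw [Fintype.sum_prod_type, Finset.sum_eq_single (ω i).1]
  · rw [Finset.mul_sum]
    refine Finset.sum_congr rfl fun b _ => ?_
    simp only [sM, if_true, mv]; ring
  · intro s _ hs
    refine Finset.sum_eq_zero fun b _ => ?_
    simp only [sM]
    rw [if_neg (fun h => hs h.symm), zero_mul]
  · intro h; exact absurd (Finset.mem_univ _) h

theorem pair_sW (W : α → α → α → α → ℝ) (C : (Fin N → Fin 2 × α) → ℂ) (ω : Fin N → Fin 2 × α)
    {k l : Fin N} (h : k ≠ l) :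
    pair (sW W) C ω k l = ∑ b, ∑ d, ((W (ω k).2 b (ω l).2 d : ℝ) : ℂ) * C (mv (mv ω k b) l d) := by
  unfold pair
  rw [Fintype.sum_prod_type, Finset.sum_eq_single (ω k).1]
  · refine Finset.sum_congr rfl fun b _ => ?_
    rw [Fintype.sum_prod_type, Finset.sum_eq_single (ω l).1]
    · refine Finset.sum_congr rfl fun d _ => ?_
      simp only [sW, mv, and_self, if_true]
      rw [update_of_ne h.symm]
    · intro s _ hs
      refine Finset.sum_eq_zero fun d _ => ?_
      simp only [sW]
      rw [if_neg (fun h => hs h.2.symm), zero_mul]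
    · intro h; exact absurd (Finset.mem_univ _) h
  · intro s _ hs
    refine Finset.sum_eq_zero fun b _ => Finset.sum_eq_zero fun y _ => ?_
    simp only [sW]
    rw [if_neg (fun h => hs h.1.symm), zero_mul]
  · intro h; exact absurd (Finset.mem_univ _) h

/-- sums over `k < l` of a symmetric function -/
theorem sum_lt_symm (f : Fin N → Fin N → ℂ) (hf : ∀ k l, f k l = f l k) :
    (∑ k, ∑ l, if k = l then 0 else f k l) = 2 * ∑ k, ∑ l, if k < l then f k l else 0 := by
  have h1 : (∑ k, ∑ l, if l < k then f k l else 0) = ∑ k, ∑ l, if k < l then f k l else 0 := by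
    rw [Finset.sum_comm]
    refine Finset.sum_congr rfl fun k _ => Finset.sum_congr rfl fun l _ => ?_
    rw [hf]
  rw [two_mul]
  nth_rewrite 2 [← h1]
  rw [← Finset.sum_add_distrib]
  refine Finset.sum_congr rfl fun k _ => ?_
  rw [← Finset.sum_add_distrib]
  refine Finset.sum_congr rfl fun l _ => ?_
  rcases lt_trichotomy k l with h | h | h
  · rw [if_neg h.ne, if_pos h, if_neg h.asymm, add_zero]
  · subst h; simp
  · rw [if_neg h.ne', if_neg h.asymm, if_pos h, zero_add]

theorem twoF_eq (W : α → α → α → α → ℝ) (hW : ∀ a b c d, W a b c d = W c d a b)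
    (C : (Fin N → Fin 2 × α) → ℂ) :
    2 * twoF W C = ip C (two (sW W) C) := by
  have hsW : (fun a b c d => sW W c d a b) = sW W := by
    funext a b c d
    unfold sW
    rw [hW]
    congr 1
    rw [and_comm]
  unfold ip two
  have h1 : ∀ ω : Fin N → Fin 2 × α, (∑ k, ∑ l, if k = l then 0 else pair (sW W) C ω k l) =
      2 * ∑ k, ∑ l, if k < l then pair (sW W) C ω k l else 0 := by
    intro ω
    have hcongr : (∑ k, ∑ l, if k = l then 0 else pair (sW W) C ω k l) =
        ∑ k, ∑ l, if k = l then 0 else (if k = l then 0 else pair (sW W) C ω k l) := by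
      refine Finset.sum_congr rfl fun k _ => Finset.sum_congr rfl fun l _ => ?_
      split_ifs <;> rfl
    rw [hcongr, sum_lt_symm]
    · congr 1
      refine Finset.sum_congr rfl fun k _ => Finset.sum_congr rfl fun l _ => ?_
      by_cases h : k < l
      · rw [if_pos h, if_pos h, if_neg h.ne]
      · rw [if_neg h, if_neg h]
    · intro k l
      by_cases h : k = l
      · subst h; rfl
      · rw [if_neg h, if_neg (Ne.symm h), pair_comm _ _ _ h, hsW]
  simp_rw [h1]
  unfold twoF
  rw [Finset.mul_sum]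
  refine Finset.sum_congr rfl fun ω _ => ?_
  rw [Finset.mul_sum, Finset.mul_sum, Finset.mul_sum]
  refine Finset.sum_congr rfl fun k _ => ?_
  rw [Finset.mul_sum, Finset.mul_sum, Finset.mul_sum]
  refine Finset.sum_congr rfl fun l _ => ?_
  by_cases h : k < l
  · simp only [if_pos h]
    rw [pair_sW W C ω h.ne]
    rw [Finset.mul_sum, Finset.mul_sum, Finset.mul_sum]
    refine Finset.sum_congr rfl fun b _ => ?_
    rw [Finset.mul_sum, Finset.mul_sum, Finset.mul_sum]
    refine Finset.sum_congr rfl fun d _ => ?_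
    ring
  · simp [if_neg h]

end Spin

end Crest.Agent.R338.SC
end

-- ▼ part R338/SC5

/-!
Row 338 (S0529), node SC: THE FROZEN CORE THEOREM (B.2) in the conventions of `Tens.lean`.
helper426.
-/

set_option autoImplicit false
set_option linter.unusedSectionVars false
set_option linter.unusedVariables false

open Finset Function

namespace Crest.Agent.R338.SC

open Crest.Agent.R338.Tens

variable {N n : ℕ} {α : Type*} [Fintype α] [DecidableEq α] (cr : α → Prop) [DecidablePred cr]

/-- every core spin-orbital is occupied on the support of `C` -/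
def FullCore (C : (Fin N → Fin 2 × α) → ℂ) : Prop :=
  ∀ ω, C ω ≠ 0 → ∀ (s : Fin 2) (a : α), cr a → ∃ i, ω i = (s, a)

/-- splitting the spin-orbitals into core and valence -/
def split : Fin 2 × α ≃ (Fin 2 × {a // cr a}) ⊕ (Fin 2 × {a // ¬ cr a}) :=
  ((Equiv.refl (Fin 2)).prodCongr (Equiv.sumCompl cr).symm).trans
    (Equiv.prodSumDistrib (Fin 2) {a // cr a} {a // ¬ cr a})

theorem split_symm_inl (x : Fin 2 × {a // cr a}) :
    (split cr).symm (Sum.inl x) = (x.1, x.2.1) := by
  simp [split]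

theorem split_symm_inr (x : Fin 2 × {a // ¬ cr a}) :
    (split cr).symm (Sum.inr x) = (x.1, x.2.1) := by
  simp [split]

/-- two-body core energy `∑_{c,c'} (2 W_{cc|c'c'} - W_{cc'|c'c})` -/
noncomputable def coreW (W : α → α → α → α → ℝ) : ℝ :=
  ∑ c : {a // cr a}, ∑ c' : {a // cr a}, (2 * W c c c' c' - W c c' c' c)

/-- mean field of the core `F_ab = ∑_c (2 W_{cc|ab} - W_{cb|ac})` -/
noncomputable def field (W : α → α → α → α → ℝ) (a b : α) : ℝ :=
  ∑ c : {a // cr a}, (2 * W c c a b - W c b a c)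

/-- one-body core energy `2 ∑_c w_cc` -/
noncomputable def coreOne (w : α → α → ℝ) : ℝ := 2 * ∑ c : {a // cr a}, w c c

theorem field_spin (W : α → α → α → α → ℝ) :
    coreField (fun a b c d => sW W ((split cr).symm a) ((split cr).symm b) ((split cr).symm c)
      ((split cr).symm d)) =
      sM (fun a b : {a // ¬ cr a} => field cr W a b) := by
  funext x y
  unfold coreField sM field
  simp only [split_symm_inl, split_symm_inr, sW]
  rw [Fintype.sum_prod_type]
  simp only [true_and]
  by_cases h : x.1 = y.1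
  · simp only [h, if_true]
    have h2 : ∀ s : Fin 2, (∑ c : {a // cr a}, (((W c c x.2 y.2 : ℝ) : ℂ) -
        if s = y.1 ∧ y.1 = s then ((W c y.2 x.2 c : ℝ) : ℂ) else 0)) =
        (∑ c : {a // cr a}, ((W c c x.2 y.2 : ℝ) : ℂ)) -
        if s = y.1 then (∑ c : {a // cr a}, ((W c y.2 x.2 c : ℝ) : ℂ)) else 0 := by
      intro s
      by_cases hs : s = y.1
      · subst hs; simp [Finset.sum_sub_distrib]
      · have : ¬ (s = y.1 ∧ y.1 = s) := fun h => hs h.1
        simp [hs, this]
    simp_rw [h2]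
    rw [Finset.sum_sub_distrib, Finset.sum_ite_eq' Finset.univ y.1]
    simp only [Finset.mem_univ, if_true, Finset.sum_const, Finset.card_univ, Fintype.card_fin,
      nsmul_eq_mul]
    push_cast
    rw [Finset.sum_sub_distrib, Finset.mul_sum]
  · simp only [h, if_false]
    refine Finset.sum_eq_zero fun s _ => Finset.sum_eq_zero fun c _ => ?_
    have : ¬ (s = y.1 ∧ x.1 = s) := fun hh => h (hh.2.trans hh.1)
    simp [this]

theorem coreTwo_spin (W : α → α → α → α → ℝ) :
    coreTwo (fun a b c d => sW W ((split cr).symm a) ((split cr).symm b) ((split cr).symm c)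
      ((split cr).symm d)) = 2 * ((coreW cr W : ℝ) : ℂ) := by
  unfold coreTwo coreW
  simp only [split_symm_inl, sW]
  simp only [Fintype.sum_prod_type]
  simp only [true_and, if_true]
  have h2 : ∀ (s : Fin 2) (c : {a // cr a}), (∑ s' : Fin 2, ∑ c' : {a // cr a},
      (((W c c c' c' : ℝ) : ℂ) - if s = s' ∧ s' = s then ((W c c' c' c : ℝ) : ℂ) else 0)) =
      ∑ c' : {a // cr a}, (2 * ((W c c c' c' : ℝ) : ℂ) - ((W c c' c' c : ℝ) : ℂ)) := by
    intro s c
    rw [Finset.sum_comm]
    refine Finset.sum_congr rfl fun c' _ => ?_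
    rw [Finset.sum_sub_distrib]
    have h3 : (∑ s' : Fin 2, if s = s' ∧ s' = s then ((W c c' c' c : ℝ) : ℂ) else 0) =
        ((W c c' c' c : ℝ) : ℂ) := by
      rw [Finset.sum_eq_single s]
      · simp
      · intro t _ ht
        rw [if_neg (fun h => ht h.2)]
      · intro h; exact absurd (Finset.mem_univ _) h
    rw [h3]
    simp
  simp_rw [h2]
  simp only [Finset.sum_const, Finset.card_univ, Fintype.card_fin, nsmul_eq_mul]
  push_cast
  rfl

theorem coreOne_spin (w : α → α → ℝ) :
    (∑ c : Fin 2 × {a // cr a}, sM w ((split cr).symm (Sum.inl c)) ((split cr).symm (Sum.inl c))) =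
      ((coreOne cr w : ℝ) : ℂ) := by
  unfold coreOne
  simp only [split_symm_inl, sM, if_true]
  rw [Fintype.sum_prod_type]
  simp

/-- the identities satisfied by a full-core tensor and its valence tensor -/
structure Frozen (w : α → α → ℝ) (W : α → α → α → α → ℝ) (κ : ℝ)
    (C : (Fin N → Fin 2 × α) → ℂ) (D : (Fin n → Fin 2 × {a // ¬ cr a}) → ℂ) : Prop where
  nsq : Tens.nsq C = κ * Tens.nsq D
  one : oneF w C = (κ : ℂ) * (((coreOne cr w * Tens.nsq D : ℝ) : ℂ) + oneF (fun a b : {a // ¬ cr a} => w a b) D)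
  two : twoF W C = (κ : ℂ) * (((coreW cr W * Tens.nsq D : ℝ) : ℂ) +
    oneF (fun a b : {a // ¬ cr a} => field cr W a b) D +
      twoF (fun a b c d : {a // ¬ cr a} => W a b c d) D)

/-- the index equivalence -/
noncomputable def posEquiv (hN : N = 2 * Fintype.card {a // cr a} + n) :
    Fin N ≃ (Fin 2 × {a // cr a}) ⊕ Fin n :=
  Fintype.equivOfCardEq (by simp [hN])

theorem frozen_core_tr (w : α → α → ℝ) (W : α → α → α → α → ℝ)
    (hW : ∀ a b c d, W a b c d = W c d a b) (hN : N = 2 * Fintype.card {a // cr a} + n)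
    {C : (Fin N → Fin 2 × α) → ℂ} (hC : Antisym C)
    (hf : Full (tr (posEquiv cr hN) (split cr) C)) :
    Frozen cr w W ((N.factorial : ℝ) / (n.factorial : ℝ)) C
      (val (tr (posEquiv cr hN) (split cr) C)) := by
  set p := tr (posEquiv cr hN) (split cr) C with hpdef
  have hp : Anti p := anti_tr _ _ ((antisym_iff C).1 hC)
  have hn0 : ((n.factorial : ℕ) : ℂ) ≠ 0 := by exact_mod_cast Nat.factorial_ne_zero n
  have hcard : Fintype.card ((Fin 2 × {a // cr a}) ⊕ Fin n) = N := by simp [hN]
  have hip : ip p p = ip C C := ip_tr _ _ C C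
  have hκ : (((N.factorial : ℝ) / (n.factorial : ℝ) : ℝ) : ℂ) =
      ((N.factorial : ℕ) : ℂ) / ((n.factorial : ℕ) : ℂ) := by push_cast; rfl
  refine ⟨?_, ?_, ?_⟩
  · have h := ip_self_transfer hp hf
    rw [hcard, Fintype.card_fin, hip] at h
    have h2 : ((Tens.nsq C : ℝ) : ℂ) =
        (((N.factorial : ℝ) / (n.factorial : ℝ) * Tens.nsq (val p) : ℝ) : ℂ) := by
      rw [Complex.ofReal_mul, hκ, nsq_eq, nsq_eq]
      field_simp
      linear_combination h
    exact_mod_cast h2
  · have h := one_transfer hp hf (fun a b => sM w ((split cr).symm a) ((split cr).symm b))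
    rw [hcard, Fintype.card_fin, one_tr, ip_tr] at h
    rw [oneF_eq, hκ]
    have e1 : (fun a b : Fin 2 × {a // ¬ cr a} =>
        sM w ((split cr).symm (Sum.inr a)) ((split cr).symm (Sum.inr b))) =
        sM (fun a b : {a // ¬ cr a} => w a b) := by
      funext x y; simp only [split_symm_inr, sM]
    rw [e1, coreOne_spin] at h
    rw [oneF_eq, Complex.ofReal_mul, nsq_eq]
    field_simp
    linear_combination h
  · have hsW : ∀ a b c d, (fun a b c d => sW W ((split cr).symm a) ((split cr).symm b)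
        ((split cr).symm c) ((split cr).symm d)) a b c d =
        (fun a b c d => sW W ((split cr).symm a) ((split cr).symm b)
        ((split cr).symm c) ((split cr).symm d)) c d a b := by
      intro a b c d
      simp only [sW]
      rw [hW]
      congr 1
      rw [and_comm]
    have h := two_transfer hp hf _ hsW
    rw [hcard, Fintype.card_fin, two_tr, ip_tr, ← twoF_eq W hW, coreTwo_spin, field_spin] at h
    have e1 : (fun a b c d : Fin 2 × {a // ¬ cr a} =>
        sW W ((split cr).symm (Sum.inr a)) ((split cr).symm (Sum.inr b))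
          ((split cr).symm (Sum.inr c)) ((split cr).symm (Sum.inr d))) =
        sW (fun a b c d : {a // ¬ cr a} => W a b c d) := by
      funext x y z u; simp only [split_symm_inr, sW]
    have h' : ((n.factorial : ℕ) : ℂ) * (2 * twoF W C) = ((N.factorial : ℕ) : ℂ) *
        (2 * ((coreW cr W : ℝ) : ℂ) * ip (val p) (val p) +
          2 * ip (val p) (SC.one (sM fun a b : {a // ¬ cr a} => field cr W a b) (val p)) +
          2 * twoF (fun a b c d : {a // ¬ cr a} => W a b c d) (val p)) := by
      rw [twoF_eq (fun a b c d : {a // ¬ cr a} => W a b c d) (fun a b c d => hW a b c d), ← e1]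
      exact h
    rw [hκ, oneF_eq, Complex.ofReal_mul, nsq_eq]
    field_simp
    linear_combination h' / 2

theorem full_tr_iff (hN : N = 2 * Fintype.card {a // cr a} + n) (C : (Fin N → Fin 2 × α) → ℂ) :
    FullCore cr C ↔ Full (tr (posEquiv cr hN) (split cr) C) := by
  constructor
  · intro h ω hω c
    obtain ⟨i, hi⟩ := h _ hω c.1 c.2.1 c.2.2
    refine ⟨posEquiv cr hN i, ?_⟩
    have h2 : (split cr).symm (ω (posEquiv cr hN i)) = (c.1, c.2.1) := hi
    rw [Equiv.symm_apply_eq] at h2
    rw [h2, ← split_symm_inl, Equiv.apply_symm_apply]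
  · intro h ω hω s a ha
    have h1 : tr (posEquiv cr hN) (split cr) C
        ((split cr) ∘ ω ∘ (posEquiv cr hN).symm) ≠ 0 := by
      have : (split cr).symm ∘ ((split cr) ∘ ω ∘ (posEquiv cr hN).symm) ∘ (posEquiv cr hN) = ω := by
        ext k <;> simp
      unfold tr
      rw [this]; exact hω
    obtain ⟨i, hi⟩ := h _ h1 (s, ⟨a, ha⟩)
    refine ⟨(posEquiv cr hN).symm i, ?_⟩
    have h2 : split cr (ω ((posEquiv cr hN).symm i)) = Sum.inl (s, ⟨a, ha⟩) := hi
    rw [← Equiv.eq_symm_apply, split_symm_inl] at h2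
    exact h2

/-- **FROZEN CORE, down.** -/
theorem frozen_core_down (w : α → α → ℝ) (W : α → α → α → α → ℝ)
    (hW : ∀ a b c d, W a b c d = W c d a b) (hN : N = 2 * Fintype.card {a // cr a} + n)
    {C : (Fin N → Fin 2 × α) → ℂ} (hC : Antisym C) (hf : FullCore cr C) :
    ∃ D : (Fin n → Fin 2 × {a // ¬ cr a}) → ℂ, Antisym D ∧
      Frozen cr w W ((N.factorial : ℝ) / (n.factorial : ℝ)) C D :=
  ⟨val (tr (posEquiv cr hN) (split cr) C),
    (antisym_iff _).2 (anti_tr (posEquiv cr hN) (split cr) ((antisym_iff C).1 hC)).val,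
    frozen_core_tr cr w W hW hN hC ((full_tr_iff cr hN C).1 hf)⟩

/-- **FROZEN CORE, up.** -/
theorem frozen_core_up (w : α → α → ℝ) (W : α → α → α → α → ℝ)
    (hW : ∀ a b c d, W a b c d = W c d a b) (hN : N = 2 * Fintype.card {a // cr a} + n)
    {D : (Fin n → Fin 2 × {a // ¬ cr a}) → ℂ} (hD : Antisym D) :
    ∃ C : (Fin N → Fin 2 × α) → ℂ, Antisym C ∧ FullCore cr C ∧
      Frozen cr w W ((N.factorial : ℝ) / (n.factorial : ℝ)) C D := by
  set p : ((Fin 2 × {a // cr a}) ⊕ Fin n → (Fin 2 × {a // cr a}) ⊕ (Fin 2 × {a // ¬ cr a})) → ℂ :=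
    up D with hpdef
  have hp : Anti p := up_anti D
  have hfp : Full p := up_full D
  have htr : tr (posEquiv cr hN) (split cr) (tr (posEquiv cr hN).symm (split cr).symm p) = p :=
    tr_symm _ _ p
  have hC : Antisym (tr (posEquiv cr hN).symm (split cr).symm p) :=
    (antisym_iff _).2 (anti_tr _ _ hp)
  refine ⟨tr (posEquiv cr hN).symm (split cr).symm p, hC, ?_, ?_⟩
  · rw [full_tr_iff cr hN, htr]; exact hfp
  · have h := frozen_core_tr cr w W hW hN hC (by rw [htr]; exact hfp)
    rw [htr, hpdef, val_up ((antisym_iff D).1 hD)] at h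
    exact h

end Crest.Agent.R338.SC
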