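import Crest.Agent.R338.HK7
import Crest.Agent.R338.EX3
import Crest.Agent.R338.Iface
import Crest.Agent.R338.Nu2
import Crest.Agent.R338.XF4
import Crest.Agent.R338.P2Defs
import Crest.Agent.R338.Cal6_Mg
import Crest.Agent.R338.XF7
import Crest.Agent.R338.LagPT_Mg
import Mathlib
import Crest.Agent.R338.WCMain
import Crest.Agent.R338.LatDefs
import Crest.Agent.R338.Br
import Crest.Agent.R338.EX0
import Crest.Agent.R338.WCBase

-- ▼ part R338/HK8
section

/-!
Row 338 (S0529), node HK: the hopping matrix in the form `Cal.HopStmt` of node CAL.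
-/

set_option autoImplicit false

open MeasureTheory Set Real Filter
open scoped Topology

noncomputable section
namespace Crest.Agent.R338.HK
open Crest.Agent.R338 (Yn nu mi n0' site vhop Mhop w1 Idx)

theorem Yn_le_k {n k : ℕ} (hn : 2 ≤ n) (hk : (12000 * n) ^ 12000 ≤ k) : Yn n ≤ k := by
  refine le_trans ?_ hk
  calc Yn n ≤ (12000 * n) ^ 3 := by
        unfold Yn
        have : n ^ 2 ≤ n ^ 3 := Nat.pow_le_pow_right (by omega) (by norm_num)
        have h2 : (12000 * n) ^ 3 = 12000 ^ 3 * n ^ 3 := by ring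
        rw [h2]
        nlinarith
    _ ≤ (12000 * n) ^ 12000 := Nat.pow_le_pow_right (by omega) (by norm_num)

theorem n0'_le {n k : ℕ} (hn : 2 ≤ n) (hk : (12000 * n) ^ 12000 ≤ k) : n0' n k ≤ k ^ 9 := by
  have h1 := Yn_le_k hn hk
  have h16 : 16 ≤ k := by
    have h1 : 12000 * n ≤ k := (Nat.le_self_pow (by norm_num) _).trans hk
    omega
  unfold n0'
  calc 16 * (k ^ 3) ^ 2 * Yn n ^ 2 ≤ k * (k ^ 3) ^ 2 * k ^ 2 := by gcongr
    _ = k ^ 9 := by ring

/-- **HopStmt** (the shape consumed by node CAL) -/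
theorem hopStmt : ∃ C : ℕ, 1 ≤ C ∧ ∀ n k : ℕ, (C * (n + 1)) ^ C ≤ k →
    (∀ i j, i < j → j < n → 1 / (k : ℝ) ^ C ≤ Mhop n k i j i j) ∧
    (∀ i j i' j', i < j → j < n → i' < j' → j' < n → (i', j') ≠ (i, j) →
      4 * (n : ℝ) ^ 2 * |Mhop n k i' j' i j| ≤ Mhop n k i j i j) := by
  refine ⟨12000, by norm_num, fun n k hk' => ⟨fun i j hij hj => ?_,
    fun i j i' j' hij hj hij' hj' hne => ?_⟩⟩
  · have hn : 2 ≤ n := by omega
    have hk : (12000 * n) ^ 12000 ≤ k :=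
      le_trans (Nat.pow_le_pow_left (by omega) _) hk'
    refine le_trans ?_ (Mhop_diag_ge' hn hk (by omega) hj)
    have hk1 : 1 ≤ k := by
      have h1 : 12000 * n ≤ k := (Nat.le_self_pow (by norm_num) _).trans hk
      omega
    have h5 : (n0' n k : ℝ) ≤ (k : ℝ) ^ 9 := by exact_mod_cast n0'_le hn hk
    have h6 : 0 < n0' n k := by
      unfold n0'
      have := Yn_pos (n := n) (by omega)
      positivity
    have h7 : (0 : ℝ) < n0' n k := by exact_mod_cast h6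
    have h8 : (1 : ℝ) ≤ k := by exact_mod_cast hk1
    apply one_div_le_one_div_of_le (by positivity)
    calc (n0' n k : ℝ) ^ 3 ≤ ((k : ℝ) ^ 9) ^ 3 := by gcongr
      _ = (k : ℝ) ^ 27 := by ring
      _ ≤ (k : ℝ) ^ 12000 := pow_le_pow_right₀ h8 (by norm_num)
  · have hn : 2 ≤ n := by omega
    have hk : (12000 * n) ^ 12000 ≤ k :=
      le_trans (Nat.pow_le_pow_left (by omega) _) hk'
    have h := Mhop_off_le_diag (n := n) (k := k) (i := i') (j := j') (a := i) (b := j) hn hk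
      (by omega) hj' (by omega) hj (by omega)
      (fun h => hne (by rw [h.1, h.2])) (fun h => by omega)
    have hn0 : (0 : ℝ) < n := by exact_mod_cast (by omega : 0 < n)
    calc 4 * (n : ℝ) ^ 2 * |Mhop n k i' j' i j|
        ≤ 4 * (n : ℝ) ^ 2 * (1 / (4 * (n : ℝ) ^ 2) * Mhop n k i j i j) := by gcongr
      _ = Mhop n k i j i j := by field_simp

end Crest.Agent.R338.HK
end
end

-- ▼ part R338/EX4
section

/-!
# Row 338, NODE EX, file EX4 (helper439): matrix elements of the hopping potentials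

Bridge `hf_eq_HO : R338.hf = HO.hf` (frozen interface vs. 789's library), the product formula
`integral_prod3`, and for ALL multi-indices
`w1_vhop : w1 (vhop n k i j) a b = I4 (mi i) (mi j) (a 0) (b 0) * I4 (m'i) (m'j) (a 1) (b 1) * [a 2 = b 2]`,
`Mhop_eq` (closed form of the calibration matrix).
-/

set_option autoImplicit false

open MeasureTheory Polynomial Real Finset

noncomputable section

namespace Crest.Agent.R338.EX

open Crest.MathPhysics.ElectronicCoulomb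

theorem hpoly_eval (n : ℕ) (s : ℝ) : (hpoly n).eval s = (HO.hP n).eval s := by
  induction n using Nat.twoStepInduction with
  | zero => simp [hpoly, HO.hP_zero]
  | one =>
    have h := HO.x_mul_hP_zero s
    simp only [hpoly, eval_mul, eval_C, eval_X]
    rw [HO.hP_zero, eval_C] at h
    have e : √2 * √(1 / 2 : ℝ) = 1 := by
      rw [← Real.sqrt_mul (by norm_num)]; norm_num
    calc √2 * s * π ^ (-(1 / 4) : ℝ) = √2 * (s * π ^ (-(1 / 4) : ℝ)) := by ring
      _ = (√2 * √(1 / 2 : ℝ)) * (HO.hP 1).eval s := by rw [h]; ring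
      _ = _ := by rw [e, one_mul]
  | more n ih1 ih2 =>
    have h := HO.x_mul_hP n s
    simp only [hpoly, eval_mul, eval_C, eval_X, eval_sub]
    rw [ih1, ih2]
    have h1 : √(2 / ((n : ℝ) + 2)) * √(((n : ℝ) + 1 + 1) / 2) = 1 := by
      rw [← Real.sqrt_mul (by positivity)]
      rw [show (2 / ((n : ℝ) + 2)) * (((n : ℝ) + 1 + 1) / 2) = 1 by field_simp; ring]
      exact Real.sqrt_one
    have h2 : √(2 / ((n : ℝ) + 2)) * √(((n : ℝ) + 1) / 2) = √(((n : ℝ) + 1) / ((n : ℝ) + 2)) := by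
      rw [← Real.sqrt_mul (by positivity)]
      congr 1
      field_simp
    calc √(2 / ((n : ℝ) + 2)) * s * (HO.hP (n + 1)).eval s -
          √(((n : ℝ) + 1) / ((n : ℝ) + 2)) * (HO.hP n).eval s
        = √(2 / ((n : ℝ) + 2)) * (s * (HO.hP (n + 1)).eval s) -
          (√(2 / ((n : ℝ) + 2)) * √(((n : ℝ) + 1) / 2)) * (HO.hP n).eval s := by rw [h2]; ring
      _ = (√(2 / ((n : ℝ) + 2)) * √(((n : ℝ) + 1 + 1) / 2)) * (HO.hP (n + 2)).eval s := by
          rw [h]; ring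
      _ = _ := by rw [h1, one_mul]

/-- the Hermite functions of the frozen interface are those of `HO` -/
theorem hf_eq_HO (n : ℕ) (s : ℝ) : Crest.Agent.R338.hf n s = HO.hf n s := by
  unfold Crest.Agent.R338.hf HO.hf
  rw [hpoly_eval]

theorem hf_eq_HO' : Crest.Agent.R338.hf = HO.hf := by
  funext n s; exact hf_eq_HO n s

/-- the interface orbitals are the product Hermite functions of `HO` -/
theorem orb_eq_Phi (m : Idx) (x : Pos3) : orb m x = ∏ c, HO.hf (m c) (x c) := by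
  unfold orb; rw [hf_eq_HO']

/-- integral of a product function over `ℝ³` -/
theorem integral_prod3 (f : Fin 3 → ℝ → ℝ) :
    ∫ x : Pos3, ∏ c, f c (x c) = ∏ c, ∫ y, f c y := by
  have e : ∫ x : Pos3, ∏ c, f c (x c) = ∫ y : Fin 3 → ℝ, ∏ i, f i (y i) := by
    rw [← (EuclideanSpace.volume_preserving_symm_measurableEquiv_toLp (Fin 3)).integral_comp'
      (g := fun y : Fin 3 → ℝ => ∏ i, f i (y i))]
    rfl
  rw [e, integral_fintype_prod_volume_eq_prod]

/-- one-electron integral of a product potential -/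
theorem w1_prod (g : Fin 3 → ℝ → ℝ) (a b : Idx) :
    w1 (fun x => ∏ c, g c (x c)) a b = ∏ c, ∫ y, g c y * (HO.hf (a c) y * HO.hf (b c) y) := by
  unfold w1
  rw [← integral_prod3]
  congr 1
  funext x
  rw [orb_eq_Phi, orb_eq_Phi, ← Finset.prod_mul_distrib, ← Finset.prod_mul_distrib]

theorem w1_vhop (n k i j : ℕ) (a b : Idx) :
    w1 (vhop n k i j) a b =
      I4 (mi n k i) (mi n k j) (a 0) (b 0) *
      I4 (n0' n k - mi n k i) (n0' n k - mi n k j) (a 1) (b 1) *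
      (if a 2 = b 2 then 1 else 0) := by
  have e : vhop n k i j = fun x : Pos3 => ∏ c, (![
      fun y : ℝ => Real.exp (-2 * y ^ 2) * (HO.hf (mi n k i) y * HO.hf (mi n k j) y),
      fun y : ℝ => Real.exp (-2 * y ^ 2) *
        (HO.hf (n0' n k - mi n k i) y * HO.hf (n0' n k - mi n k j) y),
      fun _ : ℝ => (1 : ℝ)] : Fin 3 → ℝ → ℝ) c (x c) := by
    funext x
    rw [Fin.prod_univ_three]
    simp [vhop, hf_eq_HO']
  rw [e, w1_prod, Fin.prod_univ_three]
  congr 1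
  · congr 1
    · unfold I4
      congr 1; funext s
      simp only [Matrix.cons_val_zero]
      rw [neg_mul]; ring
    · unfold I4
      congr 1; funext s
      simp only [Matrix.cons_val_one, Matrix.cons_val_zero]
      rw [neg_mul]; ring
  · have := HO.integral_hf_mul_hf (a 2) (b 2)
    simpa using this

/-- the calibration matrix, closed form -/
theorem Mhop_eq (n k i j i' j' : ℕ) :
    Mhop n k i j i' j' =
      I4 (mi n k i) (mi n k j) (mi n k i') (mi n k j') *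
      I4 (n0' n k - mi n k i) (n0' n k - mi n k j) (n0' n k - mi n k i') (n0' n k - mi n k j') := by
  unfold Mhop
  rw [w1_vhop]
  simp [site]

end Crest.Agent.R338.EX
end
end

-- ▼ part R338/NuH
section

/-!
# Row 338, numerics (helper860): data of a Heisenberg instance and the integer parameters
-/

set_option autoImplicit false

namespace Crest.Agent.R338.Nu

open Crest.Agent.Lib.PT

variable {α : Type} [PTCode α]

@[fun_prop]
theorem ptu_hn {h : α → HInst} (hh : PTF h) : PTU (fun a => (h a).n) := by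
  unfold HInst.n; fun_prop

@[fun_prop]
theorem ptu_hq {h : α → HInst} (hh : PTF h) : PTU (fun a => (h a).q) := by
  unfold HInst.q; fun_prop

theorem ptf_hJ {h : α → HInst} {i j : α → ℕ} (hh : PTF h) (hi : PTU i) (hj : PTU j) :
    PTF (fun a => (h a).J (i a) (j a)) := by
  unfold HInst.J
  exact PTF.getD (PTU.add (PTU.mul hi (ptu_hn hh)) hj) (by fun_prop) (PTF.const 0)

theorem ptr_hJ {h : α → HInst} {i j : α → ℕ} (hh : PTF h) (hi : PTU i) (hj : PTU j) :
    PTR (fun a => (((h a).J (i a) (j a) : ℚ) : ℝ)) := PTR.ratCast (ptf_hJ hh hi hj)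

@[fun_prop]
theorem ptf_he {h : α → HInst} (hh : PTF h) : PTF (fun a => (h a).e) := by
  unfold HInst.e; fun_prop

@[fun_prop]
theorem ptu_Yn {n : α → ℕ} (hn : PTU n) : PTU (fun a => Yn (n a)) := by
  unfold Yn; fun_prop

@[fun_prop]
theorem ptu_nu {n i : α → ℕ} (hn : PTU n) (hi : PTU i) : PTU (fun a => nu (n a) (i a)) := by
  unfold nu; fun_prop

@[fun_prop]
theorem ptu_mi {n k i : α → ℕ} (hn : PTU n) (hk : PTU k) (hi : PTU i) :
    PTU (fun a => mi (n a) (k a) (i a)) := by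
  unfold mi; fun_prop

@[fun_prop]
theorem ptu_n0' {n k : α → ℕ} (hn : PTU n) (hk : PTU k) :
    PTU (fun a => n0' (n a) (k a)) := by
  unfold n0'; fun_prop

/-- sums over pairs `i, j < n` -/
theorem PTR.sum2 {n m : α → ℕ} {r : α → ℕ → ℕ → ℝ} (hn : PTU n) (hm : PTU m)
    (hr : PTR (fun p : (α × Un) × Un => r p.1.1 p.1.2.val p.2.val)) :
    PTR (fun a => ∑ i ∈ Finset.range (n a), ∑ j ∈ Finset.range (m a), r a i j) :=
  PTR.sumRange (r := fun a i => ∑ j ∈ Finset.range (m a), r a i j) hn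
    (PTR.sumRange (α := α × Un) (r := fun p j => r p.1 p.2.val j) (PTU.comp hm PTF.fst) hr)

/-- sums over pairs with `i < j` -/
theorem PTR.sum2lt {n m : α → ℕ} {r : α → ℕ → ℕ → ℝ} (hn : PTU n) (hm : PTU m)
    (hr : PTR (fun p : (α × Un) × Un => r p.1.1 p.1.2.val p.2.val)) :
    PTR (fun a => ∑ i ∈ Finset.range (n a), ∑ j ∈ Finset.range (m a), if i < j then r a i j else 0) :=
  PTR.sum2 (r := fun a i j => if i < j then r a i j else 0) hn hm
    (PTR.ite (p := fun p : (α × Un) × Un => p.1.2.val < p.2.val)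
      (PTU.lt (PTU.val (by fun_prop)) (PTU.val (by fun_prop))) hr PTR.zero)

end Crest.Agent.R338.Nu
end

-- ▼ part R338/EX5
section

/-!
# Row 338, NODE EX, file EX5 (helper439): polynomial time computability (`PTR`, 860's calculus)
of `I4`, `w1 (vhop ..) a b`, `Mhop` and the core sums of `vhop`.
-/

set_option autoImplicit false

open MeasureTheory Real Finset

noncomputable section

namespace Crest.Agent.R338.EX

open Crest.Agent.Lib.PT Crest.Agent.R338.Nu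

variable {α : Type} [PTCode α]

theorem ptpred_even {m : α → ℕ} (hm : PTU m) : PTPred (fun a => m a % 2 = 0) :=
  PTU.eq (ptu_mod hm (PTU.const 2)) (PTU.const 0)

/-- coefficients of the Hermite polynomials -/
theorem ptr_hc {m p : α → ℕ} (hm : PTU m) (hp : PTU p) :
    PTR (fun a => ((hc (m a) (p a) : ℚ) : ℝ)) := by
  have hd : PTU (fun a => m a - p a) := PTU.sub hm hp
  have hd2 : PTU (fun a => (m a - p a) / 2) := ptu_div hd (PTU.const 2)
  have h1 : PTR (fun a => (-1 : ℝ) ^ ((m a - p a) / 2) * ((m a).factorial : ℝ) * (2 : ℝ) ^ p a *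
      ((((m a - p a) / 2).factorial : ℝ)⁻¹ * ((p a).factorial : ℝ)⁻¹)) :=
    (((PTR.negOnePow hd2).mul (PTR.factorial hm)).mul (PTR.twoPow hp)).mul
      ((PTR.factorialInv hd2).mul (PTR.factorialInv hp))
  refine (PTR.ite (p := fun a => p a ≤ m a) (PTU.le hp hm)
    (PTR.ite (p := fun a => (m a - p a) % 2 = 0) (ptpred_even hd) h1 PTR.zero)
    PTR.zero).of_eq (fun a => ?_)
  by_cases h2 : p a ≤ m a
  · by_cases h3 : (m a - p a) % 2 = 0
    · rw [if_pos h2, if_pos h3, hc, if_pos ⟨h2, h3⟩]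
      push_cast
      rw [div_eq_mul_inv, mul_inv]
    · rw [if_pos h2, if_neg h3, hc, if_neg (fun h => h3 h.2)]; simp
  · rw [if_neg h2, hc, if_neg (fun h => h2 h.1)]; simp

theorem ptr_hh {a b p : α → ℕ} (ha : PTU a) (hb : PTU b) (hp : PTU p) :
    PTR (fun x => ((hh (a x) (b x) (p x) : ℚ) : ℝ)) := by
  have h := PTR.sumRange (n := fun x => p x + 1)
    (r := fun x i => ((hc (a x) i : ℚ) : ℝ) * ((hc (b x) (p x - i) : ℚ) : ℝ))
    (PTU.succ hp)
    ((ptr_hc (PTU.comp ha PTF.fst) ptu_snd).mul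
      (ptr_hc (PTU.comp hb PTF.fst) (PTU.sub (PTU.comp hp PTF.fst) ptu_snd)))
  refine h.of_eq (fun x => ?_)
  unfold hh
  push_cast
  rfl

theorem ptr_gq {m : α → ℕ} (hm : PTU m) : PTR (fun a => ((gq (m a) : ℚ) : ℝ)) := by
  have hd2 : PTU (fun a => m a / 2) := ptu_div hm (PTU.const 2)
  have h1 : PTR (fun a => ((m a).factorial : ℝ) * ((((1 / 16 : ℚ) : ℚ) : ℝ) ^ (m a / 2) *
      ((m a / 2).factorial : ℝ)⁻¹)) :=
    (PTR.factorial hm).mul ((PTR.pow (PTR.constRat (1 / 16)) hd2).mul (PTR.factorialInv hd2))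
  refine (PTR.ite (p := fun a => m a % 2 = 0) (ptpred_even hm) h1 PTR.zero).of_eq (fun a => ?_)
  by_cases h3 : m a % 2 = 0
  · rw [if_pos h3, gq, if_pos h3]
    push_cast
    rw [div_eq_mul_inv _ ((16 : ℝ) ^ (m a / 2) * _), mul_inv, one_div, inv_pow]
  · rw [if_neg h3, gq, if_neg h3]; simp

theorem ptr_Irat {i j k l : α → ℕ} (hi : PTU i) (hj : PTU j) (hk : PTU k) (hl : PTU l) :
    PTR (fun a => ((Irat (i a) (j a) (k a) (l a) : ℚ) : ℝ)) := by
  have h := PTR.sum2 (n := fun x => i x + j x + 1) (m := fun x => k x + l x + 1)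
    (r := fun x p q => ((hh (i x) (j x) p : ℚ) : ℝ) * ((hh (k x) (l x) q : ℚ) : ℝ) *
      ((gq (p + q) : ℚ) : ℝ))
    (PTU.succ (PTU.add hi hj)) (PTU.succ (PTU.add hk hl))
    (by
      have f11 : PTF (fun p : (α × Un) × Un => p.1.1) := by fun_prop
      have f12 : PTU (fun p : (α × Un) × Un => p.1.2.val) := PTU.val (by fun_prop)
      have f2 : PTU (fun p : (α × Un) × Un => p.2.val) := PTU.val (by fun_prop)
      exact ((ptr_hh (PTU.comp hi f11) (PTU.comp hj f11) f12).mul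
        (ptr_hh (PTU.comp hk f11) (PTU.comp hl f11) f2)).mul (ptr_gq (PTU.add f12 f2)))
  refine h.of_eq (fun x => ?_)
  unfold Irat
  push_cast
  rfl

theorem ptr_I4 {i j k l : α → ℕ} (hi : PTU i) (hj : PTU j) (hk : PTU k) (hl : PTU l) :
    PTR (fun a => I4 (i a) (j a) (k a) (l a)) := by
  have hS : PTR (fun a => √((2 : ℝ) ^ (i a + j a + k a + l a) *
      ((((i a).factorial * (j a).factorial * ((k a).factorial * (l a).factorial) : ℕ)) : ℝ))) := by
    refine PTR.sqrt ((PTR.twoPow (PTU.add (PTU.add (PTU.add hi hj) hk) hl)).mul ?_)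
    exact PTR.natCast (PTF.natMul (PTF.natMul (PTF.natFactorial hi) (PTF.natFactorial hj))
      (PTF.natMul (PTF.natFactorial hk) (PTF.natFactorial hl)))
  have hD : PTR (fun a => 2 * √π * √((2 : ℝ) ^ (i a + j a + k a + l a) *
      ((((i a).factorial * (j a).factorial * ((k a).factorial * (l a).factorial) : ℕ)) : ℝ))) :=
    ((PTR.ofNat 2).mul (PTR.sqrt PTR.pi)).mul hS
  refine (PTR.div (ptr_Irat hi hj hk hl) hD (PTU.const 1) (fun a => ?_)).of_eq
    (fun a => (I4_eq _ _ _ _).symm)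
  have h1 : (1 : ℝ) ≤ √π := by
    rw [Real.one_le_sqrt]; linarith [Real.pi_gt_three]
  have h2 : (1 : ℝ) ≤ √((2 : ℝ) ^ (i a + j a + k a + l a) *
      ((((i a).factorial * (j a).factorial * ((k a).factorial * (l a).factorial) : ℕ)) : ℝ)) := by
    rw [Real.one_le_sqrt]
    have h3 : (1 : ℝ) ≤ (2 : ℝ) ^ (i a + j a + k a + l a) := one_le_pow₀ (by norm_num)
    have h4 : (1 : ℝ) ≤ ((((i a).factorial * (j a).factorial *
        ((k a).factorial * (l a).factorial) : ℕ)) : ℝ) := by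
      have : 0 < (i a).factorial * (j a).factorial * ((k a).factorial * (l a).factorial) := by
        positivity
      exact_mod_cast this
    nlinarith
  rw [abs_of_pos (by positivity)]
  push_cast at h2 ⊢
  nlinarith

/-- the calibration matrix -/
theorem ptr_Mhop {n k i j i' j' : α → ℕ} (hn : PTU n) (hk : PTU k) (hi : PTU i) (hj : PTU j)
    (hi' : PTU i') (hj' : PTU j') :
    PTR (fun a => Mhop (n a) (k a) (i a) (j a) (i' a) (j' a)) := by
  have e0 := ptu_n0' hn hk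
  have h1 := ptr_I4 (ptu_mi hn hk hi) (ptu_mi hn hk hj) (ptu_mi hn hk hi') (ptu_mi hn hk hj')
  have h2 := ptr_I4 (PTU.sub e0 (ptu_mi hn hk hi)) (PTU.sub e0 (ptu_mi hn hk hj))
    (PTU.sub e0 (ptu_mi hn hk hi')) (PTU.sub e0 (ptu_mi hn hk hj'))
  exact (h1.mul h2).of_eq (fun a => (Mhop_eq _ _ _ _ _ _).symm)




end Crest.Agent.R338.EX
end
end

-- ▼ part R338/Nu3
section

/-!
# Row 338, numerics (helper860), part 4: more `fun_prop` automation for `PTR`
-/

set_option autoImplicit false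

namespace Crest.Agent.R338.Nu

open Crest.Agent.Lib.PT

variable {α β γ : Type} [PTCode α] [PTCode β] [PTCode γ]

attribute [fun_prop] PTF.natFactorial ptf_choose ptf_doubleFactorial PTR.pow PTR.ite PTU.eq








theorem PTR.sqrtPiInv : PTR (fun _ : α => (√Real.pi)⁻¹) :=
  (PTR.piInv.sqrt).of_eq (fun _ => Real.sqrt_inv _)



/-- list of values of a unary-indexed family -/
theorem ptf_table {δ : Type} [PTCode δ] {q : α → ℕ → δ}
    (hq : PTF (fun p : α × Un => q p.1 p.2.val)) {N : α → ℕ} (hN : PTU N) :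
    PTF (fun a => (List.range (N a)).map (q a)) := by
  have h := PTF.tabulate (f := fun a i => q a (Min.min i (N a))) hN
    (PTF.comp (g := fun p : α × Un => q p.1 p.2.val)
      (f := fun x : α × ℕ => (x.1, Un.mk (Min.min x.2 (N x.1)))) hq
      (PTF.prodMk PTF.fst (PTF.natMinUn PTF.snd (PTU.comp hN PTF.fst))))
  refine PTF.of_eq h (fun a => ?_)
  refine List.map_congr_left (fun i hi => ?_)
  rw [Nat.min_eq_left (List.mem_range.1 hi).le]

section tests
end tests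

end Crest.Agent.R338.Nu
end

-- ▼ part R338/NuP
section

/-!
# Row 338, numerics (helper860): the parameters of the map (P2Defs) as PTU / PTR functions
-/

set_option autoImplicit false

namespace Crest.Agent.R338.Nu

open Crest.Agent.Lib.PT Crest.Agent.R338.P2

variable {α : Type} [PTCode α] (C : Cst) {h : α → HInst}

@[fun_prop]
theorem ptu_kP (hh : PTF h) : PTU (fun a => kP C (h a)) := by
  unfold kP
  have := ptu_hn hh
  have := ptu_hq hh
  fun_prop

@[fun_prop]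
theorem ptu_n0P (hh : PTF h) : PTU (fun a => n0P C (h a)) := by
  unfold n0P
  exact ptu_n0' (ptu_hn hh) (ptu_kP C hh)

@[fun_prop]
theorem ptu_LamP (hh : PTF h) : PTU (fun a => LamP C (h a)) := by
  unfold LamP
  exact PTU.pow (ptu_kP C hh) _

@[fun_prop]
theorem ptu_BP (hh : PTF h) : PTU (fun a => BP C (h a)) := by
  unfold BP
  exact PTU.pow (ptu_kP C hh) _

@[fun_prop]
theorem ptu_AP (hh : PTF h) : PTU (fun a => AP C (h a)) := by
  unfold AP
  exact PTU.pow (ptu_BP C hh) _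

@[fun_prop]
theorem ptu_RP (hh : PTF h) : PTU (fun a => RP C (h a)) := by
  unfold RP
  exact PTU.mul (PTU.pow (ptu_kP C hh) _) (PTU.pow (ptu_BP C hh) _)

@[fun_prop]
theorem ptu_nLP (hh : PTF h) : PTU (fun a => nLP C (h a)) := by
  unfold nLP
  exact PTU.mul (PTU.pow (ptu_kP C hh) _) (PTU.pow (ptu_BP C hh) _)

@[fun_prop]
theorem ptu_MdP (hh : PTF h) : PTU (fun a => MdP C (h a)) := by
  unfold MdP
  exact PTU.mul (PTU.mul (PTU.const 4) (ptu_RP C hh)) (PTU.pow (ptu_BP C hh) _)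

/-! ### the scale -/

theorem kap_ge : 1 / 2 ≤ kap := by
  unfold kap
  have h1 : (1 / 16 : ℝ) ≤ 3 / (4 * Real.pi) := by
    rw [div_le_div_iff₀ (by norm_num) (by positivity)]
    have := Real.pi_le_four
    linarith
  have h2 : (1 / 4 : ℝ) ≤ √(3 / (4 * Real.pi)) := by
    apply Real.le_sqrt_of_sq_le
    norm_num at h1 ⊢
    linarith
  apply Real.le_sqrt_of_sq_le
  norm_num at h2 ⊢
  linarith

theorem kap_pos : 0 < kap := lt_of_lt_of_le (by norm_num) kap_ge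

theorem kap_le_one : kap ≤ 1 := by
  unfold kap
  have h1 : 3 / (4 * Real.pi) ≤ 1 := by
    rw [div_le_one (by positivity)]
    have := Real.pi_gt_three
    linarith
  have h2 : √(3 / (4 * Real.pi)) ≤ 1 := by
    rw [Real.sqrt_le_one]
    exact h1
  rw [Real.sqrt_le_one]
  exact h2

@[fun_prop]
theorem ptr_kap : PTR (fun _ : α => kap) := by
  unfold kap
  have h1 : PTR (fun _ : α => (3 / 4 : ℝ) * (Real.pi)⁻¹) :=
    ((PTR.constRat (3 / 4)).of_eq (fun _ => by norm_num)).mul PTR.piInv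
  have h2 : PTR (fun _ : α => 3 / (4 * Real.pi)) := h1.of_eq (fun _ => by
    rw [div_mul_eq_div_div, div_eq_mul_inv (3 / 4 : ℝ)])
  exact h2.sqrt.sqrt

@[fun_prop]
theorem ptr_kapInv : PTR (fun _ : α => kap⁻¹) :=
  ptr_kap.inv' (PTU.const 2) (fun _ => by
    rw [abs_of_pos kap_pos]
    have := kap_ge
    push_cast
    linarith)

theorem ptr_lamP (hh : PTF h) : PTR (fun a => lamP C (h a)) := by
  have h1 : PTR (fun a => kap / ((BP C (h a) ^ 6 : ℕ) : ℝ)) :=
    ptr_kap.divNat (PTU.toPTF (PTU.pow (ptu_BP C hh) 6))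
  refine h1.of_eq (fun a => ?_)
  unfold lamP
  push_cast
  rfl

theorem ptr_lamPInv (hh : PTF h) : PTR (fun a => (lamP C (h a))⁻¹) := by
  have h1 : PTR (fun a => kap⁻¹ * ((BP C (h a) ^ 6 : ℕ) : ℝ)) :=
    ptr_kapInv.mul (PTR.natCastU (PTU.pow (ptu_BP C hh) 6))
  refine h1.of_eq (fun a => ?_)
  unfold lamP
  push_cast
  rw [inv_div, div_eq_mul_inv, mul_comm]

theorem ptr_sP (hh : PTF h) : PTR (fun a => sP C (h a)) := by
  have h1 : PTR (fun a => kap⁻¹ * ((BP C (h a) ^ 2 : ℕ) : ℝ)⁻¹) :=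
    ptr_kapInv.mul (PTR.natInv (PTU.toPTF (PTU.pow (ptu_BP C hh) 2)))
  refine h1.of_eq (fun a => ?_)
  unfold sP
  push_cast
  rw [one_div, mul_inv]

theorem ptr_j0P (hh : PTF h) : PTR (fun a => j0P C (h a)) := by
  have h1 : PTU (fun a => ((h a).n * (h a).q) ^ C.cB * kP C (h a) ^ 4) :=
    PTU.mul (PTU.pow (PTU.mul (ptu_hn hh) (ptu_hq hh)) _) (PTU.pow (ptu_kP C hh) 4)
  refine (PTR.natInv h1.toPTF).of_eq (fun a => ?_)
  unfold j0P
  push_cast
  rw [one_div]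

theorem ptr_JfP {i j : α → ℕ} (hh : PTF h) (hi : PTU i) (hj : PTU j) :
    PTR (fun a => JfP (h a) (i a) (j a)) := ptr_hJ hh hi hj

/-- everything in `thrP` except `C0P`, `Ecc`, `constH`, `EN`, `numEl` -/
theorem ptr_thrP {C0 Ec cH En : α → ℝ} {nE : α → ℕ} (hh : PTF h) (h1 : PTR C0) (h2 : PTR Ec)
    (h3 : PTR cH) (h4 : PTR En) (h5 : PTF nE)
    (e1 : ∀ a, C0 a = C0P C (h a)) (e2 : ∀ a, Ec a = Ecc (n0P C (h a)) (wP C (h a)))
    (e3 : ∀ a, cH a = constH (h a).n (kP C (h a)) (LamP C (h a)) (j0P C (h a)) (JfP (h a)))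
    (e4 : ∀ a, En a = EN (n0P C (h a)) (h a).n)
    (e5 : ∀ a, nE a = numEl (n0P C (h a)) (h a).n) : PTR (fun a => thrP C (h a)) := by
  have hl := ptr_lamP C hh
  have hli := ptr_lamPInv C hh
  have hj := ptr_j0P C hh
  have he : PTR (fun a => (((h a).e : ℚ) : ℝ)) := PTR.ratCast (ptf_he hh)
  have hq : PTR (fun a => ((2 * (h a).q : ℕ) : ℝ)⁻¹) :=
    PTR.natInv (PTU.toPTF (PTU.mul (PTU.const 2) (ptu_hq hh)))
  have key : PTR (fun a => (En a - (nE a : ℝ) * C0 a + lamP C (h a) * Ec a +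
      lamP C (h a) * (cH a + j0P C (h a) * ((((h a).e : ℚ) : ℝ) + ((2 * (h a).q : ℕ) : ℝ)⁻¹))) *
      ((lamP C (h a))⁻¹ * (lamP C (h a))⁻¹)) := by fun_prop
  refine key.of_eq (fun a => ?_)
  rw [e1, e2, e3, e4, e5]
  unfold thrP
  push_cast
  rw [one_div, div_eq_mul_inv, pow_two, mul_inv (lamP C (h a))]

end Crest.Agent.R338.Nu
end

-- ▼ part R338/Cal7
section

/-!
# Row 338, node CAL: the calibration statement and the PTR instances of the calibrated data
-/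

set_option autoImplicit false

noncomputable section

namespace Crest.Agent.R338.Cal

open Finset Crest.Agent.Lib.PT Crest.Agent.R338.Nu

/-- **CalStmt** of `P2Defs` -/
theorem calStmt : P2.CalStmt := calStmt_of_hop HK.hopStmt

/-- the numeral of the dominance -/
theorem exists_dom : ∃ C0 : ℕ, 1 ≤ C0 ∧ ∀ n k : ℕ, (C0 * (n + 1)) ^ C0 ≤ k →
    Dom (n * n) (Mcal n k) (1 / (k : ℝ) ^ C0) := by
  obtain ⟨C, hC, H⟩ := HK.hopStmt
  refine ⟨C, hC, fun n k hk => ?_⟩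
  obtain ⟨H1, H2⟩ := H n k hk
  have hk1 : 1 ≤ k := by
    refine le_trans ?_ hk
    exact Nat.one_le_pow _ _ (Nat.mul_pos (by omega) (by omega))
  exact Hop.dom ⟨H1, H2⟩ hk1

theorem Dom.mono {N : ℕ} {M : ℕ → ℕ → ℝ} {m₀ m₁ : ℝ} (d : Dom N M m₀) (h1 : 0 < m₁)
    (h : m₁ ≤ m₀) : Dom N M m₁ := ⟨h1, fun p hp => h.trans (d.diag p hp), d.off⟩

theorem half_pow_le_one_div (k C : ℕ) (hk : 1 ≤ k) : (1 / 2 : ℝ) ^ (k * C) ≤ 1 / (k : ℝ) ^ C := by
  have h1 : (k : ℝ) ≤ 2 ^ k := by exact_mod_cast Nat.lt_two_pow_self.le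
  have hk' : (0 : ℝ) < k := by exact_mod_cast hk
  rw [one_div, inv_pow, one_div]
  apply inv_anti₀ (by positivity)
  calc (k : ℝ) ^ C ≤ ((2 : ℝ) ^ k) ^ C := by gcongr
    _ = 2 ^ (k * C) := by rw [pow_mul]

section PTRpart

variable {α : Type} [PTCode α]

theorem ptw4 : XF.PTW4 := fun α _ a b c d ha hb hc hd =>
  (CF.ptr_W (a := a) (b := b) (c := c) (d := d) ha hb hc hd).of_eq
    (fun x => (Br.W4_eq (a x) (b x) (c x) (d x)).symm)

theorem ptr_Mcal {n k p q : α → ℕ} (hn : PTU n) (hk : PTU k) (hp : PTU p) (hq : PTU q) :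
    PTR (fun a => Mcal (n a) (k a) (p a) (q a)) := by
  unfold Mcal
  have h1 := ptu_div hp hn
  have h2 := ptu_mod hp hn
  have h3 := ptu_div hq hn
  have h4 := ptu_mod hq hn
  refine PTR.ite (p := fun a => p a / n a < p a % n a ∧ q a / n a < q a % n a)
    (PTPred.and (PTU.lt h1 h2) (PTU.lt h3 h4)) (EX.ptr_Mhop hn hk h3 h4 h1 h2) ?_
  exact PTR.ite (p := fun a => p a = q a) (PTU.eq hp hq) PTR.one PTR.zero

theorem ptr_bcal {n k p : α → ℕ} {j0 : α → ℝ} {J : α → ℕ → ℕ → ℝ} (hn : PTU n) (hk : PTU k)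
    (hj0 : PTR j0) (hJ : PTR (fun p : (α × Un) × Un => J p.1.1 p.1.2.val p.2.val))
    (hp : PTU p) : PTR (fun a => bcal (n a) (k a) (j0 a) (J a) (p a)) := by
  unfold bcal
  have h1 := ptu_div hp hn
  have h2 := ptu_mod hp hn
  refine PTR.ite (p := fun a => p a / n a < p a % n a) (PTU.lt h1 h2) ?_ PTR.zero
  have hJ' : PTR (fun a => J a (p a / n a) (p a % n a)) :=
    hJ.comp (f := fun a => ((a, Un.mk (p a / n a)), Un.mk (p a % n a)))
      (PTF.prodMk (PTF.prodMk PTF.id h1) h2)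
  have hD := XF.ptr_Dlt ptw4 hn hk h1 h2
  have hF := XF.ptr_fock ptw4 (XF.ptu_n0' hn hk) (XF.pidx_site hn hk h1) (XF.pidx_site hn hk h2)
  have hhalf : PTR (fun _ : α => (1 / 2 : ℝ)) :=
    (PTR.constRat (1 / 2)).of_eq (fun _ => by norm_num)
  exact (hhalf.mul ((hj0.mul hJ').mul hD).sqrt).sub hF

/-- exact hopping amplitudes are `PTR` -/
theorem ptr_Acal {C0 : ℕ} (H : ∀ n k : ℕ, (C0 * (n + 1)) ^ C0 ≤ k →
    Dom (n * n) (Mcal n k) (1 / (k : ℝ) ^ C0)) {n k : α → ℕ} {j0 : α → ℝ}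
    {J : α → ℕ → ℕ → ℝ} (hn : PTU n) (hk : PTU k) (hnk : ∀ a, (C0 * (n a + 1)) ^ C0 ≤ k a)
    (hk1 : ∀ a, 1 ≤ k a)
    (hj0 : PTR j0) (hJ : PTR (fun p : (α × Un) × Un => J p.1.1 p.1.2.val p.2.val))
    {i j : α → ℕ} (hi : PTU i) (hj : PTU j) :
    PTR (fun a => Acal (n a) (k a) (j0 a) (J a) (i a) (j a)) := by
  have hsol : PTR (fun p : α × Un => linsol (n p.1 * n p.1) (Mcal (n p.1) (k p.1))
      (bcal (n p.1) (k p.1) (j0 p.1) (J p.1)) p.2.val) := by
    refine PTR.linsol (N := fun a => n a * n a) (B := fun a => k a * C0)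
      (M := fun a => Mcal (n a) (k a)) (b := fun a => bcal (n a) (k a) (j0 a) (J a))
      (PTU.mul hn hn) (PTU.mul hk (PTU.const C0)) ?_ ?_ ?_
    · have h11 : PTF (fun p : (α × Un) × Un => p.1.1) := PTF.comp PTF.fst PTF.fst
      exact ptr_Mcal (PTU.comp hn h11) (PTU.comp hk h11)
        (PTU.val (PTF.comp PTF.snd PTF.fst)) (PTU.val PTF.snd)
    · refine ptr_bcal (α := α × Un) (n := fun p => n p.1) (k := fun p => k p.1)
        (j0 := fun p => j0 p.1) (J := fun p => J p.1) (p := fun p => p.2.val)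
        (PTU.comp hn PTF.fst) (PTU.comp hk PTF.fst) (hj0.comp PTF.fst) ?_ (PTU.val PTF.snd)
      exact hJ.comp (f := fun p : ((α × Un) × Un) × Un => ((p.1.1.1, p.1.2), p.2))
        (PTF.prodMk (PTF.prodMk (PTF.comp PTF.fst (PTF.comp PTF.fst PTF.fst))
          (PTF.comp PTF.snd PTF.fst)) PTF.snd)
    · intro a
      exact (H (n a) (k a) (hnk a)).mono (by positivity) (half_pow_le_one_div (k a) C0 (hk1 a))
  unfold Acal
  refine PTR.ite (p := fun a => i a < j a ∧ j a < n a)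
    (PTPred.and (PTU.lt hi hj) (PTU.lt hj hn)) ?_ PTR.zero
  exact hsol.comp (f := fun a => (a, Un.mk (i a * n a + j a)))
    (PTF.prodMk PTF.id (PTU.add (PTU.mul hi hn) hj))

/-- exact offsets are `PTR` -/
theorem ptr_acal {C0 : ℕ} (H : ∀ n k : ℕ, (C0 * (n + 1)) ^ C0 ≤ k →
    Dom (n * n) (Mcal n k) (1 / (k : ℝ) ^ C0)) {n k : α → ℕ} {j0 : α → ℝ}
    {J : α → ℕ → ℕ → ℝ} (hn : PTU n) (hk : PTU k) (hnk : ∀ a, (C0 * (n a + 1)) ^ C0 ≤ k a)
    (hk1 : ∀ a, 1 ≤ k a)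
    (hj0 : PTR j0) (hJ : PTR (fun p : (α × Un) × Un => J p.1.1 p.1.2.val p.2.val))
    {i : α → ℕ} (hi : PTU i) :
    PTR (fun a => acal (n a) (k a) (j0 a) (J a) (i a)) := by
  unfold acal
  refine PTR.ite (p := fun a => i a < n a) (PTU.lt hi hn) ?_ PTR.zero
  have hF := XF.ptr_fock ptw4 (XF.ptu_n0' hn hk) (XF.pidx_site hn hk hi) (XF.pidx_site hn hk hi)
  have hmu := XF.ptr_muS ptw4 hn hk hi
  refine (hmu.sub hF).sub ?_
  refine PTR.sum2lt (r := fun a i' j' => Acal (n a) (k a) (j0 a) (J a) i' j' *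
    Mhop (n a) (k a) i' j' (i a) (i a)) hn hn ?_
  have h11 : PTF (fun p : (α × Un) × Un => p.1.1) := PTF.comp PTF.fst PTF.fst
  have hi' : PTU (fun p : (α × Un) × Un => p.1.2.val) := PTU.val (PTF.comp PTF.snd PTF.fst)
  have hj' : PTU (fun p : (α × Un) × Un => p.2.val) := PTU.val PTF.snd
  refine PTR.mul ?_ (EX.ptr_Mhop (PTU.comp hn h11) (PTU.comp hk h11) hi' hj' (PTU.comp hi h11)
    (PTU.comp hi h11))
  refine ptr_Acal (α := (α × Un) × Un) H (n := fun p => n p.1.1) (k := fun p => k p.1.1)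
    (j0 := fun p => j0 p.1.1) (J := fun p => J p.1.1) (PTU.comp hn h11) (PTU.comp hk h11)
    (fun p => hnk p.1.1) (fun p => hk1 p.1.1) (hj0.comp h11) ?_ hi' hj'
  exact hJ.comp (f := fun p : (((α × Un) × Un) × Un) × Un => ((p.1.1.1.1, p.1.2), p.2))
    (PTF.prodMk (PTF.prodMk (PTF.comp (g := fun p : (α × Un) × Un => p.1.1) h11
      (PTF.comp (g := fun p : ((α × Un) × Un) × Un => p.1) PTF.fst PTF.fst))
      (PTF.comp PTF.snd PTF.fst)) PTF.snd)

/-! ### the data of `P2Defs` -/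

theorem kP_ge {C0 : ℕ} (hC0 : 1 ≤ C0) (C : P2.Cst) (hC : C0 ≤ C.c) (h : HInst) :
    (C0 * (h.n + 1)) ^ C0 ≤ P2.kP C h ∧ 1 ≤ P2.kP C h := by
  have h1 : C0 * (h.n + 1) ≤ C.c * (h.n + 2) * (h.q + 1) := by
    calc C0 * (h.n + 1) ≤ C.c * (h.n + 2) := Nat.mul_le_mul hC (by omega)
      _ ≤ C.c * (h.n + 2) * (h.q + 1) := Nat.le_mul_of_pos_right _ (by omega)
  have h2 : 1 ≤ C0 * (h.n + 1) := Nat.mul_pos (by omega) (by omega)
  have h3 : 1 ≤ C.c * (h.n + 2) * (h.q + 1) := h2.trans h1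
  unfold P2.kP
  refine ⟨?_, Nat.one_le_pow _ _ h3⟩
  calc (C0 * (h.n + 1)) ^ C0 ≤ (C.c * (h.n + 2) * (h.q + 1)) ^ C0 := Nat.pow_le_pow_left h1 _
    _ ≤ _ := Nat.pow_le_pow_right h3 hC


/-- **PTR of the calibrated data** of `P2Defs` -/
theorem exists_ptr_AcP : ∃ c0 : ℕ, ∀ C : P2.Cst, c0 ≤ C.c →
    (∀ (α : Type) [PTCode α] (h : α → HInst) (i j : α → ℕ), PTF h → PTU i → PTU j →
      PTR (fun a => P2.AcP C (h a) (i a) (j a))) ∧
    (∀ (α : Type) [PTCode α] (h : α → HInst) (i : α → ℕ), PTF h → PTU i →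
      PTR (fun a => P2.acP C (h a) (i a))) := by
  obtain ⟨C0, hC0, H⟩ := exists_dom
  have key : ∀ C : P2.Cst, C0 ≤ C.c → ∀ h : HInst,
      P2.AcP C h = Acal h.n (P2.kP C h) (P2.j0P C h) (P2.JfP h) ∧
      P2.acP C h = acal h.n (P2.kP C h) (P2.j0P C h) (P2.JfP h) := by
    intro C hC h
    have d := H h.n (P2.kP C h) (kP_ge hC0 C hC h).1
    unfold P2.AcP P2.acP
    rw [d.calSol_eq]
    exact ⟨rfl, rfl⟩
  refine ⟨C0, fun C hC => ⟨fun α _ h i j hh hi hj => ?_, fun α _ h i hh hi => ?_⟩⟩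
  · have hJ : PTR (fun p : (α × Un) × Un => P2.JfP (h p.1.1) p.1.2.val p.2.val) :=
      ptr_JfP (PTF.comp hh (PTF.comp PTF.fst PTF.fst)) (PTU.val (PTF.comp PTF.snd PTF.fst))
        (PTU.val PTF.snd)
    refine (ptr_Acal H (n := fun a => (h a).n) (k := fun a => P2.kP C (h a))
      (j0 := fun a => P2.j0P C (h a)) (J := fun a => P2.JfP (h a)) (ptu_hn hh) (ptu_kP C hh)
      (fun a => (kP_ge hC0 C hC (h a)).1) (fun a => (kP_ge hC0 C hC (h a)).2)
      (ptr_j0P C hh) hJ hi hj).of_eq fun a => ?_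
    rw [(key C hC (h a)).1]
  · have hJ : PTR (fun p : (α × Un) × Un => P2.JfP (h p.1.1) p.1.2.val p.2.val) :=
      ptr_JfP (PTF.comp hh (PTF.comp PTF.fst PTF.fst)) (PTU.val (PTF.comp PTF.snd PTF.fst))
        (PTU.val PTF.snd)
    refine (ptr_acal H (n := fun a => (h a).n) (k := fun a => P2.kP C (h a))
      (j0 := fun a => P2.j0P C (h a)) (J := fun a => P2.JfP (h a)) (ptu_hn hh) (ptu_kP C hh)
      (fun a => (kP_ge hC0 C hC (h a)).1) (fun a => (kP_ge hC0 C hC (h a)).2)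
      (ptr_j0P C hh) hJ hi).of_eq fun a => ?_
    rw [(key C hC (h a)).2]

end PTRpart

end Crest.Agent.R338.Cal

end
end

-- ▼ part R338/WCStmt
section

/-!
Row 338, node WC (helper201): the frozen statement `P2.WcStmt`, and the closed form of the exact
displacements `P2.DexP`.
-/

set_option autoImplicit false

open MeasureTheory Set
open Crest.MathPhysics.ElectronicCoulomb

noncomputable section
namespace Crest.Agent.R338.WC

theorem wcut_P2_eq (R : ℝ) (w : Pos3 → ℝ) : P2.wcut (2 * R) w = wcut R w := by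
  ext x
  unfold P2.wcut wcut chR
  rw [Fin.prod_univ_three]

/-- closed form of the exact displacement -/
theorem DexP_eq (C : P2.Cst) (h : HInst) (α : Fin 3 → ℤ) (c : Fin 3) :
    P2.DexP C h α c = P2.lamP C h ^ 2 / 3 *
      dwc h.n (P2.kP C h) (P2.LamP C h) (P2.AcP C h) (P2.acP C h) (P2.RP C h) c
        (Lat.pt (P2.sP C h) α) := by
  unfold P2.DexP P2.wcP P2.wP
  rw [wcut_P2_eq, gradient_wcut]

/-- exact displacements vanish for `|α c| ≥ MdP` (`4 R ≤ s |α c|`), `c` any coordinate -/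
theorem DexP_eq_zero (C : P2.Cst) (h : HInst) (α : Fin 3 → ℤ) (hR : 0 < (P2.RP C h : ℝ))
    (hα : ∃ c, 4 * (P2.RP C h : ℝ) ≤ |Lat.pt (P2.sP C h) α c|) (c : Fin 3) :
    P2.DexP C h α c = 0 := by
  rw [DexP_eq, dwc_of_ge hR hα, mul_zero]

theorem db_wcut_P2 {w : Pos3 → ℝ} {B Lw : ℝ} (hw : DB 3 w B) (hL : 1 ≤ Lw) :
    DB 3 (P2.wcut Lw w) (2 ^ 3 * B * (2 ^ 3 * (2 ^ 3 * CX * CX) * CX)) := by
  have hc : DB 3 (fun t => chi (t / Lw)) CX := db_chi_scaled hL
  have h1 := ((db_coord hc 0).mul (db_coord hc 1)).mul (db_coord hc 2)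
  refine (hw.mul h1).congr fun x => ?_
  unfold P2.wcut
  rw [Fin.prod_univ_three]

theorem key_aux {M S X : ℝ} (h0 : 0 ≤ M) (hS : 0 ≤ S) (h1 : M + 5 ≤ 2 * X) (h2 : S ≤ X)
    (hX : (2 : ℝ) ^ 14 ≤ X) : 10 ^ 32 * (M + 5) ^ 18 * S ≤ X ^ 40 := by
  have hX0 : 0 ≤ X := le_trans (by norm_num) hX
  have e1 : (M + 5) ^ 18 ≤ (2 * X) ^ 18 := pow_le_pow_left₀ (by linarith) h1 18
  have e2 : ((2 : ℝ) ^ 14) ^ 21 ≤ X ^ 21 := pow_le_pow_left₀ (by norm_num) hX 21
  have e3 : (10 : ℝ) ^ 32 * 2 ^ 18 ≤ ((2 : ℝ) ^ 14) ^ 21 := by norm_num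
  have p18 : 0 ≤ X ^ 18 := pow_nonneg hX0 18
  have p19 : 0 ≤ X ^ 19 := pow_nonneg hX0 19
  calc 10 ^ 32 * (M + 5) ^ 18 * S ≤ 10 ^ 32 * (2 * X) ^ 18 * X := by
        refine mul_le_mul (mul_le_mul_of_nonneg_left e1 (by norm_num)) h2 hS (by positivity)
    _ = (10 ^ 32 * 2 ^ 18) * X ^ 19 := by rw [mul_pow]; ring
    _ ≤ X ^ 21 * X ^ 19 := mul_le_mul_of_nonneg_right (e3.trans e2) p19
    _ = X ^ 40 := by rw [← pow_add]

theorem wcStmt : P2.WcStmt := by
  refine ⟨40, by norm_num, ?_⟩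
  intro n k Lam Amax A a Lw hn hk hLam hAm hLw hA ha
  have hL0 : 0 ≤ Lam := by linarith
  have hA0 : 0 ≤ Amax := by linarith
  have hLw0 : 0 < Lw := by linarith
  -- size of the shell
  have hY : 32 ≤ Yn n := by
    unfold Yn
    have h1 : 1 ≤ n ^ 3 := Nat.one_le_pow _ _ hn
    have h2 : 1 ≤ n ^ 2 := Nat.one_le_pow _ _ hn
    omega
  have hYn : n ≤ Yn n := by
    unfold Yn
    have : n ≤ n ^ 2 := Nat.le_self_pow (by norm_num) n
    omega
  have hk6 : 1 ≤ (k ^ 3) ^ 2 := Nat.one_le_pow _ _ (Nat.one_le_pow _ _ hk)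
  have hM1 : 16384 ≤ n0' n k := by
    unfold n0'
    have : 32 ^ 2 ≤ Yn n ^ 2 := Nat.pow_le_pow_left hY 2
    nlinarith
  have hM2 : n ≤ n0' n k := by
    unfold n0'
    have : Yn n ≤ Yn n ^ 2 := Nat.le_self_pow (by norm_num) _
    nlinarith
  have hM1' : (16384 : ℝ) ≤ (n0' n k : ℝ) := by exact_mod_cast hM1
  obtain ⟨M, hMdef⟩ : ∃ M : ℝ, M = (n0' n k : ℝ) := ⟨_, rfl⟩
  obtain ⟨X, hX⟩ : ∃ X : ℝ, X = M + Lam + Amax + 2 := ⟨_, rfl⟩
  rw [← hMdef] at hM1'
  have hX1 : (2 : ℝ) ^ 14 ≤ X := by rw [hX]; norm_num; linarith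
  have key : 10 ^ 32 * (M + 5) ^ 18 * (Lam + Amax) ≤ X ^ 40 :=
    key_aux (by linarith) (by linarith) (by linarith) (by linarith) hX1
  have hXX : (n0' n k : ℝ) + Lam + Amax + 2 = X := by rw [hX, hMdef]
  simp only [hXX]
  have hGw0 := Gw_nonneg (n := n) (M := n0' n k) hL0 hA0
  have hGw : Gw n (n0' n k) Lam Amax ≤ X ^ 40 := by
    refine (Gw_le hL0 hA0 hM2).trans (le_trans ?_ key)
    rw [← hMdef]
    refine mul_le_mul_of_nonneg_right (mul_le_mul_of_nonneg_right (by norm_num) ?_) (by linarith)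
    exact pow_nonneg (by linarith) 18
  have hGc : 2 ^ 3 * Gw n (n0' n k) Lam Amax * (2 ^ 3 * (2 ^ 3 * CX * CX) * CX) ≤ X ^ 40 :=
    (Gc_le hL0 hA0 hM2).trans (by rw [← hMdef]; exact key)
  have hDB0 := db_wpot hL0 hA ha (fun i hi => mi_le n k hi) (le_refl (n0' n k))
  have hDB : DB 3 (P2.wcut Lw (wpot n k Lam A a)) (X ^ 40) := (db_wcut_P2 hDB0 hLw).mono hGc
  refine ⟨continuous_wpot n k Lam A a, fun x => (hDB0.abs_le x).trans hGw, fun x => hDB.abs_le x,
    hDB.cd.of_le (by norm_num), ?_, ?_, fun x => hDB.norm_fderiv_le (by norm_num) x, hDB.b1,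
    hDB.b2⟩
  · intro x hx
    have h : ∀ c, chi (x c / Lw) = 1 := fun c => by
      refine chi_of_le ?_
      rw [abs_div, abs_of_pos hLw0, div_le_one hLw0]
      exact hx c
    unfold P2.wcut
    simp only [h, Finset.prod_const_one, mul_one]
  · rintro x ⟨c, hc⟩
    unfold P2.wcut
    have h : chi (x c / Lw) = 0 := by
      refine chi_of_ge ?_
      rw [abs_div, abs_of_pos hLw0, le_div_iff₀ hLw0]
      exact hc
    rw [Finset.prod_eq_zero (Finset.mem_univ c) h, mul_zero]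

end Crest.Agent.R338.WC
end
end

-- ▼ part R338/Out1
section

/-!
# Row 338, output node (helper207), part 1: the parameters and the scales of the map

`kP, n0P, LamP, BP, AP, RP, nLP, MdP` are unary polynomial-time functions, `kap, lamP, 1/lamP, sP, aP, j0P`
are polynomial-time reals.
-/

set_option autoImplicit false

namespace Crest.Agent.R338.Out

open Crest.Agent.Lib.PT Crest.Agent.R338.Nu Crest.Agent.R338.P2

variable {α : Type} [PTCode α] {h : α → HInst} (C : Cst)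

/-! ## parameters -/

@[fun_prop]
theorem ptu_kP (hh : PTF h) : PTU (fun a => kP C (h a)) := by
  unfold kP; fun_prop

@[fun_prop]
theorem ptu_n0P (hh : PTF h) : PTU (fun a => n0P C (h a)) := by
  unfold n0P; fun_prop

@[fun_prop]
theorem ptu_LamP (hh : PTF h) : PTU (fun a => LamP C (h a)) := by
  unfold LamP; fun_prop

@[fun_prop]
theorem ptu_BP (hh : PTF h) : PTU (fun a => BP C (h a)) := by
  unfold BP; fun_prop

@[fun_prop]
theorem ptu_AP (hh : PTF h) : PTU (fun a => AP C (h a)) := by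
  unfold AP; fun_prop

@[fun_prop]
theorem ptu_RP (hh : PTF h) : PTU (fun a => RP C (h a)) := by
  unfold RP; fun_prop

@[fun_prop]
theorem ptu_nLP (hh : PTF h) : PTU (fun a => nLP C (h a)) := by
  unfold nLP; fun_prop

@[fun_prop]
theorem ptu_MdP (hh : PTF h) : PTU (fun a => MdP C (h a)) := by
  unfold MdP; fun_prop

/-! ## positivity -/

theorem kP_pos {C : Cst} (hC : 1 ≤ C.c) (x : HInst) : 0 < kP C x := by
  unfold kP
  have : 0 < C.c := hC
  positivity

theorem BP_pos {C : Cst} (hC : 1 ≤ C.c) (x : HInst) : 0 < BP C x := by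
  unfold BP
  have := kP_pos hC x
  positivity


/-! ## scales -/

theorem kap_pos : 0 < kap := by
  unfold kap
  have := Real.pi_pos
  positivity

theorem kap_inv : (kap)⁻¹ = √(√(4 / 3 * Real.pi)) := by
  unfold kap
  rw [← Real.sqrt_inv, ← Real.sqrt_inv, inv_div]
  congr 2
  ring

@[fun_prop]
theorem ptr_kap : PTR (fun _ : α => kap) := by
  have h1 : PTR (fun _ : α => (3 : ℝ) / 4 * (Real.pi)⁻¹) :=
    ((PTR.constRat (3 / 4)).of_eq (fun _ => by push_cast; rfl)).mul PTR.piInv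
  refine (h1.sqrt.sqrt).of_eq (fun _ => ?_)
  unfold kap
  congr 2
  rw [div_mul_eq_div_div, ← div_eq_mul_inv]

@[fun_prop]
theorem ptr_kapInv : PTR (fun _ : α => (kap)⁻¹) := by
  have h1 : PTR (fun _ : α => (4 : ℝ) / 3 * Real.pi) :=
    ((PTR.constRat (4 / 3)).of_eq (fun _ => by push_cast; rfl)).mul PTR.pi
  exact (h1.sqrt.sqrt).of_eq (fun _ => kap_inv.symm)

@[fun_prop]
theorem ptr_lamP (hh : PTF h) : PTR (fun a => lamP C (h a)) := by
  have h1 : PTF (fun a => BP C (h a) ^ 6) := (PTU.toPTF (by fun_prop))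
  refine (ptr_kap.mul (PTR.natInv h1)).of_eq (fun a => ?_)
  unfold lamP
  push_cast
  rw [div_eq_mul_inv]

@[fun_prop]
theorem ptr_lamPInv (hh : PTF h) : PTR (fun a => (lamP C (h a))⁻¹) := by
  have h1 : PTF (fun a => BP C (h a) ^ 6) := (PTU.toPTF (by fun_prop))
  refine (ptr_kapInv.mul (PTR.natCast h1)).of_eq (fun a => ?_)
  unfold lamP
  push_cast
  rw [inv_div, div_eq_mul_inv, mul_comm]

@[fun_prop]
theorem ptr_sP (hh : PTF h) : PTR (fun a => sP C (h a)) := by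
  have h1 : PTF (fun a => BP C (h a) ^ 2) := (PTU.toPTF (by fun_prop))
  refine (ptr_kapInv.mul (PTR.natInv h1)).of_eq (fun a => ?_)
  unfold sP
  push_cast
  rw [one_div, mul_inv]

@[fun_prop]
theorem ptr_sPInv (hh : PTF h) : PTR (fun a => (sP C (h a))⁻¹) := by
  have h1 : PTF (fun a => BP C (h a) ^ 2) := (PTU.toPTF (by fun_prop))
  refine (ptr_kap.mul (PTR.natCast h1)).of_eq (fun a => ?_)
  unfold sP
  push_cast
  rw [one_div, inv_inv]

@[fun_prop]
theorem ptr_aP (hh : PTF h) : PTR (fun a => aP C (h a)) := by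
  have h1 : PTR (fun a => ((kP C (h a) : ℕ) : ℝ)⁻¹) := PTR.natInv (PTU.toPTF (by fun_prop))
  refine ((h1.mul (ptr_sPInv C hh)).powConst 2).of_eq (fun a => ?_)
  unfold aP
  rw [one_div, mul_pow, mul_pow, mul_inv, inv_pow, inv_pow]

/-- `√a = 1/(K s)` -/
theorem sqrt_aP (x : HInst) : √(aP C x) = ((kP C x : ℝ))⁻¹ * (sP C x)⁻¹ := by
  unfold aP
  have hs : 0 ≤ (sP C x) := by
    unfold sP
    have := kap_pos
    positivity
  rw [one_div, ← inv_pow, Real.sqrt_sq (by positivity), mul_inv]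

@[fun_prop]
theorem ptr_j0P (hh : PTF h) : PTR (fun a => j0P C (h a)) := by
  have h1 : PTF (fun a => ((h a).n * (h a).q) ^ C.cB * kP C (h a) ^ 4) := (PTU.toPTF (by fun_prop))
  refine (PTR.natInv h1).of_eq (fun a => ?_)
  unfold j0P
  push_cast
  rw [one_div]


theorem sP_pos {C : Cst} (hC : 1 ≤ C.c) (x : HInst) : 0 < sP C x := by
  unfold sP
  have := kap_pos
  have := BP_pos hC x
  positivity

end Crest.Agent.R338.Out
end

-- ▼ part R338/Out2
section

/-!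
# Row 338, output node (helper207), part 2: enumeration of the box and the table of nuclei
-/

set_option autoImplicit false

namespace Crest.Agent.R338.Out

open Crest.Agent.Lib.PT Crest.Agent.R338.Nu

/-! ## enumeration of the box `|α|_∞ ≤ m` -/

/-- the `i`-th point of the box: the base `2m+1` digits of `i`, shifted by `-m` -/
def al (m i : ℕ) (c : Fin 3) : ℤ := ((i / (2 * m + 1) ^ (c : ℕ) % (2 * m + 1) : ℕ) : ℤ) - (m : ℤ)

/-- the index of a point of the box -/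
def idx (m : ℕ) (a : Fin 3 → ℤ) : ℕ :=
  (a 0 + m).toNat + (2 * m + 1) * ((a 1 + m).toNat + (2 * m + 1) * (a 2 + m).toNat)

/-- number of points of the box -/
def cnt (m : ℕ) : ℕ := (2 * m + 1) ^ 3

/-- the box as a list -/
def boxList (m : ℕ) : List (Fin 3 → ℤ) := (List.range (cnt m)).map (al m)

theorem mem_Box {m : ℕ} {a : Fin 3 → ℤ} :
    a ∈ Lat.Box m ↔ ∀ c, -(m : ℤ) ≤ a c ∧ a c ≤ m := by
  unfold Lat.Box
  simp only [Fintype.mem_piFinset, Finset.mem_Icc]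

theorem al_mem (m i : ℕ) : al m i ∈ Lat.Box m := by
  rw [mem_Box]
  intro c
  unfold al
  have h := Nat.mod_lt (i / (2 * m + 1) ^ (c : ℕ)) (show 0 < 2 * m + 1 by omega)
  omega

theorem digits (M x y z : ℕ) (hx : x < M) (hy : y < M) (hz : z < M) :
    (x + M * (y + M * z)) % M = x ∧ (x + M * (y + M * z)) / M % M = y ∧
      (x + M * (y + M * z)) / M ^ 2 % M = z := by
  have hM : 0 < M := by omega
  have h1 : (x + M * (y + M * z)) / M = y + M * z := by
    rw [Nat.add_mul_div_left _ _ hM, Nat.div_eq_of_lt hx, zero_add]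
  have h2 : (y + M * z) / M = z := by
    rw [Nat.add_mul_div_left _ _ hM, Nat.div_eq_of_lt hy, zero_add]
  refine ⟨?_, ?_, ?_⟩
  · rw [Nat.add_mul_mod_self_left, Nat.mod_eq_of_lt hx]
  · rw [h1, Nat.add_mul_mod_self_left, Nat.mod_eq_of_lt hy]
  · rw [pow_two, ← Nat.div_div_eq_div_mul, h1, h2, Nat.mod_eq_of_lt hz]

theorem al_idx {m : ℕ} {a : Fin 3 → ℤ} (ha : a ∈ Lat.Box m) : al m (idx m a) = a := by
  rw [mem_Box] at ha
  have h0 := ha 0
  have h1 := ha 1
  have h2 := ha 2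
  obtain ⟨d0, d1, d2⟩ := digits (2 * m + 1) (a 0 + m).toNat (a 1 + m).toNat (a 2 + m).toNat
    (by omega) (by omega) (by omega)
  funext c
  fin_cases c
  · unfold al idx
    simp only [Fin.zero_eta, pow_zero, Nat.div_one]
    rw [d0]
    omega
  · unfold al idx
    simp only [Fin.mk_one, pow_one]
    rw [d1]
    omega
  · unfold al idx
    simp only [Fin.reduceFinMk]
    rw [d2]
    omega

theorem idx_lt {m : ℕ} {a : Fin 3 → ℤ} (ha : a ∈ Lat.Box m) : idx m a < cnt m := by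
  rw [mem_Box] at ha
  have h0 := ha 0
  have h1 := ha 1
  have h2 := ha 2
  unfold idx cnt
  have e0 : (a 0 + m).toNat ≤ 2 * m := by omega
  have e1 : (a 1 + m).toNat ≤ 2 * m := by omega
  have e2 : (a 2 + m).toNat ≤ 2 * m := by omega
  generalize (a 0 + m).toNat = x at *
  generalize (a 1 + m).toNat = y at *
  generalize (a 2 + m).toNat = z at *
  have f2 : (2 * m + 1) * z ≤ (2 * m + 1) * (2 * m) := Nat.mul_le_mul_left _ e2
  have f1 : (2 * m + 1) * (y + (2 * m + 1) * z) ≤ (2 * m + 1) * (2 * m + (2 * m + 1) * (2 * m)) :=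
    Nat.mul_le_mul_left _ (by omega)
  have e : (2 * m + 1) ^ 3 = 2 * m + (2 * m + 1) * (2 * m + (2 * m + 1) * (2 * m)) + 1 := by ring
  omega

theorem idx_al {m i : ℕ} (hi : i < cnt m) : idx m (al m i) = i := by
  have hM : 0 < 2 * m + 1 := by omega
  have e : ∀ c : Fin 3, (al m i c + m).toNat = i / (2 * m + 1) ^ (c : ℕ) % (2 * m + 1) := by
    intro c
    unfold al
    omega
  unfold idx
  rw [e 0, e 1, e 2]
  simp only [Fin.val_zero, Fin.val_one, Fin.val_two, pow_zero, Nat.div_one, pow_one]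
  have h2 : i / (2 * m + 1) ^ 2 < 2 * m + 1 := by
    rw [Nat.div_lt_iff_lt_mul (by positivity)]
    unfold cnt at hi
    calc i < (2 * m + 1) ^ 3 := hi
      _ = _ := by ring
  rw [Nat.mod_eq_of_lt h2]
  have h3 : i / (2 * m + 1) ^ 2 = i / (2 * m + 1) / (2 * m + 1) := by
    rw [Nat.div_div_eq_div_mul, pow_two]
  rw [h3, Nat.mod_add_div, Nat.mod_add_div]

theorem mem_boxList {m : ℕ} {a : Fin 3 → ℤ} : a ∈ boxList m ↔ a ∈ Lat.Box m := by
  unfold boxList
  rw [List.mem_map]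
  constructor
  · rintro ⟨i, -, rfl⟩
    exact al_mem m i
  · intro ha
    exact ⟨idx m a, List.mem_range.2 (idx_lt ha), al_idx ha⟩

theorem nodup_boxList (m : ℕ) : (boxList m).Nodup := by
  unfold boxList
  rw [List.nodup_map_iff_inj_on List.nodup_range]
  intro i hi j hj hij
  rw [← idx_al (List.mem_range.1 hi), ← idx_al (List.mem_range.1 hj), hij]

/-! ## polynomial time -/

variable {α : Type} [PTCode α]

@[fun_prop]
theorem ptf_al {m i : α → ℕ} (hm : PTU m) (hi : PTU i) (c : Fin 3) :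
    PTF (fun a => al (m a) (i a) c) := by
  unfold al
  have h1 : PTU (fun a => i a / (2 * m a + 1) ^ (c : ℕ) % (2 * m a + 1)) := by fun_prop
  exact PTF.intSub (PTF.intNatCast h1.toPTF) (PTF.intNatCast hm.toPTF)

@[fun_prop]
theorem ptu_cnt {m : α → ℕ} (hm : PTU m) : PTU (fun a => cnt (m a)) := by
  unfold cnt; fun_prop

/-- the displacement used by the map: `0` far out, otherwise the approximation `q` -/
def Dq (M : ℕ) (a : Fin 3 → ℤ) (q : ℚ) : ℚ :=
  if M < (a 0).natAbs ∨ M < (a 1).natAbs ∨ M < (a 2).natAbs then 0 else q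

theorem ptf_Dq {M m i : α → ℕ} {q : α → ℚ} (hM : PTU M) (hm : PTU m) (hi : PTU i) (hq : PTF q) :
    PTF (fun a => Dq (M a) (al (m a) (i a)) (q a)) := by
  unfold Dq
  refine PTF.ite ?_ (PTF.const 0) hq
  refine PTPred.or ?_ (PTPred.or ?_ ?_)
  · exact PTPred.natLt hM.toPTF (PTF.intNatAbs (ptf_al hm hi 0))
  · exact PTPred.natLt hM.toPTF (PTF.intNatAbs (ptf_al hm hi 1))
  · exact PTPred.natLt hM.toPTF (PTF.intNatAbs (ptf_al hm hi 2))

/-- one coordinate of a nucleus -/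
def coordQ (A M m i : ℕ) (c : Fin 3) (q : ℚ) : ℚ := (al m i c : ℚ) / (A : ℚ) - Dq M (al m i) q

theorem ptf_coordQ {A M m i : α → ℕ} {q : α → ℚ} (hA : PTU A) (hM : PTU M) (hm : PTU m)
    (hi : PTU i) (c : Fin 3) (hq : PTF q) : PTF (fun a => coordQ (A a) (M a) (m a) (i a) c (q a)) := by
  unfold coordQ
  exact PTF.ratSub (PTF.ratDiv (PTF.ratIntCast (ptf_al hm hi c)) (PTF.ratNatCast hA.toPTF))
    (ptf_Dq hM hm hi hq)

/-- the table of nuclei -/
def nucTab (A M m : ℕ) (q : ℕ → Fin 3 → ℚ) : List (ℚ × ℚ × ℚ) :=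
  (List.range (cnt m)).map fun i =>
    (coordQ A M m i 0 (q i 0), coordQ A M m i 1 (q i 1), coordQ A M m i 2 (q i 2))

theorem ptf_nucTab {A M m : α → ℕ} {q : α → ℕ → Fin 3 → ℚ} (hA : PTU A) (hM : PTU M) (hm : PTU m)
    (hq : ∀ c, PTF (fun p : α × Un => q p.1 p.2.val c)) :
    PTF (fun a => nucTab (A a) (M a) (m a) (q a)) := by
  unfold nucTab
  have hi : PTU (fun p : α × Un => p.2.val) := ptu_snd
  have hA' : PTU (fun p : α × Un => A p.1) := PTU.comp hA PTF.fst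
  have hM' : PTU (fun p : α × Un => M p.1) := PTU.comp hM PTF.fst
  have hm' : PTU (fun p : α × Un => m p.1) := PTU.comp hm PTF.fst
  exact ptf_table (q := fun a i => (coordQ (A a) (M a) (m a) i 0 (q a i 0),
    coordQ (A a) (M a) (m a) i 1 (q a i 1), coordQ (A a) (M a) (m a) i 2 (q a i 2)))
    (PTF.prodMk (ptf_coordQ hA' hM' hm' hi 0 (hq 0))
      (PTF.prodMk (ptf_coordQ hA' hM' hm' hi 1 (hq 1)) (ptf_coordQ hA' hM' hm' hi 2 (hq 2))))
    (ptu_cnt hm)

/-- the table as the image of the enumeration of the box -/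
theorem nucTab_trip (A M m : ℕ) (q : ℕ → Fin 3 → ℚ) :
    (nucTab A M m q).map OutW.trip = (boxList m).map fun a c =>
      (a c : ℚ) / (A : ℚ) - Dq M a (q (idx m a) c) := by
  unfold nucTab boxList
  rw [List.map_map, List.map_map]
  refine List.map_congr_left fun i hi => ?_
  have h1 := idx_al (List.mem_range.1 hi)
  funext c
  simp only [Function.comp_apply, h1]
  fin_cases c <;> rfl

end Crest.Agent.R338.Out
end

-- ▼ part R338/XF8
section

/-!
# Row 338, module XF8 (helper345): `PTW4`, `PTI4` discharged, and the numbers of `P2Defs`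
-/

set_option autoImplicit false

noncomputable section

open Finset
open Crest.Agent.Lib.PT Crest.Agent.R338.Nu Crest.Agent.R338.P2
open Crest.MathPhysics.ElectronicCoulomb

namespace Crest.Agent.R338.XF

theorem ptw4 : PTW4 := by
  intro α _ a b c d ha hb hc hd
  exact (CF.ptr_W ha hb hc hd).of_eq fun x => (Br.W4_eq _ _ _ _).symm

theorem pti4 : PTI4 := by
  intro α _ a b c d ha hb hc hd
  exact EX.ptr_I4 ha hb hc hd

variable {α : Type} [PTCode α] (C : Cst) {h : α → HInst}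

theorem ptu_NP (hh : PTF h) : PTU (fun a => NP C (h a)) := by
  unfold NP
  exact ptu_numEl (ptu_n0P C hh) (ptu_hn hh)

theorem ptr_ENP (hh : PTF h) : PTR (fun a => EN (n0P C (h a)) (h a).n) :=
  ptr_EN (ptu_n0P C hh) (ptu_hn hh)

theorem ptf_numElP (hh : PTF h) : PTF (fun a => numEl (n0P C (h a)) (h a).n) :=
  (ptu_numEl (ptu_n0P C hh) (ptu_hn hh)).toPTF

theorem ptr_LamP (hh : PTF h) : PTR (fun a => (LamP C (h a) : ℝ)) :=
  PTR.natCastU (ptu_LamP C hh)

theorem ptr_constHP (hh : PTF h) :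
    PTR (fun a => constH (h a).n (kP C (h a)) (LamP C (h a)) (j0P C (h a)) (JfP (h a))) := by
  refine ptr_constH ptw4 (ptu_hn hh) (ptu_kP C hh) (ptr_LamP C hh) (ptr_j0P C hh)
    (J := fun a => JfP (h a)) ?_
  exact ptr_JfP (h := fun p : (α × Un) × Un => h p.1.1) (PTF.comp hh (by fun_prop))
    (PTU.val (by fun_prop)) (PTU.val (by fun_prop))

/-- `Ecc` is computable, given the computability of the calibration solution -/
theorem ptr_EccP (hh : PTF h)
    (hA : PTR (fun p : (α × Un) × Un => AcP C (h p.1.1) p.1.2.val p.2.val))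
    (ha : PTR (fun p : α × Un => acP C (h p.1) p.2.val)) :
    PTR (fun a => Ecc (n0P C (h a)) (wP C (h a))) := by
  unfold wP
  exact ptr_Ecc ptw4 pti4 (ptu_hn hh) (ptu_kP C hh) (ptu_n0P C hh) (ptr_LamP C hh)
    (A := fun a => AcP C (h a)) (a := fun a => acP C (h a)) hA ha


/-- the threshold, up to `C0P` and the calibration solution -/
theorem ptr_thr (hh : PTF h) (hC : PTR (fun a => C0P C (h a)))
    (hA : PTR (fun p : (α × Un) × Un => AcP C (h p.1.1) p.1.2.val p.2.val))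
    (ha : PTR (fun p : α × Un => acP C (h p.1) p.2.val)) :
    PTR (fun a => thrP C (h a)) :=
  ptr_thrP C hh hC (ptr_EccP C hh hA ha) (ptr_constHP C hh) (ptr_ENP C hh) (ptf_numElP C hh)
    (fun _ => rfl) (fun _ => rfl) (fun _ => rfl) (fun _ => rfl) (fun _ => rfl)

/-! ### calibration data -/




end Crest.Agent.R338.XF
end
end

-- ▼ part R338/Out3
section

/-!
# Row 338, output node (helper207), part 3: `NumStmt` from the polynomial-time reals
`DexP` (exact displacements) and `thrP` (exact threshold)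
-/

set_option autoImplicit false

namespace Crest.Agent.R338.Out

open Crest.Agent.Lib.PT Crest.Agent.R338.Nu Crest.Agent.R338.P2
open Crest.MathPhysics.CoulombProblem

/-- the exact displacement vanishes outside the cube `MdP` -/
theorem DexP_zero {C : Cst} (hC : 1 ≤ C.c) (h : HInst) (a : Fin 3 → ℤ)
    (ha : ∃ c, (MdP C h : ℤ) < |a c|) (c : Fin 3) : DexP C h a c = 0 := by
  have hk := kP_pos hC h
  have hB := BP_pos hC h
  have hR : 0 < RP C h := by unfold RP; positivity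
  refine WC.DexP_eq_zero C h a (by exact_mod_cast hR) ?_ c
  obtain ⟨c', hc'⟩ := ha
  refine ⟨c', ?_⟩
  have e1 : Lat.pt (sP C h) a c' = sP C h * (a c' : ℝ) := rfl
  have hs := sP_pos hC h
  rw [e1, abs_mul, abs_of_pos hs]
  have h1 : (MdP C h : ℝ) ≤ |(a c' : ℝ)| := by
    have : ((MdP C h : ℤ) : ℝ) < ((|a c'| : ℤ) : ℝ) := by exact_mod_cast hc'
    push_cast at this
    exact this.le
  have h2 : sP C h * (MdP C h : ℝ) ≤ sP C h * |(a c' : ℝ)| := mul_le_mul_of_nonneg_left h1 hs.le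
  refine le_trans ?_ h2
  have hB' : (0 : ℝ) < (BP C h : ℝ) := by exact_mod_cast hB
  have hk0 := kap_pos
  have e2 : sP C h * (MdP C h : ℝ) = 4 * (RP C h : ℝ) / kap := by
    unfold sP MdP
    push_cast
    field_simp
  rw [e2, le_div_iff₀ hk0]
  have hR' : (0 : ℝ) < (RP C h : ℝ) := by exact_mod_cast hR
  nlinarith [kap_le_one]

theorem Dq_eq {M : ℕ} {a : Fin 3 → ℤ} (q : ℚ) (h : ∃ c, (M : ℤ) < |a c|) : Dq M a q = 0 := by
  unfold Dq
  rw [if_pos]
  obtain ⟨c, hc⟩ := h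
  rw [← Int.natCast_natAbs] at hc
  have hc' : M < (a c).natAbs := by exact_mod_cast hc
  fin_cases c
  · exact Or.inl hc'
  · exact Or.inr (Or.inl hc')
  · exact Or.inr (Or.inr hc')

theorem Dq_eq' {M : ℕ} {a : Fin 3 → ℤ} (q : ℚ) (h : ¬ ∃ c, (M : ℤ) < |a c|) : Dq M a q = q := by
  unfold Dq
  rw [if_neg]
  rintro (h1 | h1 | h1)
  · exact h ⟨0, by rw [← Int.natCast_natAbs]; exact_mod_cast h1⟩
  · exact h ⟨1, by rw [← Int.natCast_natAbs]; exact_mod_cast h1⟩
  · exact h ⟨2, by rw [← Int.natCast_natAbs]; exact_mod_cast h1⟩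

/-- approximability for valid instances -/
def PTRV {β : Type} [PTCode β] (V : β → Prop) (r : β → ℝ) : Prop :=
  ∃ q : β × Un → ℚ, PTF q ∧ ∀ p, V p.1 → |((q p : ℚ) : ℝ) - r p.1| ≤ (1 / 2) ^ p.2.val

theorem _root_.Crest.Agent.R338.Nu.PTR.toV {β : Type} [PTCode β] {r : β → ℝ} (hr : PTR r)
    (V : β → Prop) : PTRV V r := by
  obtain ⟨q, hq, h⟩ := hr
  exact ⟨q, hq, fun p _ => h p⟩

/-- **the output node**: `NumStmt` from PTR of the exact displacements and thresholds -/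
theorem numStmt_of (c0 : ℕ)
    (hD : ∀ C : Cst, c0 ≤ C.c → ∀ c : Fin 3, PTRV (fun p : HInst × Un => p.1.Valid)
      (fun p : HInst × Un => DexP C p.1 (al (nLP C p.1) p.2.val) c))
    (hT : ∀ C : Cst, c0 ≤ C.c → PTRV HInst.Valid (fun h : HInst => thrP C h)) : NumStmt := by
  refine ⟨max c0 1, fun C hC => ?_⟩
  have hC0 : c0 ≤ C.c := le_trans (le_max_left _ _) hC
  have hC1 : 1 ≤ C.c := le_trans (le_max_right _ _) hC
  choose qD hqD hqD' using hD C hC0
  obtain ⟨qT, hqT, hqT'⟩ := hT C hC0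
  set Q : HInst → ℕ → Fin 3 → ℚ := fun h i c => qD c ((h, Un.mk i), Un.mk (kP C h)) with hQ
  set lo : HInst → ℚ := fun h => qT (h, Un.mk 3) - 1 / 2 with hlo
  refine ⟨fun h => OutW.mkInst (nucTab (AP C h) (MdP C h) (nLP C h) (Q h)) (NP C h) (lo h) (lo h + 1),
    ?_, fun h hV => ⟨rfl, ?_, ?_, rfl⟩⟩
  · have h1 : PTF (fun h : HInst => nucTab (AP C h) (MdP C h) (nLP C h) (Q h)) := by
      refine ptf_nucTab (ptu_AP C PTF.id) (ptu_MdP C PTF.id) (ptu_nLP C PTF.id) (fun c => ?_)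
      exact PTF.comp (g := qD c) (f := fun p : HInst × Un => ((p.1, Un.mk p.2.val), Un.mk (kP C p.1)))
        (hqD c) (PTF.prodMk (PTF.prodMk PTF.fst ptu_snd) (ptu_kP C PTF.fst))
    have h3 : PTF lo :=
      PTF.ratSub (PTF.comp (g := qT) (f := fun h : HInst => (h, Un.mk 3)) hqT
        (PTF.prodMk PTF.id (PTF.const _))) (PTF.const _)
    exact OutW.ptf_instCode h1 (XF.ptu_NP C PTF.id) h3 (PTF.ratAdd h3 (PTF.const 1))
  · -- the nuclei
    have hr : ∀ (a : Fin 3 → ℤ) (c : Fin 3), ∃ r : ℚ, |(r : ℝ) - DexP C h a c| ≤ (1 / 2) ^ kP C h := by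
      intro a c
      obtain ⟨r, h1, h2⟩ := exists_rat_btwn (show DexP C h a c < DexP C h a c + (1 / 2) ^ kP C h by
        have : (0 : ℝ) < (1 / 2) ^ kP C h := by positivity
        linarith)
      refine ⟨r, ?_⟩
      rw [abs_of_nonneg (by linarith)]
      linarith
    choose r hr' using hr
    classical
    refine ⟨boxList (nLP C h), fun a c => if (∃ c', (MdP C h : ℤ) < |a c'|) then 0 else
      if a ∈ Lat.Box (nLP C h) then Q h (idx (nLP C h) a) c else r a c,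
      nodup_boxList _, fun a => mem_boxList, ?_, ?_, ?_⟩
    · show (nucTab (AP C h) (MdP C h) (nLP C h) (Q h)).map OutW.trip = _
      rw [nucTab_trip]
      refine List.map_congr_left fun a ha => ?_
      funext c
      beta_reduce
      have ha' : a ∈ Lat.Box (nLP C h) := mem_boxList.1 ha
      by_cases hM : ∃ c', (MdP C h : ℤ) < |a c'|
      · rw [Dq_eq _ hM, if_pos hM]
      · rw [Dq_eq' _ hM, if_neg hM, if_pos ha']
    · intro a c
      beta_reduce
      by_cases hM : ∃ c', (MdP C h : ℤ) < |a c'|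
      · rw [if_pos hM, DexP_zero hC1 h a hM c]
        simp
      · rw [if_neg hM]
        by_cases ha : a ∈ Lat.Box (nLP C h)
        · rw [if_pos ha]
          have h1 : |((qD c ((h, Un.mk (idx (nLP C h) a)), Un.mk (kP C h)) : ℚ) : ℝ) -
              DexP C h (al (nLP C h) (idx (nLP C h) a)) c| ≤ (1 / 2) ^ kP C h :=
            hqD' c ((h, Un.mk (idx (nLP C h) a)), Un.mk (kP C h)) hV
          rw [al_idx ha] at h1
          exact h1
        · rw [if_neg ha]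
          exact hr' a c
    · intro a ha
      funext c
      simp only [if_pos ha, Pi.zero_apply]
  · -- the threshold
    have h1 := hqT' (h, Un.mk 3) hV
    show |((lo h : ℚ) : ℝ) - (thrP C h - 1 / 2)| ≤ 1 / 8
    rw [hlo]
    push_cast
    have e : ((qT (h, Un.mk 3) : ℚ) : ℝ) - 1 / 2 - (thrP C h - 1 / 2) =
        ((qT (h, Un.mk 3) : ℚ) : ℝ) - thrP C h := by ring
    rw [e]
    refine h1.trans ?_
    norm_num

end Crest.Agent.R338.Out
end

-- ▼ part R338/Out4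
section

/-!
# Row 338, output node (helper207), part 4: the constant `C_0` is a polynomial-time real
-/

set_option autoImplicit false

namespace Crest.Agent.R338.Out

open Crest.Agent.Lib.PT Crest.Agent.R338.Nu Crest.Agent.R338.P2
open MeasureTheory

/-- expansion of the product of three sums -/
theorem Sx_prod (s : ℝ) (n : ℕ) (τ : ℝ) :
    ∏ c : Fin 3, Lat.Sx s n ((0 : Lat.P3) c) τ =
      ∑ k₁ ∈ Finset.Icc (-(n : ℤ)) n, ∑ k₂ ∈ Finset.Icc (-(n : ℤ)) n, ∑ k₃ ∈ Finset.Icc (-(n : ℤ)) n,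
        Real.exp (-(τ ^ 2 * s ^ 2 * ((k₁ : ℝ) ^ 2 + (k₂ : ℝ) ^ 2 + (k₃ : ℝ) ^ 2))) := by
  have e : ∀ c : Fin 3, Lat.Sx s n ((0 : Lat.P3) c) τ =
      ∑ k ∈ Finset.Icc (-(n : ℤ)) n, Real.exp (-(τ ^ 2 * s ^ 2 * (k : ℝ) ^ 2)) := by
    intro c
    unfold Lat.Sx
    refine Finset.sum_congr rfl fun k _ => ?_
    congr 1
    simp only [PiLp.zero_apply]
    ring
  rw [Fin.prod_univ_three, e 0, e 1, e 2, Finset.sum_mul_sum, Finset.sum_mul]
  refine Finset.sum_congr rfl fun k₁ _ => ?_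
  rw [Finset.sum_mul]
  refine Finset.sum_congr rfl fun k₂ _ => ?_
  rw [Finset.mul_sum]
  refine Finset.sum_congr rfl fun k₃ _ => ?_
  rw [← Real.exp_add, ← Real.exp_add]
  congr 1
  ring

/-- the integral over `[0, √a]` of one Gaussian -/
theorem integral_gauss_scale (b c : ℝ) :
    ∫ τ in (0 : ℝ)..b, Real.exp (-(τ ^ 2 * c)) = b * ∫ v in (0 : ℝ)..1, Real.exp (-(b ^ 2 * c * v ^ 2)) := by
  have h := intervalIntegral.smul_integral_comp_mul_left (a := (0 : ℝ)) (b := 1)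
    (fun τ : ℝ => Real.exp (-(τ ^ 2 * c))) b
  rw [mul_zero, mul_one, smul_eq_mul] at h
  rw [← h]
  congr 1
  refine intervalIntegral.integral_congr fun v _ => ?_
  show Real.exp _ = Real.exp _
  congr 1
  ring

/-- closed form of `C_0` -/
theorem C0P_eq {C : Cst} (hC : 1 ≤ C.c) (h : HInst) :
    C0P C h = lamP C h * (2 * (√Real.pi)⁻¹ * (√(aP C h) *
      ∑ k₁ ∈ Finset.Icc (-(nLP C h : ℤ)) (nLP C h), ∑ k₂ ∈ Finset.Icc (-(nLP C h : ℤ)) (nLP C h),
        ∑ k₃ ∈ Finset.Icc (-(nLP C h : ℤ)) (nLP C h),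
        ∫ v in (0 : ℝ)..1, Real.exp (-(((k₁ : ℝ) ^ 2 + (k₂ : ℝ) ^ 2 + (k₃ : ℝ) ^ 2) *
          ((kP C h : ℕ) : ℝ)⁻¹ ^ 2 * v ^ 2)))) +
      lamP C h * (√(aP C h) * (√Real.pi)⁻¹) *
      ∑ k₁ ∈ Finset.Icc (-(nLP C h : ℤ)) (nLP C h), ∑ k₂ ∈ Finset.Icc (-(nLP C h : ℤ)) (nLP C h),
        ∑ k₃ ∈ Finset.Icc (-(nLP C h : ℤ)) (nLP C h),
        Real.exp (-(((k₁ : ℝ) ^ 2 + (k₂ : ℝ) ^ 2 + (k₃ : ℝ) ^ 2) * ((kP C h : ℕ) : ℝ)⁻¹ ^ 2)) := by
  have hs := sP_pos hC h
  have ha : √(aP C h) ^ 2 * sP C h ^ 2 = ((kP C h : ℕ) : ℝ)⁻¹ ^ 2 := by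
    rw [sqrt_aP, mul_pow, inv_pow (sP C h)]
    field_simp
  unfold C0P Lat.V0
  rw [neg_sub, sub_neg_eq_add, add_comm]
  congr 1
  · congr 1
    rw [div_eq_mul_inv, mul_assoc, mul_assoc]
    congr 1
    congr 1
    simp_rw [Sx_prod]
    rw [intervalIntegral.integral_finsetSum (fun k _ => by
      apply Continuous.intervalIntegrable; fun_prop), Finset.mul_sum]
    refine Finset.sum_congr rfl fun k₁ _ => ?_
    rw [intervalIntegral.integral_finsetSum (fun k _ => by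
      apply Continuous.intervalIntegrable; fun_prop), Finset.mul_sum]
    refine Finset.sum_congr rfl fun k₂ _ => ?_
    rw [intervalIntegral.integral_finsetSum (fun k _ => by
      apply Continuous.intervalIntegrable; fun_prop), Finset.mul_sum]
    refine Finset.sum_congr rfl fun k₃ _ => ?_
    have e1 := integral_gauss_scale (√(aP C h))
      (sP C h ^ 2 * ((k₁ : ℝ) ^ 2 + (k₂ : ℝ) ^ 2 + (k₃ : ℝ) ^ 2))
    have e2 : ∀ τ : ℝ, τ ^ 2 * (sP C h ^ 2 * ((k₁ : ℝ) ^ 2 + (k₂ : ℝ) ^ 2 + (k₃ : ℝ) ^ 2)) =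
      τ ^ 2 * sP C h ^ 2 * ((k₁ : ℝ) ^ 2 + (k₂ : ℝ) ^ 2 + (k₃ : ℝ) ^ 2) := fun τ => by ring
    simp_rw [e2] at e1
    rw [e1, ha]
    congr 2
    funext v
    congr 2
    ring
  · rw [Sx_prod, ha, Real.sqrt_div' _ Real.pi_pos.le, div_eq_mul_inv]
    congr 1
    refine Finset.sum_congr rfl fun k₁ _ => Finset.sum_congr rfl fun k₂ _ =>
      Finset.sum_congr rfl fun k₃ _ => ?_
    congr 2
    ring

/-! ## polynomial time -/

section PT
variable {α : Type} [PTCode α]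

/-- triple sums over `[-n, n]` -/
theorem ptr_sumIcc3 {n : α → ℕ} {f : α → ℤ → ℤ → ℤ → ℝ} (hn : PTU n)
    (hf : PTR (fun p : ((α × Un) × Un) × Un => f p.1.1.1 ((p.1.1.2.val : ℤ) - n p.1.1.1)
      ((p.1.2.val : ℤ) - n p.1.1.1) ((p.2.val : ℤ) - n p.1.1.1))) :
    PTR (fun a => ∑ k₁ ∈ Finset.Icc (-(n a : ℤ)) (n a), ∑ k₂ ∈ Finset.Icc (-(n a : ℤ)) (n a),
      ∑ k₃ ∈ Finset.Icc (-(n a : ℤ)) (n a), f a k₁ k₂ k₃) := by
  refine PTR.sumIcc (r := fun a k₁ => ∑ k₂ ∈ Finset.Icc (-(n a : ℤ)) (n a),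
      ∑ k₃ ∈ Finset.Icc (-(n a : ℤ)) (n a), f a k₁ k₂ k₃) hn ?_
  refine PTR.sumIcc (α := α × Un) (n := fun p => n p.1) (r := fun p k₂ =>
      ∑ k₃ ∈ Finset.Icc (-(n p.1 : ℤ)) (n p.1), f p.1 ((p.2.val : ℤ) - n p.1) k₂ k₃)
    (PTU.comp hn PTF.fst) ?_
  exact PTR.sumIcc (α := (α × Un) × Un) (n := fun p => n p.1.1) (r := fun p k₃ =>
      f p.1.1 ((p.1.2.val : ℤ) - n p.1.1) ((p.2.val : ℤ) - n p.1.1) k₃)
    (PTU.comp hn (PTF.comp PTF.fst PTF.fst)) hf

/-- the argument of the Gaussians -/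
noncomputable def garg (k m i₁ i₂ i₃ : ℕ) : ℝ :=
  ((((i₁ : ℤ) - m : ℤ) : ℝ) ^ 2 + (((i₂ : ℤ) - m : ℤ) : ℝ) ^ 2 + (((i₃ : ℤ) - m : ℤ) : ℝ) ^ 2) *
    ((k : ℕ) : ℝ)⁻¹ ^ 2

theorem ptr_garg {k m i₁ i₂ i₃ : α → ℕ} (hk : PTU k) (hm : PTU m) (h₁ : PTU i₁) (h₂ : PTU i₂)
    (h₃ : PTU i₃) : PTR (fun a => garg (k a) (m a) (i₁ a) (i₂ a) (i₃ a)) := by
  unfold garg
  have e : ∀ {i : α → ℕ}, PTU i → PTR (fun a => (((i a : ℤ) - (m a : ℤ) : ℤ) : ℝ)) := fun hi =>
    PTR.intCast (PTF.intSub (PTF.intNatCast hi.toPTF) (PTF.intNatCast hm.toPTF))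
  exact ((((e h₁).powConst 2).add ((e h₂).powConst 2)).add ((e h₃).powConst 2)).mul
    ((PTR.natInv hk.toPTF).powConst 2)

theorem garg_nonneg (k m i₁ i₂ i₃ : ℕ) : 0 ≤ garg k m i₁ i₂ i₃ := by
  unfold garg; positivity

theorem garg_le (k m i₁ i₂ i₃ : ℕ) :
    garg k m i₁ i₂ i₃ ≤ (((i₁ + m) ^ 2 + (i₂ + m) ^ 2 + (i₃ + m) ^ 2 : ℕ) : ℝ) := by
  unfold garg
  have h1 : ((k : ℕ) : ℝ)⁻¹ ^ 2 ≤ 1 := by
    refine pow_le_one₀ (by positivity) ?_
    rcases Nat.eq_zero_or_pos k with h | h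
    · subst h; simp
    · exact inv_le_one_of_one_le₀ (by exact_mod_cast h)
  have h2 : ∀ i : ℕ, (((i : ℤ) - m : ℤ) : ℝ) ^ 2 ≤ ((i : ℝ) + m) ^ 2 := by
    intro i
    push_cast
    have : (0 : ℝ) ≤ i := by positivity
    have : (0 : ℝ) ≤ m := by positivity
    nlinarith
  refine (mul_le_of_le_one_right (by positivity) h1).trans ?_
  push_cast
  exact add_le_add (add_le_add (by simpa using h2 i₁) (by simpa using h2 i₂)) (by simpa using h2 i₃)

/-- **`C_0` is a polynomial-time real** -/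
theorem ptr_C0P {C : Cst} (hC : 1 ≤ C.c) {h : α → HInst} (hh : PTF h) :
    PTR (fun a => C0P C (h a)) := by
  have hsq : PTR (fun a => √(aP C (h a))) := (ptr_aP C hh).sqrt
  have hk : PTU (fun p : ((α × Un) × Un) × Un => kP C (h p.1.1.1)) :=
    ptu_kP C (PTF.comp hh (PTF.comp PTF.fst (PTF.comp PTF.fst PTF.fst)))
  have hm : PTU (fun p : ((α × Un) × Un) × Un => nLP C (h p.1.1.1)) :=
    ptu_nLP C (PTF.comp hh (PTF.comp PTF.fst (PTF.comp PTF.fst PTF.fst)))
  have h₁ : PTU (fun p : ((α × Un) × Un) × Un => p.1.1.2.val) :=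
    PTU.val (PTF.comp PTF.snd (PTF.comp PTF.fst PTF.fst))
  have h₂ : PTU (fun p : ((α × Un) × Un) × Un => p.1.2.val) := PTU.val (PTF.comp PTF.snd PTF.fst)
  have h₃ : PTU (fun p : ((α × Un) × Un) × Un => p.2.val) := PTU.val PTF.snd
  have hg := ptr_garg hk hm h₁ h₂ h₃
  have hB : PTU (fun p : ((α × Un) × Un) × Un => (p.1.1.2.val + nLP C (h p.1.1.1)) ^ 2 +
      (p.1.2.val + nLP C (h p.1.1.1)) ^ 2 + (p.2.val + nLP C (h p.1.1.1)) ^ 2) := by
    have e : ∀ {i j : (((α × Un) × Un) × Un) → ℕ}, PTU i → PTU j → PTU (fun a => (i a + j a) ^ 2) := by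
      intro i j hi hj
      fun_prop
    exact PTU.add (PTU.add (e h₁ hm) (e h₂ hm)) (e h₃ hm)
  have hb : ∀ p : ((α × Un) × Un) × Un,
      |garg (kP C (h p.1.1.1)) (nLP C (h p.1.1.1)) p.1.1.2.val p.1.2.val p.2.val| ≤
      (((p.1.1.2.val + nLP C (h p.1.1.1)) ^ 2 + (p.1.2.val + nLP C (h p.1.1.1)) ^ 2 +
        (p.2.val + nLP C (h p.1.1.1)) ^ 2 : ℕ) : ℝ) := by
    intro p
    rw [abs_of_nonneg (garg_nonneg _ _ _ _ _)]
    exact garg_le _ _ _ _ _
  have hS1 := ptr_sumIcc3 (f := fun a k₁ k₂ k₃ => ∫ v in (0 : ℝ)..1,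
      Real.exp (-(((k₁ : ℝ) ^ 2 + (k₂ : ℝ) ^ 2 + (k₃ : ℝ) ^ 2) *
        ((kP C (h a) : ℕ) : ℝ)⁻¹ ^ 2 * v ^ 2))) (ptu_nLP C hh) (PTR.gaussInt hg hB hb)
  have hS2 := ptr_sumIcc3 (f := fun a k₁ k₂ k₃ =>
      Real.exp (-(((k₁ : ℝ) ^ 2 + (k₂ : ℝ) ^ 2 + (k₃ : ℝ) ^ 2) * ((kP C (h a) : ℕ) : ℝ)⁻¹ ^ 2)))
      (ptu_nLP C hh) (PTR.exp hg.neg hB (fun p => by rw [abs_neg]; exact hb p))
  refine PTR.of_eq ?_ (fun a => (C0P_eq hC (h a)).symm)
  have hl := ptr_lamP C hh
  have hpi : PTR (fun _ : α => (√Real.pi)⁻¹) := PTR.sqrtPiInv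
  exact (hl.mul ((((PTR.ofNat 2).mul hpi)).mul (hsq.mul hS1))).add ((hl.mul (hsq.mul hpi)).mul hS2)

end PT

end Crest.Agent.R338.Out
end

-- ▼ part R338/WP2
section

/-!
# Row 338, node WP (helper518), file 2: Hermite functions and cutoffs at real points are
computable reals (`PTR`, calculus of helper860)
-/

set_option autoImplicit false

open Crest.Agent.Lib.PT Crest.Agent.R338.Nu

noncomputable section

namespace Crest.Agent.R338.WP

variable {α : Type} [PTCode α]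

/-! ### Hermite polynomials -/

theorem ptr_hc {m p : α → ℕ} (hm : PTU m) (hp : PTU p) :
    PTR (fun a => ((EX.hc (m a) (p a) : ℚ) : ℝ)) := by
  have hd : PTU (fun a => (m a - p a) / 2) := ptu_div (PTU.sub hm hp) (PTU.const 2)
  have hmod : PTU (fun a => (m a - p a) % 2) := ptu_mod (PTU.sub hm hp) (PTU.const 2)
  have h1 : PTR (fun a => (-1 : ℝ) ^ ((m a - p a) / 2) * ((m a).factorial : ℝ) * 2 ^ (p a) /
      ((((m a - p a) / 2).factorial : ℝ) * ((p a).factorial : ℝ))) := by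
    have h2 := ((PTR.negOnePow hd).mul (PTR.factorial hm)).mul (PTR.twoPow hp)
    have h3 := (PTR.factorialInv hd).mul (PTR.factorialInv hp)
    refine (h2.mul h3).of_eq (fun a => ?_)
    rw [div_eq_mul_inv, mul_inv]
  refine (PTR.ite (p := fun a => p a ≤ m a ∧ (m a - p a) % 2 = 0)
    (PTPred.and (PTU.le hp hm) (PTU.eq hmod (PTU.const 0))) h1 PTR.zero).of_eq (fun a => ?_)
  unfold EX.hc
  split_ifs with h
  · push_cast; rfl
  · simp

theorem sqrt_sqrt_pi_ge : (1 : ℝ) ≤ √√Real.pi := by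
  have h1 : (1 : ℝ) ≤ Real.pi := by linarith [Real.pi_gt_three]
  have h2 : (1 : ℝ) ≤ √Real.pi := by
    rw [show (1 : ℝ) = √1 by simp]; exact Real.sqrt_le_sqrt h1
  rw [show (1 : ℝ) = √1 by simp]
  exact Real.sqrt_le_sqrt h2

theorem pi_rpow : Real.pi ^ (-(1 / 4) : ℝ) = (√√Real.pi)⁻¹ := by
  have hp := Real.pi_pos
  rw [Real.rpow_neg hp.le, Real.sqrt_eq_rpow, Real.sqrt_eq_rpow, ← Real.rpow_mul hp.le]
  norm_num

/-- `π^(-1/4)` -/
theorem ptr_pi4 : PTR (fun _ : α => Real.pi ^ (-(1 / 4) : ℝ)) := by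
  have h : PTR (fun _ : α => √√Real.pi) := (PTR.pi.sqrt).sqrt
  refine (h.inv' (c := fun _ => 1) (PTU.const 1) (fun a => ?_)).of_eq (fun a => pi_rpow.symm)
  rw [abs_of_nonneg (Real.sqrt_nonneg _)]
  simpa using sqrt_sqrt_pi_ge

theorem ptr_hn {m : α → ℕ} (hm : PTU m) : PTR (fun a => EX.hn (m a)) := by
  have h1 : PTR (fun a => √((2 : ℝ) ^ (m a) * ((m a).factorial : ℝ))) :=
    ((PTR.twoPow hm).mul (PTR.factorial hm)).sqrt
  refine ptr_pi4.div h1 (c := fun _ => 1) (PTU.const 1) (fun a => ?_)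
  rw [abs_of_nonneg (Real.sqrt_nonneg _)]
  have h2 : (1 : ℝ) ≤ (2 : ℝ) ^ (m a) := one_le_pow₀ (by norm_num)
  have h3 : (1 : ℝ) ≤ ((m a).factorial : ℝ) := by exact_mod_cast (m a).factorial_pos
  have h4 : (1 : ℝ) ≤ (2 : ℝ) ^ (m a) * ((m a).factorial : ℝ) := by nlinarith
  simp only [Nat.cast_one, one_mul]
  rw [show (1 : ℝ) = √1 by simp]
  exact Real.sqrt_le_sqrt h4

theorem ptr_HP {m : α → ℕ} (hm : PTU m) {x : α → ℝ} (hx : PTR x) :
    PTR (fun a => (EX.HP (m a)).eval (x a)) := by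
  have h : PTR (fun a => ∑ p ∈ Finset.range (m a + 1), ((EX.hc (m a) p : ℚ) : ℝ) * x a ^ p) :=
    PTR.sumRange (r := fun a p => ((EX.hc (m a) p : ℚ) : ℝ) * x a ^ p) (PTU.succ hm)
      ((ptr_hc (α := α × Un) (m := fun p => m p.1) (p := fun p => p.2.val)
        (PTU.comp hm PTF.fst) ptu_snd).mul (PTR.pow (hx.comp PTF.fst) ptu_snd))
  exact h.of_eq (fun a => (EX.eval_HP (m a) (x a)).symm)

/-- Gaussians -/
theorem ptr_gauss {x : α → ℝ} (hx : PTR x) {B : α → ℕ} (hB : PTU B) (h : ∀ a, |x a| ≤ B a) :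
    PTR (fun a => Real.exp (-(x a ^ 2) / 2)) := by
  refine PTR.exp ((hx.powConst 2).neg.divOfNat 2) (B := fun a => B a ^ 2) (PTU.pow hB 2) (fun a => ?_)
  rw [abs_div, abs_neg, abs_pow, abs_two]
  push_cast
  have h1 : |x a| ^ 2 ≤ (B a : ℝ) ^ 2 := by gcongr; exact h a
  have h2 : 0 ≤ |x a| ^ 2 := by positivity
  linarith

theorem ptr_gauss2 {x : α → ℝ} (hx : PTR x) {B : α → ℕ} (hB : PTU B) (h : ∀ a, |x a| ≤ B a) :
    PTR (fun a => Real.exp (-2 * x a ^ 2)) := by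
  have h0 := ptr_gauss hx hB h
  refine (h0.powConst 4).of_eq (fun a => ?_)
  rw [← Real.exp_nat_mul]
  congr 1; push_cast; ring

/-- **Hermite functions at real points** -/
theorem ptr_hf {m : α → ℕ} (hm : PTU m) {x : α → ℝ} (hx : PTR x) {B : α → ℕ} (hB : PTU B)
    (h : ∀ a, |x a| ≤ B a) : PTR (fun a => HO.hf (m a) (x a)) :=
  (((ptr_hn hm).mul (ptr_HP hm hx)).mul (ptr_gauss hx hB h)).of_eq
    (fun a => (EX.hf_eq (m a) (x a)).symm)

theorem ptr_dhf {m : α → ℕ} (hm : PTU m) {x : α → ℝ} (hx : PTR x) {B : α → ℕ} (hB : PTU B)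
    (h : ∀ a, |x a| ≤ B a) : PTR (fun a => WC.dhf (m a) (x a)) := by
  have h1 : PTR (fun a => √((m a : ℝ) / 2)) := ((PTR.natCastU hm).divOfNat 2).sqrt
  have h2 : PTR (fun a => √(((m a : ℝ) + 1) / 2)) :=
    (((PTR.natCastU hm).add PTR.one).divOfNat 2).sqrt
  exact (h1.mul (ptr_hf (PTU.sub hm (PTU.const 1)) hx hB h)).sub
    (h2.mul (ptr_hf (PTU.succ hm) hx hB h))

theorem ptr_vv {m k : α → ℕ} (hm : PTU m) (hk : PTU k) {x : α → ℝ} (hx : PTR x) {B : α → ℕ}
    (hB : PTU B) (h : ∀ a, |x a| ≤ B a) : PTR (fun a => WC.vv (m a) (k a) (x a)) :=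
  (ptr_gauss2 hx hB h).mul ((ptr_hf hm hx hB h).mul (ptr_hf hk hx hB h))

theorem ptr_dvv {m k : α → ℕ} (hm : PTU m) (hk : PTU k) {x : α → ℝ} (hx : PTR x) {B : α → ℕ}
    (hB : PTU B) (h : ∀ a, |x a| ≤ B a) : PTR (fun a => WC.dvv (m a) (k a) (x a)) := by
  have h4 : PTR (fun a => -4 * x a) := (PTR.ofNat 4).neg.mul hx
  exact (((ptr_gauss2 hx hB h).mul h4).mul ((ptr_hf hm hx hB h).mul (ptr_hf hk hx hB h))).add
    ((ptr_gauss2 hx hB h).mul (((ptr_dhf hm hx hB h).mul (ptr_hf hk hx hB h)).add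
      ((ptr_hf hm hx hB h).mul (ptr_dhf hk hx hB h))))

/-! ### the cutoff -/

theorem ptr_cl {u : α → ℝ} (hu : PTR u) : PTR (fun a => WC.cl (u a)) :=
  PTR.zero.max (PTR.one.min hu)

theorem ptr_Sc {u : α → ℝ} (hu : PTR u) : PTR (fun a => WC.Sc (u a)) := by
  have h := ptr_cl hu
  unfold WC.Sc WC.Sm
  fun_prop

theorem ptr_Sc1 {u : α → ℝ} (hu : PTR u) : PTR (fun a => WC.Sc1 (u a)) := by
  have h := ptr_cl hu
  unfold WC.Sc1 WC.Sm1
  fun_prop

theorem ptr_chi {t : α → ℝ} (ht : PTR t) : PTR (fun a => WC.chi (t a)) :=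
  ptr_Sc ((PTR.ofNat 2).sub ht.abs)

theorem ptr_chi1 {t : α → ℝ} (ht : PTR t) : PTR (fun a => WC.chi1 (t a)) := by
  have h1 : PTR (fun a => 2 - t a) := (PTR.ofNat 2).sub ht
  have h2 : PTR (fun a => 2 + t a) := (PTR.ofNat 2).add ht
  exact ((ptr_Sc h1).mul (ptr_Sc1 h2)).sub ((ptr_Sc1 h1).mul (ptr_Sc h2))

theorem ptr_inv2R {R : α → ℝ} (hR : PTR R) (h1 : ∀ a, 1 ≤ R a) : PTR (fun a => (2 * R a)⁻¹) := by
  refine ((PTR.ofNat 2).mul hR).inv' (c := fun _ => 1) (PTU.const 1) (fun a => ?_)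
  have := h1 a
  rw [abs_of_nonneg (by linarith)]
  push_cast
  linarith

theorem ptr_chR {R t : α → ℝ} (hR : PTR R) (h1 : ∀ a, 1 ≤ R a) (ht : PTR t) :
    PTR (fun a => WC.chR (R a) (t a)) :=
  ptr_chi (ht.div_of_inv (ptr_inv2R hR h1))

theorem ptr_dchR {R t : α → ℝ} (hR : PTR R) (h1 : ∀ a, 1 ≤ R a) (ht : PTR t) :
    PTR (fun a => WC.dchR (R a) (t a)) :=
  (ptr_chi1 (ht.div_of_inv (ptr_inv2R hR h1))).div_of_inv (ptr_inv2R hR h1)

end Crest.Agent.R338.WP
end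
end

-- ▼ part R338/WP3
section

/-!
# Row 338, node WP (helper518), file 3: the partial derivatives `dwc` of the cut-off designer
potential at real points are computable reals (`PTR`)
-/

set_option autoImplicit false

open Crest.Agent.Lib.PT Crest.Agent.R338.Nu
open Crest.MathPhysics.ElectronicCoulomb

noncomputable section

namespace Crest.Agent.R338.WP

variable {α : Type} [PTCode α]

theorem ptu_mi' {n k i : α → ℕ} (hn : PTU n) (hk : PTU k) (hi : PTU i) :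
    PTU (fun a => WC.mi' (n a) (k a) (i a)) := by
  unfold WC.mi'; fun_prop

/-- the data of the potential, computable -/
structure PTW (n k : α → ℕ) (Lam R : α → ℝ) (A : α → ℕ → ℕ → ℝ) (a : α → ℕ → ℝ) : Prop where
  hn : PTU n
  hk : PTU k
  hL : PTR Lam
  hR : PTR R
  h1 : ∀ x, 1 ≤ R x
  hA : PTR (fun p : (α × Un) × Un => A p.1.1 p.1.2.val p.2.val)
  ha : PTR (fun p : α × Un => a p.1 p.2.val)

variable {n k : α → ℕ} {Lam R : α → ℝ} {A : α → ℕ → ℕ → ℝ} {a : α → ℕ → ℝ}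

/-- selection sums -/
theorem PTW.sel (H : PTW n k Lam R A a) {F : ℕ → ℝ → ℝ}
    (hF : ∀ {β : Type} [PTCode β] {m B : β → ℕ} {x : β → ℝ}, PTU m → PTR x → PTU B →
      (∀ b, |x b| ≤ B b) → PTR (fun b => F (m b) (x b)))
    {x : α → ℝ} (hx : PTR x) {B : α → ℕ} (hB : PTU B) (h : ∀ y, |x y| ≤ B y) :
    PTR (fun y => ∑ i ∈ Finset.range (n y), (Lam y - a y i) * F (mi (n y) (k y) i) (x y)) := by
  refine PTR.sumRange (r := fun y i => (Lam y - a y i) * F (mi (n y) (k y) i) (x y)) H.hn ?_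
  have hm : PTU (fun p : α × Un => mi (n p.1) (k p.1) p.2.val) :=
    ptu_mi (PTU.comp H.hn PTF.fst) (PTU.comp H.hk PTF.fst) ptu_snd
  exact ((H.hL.comp PTF.fst).sub H.ha).mul
    (hF (β := α × Un) (m := fun p => mi (n p.1) (k p.1) p.2.val) (B := fun p => B p.1)
      (x := fun p => x p.1) hm (hx.comp PTF.fst) (PTU.comp hB PTF.fst) (fun b => h b.1))

/-- hopping sums -/
theorem PTW.hop (H : PTW n k Lam R A a) {F F' : ℕ → ℕ → ℝ → ℝ}
    (hF : ∀ {β : Type} [PTCode β] {m m' B : β → ℕ} {x : β → ℝ}, PTU m → PTU m' → PTR x → PTU B →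
      (∀ b, |x b| ≤ B b) → PTR (fun b => F (m b) (m' b) (x b)))
    (hF' : ∀ {β : Type} [PTCode β] {m m' B : β → ℕ} {x : β → ℝ}, PTU m → PTU m' → PTR x → PTU B →
      (∀ b, |x b| ≤ B b) → PTR (fun b => F' (m b) (m' b) (x b)))
    {x x' : α → ℝ} (hx : PTR x) (hx' : PTR x') {B : α → ℕ} (hB : PTU B) (h : ∀ y, |x y| ≤ B y)
    (h' : ∀ y, |x' y| ≤ B y) :
    PTR (fun y => ∑ i ∈ Finset.range (n y), ∑ j ∈ Finset.range (n y), if i < j then
      A y i j * (F (mi (n y) (k y) i) (mi (n y) (k y) j) (x y) *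
        F' (WC.mi' (n y) (k y) i) (WC.mi' (n y) (k y) j) (x' y)) else 0) := by
  refine PTR.sum2lt (r := fun y i j => A y i j * (F (mi (n y) (k y) i) (mi (n y) (k y) j) (x y) *
        F' (WC.mi' (n y) (k y) i) (WC.mi' (n y) (k y) j) (x' y))) H.hn H.hn ?_
  have e1 : PTF (fun p : (α × Un) × Un => p.1.1) := PTF.comp PTF.fst PTF.fst
  have ui : PTU (fun p : (α × Un) × Un => p.1.2.val) := PTU.val (by fun_prop)
  have uj : PTU (fun p : (α × Un) × Un => p.2.val) := ptu_snd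
  have un : PTU (fun p : (α × Un) × Un => n p.1.1) := PTU.comp H.hn e1
  have uk : PTU (fun p : (α × Un) × Un => k p.1.1) := PTU.comp H.hk e1
  have uB : PTU (fun p : (α × Un) × Un => B p.1.1) := PTU.comp hB e1
  exact H.hA.mul ((hF (β := (α × Un) × Un) (m := fun p => mi (n p.1.1) (k p.1.1) p.1.2.val)
      (m' := fun p => mi (n p.1.1) (k p.1.1) p.2.val) (B := fun p => B p.1.1)
      (x := fun p => x p.1.1) (ptu_mi un uk ui) (ptu_mi un uk uj) (hx.comp e1) uB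
      (fun b => h b.1.1)).mul
    (hF' (β := (α × Un) × Un) (m := fun p => WC.mi' (n p.1.1) (k p.1.1) p.1.2.val)
      (m' := fun p => WC.mi' (n p.1.1) (k p.1.1) p.2.val) (B := fun p => B p.1.1)
      (x := fun p => x' p.1.1) (ptu_mi' un uk ui) (ptu_mi' un uk uj) (hx'.comp e1) uB
      (fun b => h' b.1.1)))

section
variable {x : α → Pos3} {B : α → ℕ}

theorem PTW.wpot (H : PTW n k Lam R A a) (hx : ∀ c, PTR (fun y => x y c)) (hB : PTU B)
    (h : ∀ y c, |x y c| ≤ B y) :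
    PTR (fun y => wpot (n y) (k y) (Lam y) (A y) (a y) (x y)) := by
  have h1 : PTR (fun y => -Lam y * Lag.Dsel 0 (x y 2)) :=
    H.hL.neg.mul (Lag.PTR.Dsel (m := fun _ => 0) (PTU.const 0) (hx 2) hB (fun y => h y 2))
  have h2 := H.sel (F := Lag.Dsel) (fun hm hx hB h => Lag.PTR.Dsel hm hx hB h) (hx 0) hB (fun y => h y 0)
  have h3 := H.hop (F := WC.vv) (F' := WC.vv) (fun hm hm' hx hB h => ptr_vv hm hm' hx hB h)
    (fun hm hm' hx hB h => ptr_vv hm hm' hx hB h) (hx 0) (hx 1) hB (fun y => h y 0) (fun y => h y 1)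
  exact ((h1.sub h2).add h3).of_eq (fun y => (WC.wpot_eq _ _ _ _ _ _).symm)

theorem PTW.dw (H : PTW n k Lam R A a) (hx : ∀ c, PTR (fun y => x y c)) (hB : PTU B)
    (h : ∀ y c, |x y c| ≤ B y) (c : Fin 3) :
    PTR (fun y => WC.dw (n y) (k y) (Lam y) (A y) (a y) c (x y)) := by
  fin_cases c
  · have h2 := H.sel (F := WC.dD) (fun hm hx hB h => Lag.PTR.derivDsel hm hx hB h) (hx 0) hB
      (fun y => h y 0)
    have h3 := H.hop (F := WC.dvv) (F' := WC.vv) (fun hm hm' hx hB h => ptr_dvv hm hm' hx hB h)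
      (fun hm hm' hx hB h => ptr_vv hm hm' hx hB h) (hx 0) (hx 1) hB (fun y => h y 0)
      (fun y => h y 1)
    exact (h2.neg.add h3).of_eq (fun y => rfl)
  · have h3 := H.hop (F := WC.vv) (F' := WC.dvv) (fun hm hm' hx hB h => ptr_vv hm hm' hx hB h)
      (fun hm hm' hx hB h => ptr_dvv hm hm' hx hB h) (hx 0) (hx 1) hB (fun y => h y 0)
      (fun y => h y 1)
    exact h3.of_eq (fun y => rfl)
  · have h1 : PTR (fun y => -Lam y * WC.dD 0 (x y 2)) :=
      H.hL.neg.mul (Lag.PTR.derivDsel (m := fun _ => 0) (PTU.const 0) (hx 2) hB (fun y => h y 2))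
    exact h1.of_eq (fun y => rfl)

/-- **the partial derivatives of the cut-off potential are computable** -/
theorem PTW.dwc (H : PTW n k Lam R A a) (hx : ∀ c, PTR (fun y => x y c)) (hB : PTU B)
    (h : ∀ y c, |x y c| ≤ B y) (c : Fin 3) :
    PTR (fun y => WC.dwc (n y) (k y) (Lam y) (A y) (a y) (R y) c (x y)) := by
  have hc : ∀ c, PTR (fun y => WC.chR (R y) (x y c)) := fun c => ptr_chR H.hR H.h1 (hx c)
  have hd : ∀ c, PTR (fun y => WC.dchR (R y) (x y c)) := fun c => ptr_dchR H.hR H.h1 (hx c)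
  have h1 := (H.dw hx hB h c).mul (((hc 0).mul (hc 1)).mul (hc 2))
  have h2 := H.wpot hx hB h
  fin_cases c
  · exact (h1.add (h2.mul (((hd 0).mul (hc 1)).mul (hc 2)))).of_eq (fun y => rfl)
  · exact (h1.add (h2.mul (((hc 0).mul (hd 1)).mul (hc 2)))).of_eq (fun y => rfl)
  · exact (h1.add (h2.mul (((hc 0).mul (hc 1)).mul (hd 2)))).of_eq (fun y => rfl)

end

end Crest.Agent.R338.WP
end
end

-- ▼ part R338/WP5

/-!
# Row 338, node WP (helper518), file 5: the exact displacements `DexP` are computable (`PTR`),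
and vanish outside the box `MdP`
-/

set_option autoImplicit false

open Crest.Agent.Lib.PT Crest.Agent.R338.Nu
open Crest.MathPhysics.ElectronicCoulomb

noncomputable section

namespace Crest.Agent.R338.WP

variable {α : Type} [PTCode α]

theorem one_le_kP (C : P2.Cst) (h : HInst) : 1 ≤ P2.kP C h := by
  unfold P2.kP
  rcases Nat.eq_zero_or_pos C.c with h0 | h0
  · rw [h0]; simp
  · exact Nat.one_le_pow _ _ (by positivity)

theorem one_le_BP (C : P2.Cst) (h : HInst) : 1 ≤ P2.BP C h := Nat.one_le_pow _ _ (one_le_kP C h)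

theorem one_le_RP (C : P2.Cst) (h : HInst) : 1 ≤ P2.RP C h :=
  Nat.mul_pos (Nat.one_le_pow _ _ (one_le_kP C h)) (Nat.one_le_pow _ _ (one_le_BP C h))

theorem sP_pos (C : P2.Cst) (h : HInst) : 0 < P2.sP C h := by
  unfold P2.sP
  have h1 := kap_pos
  have h2 : (0 : ℝ) < P2.BP C h := by exact_mod_cast one_le_BP C h
  positivity

theorem sP_le_two (C : P2.Cst) (h : HInst) : P2.sP C h ≤ 2 := by
  unfold P2.sP
  have h1 := kap_pos
  have h2 : (1 : ℝ) ≤ P2.BP C h := by exact_mod_cast one_le_BP C h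
  have h3 := kap_ge
  rw [div_le_iff₀ (by positivity)]
  have h4 : (1 : ℝ) ≤ (P2.BP C h : ℝ) ^ 2 := one_le_pow₀ h2
  nlinarith

theorem pt_apply (s : ℝ) (α : Fin 3 → ℤ) (c : Fin 3) : Lat.pt s α c = s * (α c : ℝ) := rfl

/-- **PTR of the exact displacements**, integer indices bounded by a unary number -/
theorem ptr_DexP (C : P2.Cst)
    (hA : ∀ {β : Type} [PTCode β] {g : β → HInst} {i j : β → ℕ}, PTF g → PTU i → PTU j →
      PTR (fun b => P2.AcP C (g b) (i b) (j b)))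
    (ha : ∀ {β : Type} [PTCode β] {g : β → HInst} {i : β → ℕ}, PTF g → PTU i →
      PTR (fun b => P2.acP C (g b) (i b)))
    {h : α → HInst} (hh : PTF h) {al : α → Fin 3 → ℤ} (hal : ∀ c, PTF (fun a => al a c))
    {B : α → ℕ} (hB : PTU B) (hb : ∀ a c, |al a c| ≤ B a) (c : Fin 3) :
    PTR (fun a => P2.DexP C (h a) (al a) c) := by
  have H : PTW (fun a => (h a).n) (fun a => P2.kP C (h a)) (fun a => (P2.LamP C (h a) : ℝ))
      (fun a => (P2.RP C (h a) : ℝ)) (fun a => P2.AcP C (h a)) (fun a => P2.acP C (h a)) :=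
    { hn := ptu_hn hh
      hk := ptu_kP C hh
      hL := PTR.natCastU (ptu_LamP C hh)
      hR := PTR.natCastU (ptu_RP C hh)
      h1 := fun a => by exact_mod_cast one_le_RP C (h a)
      hA := hA (β := (α × Un) × Un) (g := fun p => h p.1.1) (i := fun p => p.1.2.val)
        (j := fun p => p.2.val) (PTF.comp hh (PTF.comp PTF.fst PTF.fst)) (PTU.val (by fun_prop))
        ptu_snd
      ha := ha (β := α × Un) (g := fun p => h p.1) (i := fun p => p.2.val)
        (PTF.comp hh PTF.fst) ptu_snd }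
  have hx : ∀ c, PTR (fun a => (Lat.pt (P2.sP C (h a)) (al a)) c) := by
    intro c
    exact (ptr_sP C hh).mul (PTR.intCast (hal c))
  have hxb : ∀ a c, |(Lat.pt (P2.sP C (h a)) (al a)) c| ≤ ((2 * B a : ℕ) : ℝ) := by
    intro a c
    rw [pt_apply, abs_mul, abs_of_pos (sP_pos C (h a))]
    push_cast
    have h1 : |((al a c : ℤ) : ℝ)| ≤ (B a : ℝ) := by
      rw [← Int.cast_abs]
      exact_mod_cast hb a c
    exact mul_le_mul (sP_le_two C (h a)) h1 (abs_nonneg _) (by norm_num)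
  have h2 := H.dwc hx (PTU.mul (PTU.const 2) hB) hxb c
  have h3 : PTR (fun a => P2.lamP C (h a) ^ 2 / 3) := ((ptr_lamP C hh).powConst 2).divOfNat 3
  exact (h3.mul h2).of_eq (fun a => (WC.DexP_eq C (h a) (al a) c).symm)



end Crest.Agent.R338.WP
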